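import Vale.Agent.P006.VArch
import Vale.Agent.P026.IBd

noncomputable section
namespace QRH.R
open Complex MeasureTheory Filter
open scoped ComplexConjugate Classical ContDiff Topology

variable {R : ℝ}

/-- The parameters. -/
structure ib_Par (R : ℝ) (N : ℕ) where
  w : ℂ → ℂ
  W : ℝ
  c : ℂ
  adm : Adm R w
  db : DB N w W
  hc : c ≠ 0

theorem ib_Par.W_nonneg {N : ℕ} (t : ib_Par R N) : 0 ≤ t.W :=
  (norm_nonneg _).trans (t.db 0 (Nat.zero_le _) 0)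

theorem ib_ft_zero {w : ℂ → ℂ} (h : Adm R w) : ft w 0 = 0 := h.zero

theorem ib_ft_unif (R : ℝ) (A n : ℕ) : ∃ C : ℝ, 0 < C ∧ ∀ i ≤ n, ∀ (w : ℂ → ℂ) (W : ℝ),
    ContDiff ℝ ∞ w → (∀ z, w z ≠ 0 → ‖z‖ ≤ R) → DB A w W →
    ∀ η, ‖iteratedFDeriv ℝ i (ft w) η‖ ≤ C * W * ib_dk A ‖η‖ :=
  ib_unif n (fun _ _ _ h h' w W h1 h2 h3 η => (h' w W h1 h2 h3 η).trans
    (mul_le_mul_of_nonneg_right (mul_le_mul_of_nonneg_right h
      ((norm_nonneg _).trans (h3 0 (Nat.zero_le _) 0))) (ib_dk_pos _ (norm_nonneg _)).le))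
    (ft_deriv_le R A)

theorem ib_ftw (R : ℝ) (n N : ℕ) : ib_BO n (fun (_ : ib_Par R N) y => ‖y‖ ≤ 1)
    (fun t y => ft t.w (-(t.c * y)))
    (fun t y => t.W * ‖t.c‖ * (1 + ‖t.c‖) ^ n * ib_dk N (‖t.c‖ * ‖y‖)) := by
  obtain ⟨C, hC, h⟩ := ib_ft_unif R N (n + 1)
  have hs : ∀ t : ib_Par R N, ∀ z, t.w z ≠ 0 → ‖z‖ ≤ R := fun t z hz => (t.adm.supp z hz).2
  have hd : ∀ t : ib_Par R N, ContDiff ℝ ∞ (ft t.w) := fun t => contDiff_ft t.adm.smooth (hs t)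
  refine ⟨fun t => (hd t).comp (contDiff_const.mul contDiff_id).neg, C * 2 ^ N, by positivity,
    fun t y hy j hj => ?_⟩
  have hW := t.W_nonneg
  have hc := norm_nonneg t.c
  have hη : ‖-(t.c * y)‖ = ‖t.c‖ * ‖y‖ := by rw [norm_neg, norm_mul]
  have hk := ib_dk_pos N (mul_nonneg hc (norm_nonneg y))
  have h1 : 1 ≤ (1 + ‖t.c‖) ^ n := one_le_pow₀ (by linarith)
  have h2 : (1 : ℝ) ≤ 2 ^ N := one_le_pow₀ one_le_two
  have hb := fun i hi => h i hi t.w t.W t.adm.smooth (hs t) t.db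
  rcases j with _ | j
  · rw [norm_iteratedFDeriv_zero]
    have h3 : ‖t.c‖ * ‖y‖ ≤ ‖t.c‖ * (1 + ‖t.c‖) ^ n := mul_le_mul_of_nonneg_left (hy.trans h1) hc
    have h4 : ‖ft t.w (-(t.c * y))‖ ≤
        C * t.W * (‖t.c‖ * ‖y‖) * (2 ^ N * ib_dk N (‖t.c‖ * ‖y‖)) := by
      rcases le_total (‖t.c‖ * ‖y‖) 1 with g | g
      · have m := Convex.norm_image_sub_le_of_norm_fderiv_le (𝕜 := ℝ) (f := ft t.w) (s := Set.univ)
          (C := C * t.W) (fun x _ => ((hd t).differentiable (by simp)).differentiableAt)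
          (fun x _ => by
            have := hb 1 (by omega) x
            rw [norm_iteratedFDeriv_one] at this
            refine this.trans (mul_le_of_le_one_right (by positivity) ?_)
            have := ib_dk_le N (x := 0) (y := ‖x‖) (k := 1) le_rfl (norm_nonneg x)
              (by linarith [norm_nonneg x])
            simpa [ib_dk] using this)
          convex_univ (Set.mem_univ 0) (Set.mem_univ (-(t.c * y)))
        rw [ib_ft_zero t.adm, sub_zero, sub_zero, hη] at m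
        refine m.trans (le_mul_of_one_le_right (by positivity) ?_)
        have := ib_dk_le N (x := ‖t.c‖ * ‖y‖) (y := 0) (k := 2) (by positivity) le_rfl (by linarith)
        simpa [ib_dk] using this
      · have := hb 0 (by omega) (-(t.c * y))
        rw [norm_iteratedFDeriv_zero, hη] at this
        exact this.trans (mul_le_mul (le_mul_of_one_le_right (by positivity) g)
          (le_mul_of_one_le_left hk.le h2) hk.le (by positivity))
    calc _ ≤ C * t.W * (‖t.c‖ * (1 + ‖t.c‖) ^ n) * (2 ^ N * ib_dk N (‖t.c‖ * ‖y‖)) :=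
          h4.trans (by gcongr)
      _ = _ := by ring
  · let L : ℂ →L[ℝ] ℂ := -ContinuousLinearMap.mul ℝ ℂ t.c
    have hL : ‖L‖ ≤ ‖t.c‖ := by
      rw [norm_neg]
      exact ContinuousLinearMap.opNorm_mul_apply_le _ _ _
    have e := L.iteratedFDeriv_comp_right (hd t) y (ib_le (j + 1))
    change ‖iteratedFDeriv ℝ (j + 1) (ft t.w ∘ L) y‖ ≤ _
    rw [e]
    refine (ContinuousMultilinearMap.norm_compContinuousLinearMap_le _ _).trans ?_
    rw [Finset.prod_const, Finset.card_univ, Fintype.card_fin]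
    have h3 := hb (j + 1) (by omega) (-(t.c * y))
    rw [hη] at h3
    have h4 : ‖L‖ ^ (j + 1) ≤ (1 + ‖t.c‖) ^ n * ‖t.c‖ := by
      rw [pow_succ]
      exact mul_le_mul ((pow_le_pow_left₀ (norm_nonneg _) (by linarith) j).trans
        (pow_le_pow_right₀ (by linarith) (by omega))) hL (norm_nonneg _) (by positivity)
    calc _ ≤ C * t.W * ib_dk N (‖t.c‖ * ‖y‖) * ((1 + ‖t.c‖) ^ n * ‖t.c‖) :=
          mul_le_mul h3 h4 (by positivity) (by positivity)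
      _ = 1 * (C * (t.W * ‖t.c‖ * (1 + ‖t.c‖) ^ n * ib_dk N (‖t.c‖ * ‖y‖))) := by ring
      _ ≤ 2 ^ N * (C * (t.W * ‖t.c‖ * (1 + ‖t.c‖) ^ n * ib_dk N (‖t.c‖ * ‖y‖))) := by gcongr
      _ = _ := by ring

theorem ib_h1 (R : ℝ) (n B : ℕ) : ib_BO n (ib_S (T := ib_Par R (B + n)))
    (fun t p => ft t.w (-(t.c * ib_io p.1))) (fun t _ => t.W * ‖t.c‖ * ib_dk B ‖t.c‖) := by
  have h := (ib_ftw R n (B + n)).comp (ib_fst n ib_io_smooth) (fun _ _ hp => (ib_io_norm hp).2)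
    fun _ _ _ => le_rfl
  refine h.mono (D := 2 ^ (B + n)) (by positivity) fun t p hp => ?_
  have hW := t.W_nonneg
  have hc := norm_nonneg t.c
  have := ib_dk_le (B + n) (x := ‖t.c‖) (y := ‖t.c‖ * ‖ib_io p.1‖) (k := 2) hc
    (by positivity) (by nlinarith [(ib_io_norm hp).1])
  rw [← ib_dk_add B n hc]
  calc _ = t.W * ‖t.c‖ * (1 + ‖t.c‖) ^ n * ib_dk (B + n) (‖t.c‖ * ‖ib_io p.1‖) := by simp
    _ ≤ t.W * ‖t.c‖ * (1 + ‖t.c‖) ^ n * (2 ^ (B + n) * ib_dk (B + n) ‖t.c‖) := by gcongr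
    _ = _ := by ring

theorem ib_main (R : ℝ) (n B : ℕ) : ib_BO n (ib_S (T := ib_Par R (B + n))) (fun t => Fint t.w t.c)
    (fun t p => t.W * ‖t.c‖ * ib_dk B ‖t.c‖ * (1 + ‖t.c‖⁻¹) ^ n * ib_dk 3 ‖p.2‖) := by
  have h := (((ib_fst n (ib_r_smooth.mul contDiff_a0)).mul (ib_h1 R n B)).mul
    (ib_h2 n (3 + 3 * n))).mul (ib_h3 n fun t => t.c)
  simp only [ib_Fint]
  refine h.mono one_pos fun t p _ => le_of_eq ?_
  rw [← ib_dk_add 3 (3 * n) (norm_nonneg p.2), mul_pow, ← pow_mul]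
  ring

theorem ib_Ia (R : ℝ) (n B : ℕ) : ∃ C : ℝ, 0 < C ∧ ∀ (t : ib_Par R (B + n)) (z ζ : ℂ),
    ‖Ia t.w t.c z ζ‖ ≤ C * (t.W * ‖t.c‖ * ib_dk B ‖t.c‖) *
      ((1 + ‖t.c‖⁻¹) ^ n * ib_dk n (‖z‖ / ‖t.c‖ + ‖ζ‖ / ‖t.c‖)) := by
  obtain ⟨hsm, C, hC, h⟩ := ib_main R n B
  obtain ⟨D, hD, h'⟩ := ft2_decay n
  have hi : Integrable fun p : ℂ × ℂ => ib_dk 3 ‖p.1‖ * ib_dk 3 ‖p.2‖ :=
    (integrable_decay (σ := (3 : ℕ)) (by norm_num)).mul_prod
      (integrable_decay (σ := (3 : ℕ)) (by norm_num))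
  set J := ∫ p : ℂ × ℂ, ib_dk 3 ‖p.1‖ * ib_dk 3 ‖p.2‖ with hJ
  have hJ0 : 0 ≤ J := integral_nonneg fun p =>
    (mul_pos (ib_dk_pos _ (norm_nonneg _)) (ib_dk_pos _ (norm_nonneg _))).le
  refine ⟨D * (C * 27 * (J + 1)), by positivity, fun t z ζ => ?_⟩
  have hW := t.W_nonneg
  have hk := ib_dk_pos B (norm_nonneg t.c)
  set M := t.W * ‖t.c‖ * ib_dk B ‖t.c‖ * (1 + ‖t.c‖⁻¹) ^ n with hM
  have hM0 : 0 ≤ M := by positivity
  have hb : ∀ j ≤ n, ∀ p, ‖iteratedFDeriv ℝ j (Fint t.w t.c) p‖ ≤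
      C * 27 * M * (ib_dk 3 ‖p.1‖ * ib_dk 3 ‖p.2‖) := fun j hj p => by
    have k1 := ib_dk_pos 3 (norm_nonneg p.1)
    have k2 := ib_dk_pos 3 (norm_nonneg p.2)
    by_cases hp : ib_S t p
    · have := ib_dk_le 3 (x := ‖p.1‖) (y := 0) (k := 3) (norm_nonneg _) le_rfl (by linarith [hp.2])
      have e : ib_dk 3 0 = 1 := by simp [ib_dk]
      rw [e] at this
      calc _ ≤ C * (M * ib_dk 3 ‖p.2‖) * 1 := by simpa using h t p hp j hj
        _ ≤ C * (M * ib_dk 3 ‖p.2‖) * (3 ^ 3 * ib_dk 3 ‖p.1‖) := by gcongr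
        _ = _ := by ring
    · have hc : IsClosed {q : ℂ × ℂ | ib_S t q} :=
        (isClosed_le continuous_const continuous_fst.norm).inter
          (isClosed_le continuous_fst.norm continuous_const)
      have he : Fint t.w t.c =ᶠ[𝓝 p] fun _ => 0 := by
        filter_upwards [hc.isOpen_compl.mem_nhds hp] with q hq
        have : a0 q.1 = 0 := by
          by_contra h0
          exact hq ⟨(a0_supp h0).1.le, (a0_supp h0).2.le⟩
        simp [Fint, this]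
      rw [(he.iteratedFDeriv ℝ j).eq_of_nhds, iteratedFDeriv_fun_zero, Pi.zero_apply, norm_zero]
      positivity
  have hint : ∀ j ≤ n, Integrable fun p => ‖iteratedFDeriv ℝ j (Fint t.w t.c) p‖ := fun j hj =>
    (hi.const_mul _).mono' ((hsm t).continuous_iteratedFDeriv (ib_le j)).norm.aestronglyMeasurable
      (Eventually.of_forall fun p => by simpa using hb j hj p)
  have := h' (Fint t.w t.c) (C * 27 * M * (J + 1)) (hsm t) hint (fun j hj => by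
    refine (integral_mono (hint j hj) (hi.const_mul _) (hb j hj)).trans ?_
    rw [integral_const_mul]
    gcongr
    linarith) (-(z / t.c)) (ζ / t.c)
  refine this.trans (le_of_eq ?_)
  rw [norm_neg, norm_div, norm_div, add_assoc, hM]
  unfold ib_dk
  ring

theorem iBd : IBd := by
  intro R A
  obtain ⟨C, hC, h⟩ := ib_Ia R (2 * A) (A + 2 * A)
  obtain ⟨D, hD, h'⟩ := ib_Ia R 0 A
  refine ⟨A + 2 * A + 2 * A, (C + D) * 4 ^ A, by positivity, fun w W hw hW c z ζ hc => ?_⟩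
  have hW0 : 0 ≤ W := (norm_nonneg _).trans (hW 0 (Nat.zero_le _) 0)
  have hc0 : 0 < ‖c‖ := norm_pos_iff.2 hc
  have hz := norm_nonneg z
  have hζ := norm_nonneg ζ
  have k1 := ib_dk_pos A hc0.le
  have k2 := ib_dk_pos A hz
  have k3 := ib_dk_pos A hζ
  change _ ≤ _ * W * ‖c‖ * ib_dk A ‖c‖ * ib_dk A ‖z‖ * ib_dk A ‖ζ‖
  rcases le_total (‖z‖ + ‖ζ‖) 1 with g | g
  · have a := h' ⟨w, W, c, hw, fun i hi => hW i (by omega), hc⟩ z ζ
    have e : ib_dk A 0 = 1 := by simp [ib_dk]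
    have b1 := ib_dk_le A (x := ‖z‖) (y := 0) (k := 2) hz le_rfl (by linarith)
    have b2 := ib_dk_le A (x := ‖ζ‖) (y := 0) (k := 2) hζ le_rfl (by linarith)
    rw [e] at b1 b2
    calc _ ≤ D * (W * ‖c‖ * ib_dk A ‖c‖) * (1 * 1) := by simpa [ib_dk] using a
      _ ≤ (C + D) * (W * ‖c‖ * ib_dk A ‖c‖) * (2 ^ A * ib_dk A ‖z‖ * (2 ^ A * ib_dk A ‖ζ‖)) := by
          gcongr
          linarith
      _ = _ := by rw [show (4 : ℝ) = 2 * 2 by norm_num, mul_pow]; ring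
  · have a := h ⟨w, W, c, hw, hW, hc⟩ z ζ
    have b : (1 + ‖c‖⁻¹) ^ (2 * A) * ib_dk (2 * A) (‖z‖ / ‖c‖ + ‖ζ‖ / ‖c‖) ≤
        (1 + ‖c‖) ^ (2 * A) * (4 ^ A * ib_dk A ‖z‖ * ib_dk A ‖ζ‖) := by
      rw [ib_dk_eq _ (by positivity), ib_dk_eq _ hz, ib_dk_eq _ hζ, pow_mul, pow_mul, pow_mul,
        ← inv_pow _ A, ← inv_pow _ A, ← inv_pow _ A, ← mul_pow _ _ A, ← mul_pow _ _ A,
        ← mul_pow _ _ A, ← mul_pow _ _ A]
      refine pow_le_pow_left₀ (by positivity) ?_ A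
      have e : (1 + ‖c‖⁻¹) ^ 2 * ((1 + (‖z‖ / ‖c‖ + ‖ζ‖ / ‖c‖)) ^ 2)⁻¹ =
          (1 + ‖c‖) ^ 2 * ((‖c‖ + (‖z‖ + ‖ζ‖)) ^ 2)⁻¹ := by
        field_simp
        ring
      rw [e, mul_assoc 4, ← mul_inv, ← div_eq_mul_inv 4, inv_eq_one_div]
      refine mul_le_mul_of_nonneg_left ?_ (by positivity)
      rw [div_le_div_iff₀ (by positivity) (by positivity)]
      nlinarith [mul_nonneg hz hζ, mul_nonneg hc0.le (add_nonneg hz hζ), sq_nonneg ‖c‖,
        mul_nonneg (sub_nonneg.2 g) hz, mul_nonneg (sub_nonneg.2 g) hζ]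
    have k4 := ib_dk_pos (A + 2 * A) hc0.le
    calc _ ≤ (C + D) * (W * ‖c‖ * ib_dk (A + 2 * A) ‖c‖) *
          ((1 + ‖c‖) ^ (2 * A) * (4 ^ A * ib_dk A ‖z‖ * ib_dk A ‖ζ‖)) := by
          refine a.trans (mul_le_mul ?_ b ?_ (by positivity))
          · gcongr
            linarith
          · exact mul_nonneg (by positivity) (ib_dk_pos _ (by positivity)).le
      _ = _ := by rw [← ib_dk_add A (2 * A) hc0.le]; ring

end QRH.R
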