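import Vale.Agent.P006.IfA
import Vale.Agent.P006.VIBd

noncomputable section
namespace Pat
open QRH Complex MeasureTheory Filter
open scoped ComplexConjugate Classical ContDiff Topology

theorem archT_adm {w : ℂ → ℂ} (h : Rad w) : R.Adm 2 w :=
  ⟨one_le_two, h.smooth, h.supp, h.zero, h.rot⟩

theorem archT_eq (θ : ℝ) (w : ℂ → ℂ) (c : ℂ) : FintT θ w c = fun p => ib_r p.1 * a0 p.1 *
    ft w (-(c * ib_io p.1)) * ft b0 (p.2 * ib_io p.1) *
      psi (p.2 * p.2 * p.2 * ib_io p.1 * (θ * (27 * c)⁻¹)) := by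
  funext p
  by_cases h : a0 p.1 = 0
  · simp [FintT, h]
  have h1 := (a0_supp h).1.le
  rw [FintT, ib_r_eq h1, ib_io_eq h1, div_eq_mul_inv c, div_eq_mul_inv p.2]
  congr 2
  rw [div_eq_mul_inv, mul_inv, mul_inv, mul_inv]
  ring

theorem archT_norm (θ : ℝ) (w : ℂ → ℂ) (c : ℂ) (z : ℂ × ℂ) : ‖FintT θ w c z‖ = ‖Fint w c z‖ := by
  rw [FintT, Fint, norm_mul, norm_psi, norm_mul _ (psi _), norm_psi]

theorem archT_smooth (θ : ℝ) {w : ℂ → ℂ} (c : ℂ) (h : Rad w) : ContDiff ℝ ∞ (FintT θ w c) := by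
  have h1 : ContDiff ℝ ∞ fun p : ℂ × ℂ => ib_io p.1 := ib_io_smooth.comp contDiff_fst
  rw [archT_eq]
  refine ((((ib_r_smooth.comp contDiff_fst).mul (contDiff_a0.comp contDiff_fst)).mul
    ((contDiff_ft h.smooth fun z hz => (h.supp z hz).2).comp (contDiff_const.mul h1).neg)).mul
    ((contDiff_ft contDiff_b0 ar_b0_supp).comp (contDiff_snd.mul h1))).mul
    (contDiff_psi.comp ?_)
  exact (((contDiff_snd.mul contDiff_snd).mul contDiff_snd).mul h1).mul contDiff_const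

theorem archT_bound {w : ℂ → ℂ} (h : Rad w) : ∃ M : ℝ, 0 < M ∧ ∀ θ (c : ℂ) (z : ℂ × ℂ),
    ‖FintT θ w c z‖ ≤ M * (1 + ‖z.1‖) ^ (-3 : ℝ) * (1 + ‖z.2‖) ^ (-3 : ℝ) := by
  obtain ⟨M, hM, h1⟩ := R.norm_Fint_le (archT_adm h)
  exact ⟨M, hM, fun θ c z => (archT_norm θ w c z).trans_le (h1 c z)⟩

theorem archT_cont_c (θ : ℝ) {w : ℂ → ℂ} (h : Rad w) (x : ℂ × ℂ) :
    ContinuousOn (fun c : ℂ => FintT θ w c x) {c | c ≠ 0} := by
  have h3 : Continuous fun c : ℂ => ft w (-(c / x.1)) :=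
    (contDiff_ft h.smooth fun z hz => (h.supp z hz).2).continuous.comp (by fun_prop)
  have h5 : ContinuousOn (fun c : ℂ => psi (θ * x.2 ^ 3 / (27 * x.1 * c))) {c | c ≠ 0} := by
    refine continuous_psi.comp_continuousOn ?_
    simp only [← div_div]
    exact continuousOn_const.div continuousOn_id fun c hc => hc
  exact ((continuousOn_const.mul h3.continuousOn).mul continuousOn_const).mul h5

theorem archT : ArchT := by
  refine ⟨fun θ w c h => archT_smooth θ c h, fun w h => archT_bound h, fun θ w h => ?_,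
    fun w c z ζ h => ?_⟩
  · obtain ⟨M, -, hM⟩ := archT_bound h
    unfold IaT ft2
    refine continuousOn_const.mul ?_
    refine continuousOn_of_dominated
      (bound := fun z : ℂ × ℂ => M * (1 + ‖z.1‖) ^ (-3 : ℝ) * (1 + ‖z.2‖) ^ (-3 : ℝ))
      (fun y _ => ?_) (fun y _ => Eventually.of_forall fun x => ?_)
      (ar_int_prod (integrable_decay (by norm_num)) (integrable_decay (by norm_num)) M)
      (Eventually.of_forall fun x => ?_)
    · exact ((archT_smooth θ _ h).continuous.mul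
        (continuous_psi.comp (by fun_prop))).aestronglyMeasurable
    · rw [norm_mul, norm_psi, mul_one]
      exact hM _ _ _
    · refine ContinuousOn.mul ((archT_cont_c θ h x).comp continuousOn_fst fun y hy => hy)
        (continuous_psi.comp_continuousOn ?_)
      have h1 : ContinuousOn (fun y : ℂ × ℂ × ℂ => y.2.1 / y.1) {y | y.1 ≠ 0} :=
        ContinuousOn.div (by fun_prop) (by fun_prop) fun y hy => hy
      have h2 : ContinuousOn (fun y : ℂ × ℂ × ℂ => y.2.2 / y.1) {y | y.1 ≠ 0} :=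
        ContinuousOn.div (by fun_prop) (by fun_prop) fun y hy => hy
      exact ((continuousOn_const.mul h1.neg).add (continuousOn_const.mul h2)).neg
  · obtain ⟨M, -, hM⟩ := archT_bound h
    unfold IaT ft2
    refine continuous_const.mul ?_
    refine continuous_of_dominated
      (bound := fun z : ℂ × ℂ => M * (1 + ‖z.1‖) ^ (-3 : ℝ) * (1 + ‖z.2‖) ^ (-3 : ℝ))
      (fun θ => ?_) (fun θ => Eventually.of_forall fun x => ?_)
      (ar_int_prod (integrable_decay (by norm_num)) (integrable_decay (by norm_num)) M)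
      (Eventually.of_forall fun x => ?_)
    · exact ((archT_smooth θ _ h).continuous.mul
        (continuous_psi.comp (by fun_prop))).aestronglyMeasurable
    · rw [norm_mul, norm_psi, mul_one]
      exact hM _ _ _
    · unfold FintT
      exact (continuous_const.mul (continuous_psi.comp (by fun_prop))).mul continuous_const

theorem archT_reindex {T T' X : Type} [NormedAddCommGroup X] [NormedSpace ℝ X] {n : ℕ}
    {S : T → X → Prop} {F : T → X → ℂ} {K : T → X → ℝ} (h : ib_BO n S F K) (φ : T' → T) :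
    ib_BO n (fun t => S (φ t)) (fun t => F (φ t)) fun t => K (φ t) := by
  obtain ⟨h1, C, hC, h2⟩ := h
  exact ⟨fun t => h1 _, C, hC, fun t => h2 _⟩

theorem archT_h3 {T : Type} (n : ℕ) (c : T → ℂ) (θ : T → ℝ) (hθ : ∀ t, |θ t| ≤ 1) :
    ib_BO n (ib_S (T := T))
      (fun t p => psi (p.2 * p.2 * p.2 * ib_io p.1 * (θ t * (27 * c t)⁻¹)))
      (fun t p => ((1 + ‖p.2‖) ^ 3 * (1 + ‖c t‖⁻¹)) ^ n) := by
  have hs := ib_snd (T := T) n
  have h1 := (((hs.mul hs).mul hs).mul (ib_fst n ib_io_smooth)).mul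
    (ib_const fun t => (θ t : ℂ) * (27 * c t)⁻¹)
  have h2 := h1.mono (L := fun t p => (1 + ‖p.2‖) ^ 3 * (1 + ‖c t‖⁻¹)) one_pos fun t p _ => by
    have h : ‖(θ t : ℂ) * (27 * c t)⁻¹‖ ≤ 1 + ‖c t‖⁻¹ := by
      rw [norm_mul, Complex.norm_real, Real.norm_eq_abs]
      refine (mul_le_of_le_one_left (norm_nonneg _) (hθ t)).trans ?_
      rw [norm_inv, norm_mul, mul_inv, Complex.norm_ofNat]
      linarith [inv_nonneg.2 (norm_nonneg (c t))]
    calc _ = (1 + ‖p.2‖) ^ 3 * ‖(θ t : ℂ) * (27 * c t)⁻¹‖ := by ring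
      _ ≤ (1 + ‖p.2‖) ^ 3 * (1 + ‖c t‖⁻¹) := by gcongr
      _ = _ := (one_mul _).symm
  exact (ib_psi.comp h2 (fun _ _ _ => trivial) fun t p _ =>
    one_le_mul_of_one_le_of_one_le (one_le_pow₀ (by linarith [norm_nonneg p.2]))
      (by linarith [inv_nonneg.2 (norm_nonneg (c t))])).mono one_pos fun _ _ _ => le_rfl

theorem archT_main (n B : ℕ) :
    ib_BO n (ib_S (T := R.ib_Par 2 (B + n) × {θ : ℝ // |θ| ≤ 1}))
      (fun t => FintT t.2.1 t.1.w t.1.c)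
      (fun t p => t.1.W * ‖t.1.c‖ * ib_dk B ‖t.1.c‖ * (1 + ‖t.1.c‖⁻¹) ^ n * ib_dk 4 ‖p.2‖) := by
  have h0 : ib_BO n (ib_S (T := R.ib_Par 2 (B + n) × {θ : ℝ // |θ| ≤ 1}))
      (fun t p => ft t.1.w (-(t.1.c * ib_io p.1)))
      (fun t _ => t.1.W * ‖t.1.c‖ * ib_dk B ‖t.1.c‖) := archT_reindex (R.ib_h1 2 n B) Prod.fst
  have h := (((ib_fst n (ib_r_smooth.mul contDiff_a0)).mul h0).mul
    (ib_h2 n (4 + 3 * n))).mul (archT_h3 n (fun t => t.1.c) (fun t => t.2.1) fun t => t.2.2)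
  simp only [archT_eq]
  refine h.mono one_pos fun t p _ => le_of_eq ?_
  rw [← ib_dk_add 4 (3 * n) (norm_nonneg p.2), mul_pow, ← pow_mul]
  ring

/-- The two variable transform as a function on the product. -/
def archT_FI (F : ℂ × ℂ → ℂ) : ℂ × ℂ → ℂ :=
  VectorFourier.fourierIntegral Real.fourierChar volume fd_L2.toLinearMap₁₂ F

theorem archT_Ia (n B k : ℕ) (hk : k ≤ 1) : ∃ C : ℝ, 0 < C ∧
    ∀ t : R.ib_Par 2 (B + n) × {θ : ℝ // |θ| ≤ 1},
      ContDiff ℝ 1 (archT_FI (FintT t.2.1 t.1.w t.1.c)) ∧ ∀ z ζ : ℂ,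
      ‖iteratedFDeriv ℝ k (archT_FI (FintT t.2.1 t.1.w t.1.c)) (-(z / t.1.c), ζ / t.1.c)‖
        ≤ C * (t.1.W * ‖t.1.c‖ * ib_dk B ‖t.1.c‖) *
          ((1 + ‖t.1.c‖⁻¹) ^ n * ib_dk n (‖z‖ / ‖t.1.c‖ + ‖ζ‖ / ‖t.1.c‖)) := by
  obtain ⟨hsm, C, hC, h⟩ := archT_main n B
  obtain ⟨D, hD, h'⟩ := fd_gen ((volume : Measure ℂ).prod (volume : Measure ℂ)) fd_L2 k n
  rw [← Measure.volume_eq_prod] at h'
  have hi : Integrable fun p : ℂ × ℂ => ib_dk 3 ‖p.1‖ * ib_dk 3 ‖p.2‖ :=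
    (integrable_decay (σ := (3 : ℕ)) (by norm_num)).mul_prod
      (integrable_decay (σ := (3 : ℕ)) (by norm_num))
  obtain ⟨J, hJ⟩ : ∃ J, J = ∫ p : ℂ × ℂ, ib_dk 3 ‖p.1‖ * ib_dk 3 ‖p.2‖ := ⟨_, rfl⟩
  have hJ0 : 0 ≤ J := hJ ▸ integral_nonneg fun p =>
    (mul_pos (ib_dk_pos _ (norm_nonneg _)) (ib_dk_pos _ (norm_nonneg _))).le
  refine ⟨D * (C * 54 * (J + 1)), by positivity, fun t => ?_⟩
  have hW := t.1.W_nonneg
  have hk0 := ib_dk_pos B (norm_nonneg t.1.c)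
  obtain ⟨M, hM⟩ : ∃ M, M = t.1.W * ‖t.1.c‖ * ib_dk B ‖t.1.c‖ * (1 + ‖t.1.c‖⁻¹) ^ n := ⟨_, rfl⟩
  have hM0 : 0 ≤ M := by rw [hM]; positivity
  have hb : ∀ i ≤ 1, ∀ j ≤ n, ∀ p, ‖p‖ ^ i * ‖iteratedFDeriv ℝ j (FintT t.2.1 t.1.w t.1.c) p‖ ≤
      C * 54 * M * (ib_dk 3 ‖p.1‖ * ib_dk 3 ‖p.2‖) := fun i hi j hj p => by
    have k1 := ib_dk_pos 3 (norm_nonneg p.1)
    have k2 := ib_dk_pos 3 (norm_nonneg p.2)
    have k3 := ib_dk_pos 4 (norm_nonneg p.2)
    have k4 := norm_nonneg p.2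
    by_cases hp : ib_S t p
    · have b1 := ib_dk_le 3 (x := ‖p.1‖) (y := 0) (k := 3) (norm_nonneg _) le_rfl
        (by linarith [hp.2])
      have e : ib_dk 3 0 = 1 := by simp [ib_dk]
      rw [e] at b1
      have b2 : ‖p‖ ^ i ≤ 2 * (1 + ‖p.2‖) ^ 1 := by
        have b3 : ‖p‖ ≤ 2 * (1 + ‖p.2‖) := by
          rw [Prod.norm_def]
          exact max_le (by linarith [hp.2]) (by linarith)
        rw [pow_one]
        interval_cases i
        · rw [pow_zero]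
          linarith
        · rwa [pow_one]
      have b4 := h t p hp j hj
      beta_reduce at b4
      rw [← hM] at b4
      calc _ ≤ 2 * (1 + ‖p.2‖) ^ 1 * (C * (M * ib_dk (3 + 1) ‖p.2‖)) * 1 := by
            rw [mul_one]
            exact mul_le_mul b2 b4 (norm_nonneg _) (by positivity)
        _ ≤ 2 * (1 + ‖p.2‖) ^ 1 * (C * (M * ib_dk (3 + 1) ‖p.2‖)) * (3 ^ 3 * ib_dk 3 ‖p.1‖) := by
            gcongr
        _ = _ := by rw [← ib_dk_add 3 1 k4]; ring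
    · have hc : IsClosed {q : ℂ × ℂ | ib_S t q} :=
        (isClosed_le continuous_const continuous_fst.norm).inter
          (isClosed_le continuous_fst.norm continuous_const)
      have he : FintT t.2.1 t.1.w t.1.c =ᶠ[𝓝 p] fun _ => 0 := by
        filter_upwards [hc.isOpen_compl.mem_nhds hp] with q hq
        have : a0 q.1 = 0 := by
          by_contra h0
          exact hq ⟨(a0_supp h0).1.le, (a0_supp h0).2.le⟩
        simp [FintT, this]
      rw [(he.iteratedFDeriv ℝ j).eq_of_nhds, iteratedFDeriv_fun_zero, Pi.zero_apply, norm_zero,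
        mul_zero]
      positivity
  have hint : ∀ i ≤ 1, ∀ j ≤ n, Integrable fun p =>
      ‖p‖ ^ i * ‖iteratedFDeriv ℝ j (FintT t.2.1 t.1.w t.1.c) p‖ := fun i hi1 j hj =>
    (hi.const_mul _).mono' ((continuous_norm.pow i).mul
      ((hsm t).continuous_iteratedFDeriv (ib_le j)).norm).aestronglyMeasurable
      (Eventually.of_forall fun p => by
        rw [Real.norm_of_nonneg (by positivity)]
        exact hb i hi1 j hj p)
  refine ⟨VectorFourier.contDiff_fourierIntegral (N := 1) fd_L2 fun i hi1 => ?_, fun z ζ => ?_⟩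
  · simpa only [norm_iteratedFDeriv_zero] using hint i (by exact_mod_cast hi1) 0 (Nat.zero_le _)
  obtain ⟨v, hv, hL⟩ := fd_dir (-(z / t.1.c))
  obtain ⟨v', hv', hL'⟩ := fd_dir (ζ / t.1.c)
  have := h' (FintT t.2.1 t.1.w t.1.c) (C * 54 * M * (J + 1)) (hsm t)
    (fun i hi1 j hj => hint i (hi1.trans hk) j hj) (fun i hi1 j hj => by
      refine (integral_mono (hint i (hi1.trans hk) j hj) (hi.const_mul _)
        (hb i (hi1.trans hk) j hj)).trans ?_
      rw [integral_const_mul, ← hJ]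
      gcongr
      linarith) (-(z / t.1.c), ζ / t.1.c) (v, v') (‖-(z / t.1.c)‖ + ‖ζ / t.1.c‖) (by positivity)
    (max_le hv hv') (add_le_add hL hL')
  refine this.trans (le_of_eq ?_)
  rw [norm_neg, norm_div, norm_div, hM]
  unfold ib_dk
  ring

theorem archT_num {A : ℕ} {X C D W c z ζ : ℝ} (hC : 0 < C) (hD : 0 < D) (hW0 : 0 ≤ W) (hc0 : 0 < c)
    (hz : 0 ≤ z) (hζ : 0 ≤ ζ)
    (a : X ≤ C * (W * c * ib_dk (A + 2 * A) c) *
      ((1 + c⁻¹) ^ (2 * A) * ib_dk (2 * A) (z / c + ζ / c)))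
    (a' : X ≤ D * (W * c * ib_dk A c) * ((1 + c⁻¹) ^ 0 * ib_dk 0 (z / c + ζ / c))) :
    X ≤ (C + D) * 4 ^ A * W * c * ib_dk A c * ib_dk A z * ib_dk A ζ := by
  have k1 := ib_dk_pos A hc0.le
  have k2 := ib_dk_pos A hz
  have k3 := ib_dk_pos A hζ
  rcases le_total (z + ζ) 1 with g | g
  · have e : ib_dk A 0 = 1 := by simp [ib_dk]
    have b1 := ib_dk_le A (x := z) (y := 0) (k := 2) hz le_rfl (by linarith)
    have b2 := ib_dk_le A (x := ζ) (y := 0) (k := 2) hζ le_rfl (by linarith)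
    rw [e] at b1 b2
    calc _ ≤ D * (W * c * ib_dk A c) * (1 * 1) := by simpa [ib_dk] using a'
      _ ≤ (C + D) * (W * c * ib_dk A c) * (2 ^ A * ib_dk A z * (2 ^ A * ib_dk A ζ)) := by
          gcongr
          linarith
      _ = _ := by rw [show (4 : ℝ) = 2 * 2 by norm_num, mul_pow]; ring
  · have b : (1 + c⁻¹) ^ (2 * A) * ib_dk (2 * A) (z / c + ζ / c) ≤
        (1 + c) ^ (2 * A) * (4 ^ A * ib_dk A z * ib_dk A ζ) := by
      rw [ib_dk_eq _ (by positivity), ib_dk_eq _ hz, ib_dk_eq _ hζ, pow_mul, pow_mul, pow_mul,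
        ← inv_pow _ A, ← inv_pow _ A, ← inv_pow _ A, ← mul_pow _ _ A, ← mul_pow _ _ A,
        ← mul_pow _ _ A, ← mul_pow _ _ A]
      refine pow_le_pow_left₀ (by positivity) ?_ A
      have e : (1 + c⁻¹) ^ 2 * ((1 + (z / c + ζ / c)) ^ 2)⁻¹ =
          (1 + c) ^ 2 * ((c + (z + ζ)) ^ 2)⁻¹ := by
        field_simp
        ring
      rw [e, mul_assoc 4, ← mul_inv, ← div_eq_mul_inv 4, inv_eq_one_div]
      refine mul_le_mul_of_nonneg_left ?_ (by positivity)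
      rw [div_le_div_iff₀ (by positivity) (by positivity)]
      nlinarith [mul_nonneg hz hζ, mul_nonneg hc0.le (add_nonneg hz hζ), sq_nonneg c,
        mul_nonneg (sub_nonneg.2 g) hz, mul_nonneg (sub_nonneg.2 g) hζ]
    have k4 := ib_dk_pos (A + 2 * A) hc0.le
    calc _ ≤ (C + D) * (W * c * ib_dk (A + 2 * A) c) *
          ((1 + c) ^ (2 * A) * (4 ^ A * ib_dk A z * ib_dk A ζ)) := by
          refine a.trans (mul_le_mul ?_ b ?_ (by positivity))
          · gcongr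
            linarith
          · exact mul_nonneg (by positivity) (ib_dk_pos _ (by positivity)).le
      _ = _ := by rw [← ib_dk_add A (2 * A) hc0.le]; ring

theorem archT_dec {w : ℂ → ℂ} (hw : Rad w) (A k : ℕ) (hk : k ≤ 1) : ∃ C : ℝ, 0 < C ∧
    ∀ θ : ℝ, |θ| ≤ 1 → ∀ c : ℂ, c ≠ 0 → ContDiff ℝ 1 (archT_FI (FintT θ w c)) ∧ ∀ z ζ : ℂ,
      ‖iteratedFDeriv ℝ k (archT_FI (FintT θ w c)) (-(z / c), ζ / c)‖
        ≤ C * ‖c‖ * ib_dk A ‖c‖ * ib_dk A ‖z‖ * ib_dk A ‖ζ‖ := by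
  obtain ⟨C, hC, h⟩ := archT_Ia (2 * A) (A + 2 * A) k hk
  obtain ⟨D, hD, h'⟩ := archT_Ia 0 A k hk
  obtain ⟨W, hW0, hW⟩ := (archT_adm hw).exists_DB (A + 2 * A + 2 * A)
  refine ⟨(C + D) * 4 ^ A * W, by positivity, fun θ hθ c hc => ?_⟩
  have a := h (⟨w, W, c, archT_adm hw, hW, hc⟩, ⟨θ, hθ⟩)
  have a' := h' (⟨w, W, c, archT_adm hw, fun i hi => hW i (by omega), hc⟩, ⟨θ, hθ⟩)
  exact ⟨a.1, fun z ζ => archT_num hC hD hW0.le (norm_pos_iff.2 hc) (norm_nonneg z)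
    (norm_nonneg ζ) (a.2 z ζ) (a'.2 z ζ)⟩

theorem archT_fderiv {G : ℂ × ℂ → ℂ} (hG : ContDiff ℝ 1 G) (a : ℂ) {c : ℂ} (hc : c ≠ 0) (ζ : ℂ) :
    ‖fderiv ℝ (fun ζ => ((4 / 3 : ℝ) : ℂ) * G (a, ζ / c)) ζ‖ ≤
      4 / 3 * (‖iteratedFDeriv ℝ 1 G (a, ζ / c)‖ * ‖c‖⁻¹) := by
  obtain ⟨L, hL⟩ : ∃ L : ℂ →L[ℝ] ℂ × ℂ,
    L = (0 : ℂ →L[ℝ] ℂ).prod (ContinuousLinearMap.mul ℝ ℂ c⁻¹) := ⟨_, rfl⟩
  have h1 : HasFDerivAt (fun ζ : ℂ => (a, ζ / c)) L ζ := by
    rw [hL]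
    refine (hasFDerivAt_const a ζ).prodMk ?_
    have := (ContinuousLinearMap.mul ℝ ℂ c⁻¹).hasFDerivAt (x := ζ)
    simp only [div_eq_inv_mul]
    exact this
  have h2 : ‖L‖ ≤ ‖c‖⁻¹ := by
    refine L.opNorm_le_bound (by positivity) fun x => ?_
    rw [hL]
    simp only [ContinuousLinearMap.prod_apply, zero_apply,
      ContinuousLinearMap.mul_apply', Prod.norm_mk, norm_zero, norm_mul, norm_inv]
    exact max_le (by positivity) le_rfl
  have h3 := ((((hG.differentiable one_ne_zero) (a, ζ / c)).hasFDerivAt.comp ζ h1).const_mul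
    ((4 / 3 : ℝ) : ℂ)).fderiv
  simp only [Function.comp_def] at h3
  rw [h3, norm_smul, Complex.norm_real, Real.norm_of_nonneg (by norm_num),
    norm_iteratedFDeriv_one]
  exact mul_le_mul_of_nonneg_left ((ContinuousLinearMap.opNorm_comp_le _ _).trans
    (mul_le_mul_of_nonneg_left h2 (norm_nonneg _))) (by norm_num)

theorem iBdT : IBdT := by
  intro w A hw
  obtain ⟨C, hC, h⟩ := archT_dec hw A 0 zero_le_one
  obtain ⟨D, hD, h'⟩ := archT_dec hw A 1 le_rfl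
  refine ⟨4 / 3 * (C + D), by positivity, fun θ h0 h1 c z hc => ?_⟩
  have hθ : |θ| ≤ 1 := abs_le.2 ⟨by linarith, h1⟩
  have e : IaT θ w c z = fun ζ => ((4 / 3 : ℝ) : ℂ) * archT_FI (FintT θ w c) (-(z / c), ζ / c) :=
    funext fun ζ => fd_ft2 _ _ _
  have hc0 : 0 < ‖c‖ := norm_pos_iff.2 hc
  have k1 := ib_dk_pos A hc0.le
  have k2 := ib_dk_pos A (norm_nonneg z)
  rw [e]
  refine ⟨fun ζ => ?_, contDiff_const.mul ((h θ hθ c hc).1.comp
    (contDiff_const.prodMk (contDiff_id.div_const c))), fun ζ => ?_⟩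
  · have k3 := ib_dk_pos A (norm_nonneg ζ)
    have a := (h θ hθ c hc).2 z ζ
    rw [norm_iteratedFDeriv_zero] at a
    change _ ≤ _ * ‖c‖ * ib_dk A ‖c‖ * ib_dk A ‖z‖ * ib_dk A ‖ζ‖
    rw [norm_mul, Complex.norm_real, Real.norm_of_nonneg (by norm_num)]
    calc _ ≤ 4 / 3 * ((C + D) * ‖c‖ * ib_dk A ‖c‖ * ib_dk A ‖z‖ * ib_dk A ‖ζ‖) := by
          refine mul_le_mul_of_nonneg_left (a.trans ?_) (by norm_num)
          gcongr
          linarith
      _ = _ := by ring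
  · have k3 := ib_dk_pos A (norm_nonneg ζ)
    have a := (h' θ hθ c hc).2 z ζ
    change _ ≤ _ * ib_dk A ‖c‖ * ib_dk A ‖z‖ * ib_dk A ‖ζ‖
    refine (archT_fderiv (h θ hθ c hc).1 _ hc ζ).trans ?_
    calc _ ≤ 4 / 3 * ((C + D) * ‖c‖ * ib_dk A ‖c‖ * ib_dk A ‖z‖ * ib_dk A ‖ζ‖ * ‖c‖⁻¹) := by
          refine mul_le_mul_of_nonneg_left (mul_le_mul_of_nonneg_right (a.trans ?_)
            (by positivity)) (by norm_num)
          gcongr
          linarith
      _ = _ := by field_simp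

end Pat
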