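import Vale.Agent.P006.IfC
import Vale.Agent.P026.Eis2

/-! P006: the combinatorial decomposition of the elements with a small prime factor. -/

noncomputable section
namespace Pat
open QRH Complex MeasureTheory Filter
open scoped ComplexConjugate Classical ContDiff Topology

/-- Reindexing pairs of disjoint sets by their union. -/
theorem BD1_pairs (R : ℝ) (ind : Finset P → Prop) (K : Finset P → Finset P → ℂ)
    (hK : ∀ a r, Disjoint a r → R < Ns (a ∪ r) → K a r = 0) :
    ∑ a ∈ sqf R, ∑ r ∈ sqf R with Disjoint a r ∧ ind r, K a r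
      = ∑ c ∈ sqf R, ∑ r ∈ c.powerset with ind r, K (c \ r) r := by
  have h1 : ∑ a ∈ sqf R, ∑ r ∈ sqf R with Disjoint a r ∧ ind r, K a r
      = ∑ x ∈ (sqf R ×ˢ sqf R).filter (fun x => Disjoint x.1 x.2 ∧ ind x.2), K x.1 x.2 := by
    rw [Finset.sum_filter, Finset.sum_product]
    exact Finset.sum_congr rfl fun a _ => Finset.sum_filter _ _
  have h2 : ∑ c ∈ sqf R, ∑ r ∈ c.powerset with ind r, K (c \ r) r
      = ∑ x ∈ (sqf R ×ˢ sqf R).filter (fun x => x.2 ⊆ x.1 ∧ ind x.2), K (x.1 \ x.2) x.2 := by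
    rw [Finset.sum_filter, Finset.sum_product]
    refine Finset.sum_congr rfl fun c hc => ?_
    rw [← Finset.sum_filter]
    refine Finset.sum_congr ?_ fun _ _ => rfl
    ext r
    simp only [Finset.mem_filter, Finset.mem_powerset, mem_sqf] at hc ⊢
    constructor
    · rintro ⟨h, h'⟩
      exact ⟨(Ns_mono h).trans hc, h, h'⟩
    · rintro ⟨_, h, h'⟩
      exact ⟨h, h'⟩
  have h3 : ∑ x ∈ (sqf R ×ˢ sqf R).filter (fun x => Disjoint x.1 x.2 ∧ ind x.2), K x.1 x.2
      = ∑ x ∈ (sqf R ×ˢ sqf R).filter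
          (fun x => (Disjoint x.1 x.2 ∧ ind x.2) ∧ Ns (x.1 ∪ x.2) ≤ R), K x.1 x.2 := by
    symm
    refine Finset.sum_subset (fun x hx => ?_) fun x hx hx' => ?_
    · simp only [Finset.mem_filter] at hx ⊢
      exact ⟨hx.1, hx.2.1⟩
    · simp only [Finset.mem_filter] at hx hx'
      refine hK _ _ hx.2.1 (lt_of_not_ge fun h => hx' ⟨hx.1, hx.2, h⟩)
  rw [h1, h2, h3]
  refine Finset.sum_nbij' (fun x => (x.1 ∪ x.2, x.2)) (fun x => (x.1 \ x.2, x.2)) ?_ ?_ ?_ ?_ ?_
  · intro x hx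
    simp only [Finset.mem_filter, Finset.mem_product, mem_sqf] at hx ⊢
    exact ⟨⟨hx.2.2, hx.1.2⟩, Finset.subset_union_right, hx.2.1.2⟩
  · intro x hx
    simp only [Finset.mem_filter, Finset.mem_product, mem_sqf] at hx ⊢
    refine ⟨⟨(Ns_mono Finset.sdiff_subset).trans hx.1.1, hx.1.2⟩,
      ⟨Finset.sdiff_disjoint, hx.2.2⟩, ?_⟩
    rw [Finset.sdiff_union_of_subset hx.2.1]
    exact hx.1.1
  · intro x hx
    simp only [Finset.mem_filter] at hx
    ext1
    · exact Finset.union_sdiff_cancel_right hx.2.1.1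
    · rfl
  · intro x hx
    simp only [Finset.mem_filter] at hx
    ext1
    · exact Finset.sdiff_union_of_subset hx.2.1
    · rfl
  · intro x hx
    simp only [Finset.mem_filter] at hx
    simp only [Finset.union_sdiff_cancel_right hx.2.1.1]

theorem BD1_lw {φ : ℝ → ℂ} (hφ : Bump φ) {X T y : ℝ} (hX : 0 < X) (hT : 1 ≤ T)
    (hy : 3 * X < y) : lw φ T X y = 0 := by
  by_contra h
  have h1 := (hφ.supp _ h).2
  have h3 : 3 < y / X := by rw [lt_div_iff₀ hX]; exact hy
  have h4 : 1 < Real.log (y / X) := by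
    rw [Real.lt_log_iff_exp_lt (by linarith)]
    exact (Real.exp_one_lt_d9.trans (by norm_num)).trans h3
  nlinarith

/-- The difference of the two weights. -/
def BD1_D (Y x : ℝ) (p : P) : ℂ :=
  ((Vs (Real.log (x / Y)) - Vs (Real.log (x * nm p.1 / Y)) : ℝ) : ℂ)

/-- The inner sum of `BDt`. -/
def BD1_in (Y w : ℝ) (sm : Finset P → Prop) (a r : Finset P) : ℂ :=
  ∑ p ∈ a with (nm p.1 : ℝ) ≤ w ∧ (∀ q ∈ a, key p ≤ key q) ∧ key p < kc w r,
    ∑ s ∈ (a.erase p).powerset with sm s, mu s * mu r * BD1_D Y (Ns s * Ns r) p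

theorem BD1_BDt (F : Finset P → ℂ) {X T : ℝ} {φ : ℝ → ℂ} (Y w : ℝ) (ind sm : Finset P → Prop)
    (hφ : Bump φ) (hX : 0 < X) (hT : 1 ≤ T) :
    BDt F X T φ Y w ind sm = ∑ c ∈ sqf (3 * X),
      (∑ r ∈ c.powerset with ind r, BD1_in Y w sm (c \ r) r) * F c * lw φ T X (Ns c) := by
  have h := BD1_pairs (3 * X) ind
    (fun a r => BD1_in Y w sm a r * F (a ∪ r) * lw φ T X (Ns a * Ns r)) (fun a r hd hN => by
      rw [← Ns_union hd, BD1_lw hφ hX hT hN, mul_zero])
  refine Eq.trans ?_ (h.trans ?_)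
  · rfl
  · refine Finset.sum_congr rfl fun c _ => ?_
    rw [Finset.sum_mul, Finset.sum_mul]
    refine Finset.sum_congr rfl fun r hr => ?_
    have hr' : r ⊆ c := Finset.mem_powerset.1 (Finset.mem_filter.1 hr).1
    rw [← Ns_union Finset.sdiff_disjoint, Finset.sdiff_union_of_subset hr']

theorem BD1_in_rough {Y w : ℝ} (sm : Finset P → Prop) {c : Finset P} (hc : Rough w c)
    (r : Finset P) : BD1_in Y w sm (c \ r) r = 0 := by
  refine Finset.sum_eq_zero fun p hp => ?_
  have h := Finset.mem_filter.1 hp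
  exact absurd (hc p (Finset.mem_sdiff.1 h.1).1) (not_lt.2 h.2.1)

theorem BD1_in_min (hb : BA) {Y w : ℝ} (sm : Finset P → Prop) {c : Finset P} {p : P}
    (hp : p ∈ c) (hw : (nm p.1 : ℝ) ≤ w) (hmin : ∀ q ∈ c, key p ≤ key q) {r : Finset P}
    (hr : r ⊆ c) : BD1_in Y w sm (c \ r) r = if r ⊆ c.erase p then
      ∑ s ∈ (c.erase p \ r).powerset with sm s, mu s * mu r * BD1_D Y (Ns s * Ns r) p else 0 := by
  have hf : (c \ r).filter (fun p' : P => (nm p'.1 : ℝ) ≤ w ∧ (∀ q ∈ c \ r, key p' ≤ key q)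
      ∧ key p' < kc w r) = if p ∈ r then ∅ else {p} := by
    ext p'
    simp only [Finset.mem_filter]
    constructor
    · rintro ⟨h1, h2, h3, h4⟩
      rw [hb.kc_lt w r p' h2] at h4
      have h5 := hmin p' (Finset.mem_sdiff.1 h1).1
      by_cases hpr : p ∈ r
      · exact absurd (h4 p hpr) (not_lt.2 h5)
      · rw [if_neg hpr, Finset.mem_singleton]
        exact hb.key_inj (le_antisymm (h3 p (Finset.mem_sdiff.2 ⟨hp, hpr⟩)) h5)
    · intro h
      by_cases hpr : p ∈ r
      · rw [if_pos hpr] at h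
        exact absurd h (Finset.notMem_empty _)
      · rw [if_neg hpr, Finset.mem_singleton] at h
        subst h
        refine ⟨Finset.mem_sdiff.2 ⟨hp, hpr⟩, hw, fun q hq => hmin q (Finset.mem_sdiff.1 hq).1, ?_⟩
        rw [hb.kc_lt w r p' hw]
        intro q hq
        refine lt_of_le_of_ne (hmin q (hr hq)) fun h => hpr ?_
        rw [hb.key_inj h]
        exact hq
  unfold BD1_in
  rw [hf]
  by_cases hpr : p ∈ r
  · rw [if_pos hpr, Finset.sum_empty, if_neg]
    intro h
    exact Finset.notMem_erase p c (h hpr)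
  · rw [if_neg hpr, Finset.sum_singleton, if_pos (Finset.subset_erase.2 ⟨hr, hpr⟩)]
    have : (c \ r).erase p = c.erase p \ r := by
      ext q
      simp only [Finset.mem_erase, Finset.mem_sdiff]
      tauto
    rw [this]

theorem BD1_sum_min (hb : BA) {Y w : ℝ} (ind sm : Finset P → Prop) {c : Finset P} {p : P}
    (hp : p ∈ c) (hw : (nm p.1 : ℝ) ≤ w) (hmin : ∀ q ∈ c, key p ≤ key q) :
    ∑ r ∈ c.powerset with ind r, BD1_in Y w sm (c \ r) r
      = ∑ r ∈ (c.erase p).powerset with ind r, ∑ s ∈ (c.erase p \ r).powerset with sm s,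
          mu s * mu r * BD1_D Y (Ns s * Ns r) p := by
  rw [Finset.sum_congr rfl fun r hr => BD1_in_min hb sm hp hw hmin
    (Finset.mem_powerset.1 (Finset.mem_filter.1 hr).1), ← Finset.sum_filter]
  refine Finset.sum_congr ?_ fun _ _ => rfl
  ext r
  simp only [Finset.mem_filter, Finset.mem_powerset]
  constructor
  · rintro ⟨⟨_, h1⟩, h2⟩
    exact ⟨h2, h1⟩
  · rintro ⟨h1, h2⟩
    exact ⟨⟨h1.trans (Finset.erase_subset _ _), h2⟩, h1⟩

/-- Splitting a set into its small and large primes. -/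
theorem BD1_split (w1 U : ℝ) (c : Finset P) (g : ℝ → ℂ) :
    ∑ r ∈ c.powerset with Rough w1 r,
        ∑ s ∈ (c \ r).powerset with (∀ p ∈ s, (nm p.1 : ℝ) ≤ w1) ∧ Ns s ≤ U,
          mu s * mu r * g (Ns s * Ns r)
      = ∑ b ∈ c.powerset with Ns (b.filter fun p => (nm p.1 : ℝ) ≤ w1) ≤ U,
          mu b * g (Ns b) := by
  rw [Finset.sum_sigma']
  refine Finset.sum_nbij' (fun x => x.2 ∪ x.1)
    (fun b => ⟨b.filter fun p => ¬ (nm p.1 : ℝ) ≤ w1, b.filter fun p => (nm p.1 : ℝ) ≤ w1⟩)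
    ?_ ?_ ?_ ?_ ?_
  · rintro ⟨r, s⟩ hx
    simp only [Finset.mem_sigma, Finset.mem_filter, Finset.mem_powerset] at hx ⊢
    obtain ⟨⟨h1, h2⟩, h3, h4, h5⟩ := hx
    refine ⟨Finset.union_subset (h3.trans Finset.sdiff_subset) h1, ?_⟩
    have : (s ∪ r).filter (fun p : P => (nm p.1 : ℝ) ≤ w1) = s := by
      ext q
      simp only [Finset.mem_filter, Finset.mem_union]
      constructor
      · rintro ⟨h | h, h'⟩
        · exact h
        · exact absurd (h2 q h) (not_lt.2 h')
      · intro h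
        exact ⟨Or.inl h, h4 q h⟩
    rw [this]
    exact h5
  · intro b hb
    simp only [Finset.mem_sigma, Finset.mem_filter, Finset.mem_powerset] at hb ⊢
    refine ⟨⟨(Finset.filter_subset _ _).trans hb.1, fun q hq => ?_⟩, fun q hq => ?_,
      fun q hq => hq.2, hb.2⟩
    · exact lt_of_not_ge (Finset.mem_filter.1 hq).2
    · have h := Finset.mem_filter.1 hq
      exact Finset.mem_sdiff.2 ⟨hb.1 h.1, fun h' => (Finset.mem_filter.1 h').2 h.2⟩
  · rintro ⟨r, s⟩ hx
    simp only [Finset.mem_sigma, Finset.mem_filter, Finset.mem_powerset] at hx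
    obtain ⟨⟨h1, h2⟩, h3, h4, h5⟩ := hx
    have e1 : (s ∪ r).filter (fun p : P => (nm p.1 : ℝ) ≤ w1) = s := by
      ext q
      simp only [Finset.mem_filter, Finset.mem_union]
      constructor
      · rintro ⟨h | h, h'⟩
        · exact h
        · exact absurd (h2 q h) (not_lt.2 h')
      · intro h
        exact ⟨Or.inl h, h4 q h⟩
    have e2 : (s ∪ r).filter (fun p : P => ¬ (nm p.1 : ℝ) ≤ w1) = r := by
      ext q
      simp only [Finset.mem_filter, Finset.mem_union]
      constructor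
      · rintro ⟨h | h, h'⟩
        · exact absurd (h4 q h) h'
        · exact h
      · intro h
        exact ⟨Or.inr h, not_le.2 (h2 q h)⟩
    simp only [e1, e2]
  · intro b _
    exact Finset.filter_union_filter_not_eq _ _
  · rintro ⟨r, s⟩ hx
    simp only [Finset.mem_sigma, Finset.mem_filter, Finset.mem_powerset] at hx
    obtain ⟨⟨h1, h2⟩, h3, h4, h5⟩ := hx
    have hd : Disjoint s r := Finset.disjoint_of_subset_left h3 Finset.sdiff_disjoint
    simp only [mu_union hd, Ns_union hd]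

theorem BD1_nu (Y : ℝ) {c : Finset P} {p : P} (hp : p ∈ c) :
    nu Y c = ∑ b ∈ (c.erase p).powerset, mu b * BD1_D Y (Ns b) p := by
  unfold nu
  conv_lhs => rw [← Finset.insert_erase hp]
  rw [Finset.sum_powerset_insert (Finset.notMem_erase p c), ← Finset.sum_add_distrib]
  refine Finset.sum_congr rfl fun b hb => ?_
  have hpb : p ∉ b := fun h => Finset.notMem_erase p c (Finset.mem_powerset.1 hb h)
  have h1 : mu (insert p b) = -mu b := by
    simp only [mu, Finset.card_insert_of_notMem hpb, pow_succ]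
    ring
  have h2 : Ns (insert p b) = Ns b * nm p.1 := by
    rw [Ns_eq_prod, Ns_eq_prod, Finset.prod_insert hpb, mul_comm]
  rw [h1, h2, BD1_D]
  push_cast
  ring

theorem BD1_nu_single (hb : BA) {Y w : ℝ} (hw : 1 ≤ w) (hY : w ≤ Y) {p : P}
    (hp : (nm p.1 : ℝ) ≤ w) : nu Y {p} = 0 := by
  rw [BD1_nu Y (Finset.mem_singleton_self p), Finset.erase_singleton, Finset.powerset_empty,
    Finset.sum_singleton, BD1_D, Ns_empty]
  have hY0 : 0 < Y := by linarith
  rw [hb.Vs_one _ (Real.log_nonpos (by positivity) (by rw [div_le_one hY0]; linarith)),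
    hb.Vs_one _ (Real.log_nonpos (by positivity) (by rw [div_le_one hY0]; linarith))]
  simp

theorem bD1 (hb : BA) : BD1 := by
  intro F X T Y w w1 U φ hφ hX hT hw hY
  rw [BD1_BDt F Y w _ _ hφ hX hT, BD1_BDt F Y w _ _ hφ hX hT, ← Finset.sum_add_distrib, BDs,
    Finset.sum_filter]
  refine Finset.sum_congr rfl fun c _ => ?_
  rw [← add_mul, ← add_mul]
  by_cases hc : Rough w c
  · rw [if_neg (fun h => h.2 hc), Finset.sum_eq_zero fun r _ => BD1_in_rough _ hc r,
      Finset.sum_eq_zero fun r _ => BD1_in_rough _ hc r]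
    simp
  obtain ⟨q, hq, hqw⟩ : ∃ q ∈ c, (nm q.1 : ℝ) ≤ w := by
    by_contra h
    exact hc fun q hq => lt_of_not_ge fun h' => h ⟨q, hq, h'⟩
  obtain ⟨p, hp, hmin⟩ := Finset.exists_min_image c key ⟨q, hq⟩
  have hpw : (nm p.1 : ℝ) ≤ w :=
    le_trans (by exact_mod_cast hb.key_le p q (hmin q hq)) hqw
  have key1 : (∑ r ∈ c.powerset with Rough w1 r, BD1_in Y w
        (fun s => (∀ p ∈ s, (nm p.1 : ℝ) ≤ w1) ∧ Ns s ≤ U) (c \ r) r)
      + (∑ r ∈ c.powerset with U < Ns (r.filter fun p => (nm p.1 : ℝ) ≤ w1),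
        BD1_in Y w (fun s => s = ∅) (c \ r) r) = nu Y c := by
    rw [BD1_sum_min hb _ _ hp hpw hmin, BD1_sum_min hb _ _ hp hpw hmin, BD1_nu Y hp,
      ← Finset.sum_filter_add_sum_filter_not (c.erase p).powerset
        (fun b => Ns (b.filter fun p => (nm p.1 : ℝ) ≤ w1) ≤ U)]
    congr 1
    · convert BD1_split w1 U (c.erase p) (fun x => BD1_D Y x p)
    · refine Finset.sum_congr (by simp only [not_le]) fun r _ => ?_
      rw [Finset.sum_eq_single ∅, mu_empty, Ns_empty, one_mul, one_mul]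
      · intro s hs hs'
        simp only [Finset.mem_filter] at hs
        exact absurd hs.2 hs'
      · intro h
        simp at h
  rw [show _ + _ = nu Y c from by convert key1]
  by_cases h2 : 2 ≤ c.card
  · rw [if_pos ⟨h2, hc⟩]
  · rw [if_neg fun h => h2 h.1]
    have : c = {p} := by
      refine Finset.eq_singleton_iff_unique_mem.2 ⟨hp, fun x hx => ?_⟩
      exact Finset.card_le_one.1 (by omega) x hx p hp
    rw [this, BD1_nu_single hb hw hY hpw]
    simp

end Pat
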