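import Vale.Agent.P006.IfC
import Vale.Agent.P026.Eis2

noncomputable section
namespace Pat
open QRH Complex MeasureTheory Filter
open scoped ComplexConjugate Classical ContDiff Topology

theorem bd2_sum_eq {ι : Type*} {S S' : Finset ι} {f : ι → ℂ} (h1 : ∀ x ∈ S, f x ≠ 0 → x ∈ S')
    (h2 : ∀ x ∈ S', f x ≠ 0 → x ∈ S) : ∑ x ∈ S, f x = ∑ x ∈ S', f x := by
  rw [← Finset.sum_filter_ne_zero S, ← Finset.sum_filter_ne_zero S']
  congr 1
  ext x
  simp only [Finset.mem_filter]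
  exact ⟨fun h => ⟨h1 x h.1 h.2, h.2⟩, fun h => ⟨h2 x h.1 h.2, h.2⟩⟩

theorem bd2_tau {ι : Type*} (I : Finset ι) (d : ι → ℂ) (v : ι → ℝ → ℂ) {h : ℝ → ℂ} {D M : ℝ}
    {k : ℕ} (hi : ∀ i ∈ I, Integrable fun τ => h τ * v i τ)
    (hp : Integrable fun τ : ℝ => (1 + |τ|) ^ (-((k : ℝ) + 2)) * (1 + |τ|) ^ k)
    (hh : ∀ τ, ‖h τ‖ ≤ D * (1 + |τ|) ^ (-((k : ℝ) + 2)))
    (hM : ∀ τ : ℝ, ‖∑ i ∈ I, d i * v i τ‖ ≤ M * (1 + |τ|) ^ k) :
    ‖∑ i ∈ I, d i * ∫ τ, h τ * v i τ‖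
      ≤ D * M * ∫ τ : ℝ, (1 + |τ|) ^ (-((k : ℝ) + 2)) * (1 + |τ|) ^ k := by
  have e : ∑ i ∈ I, d i * ∫ τ, h τ * v i τ = ∫ τ, h τ * ∑ i ∈ I, d i * v i τ := by
    simp only [← integral_const_mul]
    rw [← integral_finsetSum _ fun i hi' => (hi i hi').const_mul _]
    refine integral_congr_ae (Eventually.of_forall fun τ => ?_)
    simp only [Finset.mul_sum]
    exact Finset.sum_congr rfl fun i _ => by ring
  rw [e, ← integral_const_mul]
  refine norm_integral_le_of_norm_le (hp.const_mul _) (Eventually.of_forall fun τ => ?_)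
  rw [norm_mul]
  calc _ ≤ (D * (1 + |τ|) ^ (-((k : ℝ) + 2))) * (M * (1 + |τ|) ^ k) :=
        mul_le_mul (hh τ) (hM τ) (norm_nonneg _) ((norm_nonneg _).trans (hh τ))
    _ = _ := by ring

theorem bd2_theta {ι : Type*} (I : Finset ι) (d : ι → ℂ) (u : ι → ℝ → ℂ) {K : ℝ → ℂ} {M : ℝ}
    (hK : Continuous K) (hu : ∀ i, Continuous (u i)) (hM : ∀ θ : ℝ, ‖∑ i ∈ I, d i * u i θ‖ ≤ M) :
    ‖∑ i ∈ I, d i * ∫ θ in (0 : ℝ)..1, K θ * u i θ‖ ≤ M * ∫ θ in (0 : ℝ)..1, ‖K θ‖ := by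
  have e : ∑ i ∈ I, d i * ∫ θ in (0 : ℝ)..1, K θ * u i θ
      = ∫ θ in (0 : ℝ)..1, K θ * ∑ i ∈ I, d i * u i θ := by
    simp only [← intervalIntegral.integral_const_mul]
    rw [← intervalIntegral.integral_finsetSum (f := fun i θ => d i * (K θ * u i θ)) fun i _ =>
      (continuous_const.mul (hK.mul (hu i))).intervalIntegrable _ _]
    refine intervalIntegral.integral_congr fun θ _ => ?_
    simp only [Finset.mul_sum]
    exact Finset.sum_congr rfl fun i _ => by ring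
  rw [e, ← intervalIntegral.integral_const_mul]
  refine intervalIntegral.norm_integral_le_of_norm_le zero_le_one
    (Eventually.of_forall fun θ _ => ?_) ((continuous_const.mul hK.norm).intervalIntegrable _ _)
  rw [norm_mul, mul_comm]
  exact mul_le_mul_of_nonneg_right (hM θ) (norm_nonneg _)

theorem bd2_e1_cont (c : ℝ) : Continuous fun θ : ℝ => e1 (θ * c) := by
  unfold e1; fun_prop
theorem bd2_e1_cont' (c : ℝ) : Continuous fun θ : ℝ => e1 (-(θ * c)) := by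
  unfold e1; fun_prop
theorem bd2_norm_e1 (x : ℝ) : ‖e1 x‖ = 1 := by
  have : e1 x = Complex.exp ((2 * Real.pi * x : ℝ) * I) := by
    unfold e1; congr 1; push_cast; ring
  rw [this, Complex.norm_exp_ofReal_mul_I]
theorem bd2_exp {y : ℝ} (hy : 0 < y) (τ : ℝ) :
    Complex.exp (τ * (Real.log y : ℝ) * I) = (y : ℂ) ^ (τ * I) := by
  rw [Complex.cpow_def_of_ne_zero (by exact_mod_cast hy.ne'), ← Complex.ofReal_log hy.le]
  congr 1; ring
theorem bd2_norm_cpow {y : ℝ} (hy : 0 < y) (τ : ℝ) : ‖(y : ℂ) ^ (τ * I)‖ = 1 := by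
  rw [Complex.norm_cpow_eq_rpow_re_of_pos hy]; simp
theorem bd2_int {h : ℝ → ℂ} (hi : Integrable h) (v : ℝ) :
    Integrable fun τ : ℝ => h τ * Complex.exp (τ * v * I) := by
  refine hi.mul_bdd (c := 1) (by fun_prop) (Eventually.of_forall fun τ => ?_)
  rw [← Complex.ofReal_mul, Complex.norm_exp_ofReal_mul_I]

/-- The condition on the smallest prime. -/
def bd2Mn (w : ℝ) (a : Finset P) (p : P) : Prop := (nm p.1 : ℝ) ≤ w ∧ ∀ q ∈ a, key p ≤ key q
def bd2al (w θ τ : ℝ) (sm : Finset P → Prop) (a : Finset P) : ℂ :=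
  ∑ p ∈ a.filter (bd2Mn w a), ∑ s ∈ (a.erase p).powerset.filter sm,
    e1 (-(θ * key p)) * mu s * ((Ns s : ℝ) : ℂ) ^ (τ * I) * (1 - ((nm p.1 : ℝ) : ℂ) ^ (τ * I))

theorem bd2_al_le (hb : BA) (w θ τ : ℝ) (sm : Finset P → Prop) (a : Finset P) :
    ‖bd2al w θ τ sm a‖ ≤ 2 * (a.powerset.filter sm).card := by
  have h1 : (a.filter (bd2Mn w a)).card ≤ 1 := by
    refine Finset.card_le_one.2 fun p hp q hq => hb.key_inj (le_antisymm ?_ ?_)
    · exact (Finset.mem_filter.1 hp).2.2 q (Finset.mem_filter.1 hq).1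
    · exact (Finset.mem_filter.1 hq).2.2 p (Finset.mem_filter.1 hp).1
  have h2 : ∀ p ∈ a.filter (bd2Mn w a), ‖∑ s ∈ (a.erase p).powerset.filter sm,
      e1 (-(θ * key p)) * mu s * ((Ns s : ℝ) : ℂ) ^ (τ * I) * (1 - ((nm p.1 : ℝ) : ℂ) ^ (τ * I))‖
      ≤ 2 * (a.powerset.filter sm).card := by
    intro p _
    refine (norm_sum_le _ _).trans ((Finset.sum_le_card_nsmul _ _ 2 fun s _ => ?_).trans ?_)
    · rw [norm_mul, norm_mul, norm_mul, bd2_norm_e1, norm_mu, bd2_norm_cpow (Ns_pos s)]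
      have := norm_sub_le (1 : ℂ) (((nm p.1 : ℝ) : ℂ) ^ (τ * I))
      rw [bd2_norm_cpow (lt_of_lt_of_le one_pos (one_le_nmR p.ne_zero)), norm_one] at this
      linarith
    · rw [nsmul_eq_mul, mul_comm]
      have h3 := Finset.card_le_card (Finset.filter_subset_filter sm
        (Finset.powerset_mono.2 (Finset.erase_subset p a)))
      gcongr
  refine (norm_sum_le _ _).trans ((Finset.sum_le_card_nsmul _ _ _ h2).trans ?_)
  rw [nsmul_eq_mul]
  refine mul_le_of_le_one_left (by positivity) (by exact_mod_cast h1)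

/-- One box. -/
theorem bd2_box (hb : BA) {F : Finset P → ℂ} {X T Y w B M D : ℝ} {φ : ℝ → ℂ}
    {ind sm : Finset P → Prop} {k : ℕ} {K h : ℝ → ℂ} (hY : 1 ≤ Y) (hK : Continuous K)
    (hKe : ∀ x y : ℕ, x ≤ 2 * ⌊w⌋₊ + 2 → y ≤ 2 * ⌊w⌋₊ + 2 →
      (if x < y then (1 : ℂ) else 0) = ∫ θ in (0 : ℝ)..1, K θ * e1 (θ * y) * e1 (-(θ * x)))
    (hi : Integrable h) (hh : ∀ τ, ‖h τ‖ ≤ D * (1 + |τ|) ^ (-((k : ℝ) + 2)))
    (hV : ∀ v : ℝ, -Real.log Y ≤ v → (Vs v : ℂ) = ∫ τ : ℝ, h τ * Complex.exp (τ * v * I))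
    (hM : ∀ θ τ : ℝ, ‖Bil F (bd2al w θ τ sm) (bG ind w θ τ B) X B (3 * B) T φ‖
      ≤ M * (1 + |τ|) ^ k) :
    ‖∑ a ∈ sqf (3 * X / B), ∑ r ∈ sqf (3 * B),
      (if (B ≤ Ns r ∧ Ns r < Real.exp 1 * B ∧ ind r) ∧ Disjoint a r then
        (∑ p ∈ a with (nm p.1 : ℝ) ≤ w ∧ (∀ q ∈ a, key p ≤ key q) ∧ key p < kc w r,
          ∑ s ∈ (a.erase p).powerset with sm s, mu s * mu r *
            ((Vs (Real.log (Ns s * Ns r / Y)) - Vs (Real.log (Ns s * Ns r * nm p.1 / Y)) : ℝ) : ℂ))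
          * F (a ∪ r) * lw φ T X (Ns a * Ns r) else 0)‖
      ≤ D * M * (∫ τ : ℝ, (1 + |τ|) ^ (-((k : ℝ) + 2)) * (1 + |τ|) ^ k)
        * ∫ θ in (0 : ℝ)..1, ‖K θ‖ := by
  have hY0 : 0 < Y := by linarith
  obtain ⟨S, hI⟩ : ∃ S : Finset (Σ _ : Finset P × Finset P, Σ _ : P, Finset P),
      S = (sqf (3 * X / B) ×ˢ sqf (3 * B)).sigma fun x => (x.1.filter (bd2Mn w x.1)).sigma
        fun p => (x.1.erase p).powerset.filter sm := ⟨_, rfl⟩
  obtain ⟨c, hc⟩ : ∃ c : (Σ _ : Finset P × Finset P, Σ _ : P, Finset P) → ℂ, ∀ i, c i =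
      if (B ≤ Ns i.1.2 ∧ Ns i.1.2 < Real.exp 1 * B ∧ ind i.1.2) ∧ Disjoint i.1.1 i.1.2 then
        mu i.2.2 * mu i.1.2 * F (i.1.1 ∪ i.1.2) * lw φ T X (Ns i.1.1 * Ns i.1.2) else 0 :=
    ⟨_, fun _ => rfl⟩
  obtain ⟨u, hu⟩ : ∃ u : (Σ _ : Finset P × Finset P, Σ _ : P, Finset P) → ℝ → ℂ, ∀ i θ, u i θ =
      e1 (θ * kc w i.1.2) * e1 (-(θ * key i.2.1)) := ⟨_, fun _ _ => rfl⟩
  obtain ⟨v, hv⟩ : ∃ v : (Σ _ : Finset P × Finset P, Σ _ : P, Finset P) → ℝ → ℂ, ∀ i τ, v i τ =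
      Complex.exp (τ * (Real.log (Ns i.2.2 * Ns i.1.2 / Y) : ℝ) * I)
        - Complex.exp (τ * (Real.log (Ns i.2.2 * Ns i.1.2 * nm i.2.1.1 / Y) : ℝ) * I) :=
    ⟨_, fun _ _ => rfl⟩
  have hlog : ∀ y : ℝ, 1 ≤ y → -Real.log Y ≤ Real.log (y / Y) := fun y hy => by
    rw [Real.log_div (by linarith) hY0.ne']
    linarith [Real.log_nonneg hy]
  have hvi : ∀ i, Integrable fun τ => h τ * v i τ := fun i => by
    simp only [hv, mul_sub]
    exact (bd2_int hi _).sub (bd2_int hi _)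
  have hvV : ∀ i, ∫ τ, h τ * v i τ = ((Vs (Real.log (Ns i.2.2 * Ns i.1.2 / Y))
      - Vs (Real.log (Ns i.2.2 * Ns i.1.2 * nm i.2.1.1 / Y)) : ℝ) : ℂ) := fun i => by
    have h1 : 1 ≤ Ns i.2.2 * Ns i.1.2 := one_le_mul_of_one_le_of_one_le (one_le_Ns _) (one_le_Ns _)
    simp only [hv, mul_sub]
    rw [integral_sub (bd2_int hi _) (bd2_int hi _), ← hV _ (hlog _ h1),
      ← hV _ (hlog _ (one_le_mul_of_one_le_of_one_le h1 (one_le_nmR i.2.1.ne_zero)))]
    push_cast; ring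
  have e1' : ∑ a ∈ sqf (3 * X / B), ∑ r ∈ sqf (3 * B),
      (if (B ≤ Ns r ∧ Ns r < Real.exp 1 * B ∧ ind r) ∧ Disjoint a r then
        (∑ p ∈ a with (nm p.1 : ℝ) ≤ w ∧ (∀ q ∈ a, key p ≤ key q) ∧ key p < kc w r,
          ∑ s ∈ (a.erase p).powerset with sm s, mu s * mu r *
            ((Vs (Real.log (Ns s * Ns r / Y)) - Vs (Real.log (Ns s * Ns r * nm p.1 / Y)) : ℝ) : ℂ))
          * F (a ∪ r) * lw φ T X (Ns a * Ns r) else 0)
      = ∑ i ∈ S, (c i * ∫ τ, h τ * v i τ) * ∫ θ in (0 : ℝ)..1, K θ * u i θ := by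
    rw [hI, Finset.sum_sigma, Finset.sum_product]
    refine Finset.sum_congr rfl fun a _ => Finset.sum_congr rfl fun r _ => ?_
    rw [Finset.sum_sigma]
    simp only [hc, hvV]
    split_ifs with h0
    · rw [Finset.sum_mul, Finset.sum_mul]
      have e2 : (a.filter fun p => (nm p.1 : ℝ) ≤ w ∧ (∀ q ∈ a, key p ≤ key q) ∧ key p < kc w r)
          = (a.filter (bd2Mn w a)).filter fun p => key p < kc w r := by
        rw [Finset.filter_filter]
        exact Finset.filter_congr fun p _ => by simp only [bd2Mn, and_assoc]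
      rw [e2, Finset.sum_filter]
      refine Finset.sum_congr rfl fun p hp => ?_
      have hp1 : key p ≤ 2 * ⌊w⌋₊ + 2 := by
        have h3 := (hb.kc_lt w ∅ p (Finset.mem_filter.1 hp).2.1).2 (by simp)
        exact h3.le.trans (hb.kc_le w ∅)
      have e3 := hKe (key p) (kc w r) hp1 (hb.kc_le w r)
      simp only [hu, ← mul_assoc, ← e3]
      split_ifs
      · rw [Finset.sum_mul, Finset.sum_mul]
        exact Finset.sum_congr rfl fun s _ => by ring
      · simp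
    · simp
  rw [e1', mul_comm _ (∫ θ in (0 : ℝ)..1, ‖K θ‖), mul_comm (∫ θ in (0 : ℝ)..1, ‖K θ‖)]
  refine bd2_theta S _ u hK (fun i => ?_) fun θ => ?_
  · rw [funext (hu i)]
    exact (bd2_e1_cont _).mul (bd2_e1_cont' _)
  have e4 : ∑ i ∈ S, (c i * ∫ τ, h τ * v i τ) * u i θ
      = ∑ i ∈ S, (c i * u i θ) * ∫ τ, h τ * v i τ :=
    Finset.sum_congr rfl fun i _ => by ring
  rw [e4]
  refine bd2_tau S _ v (fun i _ => hvi i) (hb.int_pow k) hh fun τ => ?_
  have e5 : ∑ i ∈ S, c i * u i θ * v i τ = ((Y⁻¹ : ℝ) : ℂ) ^ (τ * Complex.I) *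
      Bil F (bd2al w θ τ sm) (bG ind w θ τ B) X B (3 * B) T φ := by
    rw [hI, Finset.sum_sigma, Finset.sum_product, Bil, Finset.mul_sum]
    refine Finset.sum_congr rfl fun a _ => ?_
    rw [Finset.mul_sum]
    refine Finset.sum_congr rfl fun r _ => ?_
    rw [Finset.sum_sigma]
    simp only [hc, hu, hv, bG, bd2al]
    by_cases h1 : B ≤ Ns r ∧ Ns r < Real.exp 1 * B ∧ ind r
    · by_cases h2 : Disjoint a r
      · simp only [h1, h2, and_self, if_true, Finset.sum_mul, Finset.mul_sum]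
        refine Finset.sum_congr rfl fun p _ => Finset.sum_congr rfl fun s _ => ?_
        have hp : (0 : ℝ) < nm p.1 := lt_of_lt_of_le one_pos (one_le_nmR p.ne_zero)
        have hs := Ns_pos s
        have hr := Ns_pos r
        have m : ∀ x y : ℝ, 0 ≤ x → 0 ≤ y → ((x * y : ℝ) : ℂ) ^ (τ * I)
            = (x : ℂ) ^ (τ * I) * (y : ℂ) ^ (τ * I) := fun x y hx hy => by
          rw [Complex.ofReal_mul, Complex.mul_cpow_ofReal_nonneg hx hy]
        rw [bd2_exp (by positivity), bd2_exp (by positivity), div_eq_mul_inv, div_eq_mul_inv,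
          m _ _ (by positivity) (by positivity), m _ _ (by positivity) (by positivity),
          m _ _ (by positivity) (by positivity), m _ _ (by positivity) (by positivity),
          m _ _ (by positivity) (by positivity)]
        ring
      · simp [h2]
    · simp only [h1, false_and, if_false]
      simp
  rw [e5, norm_mul, bd2_norm_cpow (by positivity), one_mul]
  exact hM θ τ

theorem bD2 (hb : BA) : BD2 := by
  intro k
  obtain ⟨C1, hC1, hK⟩ := hb.sepK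
  obtain ⟨C2, hC2, hV⟩ := hb.vr (k + 2)
  obtain ⟨J, hJ⟩ : ∃ J : ℝ, J = ∫ τ : ℝ, (1 + |τ|) ^ (-((k : ℝ) + 2)) * (1 + |τ|) ^ k := ⟨_, rfl⟩
  have hJ0 : 0 ≤ J := hJ ▸ integral_nonneg fun τ => by positivity
  refine ⟨2 * C2 * (J + 1) * (3 * C1), by positivity, ?_⟩
  intro F X T Y w U M φ ind sm hφ hT hw hU hwU hY hYX hM hsm hB
  have hY0 : 0 < Y := by linarith
  have hX : 1 ≤ X := hY.trans hYX
  have hX0 : 0 < X := by linarith
  have hwU1 : 1 ≤ w * U := one_le_mul_of_one_le_of_one_le hw hU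
  have hL : 0 ≤ Real.log X := Real.log_nonneg hX
  obtain ⟨K, hKc, hK1, hKe⟩ := hK (2 * ⌊w⌋₊ + 2)
  obtain ⟨h, -, hh, hi, hVe⟩ := hV (Real.log Y) (Real.log_nonneg hY)
  obtain ⟨n, hn⟩ : ∃ n : ℕ, n = ⌊Real.log (w * U)⌋₊ + 2 := ⟨_, rfl⟩
  obtain ⟨Bj, hBj⟩ : ∃ Bj : ℕ → ℝ, ∀ j, Bj j = Y / (w * U) * Real.exp j := ⟨_, fun _ => rfl⟩
  have hB0 : 0 < Y / (w * U) := by positivity
  have hBp : ∀ j, 0 < Bj j := fun j => by rw [hBj]; positivity
  have hl0 : 0 ≤ Real.log (w * U) := Real.log_nonneg hwU1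
  have he3 : Real.exp 1 ≤ 3 := Real.exp_one_lt_d9.le.trans (by norm_num)
  obtain ⟨G, hG⟩ : ∃ G : Finset P → Finset P → ℂ, ∀ a r, G a r =
      (∑ p ∈ a with (nm p.1 : ℝ) ≤ w ∧ (∀ q ∈ a, key p ≤ key q) ∧ key p < kc w r,
        ∑ s ∈ (a.erase p).powerset with sm s, mu s * mu r *
          ((Vs (Real.log (Ns s * Ns r / Y)) - Vs (Real.log (Ns s * Ns r * nm p.1 / Y)) : ℝ) : ℂ))
        * F (a ∪ r) * lw φ T X (Ns a * Ns r) := ⟨_, fun _ _ => rfl⟩
  have hG1 : ∀ a r, G a r ≠ 0 → Ns a * Ns r ≤ 3 * X := by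
    intro a r h0
    rw [hG] at h0
    have h1 := (hφ.supp _ (right_ne_zero_of_mul h0)).2
    have hp : 0 < Ns a * Ns r / X := div_pos (mul_pos (Ns_pos a) (Ns_pos r)) hX0
    have h2 : Real.log (Ns a * Ns r / X) ≤ 1 := by
      by_contra h3
      push Not at h3
      nlinarith
    rw [Real.log_le_iff_le_exp hp, div_le_iff₀ hX0] at h2
    nlinarith
  have hG2 : ∀ a r, G a r ≠ 0 → Y / (w * U) ≤ Ns r ∧ Ns r < Real.exp 1 * Y := by
    intro a r h0
    rw [hG] at h0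
    obtain ⟨p, hp, h1⟩ := Finset.exists_ne_zero_of_sum_ne_zero
      (left_ne_zero_of_mul (left_ne_zero_of_mul h0))
    obtain ⟨s, hs, h2⟩ := Finset.exists_ne_zero_of_sum_ne_zero h1
    have h3 : Vs (Real.log (Ns s * Ns r / Y)) ≠ Vs (Real.log (Ns s * Ns r * nm p.1 / Y)) := by
      intro h4
      rw [h4, sub_self] at h2
      simp at h2
    have hp1 : (1 : ℝ) ≤ nm p.1 := one_le_nmR p.ne_zero
    have hpw := (Finset.mem_filter.1 hp).2.1
    have hsU := hsm s (Finset.mem_filter.1 hs).2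
    have hs1 := one_le_Ns s
    have hr1 := one_le_Ns r
    have hsr : 0 < Ns s * Ns r := by positivity
    have hle : Ns s * Ns r ≤ Ns s * Ns r * nm p.1 := le_mul_of_one_le_right hsr.le hp1
    constructor
    · by_contra h5
      push Not at h5
      rw [lt_div_iff₀ (by positivity)] at h5
      have h6 : Ns s * Ns r * nm p.1 ≤ Y := by
        calc Ns s * Ns r * nm p.1 ≤ U * Ns r * w := by gcongr
          _ = Ns r * (w * U) := by ring
          _ ≤ Y := h5.le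
      refine h3 ?_
      rw [hb.Vs_one _ (Real.log_nonpos (by positivity) ((div_le_one hY0).2 (hle.trans h6))),
        hb.Vs_one _ (Real.log_nonpos (by positivity) ((div_le_one hY0).2 h6))]
    · by_contra h5
      push Not at h5
      have h6 : Real.exp 1 * Y ≤ Ns s * Ns r := h5.trans (le_mul_of_one_le_left (by linarith) hs1)
      refine h3 ?_
      rw [hb.Vs_zero _ ((Real.le_log_iff_exp_le (by positivity)).2 ((le_div_iff₀ hY0).2 h6)),
        hb.Vs_zero _ ((Real.le_log_iff_exp_le (by positivity)).2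
          ((le_div_iff₀ hY0).2 (h6.trans hle)))]
  have hbox : ∀ a r, G a r = ∑ j ∈ Finset.range n,
      if Bj j ≤ Ns r ∧ Ns r < Real.exp 1 * Bj j then G a r else 0 := by
    intro a r
    by_cases h0 : G a r = 0
    · simp [h0]
    obtain ⟨h1, h2⟩ := hG2 a r h0
    have hr := Ns_pos r
    have h3 : 0 ≤ Real.log (Ns r / (Y / (w * U))) :=
      Real.log_nonneg ((one_le_div hB0).2 h1)
    have key : ∀ j : ℕ, (Bj j ≤ Ns r ∧ Ns r < Real.exp 1 * Bj j) ↔
        j = ⌊Real.log (Ns r / (Y / (w * U)))⌋₊ := by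
      intro j
      rw [eq_comm, Nat.floor_eq_iff h3, Real.le_log_iff_exp_le (by positivity),
        Real.log_lt_iff_lt_exp (by positivity), le_div_iff₀ hB0, div_lt_iff₀ hB0, hBj,
        Real.exp_add]
      constructor <;> rintro ⟨h4, h5⟩ <;> constructor <;> linarith
    simp only [key]
    rw [Finset.sum_ite_eq', if_pos]
    rw [Finset.mem_range, hn, Nat.lt_succ_iff, ← Nat.floor_add_one hl0]
    refine Nat.floor_le_floor ?_
    rw [Real.log_le_iff_le_exp (by positivity), div_le_iff₀ hB0, Real.exp_add,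
      Real.exp_log (by positivity)]
    have : w * U * Real.exp 1 * (Y / (w * U)) = Real.exp 1 * Y := by field_simp
    linarith
  have e0 : BDt F X T φ Y w ind sm = ∑ j ∈ Finset.range n,
      ∑ a ∈ sqf (3 * X / Bj j), ∑ r ∈ sqf (3 * Bj j),
        if (Bj j ≤ Ns r ∧ Ns r < Real.exp 1 * Bj j ∧ ind r) ∧ Disjoint a r then G a r else 0 := by
    have e1 : BDt F X T φ Y w ind sm = ∑ j ∈ Finset.range n, ∑ a ∈ sqf (3 * X), ∑ r ∈ sqf (3 * X),
        if (Bj j ≤ Ns r ∧ Ns r < Real.exp 1 * Bj j ∧ ind r) ∧ Disjoint a r then G a r else 0 := by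
      rw [BDt, Finset.sum_comm]
      refine Finset.sum_congr rfl fun a _ => ?_
      rw [Finset.sum_comm, Finset.sum_filter]
      refine Finset.sum_congr rfl fun r _ => ?_
      rw [← hG]
      split_ifs with h0
      · conv_lhs => rw [hbox a r]
        exact Finset.sum_congr rfl fun j _ => by simp only [h0.1, h0.2, and_true]
      · refine (Finset.sum_eq_zero fun j _ => if_neg fun h1 => h0 ⟨h1.2, h1.1.2.2⟩).symm
    rw [e1]
    refine Finset.sum_congr rfl fun j _ => ?_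
    rw [← Finset.sum_product', ← Finset.sum_product']
    refine bd2_sum_eq (fun x _ h0 => ?_) fun x _ h0 => ?_
    all_goals
      obtain ⟨h1, h2⟩ := ite_ne_right_iff.1 h0
      have h3 := hG1 _ _ h2
      have h4 := one_le_Ns x.1
      have h5 := one_le_Ns x.2
      have h6 := hBp j
      rw [Finset.mem_product, mem_sqf, mem_sqf]
    · rw [le_div_iff₀ h6]
      constructor
      · exact (mul_le_mul_of_nonneg_left h1.1.1 (by linarith)).trans h3
      · nlinarith [h1.1.2.1]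
    · constructor <;> nlinarith
  rw [e0]
  have hj : ∀ j ∈ Finset.range n, ‖∑ a ∈ sqf (3 * X / Bj j), ∑ r ∈ sqf (3 * Bj j),
      if (Bj j ≤ Ns r ∧ Ns r < Real.exp 1 * Bj j ∧ ind r) ∧ Disjoint a r then G a r else 0‖
      ≤ C2 * (1 + Real.log X) * M * (J + 1) * (3 * C1 * (1 + Real.log X)) := by
    intro j hj
    have h1 : Y / (w * U) ≤ Bj j := by
      rw [hBj]
      exact le_mul_of_one_le_right hB0.le (Real.one_le_exp (Nat.cast_nonneg j))
    have h2 : Bj j ≤ 3 * Y := by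
      have h3 : (j : ℝ) ≤ Real.log (w * U) + 1 := by
        have h4 : j ≤ ⌊Real.log (w * U)⌋₊ + 1 := by
          rw [Finset.mem_range, hn] at hj; omega
        have h5 : (j : ℝ) ≤ ⌊Real.log (w * U)⌋₊ + 1 := by exact_mod_cast h4
        linarith [Nat.floor_le hl0]
      have h6 : Real.exp j ≤ w * U * 3 := by
        refine (Real.exp_le_exp.2 h3).trans ?_
        rw [Real.exp_add, Real.exp_log (by positivity)]
        gcongr
      rw [hBj]
      calc _ ≤ Y / (w * U) * (w * U * 3) := by gcongr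
        _ = 3 * Y := by field_simp
    simp only [hG]
    have hh' : ∀ τ, ‖h τ‖ ≤ C2 * (1 + Real.log Y) * (1 + |τ|) ^ (-((k : ℝ) + 2)) := fun τ => by
      simpa only [Nat.cast_add, Nat.cast_ofNat] using hh τ
    refine (bd2_box hb hY hKc hKe hi hh' hVe fun θ τ =>
      hB θ τ _ _ h1 h2 (bd2_al_le hb w θ τ sm)).trans ?_
    rw [← hJ]
    have h7 : Real.log Y ≤ Real.log X := Real.log_le_log hY0 hYX
    have h8 : ∫ θ in (0 : ℝ)..1, ‖K θ‖ ≤ 3 * C1 * (1 + Real.log X) := by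
      refine hK1.trans ?_
      have h9 : (((2 * ⌊w⌋₊ + 2 : ℕ) : ℝ) + 1) ≤ 5 * X := by
        have h10 : (⌊w⌋₊ : ℝ) ≤ w := Nat.floor_le (by linarith)
        have h11 : w ≤ X := (le_mul_of_one_le_right (by linarith) hU).trans hwU
        push_cast
        linarith
      have h12 := Real.log_le_log (by positivity) h9
      rw [Real.log_mul (by norm_num) hX0.ne'] at h12
      have h13 : Real.log 5 ≤ 2 := by
        rw [Real.log_le_iff_le_exp (by norm_num)]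
        have := Real.add_one_le_exp (1 : ℝ)
        have h14 : Real.exp 2 = Real.exp 1 * Real.exp 1 := by rw [← Real.exp_add]; norm_num
        nlinarith [Real.exp_one_gt_d9]
      nlinarith
    have h15 : 0 ≤ ∫ θ in (0 : ℝ)..1, ‖K θ‖ :=
      intervalIntegral.integral_nonneg zero_le_one fun _ _ => norm_nonneg _
    have h16 : 0 ≤ Real.log Y := Real.log_nonneg hY
    gcongr
    linarith
  refine (norm_sum_le _ _).trans ((Finset.sum_le_card_nsmul _ _ _ hj).trans ?_)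
  rw [Finset.card_range, nsmul_eq_mul]
  have h1 : (n : ℝ) ≤ 2 * (1 + Real.log X) := by
    have h2 : Real.log (w * U) ≤ Real.log X := Real.log_le_log (by positivity) hwU
    rw [hn]
    push_cast
    linarith [Nat.floor_le hl0]
  calc _ ≤ 2 * (1 + Real.log X) *
        (C2 * (1 + Real.log X) * M * (J + 1) * (3 * C1 * (1 + Real.log X))) := by gcongr
    _ = _ := by ring

end Pat
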