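import Vale.Agent.P006.BDSAux

/-! Elements with a small prime factor: the bounds in the smooth and in the sharp range. -/

noncomputable section
namespace Pat
open QRH Complex MeasureTheory Filter
open scoped ComplexConjugate Classical ContDiff Topology

theorem bDS_le49 {X B : ℝ} (hX : 1 ≤ X) (h3 : 3 ≤ X ^ (6 / 100 : ℝ))
    (hB : B ≤ 3 * X ^ (43 / 100 : ℝ)) : B ≤ X ^ (49 / 100 : ℝ) := by
  rw [show (49 / 100 : ℝ) = 6 / 100 + 43 / 100 by norm_num, Real.rpow_add (by linarith)]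
  exact hB.trans (mul_le_mul_of_nonneg_right h3 (by positivity))

theorem bDS_sqrt {X B : ℝ} (hX : 1 ≤ X) (hB : B ≤ 3 * X ^ (43 / 100 : ℝ)) : B ≤ 3 * √X := by
  rw [Real.sqrt_eq_rpow]
  exact hB.trans (mul_le_mul_of_nonneg_left
    (Real.rpow_le_rpow_of_exponent_le hX (by norm_num)) (by norm_num))

theorem bDS_leX {X t : ℝ} (hX : 1 ≤ X) (ht : t ≤ 1) : X ^ t ≤ X := by
  simpa using Real.rpow_le_rpow_of_exponent_le hX ht

theorem bDS_inv {X c y : ℝ} (hX : 0 < X) (hy : 0 < y) (h : 1 * y ≤ X ^ c) : X ^ (-c) ≤ 1 / y := by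
  rw [Real.rpow_neg hX.le, one_div]
  exact inv_anti₀ hy (by linarith)

theorem bDS_fin {C K u L X B N2 N1 b2 b1 : ℝ} (hC : 0 < C) (hK : 0 < K) (hu : 1 ≤ u) (hL : 1 ≤ L)
    (hX : 1 ≤ X) (hB1 : X ^ (39 / 100 : ℝ) ≤ B) (hs : X ^ (-(1 / 100) : ℝ) ≤ 1 / L ^ 7)
    (n2 : √N2 ≤ K * (√(X / B) * L ^ 2)) (n1 : N1 ≤ K * (X / B * L))
    (hb2 : b2 ≤ 1 ^ 2 * (12 * (3 * B))) (hb1 : b1 ≤ 1 * (12 * (3 * B))) (hb0 : 0 ≤ b1) :
    C * u * (√N2 * (√(X / B * b2) + (X / B) ^ (5 / 12 : ℝ) * B ^ (-(1 / 3) : ℝ) * b1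
          + (X / B) ^ (1 / 3 : ℝ) * B ^ (5 / 6 : ℝ) / L ^ 7)
      + N1 * (X / B) ^ (-(1 / 6) : ℝ) * B ^ (5 / 6 : ℝ) / L ^ 7)
      ≤ 44 * (C * K) * X ^ (5 / 6 : ℝ) / L ^ 5 * u ^ 1 := by
  have hXp : 0 < X := by linarith
  have hBp : 0 < B := lt_of_lt_of_le (by positivity) hB1
  have hLp : 0 < L := by linarith
  have hup : 0 < u := by linarith
  have b3 : √(X / B * b2) ≤ 6 * √(X / B * B) := by
    rw [show (6 : ℝ) = √36 by rw [show (36 : ℝ) = 6 ^ 2 by norm_num, Real.sqrt_sq (by norm_num)],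
      ← Real.sqrt_mul (by norm_num)]
    refine Real.sqrt_le_sqrt ?_
    calc _ ≤ X / B * (1 ^ 2 * (12 * (3 * B))) := by gcongr
      _ = _ := by ring
  have t3 := bDS_t3 hXp hBp
  have t4 := bDS_t4 hXp hBp
  have hZp : 0 < X ^ (5 / 6 : ℝ) := by positivity
  have t1 := (bDS_t1 hX hB1).trans (mul_le_mul_of_nonneg_left hs hZp.le)
  have t2 := (bDS_t2 hX hB1).trans (mul_le_mul_of_nonneg_left hs hZp.le)
  have hLL : L ≤ L ^ 2 := by nlinarith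
  have p1 : 0 < (X / B) ^ (5 / 12 : ℝ) := by positivity
  have p2 : 0 < B ^ (-(1 / 3) : ℝ) := by positivity
  have p3 : 0 < (X / B) ^ (1 / 3 : ℝ) := by positivity
  have p4 : 0 < B ^ (5 / 6 : ℝ) := by positivity
  have p5 : 0 < (X / B) ^ (-(1 / 6) : ℝ) := by positivity
  have p6 : 0 ≤ √(X / B * B) := Real.sqrt_nonneg _
  have p7 : 0 ≤ √(X / B * b2) := Real.sqrt_nonneg _
  have p8 : 0 ≤ √(X / B) := Real.sqrt_nonneg _
  have p9 : 0 < X / B := by positivity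
  generalize (X / B) ^ (5 / 12 : ℝ) = a1 at *
  generalize B ^ (-(1 / 3) : ℝ) = a2 at *
  generalize (X / B) ^ (1 / 3 : ℝ) = a3 at *
  generalize B ^ (5 / 6 : ℝ) = a4 at *
  generalize (X / B) ^ (-(1 / 6) : ℝ) = a5 at *
  generalize √(X / B * B) = a6 at *
  generalize √(X / B * b2) = a7 at *
  generalize √(X / B) = a8 at *
  generalize X ^ (5 / 6 : ℝ) = Z at *
  generalize X / B = A at *
  calc _ ≤ C * u * (K * (a8 * L ^ 2) * (6 * a6 + a1 * a2 * (1 * (12 * (3 * B))) + a3 * a4 / L ^ 7)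
        + K * (A * L) * a5 * a4 / L ^ 7) := by gcongr
    _ = C * u * K * (L ^ 2 * (6 * (a8 * a6) + 36 * (a8 * (a1 * a2 * B)) + a8 * (a3 * a4) / L ^ 7)
        + L * (A * a5 * a4) / L ^ 7) := by ring
    _ ≤ C * u * K * (L ^ 2 * (6 * (Z * (1 / L ^ 7)) + 36 * (Z * (1 / L ^ 7)) + Z / L ^ 7)
        + L ^ 2 * Z / L ^ 7) := by
        rw [t3, t4]
        gcongr
    _ = _ := by field_simp; ring

theorem bDS_sm (h4 : SCB) (k1 k2 k3 : ℕ) : ∃ k : ℕ, k2 ≤ k ∧ ∀ᶠ X : ℝ in atTop,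
    ∀ θ τ B : ℝ, X ^ (39 / 100 : ℝ) ≤ B → B ≤ X →
      Small (bG (Rough (Real.log X ^ k)) (wX X) θ τ B) B (3 * B) (Real.log X ^ k3)
        ((1 + |τ|) / Real.log X ^ k1) := by
  obtain ⟨c, C4, hc, hC4, H4⟩ := h4
  obtain ⟨k, hk2, hkc⟩ : ∃ k : ℕ, k2 ≤ k ∧ ((k1 + k3 + 2 : ℕ) : ℝ) ≤ k * c := by
    refine ⟨max k2 ⌈((k1 + k3 + 2 : ℕ) : ℝ) / c⌉₊, le_max_left _ _, ?_⟩
    rw [← div_le_iff₀ hc]
    exact (Nat.le_ceil _).trans (Nat.cast_le.2 (le_max_right _ _))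
  refine ⟨k, hk2, ?_⟩
  filter_upwards [eventually_ge_atTop (2 : ℝ), bDS_evlog 1, bDS_evlog (2 * C4),
    bDS_evpow 3 (39 / 100) (by norm_num)] with X hX2 hL hLC h39 θ τ B hB1 hBX
  have hB3 : 3 ≤ B := h39.trans hB1
  have hBp : 0 < B := by linarith
  have hwB : wX X < B :=
    (Real.rpow_lt_rpow_of_exponent_lt (by linarith) (by norm_num)).trans_le hB1
  have e1 : 1 + Real.log B ≤ 2 * Real.log X := by
    have := Real.log_le_log hBp hBX
    linarith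
  have e0 : 0 ≤ Real.log B := Real.log_nonneg (by linarith)
  generalize Real.log X = L at *
  have hLp : 0 < L := by linarith
  have hw1 : 1 ≤ L ^ k := one_le_pow₀ hL
  have hpow : L ^ (k1 + k3 + 2) ≤ (L ^ k) ^ c := by
    rw [← Real.rpow_natCast, ← Real.rpow_natCast, ← Real.rpow_mul hLp.le]
    exact Real.rpow_le_rpow_of_exponent_le hL hkc
  rw [bDS_bG_eq]
  refine bDS_small (H4 (L ^ k) (wX X) θ τ B (3 * B) hw1 (by linarith) hwB le_rfl) hBp.le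
    ((pow_le_pow_right₀ hL (by omega)).trans hpow) ?_
  have e2 : C4 * (1 + Real.log B) ≤ L ^ 2 := by nlinarith
  have e3 : (L ^ k) ^ (-c) ≤ 1 / L ^ (k1 + 2) :=
    bDS_inv (by positivity) (by positivity)
      (by rw [one_mul]; exact (pow_le_pow_right₀ hL (by omega)).trans hpow)
  calc C4 * (1 + Real.log B) * (L ^ k) ^ (-c) * (1 + |τ|)
      ≤ L ^ 2 * (1 / L ^ (k1 + 2)) * (1 + |τ|) := by gcongr
    _ = (1 + |τ|) / L ^ k1 := by field_simp; ring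

theorem bDS_P1 (hb : BA) (h3 : SmB) (h4 : SCB) {φ : ℝ → ℂ} (k0 : ℕ) (hφ : Bump φ) :
    ∃ (k2 : ℕ) (C : ℝ), 0 < C ∧ ∀ᶠ X : ℝ in atTop, ∀ (T θ τ B : ℝ) (α : Finset P → ℂ), 1 ≤ T →
      T ≤ Real.log X ^ k0 → X ^ (39 / 100 : ℝ) ≤ B → B ≤ 3 * X ^ (43 / 100 : ℝ) →
      (∀ a, ‖α a‖ ≤ 2 * 2 ^ a.card) →
      ‖Bil dl α (bG (Rough (Real.log X ^ k2)) (wX X) θ τ B) X B (3 * B) T φ‖
        ≤ C * X ^ (5 / 6 : ℝ) / Real.log X ^ 5 * (1 + |τ|) ^ 1 := by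
  obtain ⟨k1, k2, k3, δc, C, X0, hδ0, hδ1, hC, H⟩ := h3 φ 3 (1 / 100) 1 1 k0 7 0 hφ (by norm_num)
    (by norm_num) le_rfl one_pos one_pos
  obtain ⟨K, hK, HK⟩ := bDS_div hb
  obtain ⟨k, hk, Hs⟩ := bDS_sm h4 k1 k2 k3
  refine ⟨k, 44 * (C * K), by positivity, ?_⟩
  filter_upwards [eventually_ge_atTop X0, eventually_ge_atTop (1 : ℝ), bDS_evlog 1, Hs,
    bDS_evpow 3 (6 / 100) (by norm_num), bDS_evpow 3 (39 / 100) (by norm_num),
    bDS_ev 1 (1 / 100) 7 (by norm_num)] with X hX0 hX hL hsm h6 h39 h7 T θ τ B α hT hT2 hB1 hB2 hα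
  have hXp : 0 < X := by linarith
  have hB3 : 3 ≤ B := h39.trans hB1
  have hBp : 0 < B := by linarith
  have hB49 := bDS_le49 hX h6 hB2
  have hBX : B ≤ X := hB49.trans (bDS_leX hX (by norm_num))
  have hLp : 0 < Real.log X := by linarith
  have hu : 1 ≤ 1 + |τ| := by linarith [abs_nonneg τ]
  have hgb : GB (bG (Rough (Real.log X ^ k)) (wX X) θ τ B) B 3 (Real.log X ^ k) :=
    bDS_gb _ _ _ hBp.le fun _ h => h
  have H1 := H α _ X B T (Real.log X ^ k) (1 + |τ|) hX0 hT hT2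
    ((Real.rpow_le_rpow_of_exponent_le hX (by norm_num)).trans hB1) (bDS_sqrt hX hB2)
    (pow_le_pow_right₀ hL hk) hu hgb (hsm θ τ B hB1 hBX)
    (Or.inl (hB49.trans (Real.rpow_le_rpow_of_exponent_le hX (by linarith))))
  have hA : 1 ≤ X / B := (one_le_div hBp).2 hBX
  have hA3 : 3 * (X / B) ≤ X := by
    rw [← mul_div_assoc, div_le_iff₀ hBp, mul_comm]
    exact mul_le_mul_of_nonneg_left hB3 hXp.le
  obtain ⟨n2, n1⟩ := HK α X (X / B) hA hA3 hL hα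
  rw [← mul_div_assoc] at n2 n1
  exact H1.trans (bDS_fin hC hK hu hL hX hB1 (bDS_inv hXp (by positivity) h7) n2 n1
    (bDS_nrm2 (by linarith) hgb.bd) (bDS_nrm1 (by linarith) hgb.bd) (bDS_nrm1_nonneg _ _))

theorem bDS_P2 (hb : BA) (h5 : E3) {φ : ℝ → ℂ} (k2 : ℕ) (hφ : Bump φ) :
    ∃ C : ℝ, 0 < C ∧ ∀ᶠ X : ℝ in atTop, ∀ (T θ τ B : ℝ) (α : Finset P → ℂ), 1 ≤ T →
      X ^ (39 / 100 : ℝ) ≤ B → B ≤ 3 * X ^ (43 / 100 : ℝ) → (∀ a, ‖α a‖ ≤ 2) →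
      ‖Bil dl α (bG (fun b => X ^ (1 / 100 : ℝ) <
          Ns (b.filter fun p => (nm p.1 : ℝ) ≤ Real.log X ^ k2)) (wX X) θ τ B) X B (3 * B) T φ‖
        ≤ C * X ^ (5 / 6 : ℝ) / Real.log X ^ 5 * (1 + |τ|) ^ 1 := by
  obtain ⟨c, C6, hc, hC6, H6⟩ := hb.rankin k2 (1 / 100) (by norm_num)
  obtain ⟨C5, hC5, H5⟩ := h5 φ 3 (c / 4) hφ (by norm_num) (by positivity)
  refine ⟨C5 * √(2160 * C6), by positivity, ?_⟩
  filter_upwards [eventually_ge_atTop (3 : ℝ), bDS_evlog 1, bDS_evpow 3 (6 / 100) (by norm_num),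
    bDS_ev 1 (c / 4) 5 (by positivity)] with X hX3 hL h6 h7 T θ τ B α hT hB1 hB2 hα
  have hX : 1 ≤ X := by linarith
  have hXp : 0 < X := by linarith
  have hB : 1 ≤ B := (Real.one_le_rpow hX (by norm_num)).trans hB1
  have hBp : 0 < B := by linarith
  have hBX : B ≤ X := (bDS_le49 hX h6 hB2).trans (bDS_leX hX (by norm_num))
  have hLp : 0 < Real.log X := by linarith
  have hu : 1 ≤ (1 + |τ|) ^ 1 := by rw [pow_one]; linarith [abs_nonneg τ]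
  refine (H5 α _ X B T hB hBX hT).trans (le_trans ?_ (le_mul_of_one_le_right (by positivity) hu))
  have n2 := bDS_nrm2 (L := 3 * X / B) (by positivity) hα
  have b2 := (bDS_nrm2_ind _ (wX X) θ τ B (3 * B)).trans (H6 X (3 * B) hX3 (by positivity))
  have e1 : X / B ≤ X ^ (2 / 3 : ℝ) := by
    rw [div_le_iff₀ hBp]
    calc X = X ^ (61 / 100 : ℝ) * X ^ (39 / 100 : ℝ) := by
          rw [← Real.rpow_add hXp]; norm_num
      _ ≤ X ^ (2 / 3 : ℝ) * B :=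
          mul_le_mul (Real.rpow_le_rpow_of_exponent_le hX (by norm_num)) hB1 (by positivity)
            (by positivity)
  have e2 : B ≤ 3 * X ^ (2 / 3 : ℝ) := hB2.trans (mul_le_mul_of_nonneg_left
    (Real.rpow_le_rpow_of_exponent_le hX (by norm_num)) (by norm_num))
  have e3 : X / B + B + X ^ (2 / 3 : ℝ) ≤ 5 * X ^ (2 / 3 : ℝ) := by linarith
  have e4 : X * X ^ (-c) * X ^ (2 / 3 : ℝ) = (X ^ (5 / 6 : ℝ) * X ^ (-(c / 2))) ^ 2 := by
    obtain ⟨l, rfl⟩ := bDS_exp hXp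
    simp only [sq, ← Real.exp_add, ← Real.exp_mul]
    congr 1
    ring
  have e5 : X ^ (c / 4) * X ^ (-(c / 2)) = X ^ (-(c / 4)) := by
    rw [← Real.rpow_add hXp]
    congr 1
    ring
  have hs : X ^ (-(c / 4)) ≤ 1 / Real.log X ^ 5 := bDS_inv hXp (by positivity) h7
  have hn := bDS_nrm2_nonneg (bG (fun b => X ^ (1 / 100 : ℝ) <
    Ns (b.filter fun p => (nm p.1 : ℝ) ≤ Real.log X ^ k2)) (wX X) θ τ B) (3 * B)
  calc _ ≤ C5 * X ^ (c / 4) * √(2 ^ 2 * (12 * (3 * X / B)) * (C6 * (3 * B) * X ^ (-c))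
          * (5 * X ^ (2 / 3 : ℝ))) := by gcongr
    _ = C5 * X ^ (c / 4) * √(2160 * C6 * (X * X ^ (-c) * X ^ (2 / 3 : ℝ))) := by
        congr 2
        field_simp
        ring
    _ = C5 * √(2160 * C6) * X ^ (5 / 6 : ℝ) * (X ^ (c / 4) * X ^ (-(c / 2))) := by
        rw [e4, Real.sqrt_mul (by positivity), Real.sqrt_sq (by positivity)]
        ring
    _ ≤ C5 * √(2160 * C6) * X ^ (5 / 6 : ℝ) * (1 / Real.log X ^ 5) := by
        rw [e5]
        gcongr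
    _ = _ := by ring

theorem bDS_log {L : ℝ} (hL : 1 ≤ L) : (1 + L) ^ 3 ≤ 8 * L ^ 3 := by
  calc (1 + L) ^ 3 ≤ (2 * L) ^ 3 := pow_le_pow_left₀ (by linarith) (by linarith) 3
    _ = _ := by ring

theorem bDS (hb : BA) (h1 : BD1) (h2 : BD2) (h3 : SmB) (h4 : SCB) (h5 : E3) : BDS := by
  intro φ k0 hφ
  obtain ⟨k2, C1, hC1, P1⟩ := bDS_P1 hb h3 h4 k0 hφ
  obtain ⟨C2, hC2, P2⟩ := bDS_P2 hb h5 k2 hφ
  obtain ⟨C0, hC0, H2⟩ := h2 1
  obtain ⟨X0, hX0⟩ := eventually_atTop.1 (P1.and (P2.and ((eventually_ge_atTop (1 : ℝ)).and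
    ((bDS_evlog 1).and (bDS_ev 1 (3 / 400) k0 (by norm_num))))))
  refine ⟨8 * C0 * (C1 + C2), X0, by positivity, fun X T hX hT hT2 => ?_⟩
  obtain ⟨p1, p2, hX1, hL, hk⟩ := hX0 X hX
  have hXp : 0 < X := by linarith
  have hLp : 0 < Real.log X := by linarith
  have hY1 := bDS_Y1_le hXp.le hT
  have hY2 := bDS_Y1_ge hXp hT (hT2.trans (by simpa using hk))
  rw [show (43 / 100 - 4 / 3 * (3 / 400) : ℝ) = 42 / 100 by norm_num] at hY2
  have hw : 1 ≤ wX X := Real.one_le_rpow hX1 (by norm_num)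
  have hU : 1 ≤ X ^ (1 / 100 : ℝ) := Real.one_le_rpow hX1 (by norm_num)
  have hwU : wX X * X ^ (1 / 100 : ℝ) = X ^ (3 / 100 : ℝ) := by
    unfold wX
    rw [← Real.rpow_add hXp]
    norm_num
  have hwY : wX X ≤ Y1 X T := (Real.rpow_le_rpow_of_exponent_le hX1 (by norm_num)).trans hY2
  have hYX : Y1 X T ≤ X := hY1.trans (bDS_leX hX1 (by norm_num))
  have hlow : X ^ (39 / 100 : ℝ) ≤ Y1 X T / (wX X * X ^ (1 / 100 : ℝ)) := by
    rw [hwU, le_div_iff₀ (by positivity), ← Real.rpow_add hXp]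
    exact le_trans (by norm_num) hY2
  have hlow2 : X ^ (39 / 100 : ℝ) ≤ Y1 X T / (wX X * 1) :=
    hlow.trans (by have := hw.trans hwY; gcongr)
  have q1 := H2 dl X T (Y1 X T) (wX X) (X ^ (1 / 100 : ℝ)) (C1 * X ^ (5 / 6 : ℝ) / Real.log X ^ 5) φ
    (Rough (Real.log X ^ k2))
    (fun s => (∀ p ∈ s, (nm p.1 : ℝ) ≤ Real.log X ^ k2) ∧ Ns s ≤ X ^ (1 / 100 : ℝ)) hφ hT hw hU
    (hwU.trans_le (bDS_leX hX1 (by norm_num))) (hw.trans hwY) hYX (by positivity)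
    (fun s hs => hs.2) fun θ τ B α hB1 hB2 hα =>
      p1 T θ τ B α hT hT2 (hlow.trans hB1) (by linarith) fun a => bDS_alpha (hα a)
  have q2 := H2 dl X T (Y1 X T) (wX X) 1 (C2 * X ^ (5 / 6 : ℝ) / Real.log X ^ 5) φ
    (fun b => X ^ (1 / 100 : ℝ) < Ns (b.filter fun p => (nm p.1 : ℝ) ≤ Real.log X ^ k2))
    (fun s => s = ∅) hφ hT hw le_rfl (by linarith) (hw.trans hwY) hYX (by positivity)
    (fun s hs => by rw [hs, Ns_empty]) fun θ τ B α hB1 hB2 hα =>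
      p2 T θ τ B α hT (hlow2.trans hB1) (by linarith) fun a => bDS_alpha0 (fun _ h => h) (hα a)
  beta_reduce
  rw [h1 dl X T (Y1 X T) (wX X) (Real.log X ^ k2) (X ^ (1 / 100 : ℝ)) φ hφ hXp hT hw hwY]
  refine (norm_add_le _ _).trans ((add_le_add q1 q2).trans ?_)
  have e1 := bDS_log hL
  have e2 : 1 / Real.log X ^ 2 ≤ Real.log X ^ (-(3 / 2) : ℝ) := by
    rw [one_div, ← Real.rpow_natCast, ← Real.rpow_neg hLp.le]
    exact Real.rpow_le_rpow_of_exponent_le hL (by norm_num)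
  calc _ ≤ C0 * (8 * Real.log X ^ 3) * (C1 * X ^ (5 / 6 : ℝ) / Real.log X ^ 5)
        + C0 * (8 * Real.log X ^ 3) * (C2 * X ^ (5 / 6 : ℝ) / Real.log X ^ 5) := by gcongr
    _ = 8 * C0 * (C1 + C2) * X ^ (5 / 6 : ℝ) * (1 / Real.log X ^ 2) := by field_simp
    _ ≤ _ := by gcongr

theorem bDS_rough_one (b : Finset P) : Rough 1 b := fun p _ => by
  have : (4 : ℝ) ≤ nm p.1 := by exact_mod_cast P.four_le_nm p
  linarith

theorem bDS_sq {x K Z s t : ℝ} (hx : 0 ≤ x) (hK : 0 ≤ K) (hZ : 0 ≤ Z) (hs : 0 ≤ s) (ht : 0 ≤ t)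
    (h : x ^ 2 ≤ K * Z ^ 2 * (s ^ 2 + 2 * t ^ 2)) : x ≤ √K * Z * (s + 2 * t) := by
  refine (pow_le_pow_iff_left₀ hx (by positivity) two_ne_zero).1 (h.trans ?_)
  rw [mul_pow, mul_pow, Real.sq_sqrt hK]
  gcongr
  nlinarith [mul_nonneg hs ht, sq_nonneg t]

theorem bDH (hb : BA) (h1 : BD1) (h2 : BD2) (h3 : ShB) : BDH := by
  intro φ hφ
  obtain ⟨δc, c, C, X1, hδ0, hδ1, hc, hC, H⟩ := h3 φ 3 (1 / 100) 1 1 0 hφ (by norm_num)
    (by norm_num) le_rfl one_pos one_pos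
  obtain ⟨C0, hC0, H2⟩ := h2 0
  set d : ℝ := min c (1 / 50) / 4 with hd
  have hd0 : 0 < d := by positivity
  have hd1 : 4 * d ≤ c := by linarith [min_le_left c (1 / 50)]
  have hd2 : 4 * d ≤ 1 / 50 := by linarith [min_le_right c (1 / 50)]
  obtain ⟨X0, hX0⟩ := eventually_atTop.1 ((eventually_ge_atTop X1).and
    ((eventually_ge_atTop (1 : ℝ)).and ((bDS_evlog 1).and
      ((bDS_evpow 3 (6 / 100) (by norm_num)).and (bDS_ev 1 d 3 hd0)))))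
  refine ⟨3, d, 16 * C0 * √(144 * C), X0, hd0, by positivity, fun X T hX hT hT2 => ?_⟩
  obtain ⟨hXX, hX1, hL, h6, hk⟩ := hX0 X hX
  have hXp : 0 < X := by linarith
  have hTp : 0 < T := by linarith
  have hLp : 0 < Real.log X := by linarith
  have hY1 := bDS_Y1_le hXp.le hT
  have hY2 := bDS_Y1_ge hXp hT hT2
  have hw : 1 ≤ wX X := Real.one_le_rpow hX1 (by norm_num)
  have hwY : wX X ≤ Y1 X T := (Real.rpow_le_rpow_of_exponent_le hX1 (by norm_num)).trans hY2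
  have hYX : Y1 X T ≤ X := hY1.trans (bDS_leX hX1 (by norm_num))
  set Z := X ^ (5 / 6 : ℝ) with hZ
  have hZp : 0 < Z := by positivity
  have q1 := H2 tt X T (Y1 X T) (wX X) 1
    (√(144 * C) * Z * (T ^ (-(2 / 5) : ℝ) + 2 * X ^ (-(2 * d)))) φ (Rough 1)
    (fun s => (∀ p ∈ s, (nm p.1 : ℝ) ≤ 1) ∧ Ns s ≤ 1) hφ hT hw le_rfl (by linarith)
    (hw.trans hwY) hYX (by positivity) (fun s hs => hs.2) fun θ τ B α hB1 hB2 hα => by
      obtain ⟨t1, t2⟩ := bDS_t6 hX1 hT hT2 hB1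
      have hBp : 0 < B := lt_of_lt_of_le (by positivity) t1
      have hB3 : B ≤ 3 * X ^ (43 / 100 : ℝ) := by linarith
      have hα2 : ∀ a, ‖α a‖ ≤ 2 := fun a => bDS_alpha0 (fun s hs =>
        Finset.eq_empty_of_forall_notMem fun p hp => (bDS_rough_one s p hp).not_ge (hs.1 p hp))
        (hα a)
      have H1 := H α _ X B T 1 1 hXX hT hT2 t1 (bDS_sqrt hX1 hB3) le_rfl le_rfl
        (bDS_gb (ind := Rough 1) (wX X) θ τ hBp.le fun _ h => h)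
        (Or.inl ((bDS_le49 hX1 h6 hB3).trans
          (Real.rpow_le_rpow_of_exponent_le hX1 (by linarith))))
      have n2 := bDS_nrm2 (L := 3 * X / B) (by positivity) hα2
      have t5 := bDS_t5 hXp hBp
      have hM : 0 ≤ MM (X / B) B := by unfold MM; positivity
      have u1 : (T ^ (-(2 / 5) : ℝ)) ^ 2 = T ^ (-(4 / 5) : ℝ) := by
        rw [sq, ← Real.rpow_add hTp]
        norm_num
      have u2 : (X ^ (-(2 * d))) ^ 2 = X ^ (-(4 * d)) := by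
        rw [sq, ← Real.rpow_add hXp]
        congr 1
        ring
      have u3 : X ^ (-c) ≤ X ^ (-(4 * d)) := Real.rpow_le_rpow_of_exponent_le hX1 (by linarith)
      have u4 : X ^ (-(1 / 50) : ℝ) ≤ X ^ (-(4 * d)) :=
        Real.rpow_le_rpow_of_exponent_le hX1 (by linarith)
      rw [pow_zero, mul_one]
      refine bDS_sq (norm_nonneg _) (by positivity) hZp.le (by positivity) (by positivity)
        (H1.trans ?_)
      rw [u1, u2]
      calc _ ≤ C * 1 * (2 ^ 2 * (12 * (3 * X / B))) *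
            (X / T + MM (X / B) B * (T ^ (-(4 / 5) : ℝ) + X ^ (-(4 * d)))) := by gcongr
        _ = 144 * C * (X / B * (X / T)
            + X / B * MM (X / B) B * (T ^ (-(4 / 5) : ℝ) + X ^ (-(4 * d)))) := by ring
        _ ≤ 144 * C * (Z ^ 2 * X ^ (-(4 * d))
            + Z ^ 2 * (T ^ (-(4 / 5) : ℝ) + X ^ (-(4 * d)))) := by
            rw [t5]
            have t7 : X / B * (X / T) ≤ Z ^ 2 * X ^ (-(4 * d)) :=
              t2.trans (mul_le_mul_of_nonneg_left u4 (by positivity))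
            exact mul_le_mul_of_nonneg_left (add_le_add t7 le_rfl) (by positivity)
        _ = _ := by ring
  have q2 : BDt tt X T φ (Y1 X T) (wX X)
      (fun b => 1 < Ns (b.filter fun p => (nm p.1 : ℝ) ≤ 1)) (fun s => s = ∅) = 0 := by
    refine Finset.sum_eq_zero fun a _ => Finset.sum_eq_zero fun r hr => ?_
    have e : 1 < Ns (r.filter fun p => (nm p.1 : ℝ) ≤ 1) := (Finset.mem_filter.1 hr).2.2
    rw [Finset.filter_eq_empty_iff.2 fun p hp => (bDS_rough_one r p hp).not_ge, Ns_empty] at e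
    exact absurd e (lt_irrefl _)
  beta_reduce
  rw [h1 tt X T (Y1 X T) (wX X) 1 1 φ hφ hXp hT hw hwY, q2, add_zero]
  refine q1.trans ?_
  have e1 := bDS_log hL
  have e2 : T ^ (-(2 / 5) : ℝ) ≤ T ^ (-d) := Real.rpow_le_rpow_of_exponent_le hT (by linarith)
  have e3 : Real.log X ^ 3 * X ^ (-(2 * d)) ≤ X ^ (-d) := by
    calc Real.log X ^ 3 * X ^ (-(2 * d)) ≤ X ^ d * X ^ (-(2 * d)) := by
          gcongr
          linarith
      _ = X ^ (-d) := by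
          rw [← Real.rpow_add hXp]
          congr 1
          ring
  calc _ ≤ C0 * (8 * Real.log X ^ 3) * (√(144 * C) * Z * (T ^ (-d) + 2 * X ^ (-(2 * d)))) := by
        gcongr
    _ = 8 * C0 * √(144 * C) * Z *
        (Real.log X ^ 3 * T ^ (-d) + 2 * (Real.log X ^ 3 * X ^ (-(2 * d)))) := by ring
    _ ≤ 8 * C0 * √(144 * C) * Z * (2 * (Real.log X ^ 3 * T ^ (-d)) + 2 * X ^ (-d)) := by
        have : 0 ≤ Real.log X ^ 3 * T ^ (-d) := by positivity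
        exact mul_le_mul_of_nonneg_left (by linarith) (by positivity)
    _ = _ := by ring

end Pat
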