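import Vale.Agent.P006.IfC
import Vale.Agent.P026.Cnt

/-! Elements with a small prime factor: auxiliary estimates. -/

noncomputable section
namespace Pat
open QRH Complex MeasureTheory Filter
open scoped ComplexConjugate Classical ContDiff Topology

theorem bDS_ev (K c : ℝ) (k : ℕ) (hc : 0 < c) :
    ∀ᶠ X : ℝ in atTop, K * Real.log X ^ k ≤ X ^ c := by
  have h := (isLittleO_log_rpow_rpow_atTop (k : ℝ) hc).bound
    (c := (|K| + 1)⁻¹) (by positivity)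
  filter_upwards [h, eventually_ge_atTop (1 : ℝ)] with X hX h1
  have hl : 0 ≤ Real.log X := Real.log_nonneg h1
  rw [Real.rpow_natCast, Real.norm_of_nonneg (by positivity),
    Real.norm_of_nonneg (by positivity)] at hX
  have h2 : (|K| + 1) * Real.log X ^ k ≤ X ^ c := by
    rwa [← div_eq_inv_mul, le_div_iff₀ (by positivity), mul_comm] at hX
  refine le_trans (mul_le_mul_of_nonneg_right ?_ (by positivity)) h2
  linarith [le_abs_self K]

theorem bDS_evlog (K : ℝ) : ∀ᶠ X : ℝ in atTop, K ≤ Real.log X :=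
  Real.tendsto_log_atTop.eventually_ge_atTop K

theorem bDS_evpow (K c : ℝ) (hc : 0 < c) : ∀ᶠ X : ℝ in atTop, K ≤ X ^ c := by
  simpa using bDS_ev K c 0 hc

theorem bDS_e1 (x : ℝ) : ‖e1 x‖ = 1 := by
  have : e1 x = Complex.exp (((2 * Real.pi * x : ℝ) : ℂ) * I) := by
    unfold e1
    congr 1
    push_cast
    ring
  rw [this, Complex.norm_exp_ofReal_mul_I]

theorem bDS_bG_le (ind : Finset P → Prop) (w θ τ B : ℝ) (b : Finset P) :
    ‖bG ind w θ τ B b‖ ≤ 1 := by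
  unfold bG
  split_ifs
  · rw [norm_mul, norm_mul, norm_mu, bDS_e1,
      Complex.norm_cpow_eq_rpow_re_of_pos (Ns_pos b)]
    simp
  · simp

theorem bDS_bG_ne {ind : Finset P → Prop} {w θ τ B : ℝ} {b : Finset P}
    (h : bG ind w θ τ B b ≠ 0) : B ≤ Ns b ∧ Ns b < Real.exp 1 * B ∧ ind b := by
  by_contra h1
  exact h (by unfold bG; rw [if_neg h1])

theorem bDS_gb {ind : Finset P → Prop} {w1 : ℝ} (w θ τ : ℝ) {B : ℝ} (hB : 0 ≤ B)
    (h : ∀ b, ind b → Rough w1 b) : GB (bG ind w θ τ B) B 3 w1 := by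
  refine ⟨bDS_bG_le ind w θ τ B, fun c hc => ?_, fun b hb => h b (bDS_bG_ne hb).2.2⟩
  obtain ⟨h1, h2, -⟩ := bDS_bG_ne hc
  refine ⟨h1, h2.le.trans (mul_le_mul_of_nonneg_right ?_ hB)⟩
  have := Real.exp_one_lt_d9
  linarith

theorem bDS_bG_eq (w1 w θ τ B : ℝ) : bG (Rough w1) w θ τ B = bR w1 w θ τ B := rfl

theorem bDS_nrm2_nonneg (x : Finset P → ℂ) (L : ℝ) : 0 ≤ nrm2 x L :=
  Finset.sum_nonneg fun _ _ => by positivity

theorem bDS_nrm1_nonneg (x : Finset P → ℂ) (L : ℝ) : 0 ≤ nrm1 x L :=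
  Finset.sum_nonneg fun _ _ => norm_nonneg _

theorem bDS_nrm2 {x : Finset P → ℂ} {K L : ℝ} (hL : 0 ≤ L) (h : ∀ c, ‖x c‖ ≤ K) :
    nrm2 x L ≤ K ^ 2 * (12 * L) := by
  have h1 : nrm2 x L ≤ (sqf L).card • K ^ 2 :=
    Finset.sum_le_card_nsmul _ _ _ fun c _ => pow_le_pow_left₀ (norm_nonneg _) (h c) 2
  rw [nsmul_eq_mul, mul_comm] at h1
  exact h1.trans (mul_le_mul_of_nonneg_left (card_sqf_le hL) (by positivity))

theorem bDS_nrm1 {x : Finset P → ℂ} {K L : ℝ} (hL : 0 ≤ L) (h : ∀ c, ‖x c‖ ≤ K) :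
    nrm1 x L ≤ K * (12 * L) := by
  have hK : 0 ≤ K := (norm_nonneg _).trans (h ∅)
  have h1 : nrm1 x L ≤ (sqf L).card • K :=
    Finset.sum_le_card_nsmul _ _ _ fun c _ => h c
  rw [nsmul_eq_mul, mul_comm] at h1
  exact h1.trans (mul_le_mul_of_nonneg_left (card_sqf_le hL) hK)

theorem bDS_nrm2_ind (ind : Finset P → Prop) [DecidablePred ind] (w θ τ B L : ℝ) :
    nrm2 (bG ind w θ τ B) L ≤ (((sqf L).filter ind).card : ℝ) := by
  rw [Finset.card_filter]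
  push_cast
  refine Finset.sum_le_sum fun c _ => ?_
  by_cases h : ind c
  · rw [if_pos h]
    exact pow_le_one₀ (norm_nonneg _) (bDS_bG_le ind w θ τ B c)
  · have : bG ind w θ τ B c = 0 := by
      by_contra h1
      exact h (bDS_bG_ne h1).2.2
    rw [if_neg h, this]
    simp

theorem bDS_alpha {sm : Finset P → Prop} {a : Finset P} {x : ℝ}
    (h : x ≤ 2 * (a.powerset.filter sm).card) : x ≤ 2 * 2 ^ a.card := by
  refine h.trans (mul_le_mul_of_nonneg_left ?_ (by norm_num))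
  have := (Finset.card_filter_le a.powerset sm).trans_eq (Finset.card_powerset a)
  exact_mod_cast this

theorem bDS_alpha0 {sm : Finset P → Prop} (hs : ∀ s, sm s → s = ∅) {a : Finset P} {x : ℝ}
    (h : x ≤ 2 * (a.powerset.filter sm).card) : x ≤ 2 := by
  have h1 : (a.powerset.filter sm).card ≤ 1 :=
    Finset.card_le_one.2 fun s hs1 t ht1 => by
      rw [hs s (Finset.mem_filter.1 hs1).2, hs t (Finset.mem_filter.1 ht1).2]
  have h2 : ((a.powerset.filter sm).card : ℝ) ≤ 1 := by exact_mod_cast h1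
  linarith

theorem bDS_small {β : Finset P → ℂ} {B L Q ε Q' ε' : ℝ} (h : Small β B L Q ε) (hB : 0 ≤ B)
    (hQ : Q' ≤ Q) (hε : ε ≤ ε') : Small β B L Q' ε' := fun z hz hc hn s hs =>
  (h z hz hc (hn.trans hQ) s hs).trans (by gcongr)

/-- Norms of coefficients bounded by a divisor function. -/
theorem bDS_div (hb : BA) : ∃ K : ℝ, 0 < K ∧ ∀ (α : Finset P → ℂ) (X A : ℝ), 1 ≤ A → 3 * A ≤ X →
    1 ≤ Real.log X → (∀ a, ‖α a‖ ≤ 2 * 2 ^ a.card) →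
    √(nrm2 α (3 * A)) ≤ K * (√A * Real.log X ^ 2) ∧ nrm1 α (3 * A) ≤ K * (A * Real.log X) := by
  obtain ⟨C3, hC3, h3⟩ := hb.pow_card 3
  obtain ⟨C1, hC1, h1⟩ := hb.pow_card 1
  refine ⟨√(96 * C3) + 12 * C1, by positivity, fun α X A hA hX hL hα => ?_⟩
  have hA3 : 1 ≤ 3 * A := by linarith
  have hl0 : 0 ≤ Real.log (3 * A) := Real.log_nonneg hA3
  have hl : 1 + Real.log (3 * A) ≤ 2 * Real.log X := by
    have := Real.log_le_log (by linarith) hX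
    linarith
  set L := Real.log X with hLdef
  constructor
  · have e1 : nrm2 α (3 * A) ≤ 4 * ∑ s ∈ sqf (3 * A), (((3 : ℕ) : ℝ) + 1) ^ s.card := by
      rw [Finset.mul_sum]
      refine Finset.sum_le_sum fun c _ => (pow_le_pow_left₀ (norm_nonneg _) (hα c) 2).trans_eq ?_
      rw [mul_pow, ← pow_mul, mul_comm c.card 2, pow_mul]
      norm_num
    have e2 : nrm2 α (3 * A) ≤ (√(96 * C3) * (√A * L ^ 2)) ^ 2 := by
      rw [mul_pow, mul_pow, Real.sq_sqrt (by positivity), Real.sq_sqrt (by linarith)]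
      have e3 : (1 + Real.log (3 * A)) ^ 3 ≤ (2 * L) ^ 3 := pow_le_pow_left₀ (by linarith) hl 3
      have e4 : L ^ 3 ≤ (L ^ 2) ^ 2 := by
        rw [← pow_mul]
        exact pow_le_pow_right₀ hL (by norm_num)
      calc nrm2 α (3 * A) ≤ 4 * (C3 * (3 * A) * (1 + Real.log (3 * A)) ^ 3) :=
            e1.trans (mul_le_mul_of_nonneg_left (h3 _ hA3).1 (by norm_num))
        _ ≤ 4 * (C3 * (3 * A) * (2 * L) ^ 3) := by gcongr
        _ = 96 * C3 * (A * L ^ 3) := by ring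
        _ ≤ 96 * C3 * (A * (L ^ 2) ^ 2) := by gcongr
    refine (Real.sqrt_le_sqrt e2).trans ?_
    rw [Real.sqrt_sq (by positivity)]
    gcongr
    linarith
  · have e1 : nrm1 α (3 * A) ≤ 2 * ∑ s ∈ sqf (3 * A), (((1 : ℕ) : ℝ) + 1) ^ s.card := by
      rw [Finset.mul_sum]
      refine Finset.sum_le_sum fun c _ => (hα c).trans_eq ?_
      norm_num
    calc nrm1 α (3 * A) ≤ 2 * (C1 * (3 * A) * (1 + Real.log (3 * A)) ^ 1) :=
          e1.trans (mul_le_mul_of_nonneg_left (h1 _ hA3).1 (by norm_num))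
      _ ≤ 2 * (C1 * (3 * A) * (2 * L) ^ 1) := by gcongr
      _ = 12 * C1 * (A * L) := by ring
      _ ≤ _ := by
          gcongr
          linarith [Real.sqrt_nonneg (96 * C3)]

theorem bDS_Y1_le {X T : ℝ} (hX : 0 ≤ X) (hT : 1 ≤ T) : Y1 X T ≤ X ^ (43 / 100 : ℝ) :=
  mul_le_of_le_one_right (by positivity)
    (Real.rpow_le_one_of_one_le_of_nonpos hT (by norm_num))

theorem bDS_Y1_ge {X T t : ℝ} (hX : 0 < X) (hT : 1 ≤ T) (h : T ≤ X ^ t) :
    X ^ (43 / 100 - 4 / 3 * t) ≤ Y1 X T := by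
  have h1 : (X ^ t) ^ (-(4 / 3) : ℝ) ≤ T ^ (-(4 / 3) : ℝ) :=
    Real.rpow_le_rpow_of_nonpos (by linarith) h (by norm_num)
  rw [← Real.rpow_mul hX.le] at h1
  rw [show (43 / 100 - 4 / 3 * t : ℝ) = 43 / 100 + t * -(4 / 3) by ring, Real.rpow_add hX]
  exact mul_le_mul_of_nonneg_left h1 (by positivity)

theorem bDS_exp {X : ℝ} (hX : 0 < X) : ∃ l : ℝ, X = Real.exp l := ⟨_, (Real.exp_log hX).symm⟩

theorem bDS_t1 {X B : ℝ} (hX : 1 ≤ X) (hB : X ^ (39 / 100 : ℝ) ≤ B) :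
    √(X / B) * √(X / B * B) ≤ X ^ (5 / 6 : ℝ) * X ^ (-(1 / 100) : ℝ) := by
  have hX0 : 0 < X := by linarith
  have hB0 : 0 < B := lt_of_lt_of_le (by positivity) hB
  obtain ⟨l, rfl⟩ := bDS_exp hX0
  obtain ⟨b, rfl⟩ := bDS_exp hB0
  have hl : 0 ≤ l := Real.one_le_exp_iff.1 hX
  simp only [← Real.exp_sub, ← Real.exp_add, ← Real.exp_half, ← Real.exp_mul,
    Real.exp_le_exp] at hB ⊢
  linarith

theorem bDS_t2 {X B : ℝ} (hX : 1 ≤ X) (hB : X ^ (39 / 100 : ℝ) ≤ B) :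
    √(X / B) * ((X / B) ^ (5 / 12 : ℝ) * B ^ (-(1 / 3) : ℝ) * B)
      ≤ X ^ (5 / 6 : ℝ) * X ^ (-(1 / 100) : ℝ) := by
  have hX0 : 0 < X := by linarith
  have hB0 : 0 < B := lt_of_lt_of_le (by positivity) hB
  obtain ⟨l, rfl⟩ := bDS_exp hX0
  obtain ⟨b, rfl⟩ := bDS_exp hB0
  have hl : 0 ≤ l := Real.one_le_exp_iff.1 hX
  simp only [← Real.exp_sub, ← Real.exp_add, ← Real.exp_half, ← Real.exp_mul,
    Real.exp_le_exp] at hB ⊢
  linarith

theorem bDS_t3 {X B : ℝ} (hX0 : 0 < X) (hB0 : 0 < B) :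
    √(X / B) * ((X / B) ^ (1 / 3 : ℝ) * B ^ (5 / 6 : ℝ)) = X ^ (5 / 6 : ℝ) := by
  obtain ⟨l, rfl⟩ := bDS_exp hX0
  obtain ⟨b, rfl⟩ := bDS_exp hB0
  simp only [← Real.exp_sub, ← Real.exp_add, ← Real.exp_half, ← Real.exp_mul]
  congr 1
  ring

theorem bDS_t4 {X B : ℝ} (hX0 : 0 < X) (hB0 : 0 < B) :
    X / B * (X / B) ^ (-(1 / 6) : ℝ) * B ^ (5 / 6 : ℝ) = X ^ (5 / 6 : ℝ) := by
  obtain ⟨l, rfl⟩ := bDS_exp hX0
  obtain ⟨b, rfl⟩ := bDS_exp hB0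
  simp only [← Real.exp_sub, ← Real.exp_add, ← Real.exp_mul]
  congr 1
  ring

theorem bDS_t5 {X B : ℝ} (hX0 : 0 < X) (hB0 : 0 < B) :
    X / B * MM (X / B) B = (X ^ (5 / 6 : ℝ)) ^ 2 := by
  obtain ⟨l, rfl⟩ := bDS_exp hX0
  obtain ⟨b, rfl⟩ := bDS_exp hB0
  simp only [MM, sq, ← Real.exp_sub, ← Real.exp_add, ← Real.exp_mul]
  congr 1
  ring

theorem bDS_t6 {X B T : ℝ} (hX : 1 ≤ X) (hT : 1 ≤ T) (hT2 : T ≤ Tmax X)
    (hB : Y1 X T / (wX X * 1) ≤ B) :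
    X ^ (1 / 10 : ℝ) ≤ B ∧
      X / B * (X / T) ≤ (X ^ (5 / 6 : ℝ)) ^ 2 * X ^ (-(1 / 50) : ℝ) := by
  have hX0 : 0 < X := by linarith
  have hT0 : 0 < T := by linarith
  have hB0 : 0 < B := lt_of_lt_of_le (by unfold Y1 wX; positivity) hB
  obtain ⟨l, rfl⟩ := bDS_exp hX0
  obtain ⟨b, rfl⟩ := bDS_exp hB0
  obtain ⟨t, rfl⟩ := bDS_exp hT0
  have hl : 0 ≤ l := Real.one_le_exp_iff.1 hX
  have ht : 0 ≤ t := Real.one_le_exp_iff.1 hT
  simp only [Y1, wX, Tmax, mul_one, sq, ← Real.exp_sub, ← Real.exp_add, ← Real.exp_mul,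
    Real.exp_le_exp] at hB hT2 ⊢
  constructor <;> linarith

end Pat
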