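import Vale.Agent.P006.IfB
import Vale.Agent.P026.Cnt
import Vale.Agent.P026.Sym

/-! P006: large sieve bounds against the weight `GM`. -/

noncomputable section
namespace Pat
open QRH Complex MeasureTheory Filter
open scoped ComplexConjugate Classical ContDiff Topology

theorem bL_geo {ι : Type} (T : Finset ι) (g f : ι → ℝ) {Q M ρ : ℝ} (hQ : 0 < Q) (hM : 0 ≤ M)
    (h0 : 0 ≤ ρ) (h1 : ρ < 1) (hg : ∀ x ∈ T, Q ≤ g x)
    (h : ∀ a : ℕ, ∑ x ∈ T with Q * 2 ^ a ≤ g x ∧ g x < Q * 2 ^ (a + 1), f x ≤ M * ρ ^ a) :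
    ∑ x ∈ T, f x ≤ M * (1 - ρ)⁻¹ := by
  have h2 : ∀ x : ι, ∃ a : ℕ, x ∈ T → Q * 2 ^ a ≤ g x ∧ g x < Q * 2 ^ (a + 1) := by
    intro x
    by_cases hx : x ∈ T
    · obtain ⟨a, ha, ha'⟩ := exists_nat_pow_near ((one_le_div hQ).2 (hg x hx)) one_lt_two
      exact ⟨a, fun _ => ⟨by rwa [le_div_iff₀' hQ] at ha, by rwa [div_lt_iff₀' hQ] at ha'⟩⟩
    · exact ⟨0, fun h => (hx h).elim⟩
  choose a ha using h2
  have h3 : ∀ b : ℕ, (T.filter fun x => a x = b) =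
      T.filter fun x => Q * 2 ^ b ≤ g x ∧ g x < Q * 2 ^ (b + 1) := by
    intro b
    refine Finset.filter_congr fun x hx => ⟨fun e => e ▸ ha x hx, fun e => ?_⟩
    have k1 : (2 : ℝ) ^ a x < 2 ^ (b + 1) := lt_of_mul_lt_mul_left ((ha x hx).1.trans_lt e.2) hQ.le
    have k2 : (2 : ℝ) ^ b < 2 ^ (a x + 1) := lt_of_mul_lt_mul_left (e.1.trans_lt (ha x hx).2) hQ.le
    rw [pow_lt_pow_iff_right₀ one_lt_two] at k1 k2
    omega
  rw [← Finset.sum_fiberwise_of_maps_to (t := T.image a) (g := a)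
    fun x hx => Finset.mem_image_of_mem _ hx]
  refine (Finset.sum_le_sum fun b _ => (h3 b).symm ▸ h b).trans ?_
  rw [← Finset.mul_sum, ← tsum_geometric_of_lt_one h0 h1]
  exact mul_le_mul_of_nonneg_left ((summable_geometric_of_lt_one h0 h1).sum_le_tsum _
    fun i _ => by positivity) hM

theorem bL_nrm (y : Finset P → ℂ) (L : ℝ) : 0 ≤ nrm2 y L :=
  Finset.sum_nonneg fun _ _ => sq_nonneg _

theorem bL_Qc (z : E) : 1 ≤ Qc z :=
  one_le_mul_of_one_le_of_one_le (one_le_Ns _) (one_le_pow₀ (one_le_Ns _))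

theorem bL_cube (hb : BA) (y : Finset P → ℂ) (L : ℝ) (z : E) {j : E} (hj : j ≠ 0) :
    Ds y L (z * j ^ 3) = Ds (fun c => if Disjoint c (fac j) then y c else 0) L z := by
  refine Finset.sum_congr rfl fun c _ => ?_
  rw [xs_mul ch_c3, hb.xs_cube c j hj]
  by_cases h : Disjoint c (fac j) <;> simp [h]

/-- The family of cube-free representatives. -/
def bL_Z (Q : ℝ) : Finset E := (ball (18 * Q)).filter fun z =>
  ∃ i k s t, i < 3 ∧ k < 3 ∧ Disjoint s t ∧ z = cf0 i k s t ∧ Ns s * Ns t ^ 2 ≤ 2 * Q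

theorem bL_fam (hb : BA) (h : HM1) : ∃ C : ℝ, 0 < C ∧ ∀ (y : Finset P → ℂ) (L Q : ℝ),
    Sup y (L / 3) L → 1 ≤ Q → Q ^ 3 ≤ L → ∑ z ∈ bL_Z Q, ‖Ds y L z‖ ^ 2 ≤ C * L * nrm2 y L := by
  obtain ⟨C, hC, h1⟩ := h 1 one_pos
  refine ⟨C * 865, by positivity, fun y L Q hy hQ hL => ?_⟩
  have hL1 : 1 ≤ L := (one_le_pow₀ hQ).trans hL
  have h2 := h1 (bL_Z Q) (2 * Q) L (ex y) (by linarith) (by linarith)
    (fun n hn => by
      unfold ex at hn
      split_ifs at hn with e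
      · rw [e]; exact (hy _ hn).1
      · exact (hn rfl).elim)
    (fun z hz => by
      obtain ⟨a1, i, k, s, t, -, -, -, rfl, a2⟩ := Finset.mem_filter.1 hz
      refine ⟨(mem_ball.1 a1).1, ?_⟩
      rw [hb.fac_cf0]
      refine (Ns_union_le s t).trans (le_trans ?_ a2)
      have := one_le_Ns t
      have := Ns_pos s
      gcongr
      nlinarith)
    (fun z hz z' hz' hne hc => by
      obtain ⟨-, i, k, s, t, a1, a2, a3, rfl, -⟩ := Finset.mem_filter.1 hz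
      obtain ⟨-, i', k', s', t', b1, b2, b3, rfl, -⟩ := Finset.mem_filter.1 hz'
      obtain ⟨rfl, rfl, rfl, rfl⟩ := hb.cube_ratio _ _ _ _ _ _ _ _ a1 a2 b1 b2 a3 b3 hc
      exact hne rfl)
  simp only [hb.ex_Dn, hb.ex_nrm] at h2
  refine h2.trans (mul_le_mul_of_nonneg_right ?_ (bL_nrm y L))
  have h3 : ((bL_Z Q).card : ℝ) ≤ 12 * (18 * Q) :=
    (Nat.cast_le.2 (Finset.card_filter_le _ _)).trans (card_ball_le (by linarith))
  rw [one_add_one_eq_two, Real.rpow_two, mul_assoc]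
  refine mul_le_mul_of_nonneg_left ?_ hC.le
  have h4 := mul_le_mul_of_nonneg_right h3 (sq_nonneg (2 * Q))
  nlinarith

theorem bL_shell (hb : BA) (h : HM1) : ∃ C : ℝ, 0 < C ∧ ∀ (y : Finset P → ℂ) (L R Q : ℝ)
    (S : Finset E), Sup y (L / 3) L → 0 < R → 1 ≤ Q → Q ^ 3 ≤ L →
    (∀ ξ ∈ S, ξ ∈ ball R ∧ Q ≤ Qc ξ ∧ Qc ξ < 2 * Q) →
    ∑ ξ ∈ S, ‖Ds y L ξ‖ ^ 2 ≤ C * (R / Q) ^ (1 / 3 : ℝ) * L * nrm2 y L := by
  obtain ⟨C, hC, h1⟩ := bL_fam hb h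
  refine ⟨12 * C, by positivity, fun y L R Q S hy hR hQ hL hS => ?_⟩
  have hL1 : 1 ≤ L := (one_le_pow₀ hQ).trans hL
  have hRQ : 0 < R / Q := by positivity
  have h2 : S ⊆ (ball ((R / Q) ^ (1 / 3 : ℝ)) ×ˢ bL_Z Q).image fun x => x.2 * x.1 ^ 3 := by
    intro ξ hξ
    obtain ⟨a1, a2, a3⟩ := hS ξ hξ
    obtain ⟨a0, a1⟩ := mem_ball.1 a1
    obtain ⟨i, hi, u, -, e⟩ := hb.cube_dec ξ a0
    have hk : vp lam ξ % 3 < 3 := Nat.mod_lt _ (by norm_num)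
    generalize vp lam ξ % 3 = k at e hk
    generalize u * lam ^ (vp lam ξ / 3) * jc ξ = j at e
    have b1 : (nm (cf0 i k (cf1 ξ) (cf2 ξ)) : ℝ) = 3 ^ k * Qc ξ := by
      rw [hb.nm_cf0, Qc, mul_assoc]
    have b2 : (1 : ℝ) ≤ 3 ^ k := one_le_pow₀ (by norm_num)
    have b3 : (3 : ℝ) ^ k ≤ 3 ^ 2 := pow_le_pow_right₀ (by norm_num) (by omega)
    have b4 : (nm ξ : ℝ) = 3 ^ k * Qc ξ * (nm j : ℝ) ^ 3 := by
      rw [← b1]
      conv_lhs => rw [e]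
      rw [nm_mul, nm_pow]
      push_cast
      rfl
    refine Finset.mem_image.2 ⟨(j, cf0 i k (cf1 ξ) (cf2 ξ)), Finset.mem_product.2
      ⟨mem_ball.2 ⟨fun hj => a0 ?_, ?_⟩, Finset.mem_filter.2 ⟨mem_ball.2 ⟨fun hz => a0 ?_, ?_⟩,
        i, k, _, _, hi, hk, hb.cf_disj ξ, rfl, a3.le⟩⟩, e.symm⟩
    · simp only at hj
      rw [e, hj]; simp
    · have b5 : (nm j : ℝ) ^ 3 ≤ R / Q := by
        rw [le_div_iff₀ (by linarith)]
        have b6 : Q ≤ 3 ^ k * Qc ξ := by nlinarith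
        have b7 := mul_le_mul_of_nonneg_right b6 (by positivity : (0 : ℝ) ≤ (nm j : ℝ) ^ 3)
        linarith
      rw [one_div]
      refine (Real.le_rpow_inv_iff_of_pos (by positivity) hRQ.le (by norm_num)).2 ?_
      exact_mod_cast b5
    · simp only at hz
      rw [e, hz]; simp
    · simp only
      rw [b1]; nlinarith
  refine (Finset.sum_le_sum_of_subset_of_nonneg h2 fun _ _ _ => sq_nonneg _).trans ?_
  refine (Finset.sum_image_le_of_nonneg fun _ _ => sq_nonneg _).trans ?_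
  rw [Finset.sum_product]
  have h3 : ∀ j ∈ ball ((R / Q) ^ (1 / 3 : ℝ)), ∑ z ∈ bL_Z Q, ‖Ds y L (z * j ^ 3)‖ ^ 2
      ≤ C * L * nrm2 y L := by
    intro j hj
    simp only [bL_cube hb y L _ (mem_ball.1 hj).1]
    refine (h1 _ L Q (fun c hc => hy c fun e => hc (by simp [e])) hQ hL).trans ?_
    refine mul_le_mul_of_nonneg_left (Finset.sum_le_sum fun c _ => ?_) (by positivity)
    by_cases h : Disjoint c (fac j) <;> simp [h]
  refine (Finset.sum_le_card_nsmul _ _ _ h3).trans ?_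
  rw [nsmul_eq_mul]
  have h4 := card_ball_le (R := (R / Q) ^ (1 / 3 : ℝ)) (by positivity)
  have h5 := bL_nrm y L
  calc _ ≤ 12 * (R / Q) ^ (1 / 3 : ℝ) * (C * L * nrm2 y L) := by gcongr
    _ = _ := by ring

theorem n2 (hb : BA) (h : HM1) : N2 := by
  obtain ⟨C, hC, h1⟩ := bL_shell hb h
  have hρ : (2⁻¹ : ℝ) ^ (1 / 3 : ℝ) < 1 :=
    Real.rpow_lt_one (by norm_num) (by norm_num) (by norm_num)
  have hρ0 : 0 ≤ (2⁻¹ : ℝ) ^ (1 / 3 : ℝ) := by positivity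
  refine ⟨C * (1 - (2⁻¹ : ℝ) ^ (1 / 3 : ℝ))⁻¹, mul_pos hC (inv_pos.2 (by linarith)),
    fun y L R Q0 Z1 hy hR hQ hZ => ?_⟩
  by_cases hL : L < 1
  · simp [Ds, nrm2, sqf_eq_empty hL]
  have hL1 := not_lt.1 hL
  have hn := bL_nrm y L
  have hM : 0 ≤ C * (R / Q0) ^ (1 / 3 : ℝ) * L * nrm2 y L := by positivity
  refine (bL_geo _ Qc _ (Q := Q0) (by linarith) hM hρ0 hρ
    (fun ξ hξ => (Finset.mem_filter.1 hξ).2.1) fun a => ?_).trans (le_of_eq (by ring))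
  have ha : (1 : ℝ) ≤ 2 ^ a := one_le_pow₀ (by norm_num)
  by_cases hc : Q0 * 2 ^ a < Z1
  · refine (h1 y L R (Q0 * 2 ^ a) _ hy hR (by nlinarith)
      ((pow_le_pow_left₀ (by positivity) hc.le 3).trans hZ) fun ξ hξ => ?_).trans (le_of_eq ?_)
    · obtain ⟨a1, a2, a3⟩ := Finset.mem_filter.1 hξ
      exact ⟨(Finset.mem_filter.1 a1).1, a2, by rw [pow_succ] at a3; linarith⟩
    · rw [← Real.rpow_mul_natCast (by norm_num), mul_comm (1 / 3 : ℝ),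
        Real.rpow_natCast_mul (by norm_num),
        show R / (Q0 * 2 ^ a) = R / Q0 * 2⁻¹ ^ a by rw [inv_pow]; field_simp,
        Real.mul_rpow (by positivity) (by positivity)]
      ring
  · rw [Finset.sum_eq_zero]
    · positivity
    · intro ξ hξ
      obtain ⟨a1, a2, -⟩ := Finset.mem_filter.1 hξ
      exact (hc (a2.trans_lt (Finset.mem_filter.1 a1).2.2)).elim

/-- The dyadic sum of the weights. -/
def bL_S (T γ : ℝ) : ℝ := T⁻¹ + ∑' j : ℕ, GM T (2 ^ j) * ((2 : ℝ) ^ (j + 1)) ^ γ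

theorem bL_gen (hb : BA) (y : Finset P → ℂ) {L K T : ℝ} (Pr : E → Prop) (hK : 0 < K) (hT : 1 ≤ T)
    (a b c γ1 γ2 γ3 : ℝ)
    (s1 : Summable fun j : ℕ => GM T (2 ^ j) * ((2 : ℝ) ^ (j + 1)) ^ γ1)
    (s2 : Summable fun j : ℕ => GM T (2 ^ j) * ((2 : ℝ) ^ (j + 1)) ^ γ2)
    (s3 : Summable fun j : ℕ => GM T (2 ^ j) * ((2 : ℝ) ^ (j + 1)) ^ γ3)
    (h : ∀ m : ℝ, 1 ≤ m → ∑ ξ ∈ ball (m * K) with Pr ξ, ‖Ds y L ξ‖ ^ 2
      ≤ a * m ^ γ1 + b * m ^ γ2 + c * m ^ γ3) :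
    Xi y L K T Pr ≤ a * bL_S T γ1 + b * bL_S T γ2 + c * bL_S T γ3 := by
  have e1 : ∀ j : ℕ, max 1 ((2 : ℝ) ^ (j + 1) * K / K) = 2 ^ (j + 1) := fun j => by
    rw [mul_div_cancel_right₀ _ hK.ne', max_eq_right (one_le_pow₀ (by norm_num))]
  have e2 : ∀ j : ℕ, GM T (2 ^ j) * (a * ((2 : ℝ) ^ (j + 1)) ^ γ1 + b * ((2 : ℝ) ^ (j + 1)) ^ γ2
      + c * ((2 : ℝ) ^ (j + 1)) ^ γ3) = a * (GM T (2 ^ j) * ((2 : ℝ) ^ (j + 1)) ^ γ1)
      + b * (GM T (2 ^ j) * ((2 : ℝ) ^ (j + 1)) ^ γ2)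
      + c * (GM T (2 ^ j) * ((2 : ℝ) ^ (j + 1)) ^ γ3) := fun j => by ring
  have h1 := hb.Xi_split y L K T Pr
    (fun R => a * max 1 (R / K) ^ γ1 + b * max 1 (R / K) ^ γ2 + c * max 1 (R / K) ^ γ3) hK hT
    (fun R _ => le_trans (Finset.sum_le_sum_of_subset_of_nonneg
      (Finset.filter_subset_filter _ (ball_mono ((div_le_iff₀ hK).1 (le_max_right _ _))))
      fun _ _ _ => sq_nonneg _) (h _ (le_max_left _ _)))
    (by
      simp only [e1, e2]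
      exact ((s1.mul_left a).add (s2.mul_left b)).add (s3.mul_left c))
  simp only [e1, e2] at h1
  rw [((s1.mul_left a).add (s2.mul_left b)).tsum_add (s3.mul_left c),
    (s1.mul_left a).tsum_add (s2.mul_left b), tsum_mul_left, tsum_mul_left, tsum_mul_left,
    div_self hK.ne', max_self, Real.one_rpow, Real.one_rpow, Real.one_rpow] at h1
  refine h1.trans (le_of_eq ?_)
  unfold bL_S
  ring

theorem bL_zero (y : Finset P → ℂ) {L : ℝ} (K T : ℝ) (Pr : E → Prop) (hL : L < 1) :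
    Xi y L K T Pr = 0 ∧ nrm2 y L = 0 := by
  simp [Xi, Ds, nrm2, sqf_eq_empty hL]

theorem bL1 (hb : BA) (h : N2) : BL1 := by
  obtain ⟨C, hC, h1⟩ := h
  obtain ⟨C1, hC1, h2⟩ := hb.Xi_dyadic (1 / 3) (1 / 5) (by norm_num) (by norm_num) (by norm_num)
    (by norm_num)
  refine ⟨C * C1, by positivity, fun y L K T Q0 Z1 hy hK hT hQ hZ => ?_⟩
  by_cases hL : L < 1
  · rw [(bL_zero y K T _ hL).1, (bL_zero y K T (fun _ => True) hL).2, mul_zero]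
  have hL1 := not_lt.1 hL
  have hn := bL_nrm y L
  obtain ⟨s1, b1⟩ := h2 T hT
  have h3 := bL_gen hb y (L := L) (fun ξ => Q0 ≤ Qc ξ ∧ Qc ξ < Z1) hK hT
    (C * (K / Q0) ^ (1 / 3 : ℝ) * L * nrm2 y L) 0 0 _ _ _ s1 s1 s1 fun m hm => by
      have a1 := h1 y L (m * K) Q0 Z1 hy (by positivity) hQ hZ
      rw [mul_div_assoc, Real.mul_rpow (by positivity) (by positivity)] at a1
      refine le_trans (le_of_eq ?_) (a1.trans (le_of_eq (by ring)))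
      refine Finset.sum_congr ?_ fun _ _ => rfl
      ext ξ
      simp only [Finset.mem_filter]
  rw [show (1 / 5 - 1 : ℝ) = -(4 / 5) by norm_num] at b1
  have h4 := mul_le_mul_of_nonneg_left (show bL_S T (1 / 3) ≤ _ from b1)
    (by positivity : 0 ≤ C * (K / Q0) ^ (1 / 3 : ℝ) * L * nrm2 y L)
  linarith

theorem bL2 (hb : BA) (h : NB 1) : BL2 := by
  intro ε hε
  obtain ⟨e, he, he1, he2⟩ : ∃ e : ℝ, 0 < e ∧ e ≤ ε ∧ e ≤ 1 / 1000 :=
    ⟨min ε (1 / 1000), by positivity, min_le_left _ _, min_le_right _ _⟩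
  obtain ⟨C, hC, h1⟩ := h e he
  obtain ⟨C1, hC1, h2⟩ := hb.Xi_dyadic (1 / 3 + e) (1 / 5) (by linarith) (by linarith)
    (by norm_num) (by linarith)
  obtain ⟨C2, hC2, h3⟩ := hb.Xi_dyadic (1 + e) (8 / 5) (by linarith) (by linarith)
    (by norm_num) (by linarith)
  obtain ⟨C3, hC3, h4⟩ := hb.Xi_dyadic (2 / 3 + e) (6 / 7) (by linarith) (by linarith)
    (by norm_num) (by linarith)
  refine ⟨C * (C1 + C2 + C3), by positivity, fun y L K T Z1 Z hLZ hK hKZ hT hTZ hZ1 => ?_⟩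
  by_cases hL : L < 1
  · rw [(bL_zero y K T _ hL).1, (bL_zero y K T (fun _ => True) hL).2, mul_zero]
  have hL1 := not_lt.1 hL
  have hZ : 1 ≤ Z := hT.trans hTZ
  have hn := bL_nrm y L
  obtain ⟨s1, b1⟩ := h2 T hT
  obtain ⟨s2, b2⟩ := h3 T hT
  obtain ⟨s3, b3⟩ := h4 T hT
  have h5 := bL_gen hb y (L := L) (fun ξ => Z1 ≤ Qc ξ) hK hT
    (C * Z ^ e * nrm2 y L * (K ^ (1 / 3 : ℝ) * L * Z1 ^ (-(1 / 3) : ℝ)))
    (C * Z ^ e * nrm2 y L * K) (C * Z ^ e * nrm2 y L * (K * L) ^ (2 / 3 : ℝ)) _ _ _ s1 s2 s3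
    fun m hm => by
      have m0 : 0 < m := by linarith
      have a1 := h1 y L (m * K) Z1 (m * Z) (by nlinarith) (by nlinarith) (by positivity)
        (by gcongr) hZ1
      rw [mul_assoc m K L, Real.rpow_one, Real.mul_rpow m0.le (by positivity),
        Real.mul_rpow m0.le (by positivity), Real.mul_rpow m0.le (by positivity)] at a1
      rw [Real.rpow_add m0, Real.rpow_add m0, Real.rpow_add m0, Real.rpow_one]
      refine le_trans (le_of_eq ?_) (a1.trans (le_of_eq (by ring)))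
      refine Finset.sum_congr ?_ fun _ _ => rfl
      ext ξ
      simp only [Finset.mem_filter]
  rw [show (1 / 5 - 1 : ℝ) = -(4 / 5) by norm_num] at b1
  rw [show (8 / 5 - 1 : ℝ) = 3 / 5 by norm_num] at b2
  rw [show (6 / 7 - 1 : ℝ) = -(1 / 7) by norm_num] at b3
  have c1 : bL_S T (1 / 3 + e) ≤ (C1 + C2 + C3) * T ^ (-(4 / 5) : ℝ) :=
    le_trans b1 (by gcongr; linarith)
  have c2 : bL_S T (1 + e) ≤ (C1 + C2 + C3) * T ^ (3 / 5 : ℝ) :=
    le_trans b2 (by gcongr; linarith)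
  have c3 : bL_S T (2 / 3 + e) ≤ (C1 + C2 + C3) * T ^ (-(1 / 7) : ℝ) :=
    le_trans b3 (by gcongr; linarith)
  have c4 : Z ^ e ≤ Z ^ ε := Real.rpow_le_rpow_of_exponent_le hZ he1
  refine h5.trans ?_
  calc _ ≤ C * Z ^ e * nrm2 y L * (K ^ (1 / 3 : ℝ) * L * Z1 ^ (-(1 / 3) : ℝ)) *
          ((C1 + C2 + C3) * T ^ (-(4 / 5) : ℝ))
        + C * Z ^ e * nrm2 y L * K * ((C1 + C2 + C3) * T ^ (3 / 5 : ℝ))
        + C * Z ^ e * nrm2 y L * (K * L) ^ (2 / 3 : ℝ) *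
          ((C1 + C2 + C3) * T ^ (-(1 / 7) : ℝ)) := by gcongr
    _ = C * (C1 + C2 + C3) * Z ^ e *
        (T ^ (-(4 / 5) : ℝ) * K ^ (1 / 3 : ℝ) * L * Z1 ^ (-(1 / 3) : ℝ)
          + T ^ (-(1 / 7) : ℝ) * (K * L) ^ (2 / 3 : ℝ) + T ^ (3 / 5 : ℝ) * K) * nrm2 y L := by ring
    _ ≤ _ := by gcongr

theorem bL_GM {T y : ℝ} (hT : 1 ≤ T) (hy : 0 < y) : GM T y ≤ (T ^ 2 / y) ^ 2 := by
  have h1 : T⁻¹ ≤ 1 := inv_le_one_of_one_le₀ hT
  have h2 : (1 + y) ^ (-(6 / 25) : ℝ) ≤ 1 :=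
    Real.rpow_le_one_of_one_le_of_nonpos (by linarith) (by norm_num)
  have h3 : (1 + y / T ^ 2) ^ (-2 : ℝ) ≤ (T ^ 2 / y) ^ 2 := by
    rw [Real.rpow_neg (by positivity), Real.rpow_two, ← inv_pow, ← inv_div y]
    gcongr
    linarith
  unfold GM
  calc _ ≤ 1 * 1 * (T ^ 2 / y) ^ 2 := by gcongr
    _ = _ := by ring

theorem bL3 (hb : BA) (h : NB 1) : BL3 := by
  intro ε hε
  obtain ⟨e, he, he1, he2⟩ : ∃ e : ℝ, 0 < e ∧ e ≤ ε ∧ e ≤ 1 / 2 :=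
    ⟨min ε (1 / 2), by positivity, min_le_left _ _, min_le_right _ _⟩
  obtain ⟨C, hC, h1⟩ := h e he
  refine ⟨C * 12, by positivity, fun y L K T Z1 R0 Z hLZ hK hT hR hRZ => ?_⟩
  by_cases hL : L < 1
  · rw [(bL_zero y K T _ hL).1, (bL_zero y K T (fun _ => True) hL).2, mul_zero, add_zero]
    exact Finset.sum_nonneg fun _ _ => sq_nonneg _
  have hL1 := not_lt.1 hL
  have hZ : 1 ≤ Z := hR.trans hRZ
  have hn := bL_nrm y L
  have hT0 : 0 < T := by linarith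
  have hR0 : 0 < R0 := by linarith
  have h2e : (2 : ℝ) ^ e ≤ 3 / 2 := by
    refine (Real.rpow_le_rpow_of_exponent_le one_le_two he2).trans ?_
    rw [← Real.sqrt_eq_rpow]
    exact Real.sqrt_le_iff.2 ⟨by norm_num, by norm_num⟩
  refine (hb.Xi_summable y L K T _ hK hT0).tsum_le_of_sum_le fun S => ?_
  rw [← Finset.sum_filter, ← Finset.sum_filter_add_sum_filter_not _ fun ξ => (nm ξ : ℝ) ≤ R0]
  refine add_le_add ?_ ?_
  · refine (Finset.sum_le_sum fun ξ _ => mul_le_of_le_one_left (sq_nonneg _)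
      (hb.GM_le T _ hT (by positivity))).trans
      (Finset.sum_le_sum_of_subset_of_nonneg (fun ξ hξ => ?_) fun _ _ _ => sq_nonneg _)
    simp only [Finset.mem_filter] at hξ ⊢
    exact ⟨mem_ball.2 ⟨hξ.1.2.1, hξ.2⟩, hξ.1.2.2⟩
  · set U := R0 ^ (1 / 3 : ℝ) * L + R0 + (R0 * L) ^ (2 / 3 : ℝ) with hU
    have hU0 : 0 ≤ U := by positivity
    refine (bL_geo _ (fun ξ => (nm ξ : ℝ)) _ (Q := R0) (ρ := 3 / 4)
      (M := 3 * (C * Z ^ e * (K * T ^ 2 / R0) ^ 2 * U * nrm2 y L)) hR0 (by positivity)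
      (by norm_num) (by norm_num) (fun ξ hξ => (not_le.1 (Finset.mem_filter.1 hξ).2).le)
      fun a => ?_).trans ?_
    · have m1 : (1 : ℝ) ≤ 2 ^ (a + 1) := one_le_pow₀ one_le_two
      have m0 : (0 : ℝ) < 2 ^ (a + 1) := by positivity
      have a1 := h1 y L (2 ^ (a + 1) * R0) 1 (2 ^ (a + 1) * Z) (by nlinarith) (by nlinarith)
        (by positivity) (by gcongr) le_rfl
      rw [mul_assoc _ R0 L, Real.rpow_one, Real.one_rpow, mul_one,
        Real.mul_rpow m0.le (by positivity),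
        Real.mul_rpow m0.le (by positivity), Real.mul_rpow m0.le (by positivity)] at a1
      have a2 : ∀ γ : ℝ, γ ≤ 1 → ((2 : ℝ) ^ (a + 1)) ^ γ ≤ 2 ^ (a + 1) := fun γ hγ =>
        (Real.rpow_le_rpow_of_exponent_le m1 hγ).trans_eq (Real.rpow_one _)
      have a3 : ((2 : ℝ) ^ (a + 1)) ^ e ≤ (3 / 2) ^ (a + 1) := by
        rw [← Real.rpow_natCast_mul (by norm_num), mul_comm, Real.rpow_mul_natCast (by norm_num)]
        gcongr
      have a4 := a2 (1 / 3) (by norm_num)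
      have a5 := a2 (2 / 3) (by norm_num)
      have a6 : ∑ ξ ∈ ball (2 ^ (a + 1) * R0) with 1 ≤ Qc ξ, ‖Ds y L ξ‖ ^ 2 ≤
          C * ((3 / 2) ^ (a + 1) * Z ^ e) * (2 ^ (a + 1) * U) * nrm2 y L := by
        refine a1.trans ?_
        have a7 : (2 : ℝ) ^ (a + 1) * U = 2 ^ (a + 1) * R0 ^ (1 / 3 : ℝ) * L + 2 ^ (a + 1) * R0
            + 2 ^ (a + 1) * (R0 * L) ^ (2 / 3 : ℝ) := by rw [hU]; ring
        rw [a7]
        gcongr
      have a7 := mul_le_mul_of_nonneg_left a6 (sq_nonneg (K * T ^ 2 / (R0 * 2 ^ a)))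
      rw [Finset.mul_sum] at a7
      refine le_trans ((Finset.sum_le_sum fun ξ hξ => ?_).trans
        (Finset.sum_le_sum_of_subset_of_nonneg (fun ξ hξ => ?_) fun _ _ _ => by positivity))
        (a7.trans (le_of_eq ?_))
      · have b1 := (Finset.mem_filter.1 hξ).2.1
        have b2 : (0 : ℝ) < R0 * 2 ^ a := by positivity
        refine mul_le_mul_of_nonneg_right ((bL_GM hT (div_pos (b2.trans_le b1) hK)).trans ?_)
          (sq_nonneg _)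
        rw [div_div_eq_mul_div, mul_comm _ K]
        gcongr
      · simp only [Finset.mem_filter] at hξ ⊢
        exact ⟨mem_ball.2 ⟨hξ.1.1.2.1, by linarith [hξ.2.2]⟩, bL_Qc ξ⟩
      · rw [div_pow 3 2, div_pow 3 4, show (4 : ℝ) ^ a = 2 ^ a * 2 ^ a by
          rw [← mul_pow]; norm_num]
        field_simp
        ring
    · have c4 : Z ^ e ≤ Z ^ ε := Real.rpow_le_rpow_of_exponent_le hZ he1
      calc _ = C * 12 * Z ^ e * (K * T ^ 2 / R0) ^ 2 * U * nrm2 y L := by ring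
        _ ≤ _ := by gcongr

end Pat
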