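import Vale.Agent.P006.Bas2aAux
import Vale.Agent.P026.Riem

/-! Counting facts, part a. -/

noncomputable section
namespace Pat
open QRH Complex MeasureTheory Filter
open scoped ComplexConjugate Classical ContDiff Topology

theorem bas2a_vol (T : Finset E) :
    volume (⋃ x ∈ T, {z | rm_fl (1 * z) = x}) ≠ ⊤ ∧
    volume.real (⋃ x ∈ T, {z | rm_fl (1 * z) = x}) = T.card * (√3 / 2) := by
  have h1 : ∀ x : E, volume {z | rm_fl (1 * z) = x} = ENNReal.ofReal (√3 / 2) := fun x => by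
    rw [rm_cell_vol one_ne_zero]
    simp
  refine ⟨((measure_biUnion_finset_le _ _).trans_lt ?_).ne, ?_⟩
  · exact ENNReal.sum_lt_top.2 fun x _ => by rw [h1]; exact ENNReal.ofReal_lt_top
  · rw [measureReal_biUnion_finset _ (fun x _ => rm_cell_meas 1 x)
      fun x _ => by rw [h1]; exact ENNReal.ofReal_ne_top]
    · simp only [Measure.real, h1]
      rw [ENNReal.toReal_ofReal (by positivity), Finset.sum_const, nsmul_eq_mul]
    · intro x _ y _ hxy
      exact Set.disjoint_left.2 fun z h2 h3 => hxy (h2.symm.trans h3)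

theorem bas2a_ball (a : ℂ) {r : ℝ} (hr : 0 ≤ r) :
    volume.real (Metric.ball a r) = r ^ 2 * Real.pi ∧
    volume.real (Metric.closedBall a r) = r ^ 2 * Real.pi := by
  simp [Measure.real, hr]

theorem bas2a_upper (b : ℂ) {r : ℝ} (hr : 0 ≤ r) (T : Finset E)
    (hT : ∀ x ∈ T, ‖toC x + b‖ ≤ r) : (T.card : ℝ) ≤ 2 * Real.pi / √3 * (r + 2) ^ 2 := by
  have h1 : (⋃ x ∈ T, {z | rm_fl (1 * z) = x}) ⊆ Metric.closedBall (-b) (r + 2) := by
    intro z hz
    simp only [Set.mem_iUnion, Set.mem_ofPred_eq, one_mul] at hz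
    obtain ⟨x, hx, rfl⟩ := hz
    have h2 := norm_sub_le (toC (rm_fl z) + b) (toC (rm_fl z) - z)
    rw [mem_closedBall_iff_norm, show z - -b = toC (rm_fl z) + b - (toC (rm_fl z) - z) by ring]
    linarith [hT _ hx, rm_close z]
  have h2 := measureReal_mono (μ := volume) h1 measure_closedBall_lt_top.ne
  rw [(bas2a_vol T).2, (bas2a_ball _ (by positivity)).2] at h2
  rw [div_mul_eq_mul_div, le_div_iff₀ (by positivity)]
  linarith

theorem bas2a_lower (b : ℂ) {r : ℝ} (hr : 0 ≤ r) (T : Finset E)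
    (hT : ∀ x, ‖toC x + b‖ < r → x ∈ T) : 2 * Real.pi / √3 * (r ^ 2 - 4 * r) ≤ T.card := by
  rcases le_total r 2 with h | h
  · exact (mul_nonpos_of_nonneg_of_nonpos (by positivity) (by nlinarith)).trans (by positivity)
  have h1 : Metric.ball (-b) (r - 2) ⊆ ⋃ x ∈ T, {z | rm_fl (1 * z) = x} := by
    intro z hz
    simp only [Set.mem_iUnion, Set.mem_ofPred_eq, one_mul]
    refine ⟨_, hT _ ?_, rfl⟩
    have h2 := norm_add_le (toC (rm_fl z) - z) (z - -b)
    rw [mem_ball_iff_norm] at hz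
    rw [show toC (rm_fl z) + b = toC (rm_fl z) - z + (z - -b) by ring]
    linarith [rm_close z]
  have h2 := measureReal_mono h1 (bas2a_vol T).1
  rw [(bas2a_vol T).2, (bas2a_ball _ (by linarith)).1] at h2
  rw [div_mul_eq_mul_div, div_le_iff₀ (by positivity)]
  nlinarith [Real.pi_pos]

theorem bas2a_circle : ∃ C : ℝ, 0 < C ∧ ∀ (b : ℂ) (R : ℝ) (T : Finset E), 0 ≤ R →
    (∀ x, x ∈ T ↔ ‖toC x + b‖ ^ 2 ≤ R) →
    |(T.card : ℝ) - 2 * Real.pi / √3 * R| ≤ C * (√R + 1) := by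
  have hc : 0 < 2 * Real.pi / √3 := by positivity
  refine ⟨2 * Real.pi / √3 * 4, by positivity, fun b R T hR hT => ?_⟩
  have h1 := bas2a_upper b (Real.sqrt_nonneg R) T fun x hx => Real.le_sqrt_of_sq_le ((hT x).1 hx)
  have h2 := bas2a_lower b (Real.sqrt_nonneg R) T fun x hx =>
    (hT x).2 ((Real.le_sqrt (norm_nonneg _) hR).1 hx.le)
  rw [add_sq, Real.sq_sqrt hR] at h1
  rw [Real.sq_sqrt hR] at h2
  rw [abs_le]
  constructor <;> linarith

theorem bas2a_thin : ∃ C : ℝ, 0 < C ∧ ∀ (y h : ℝ) (T : Finset E), 0 ≤ y → 0 ≤ h →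
    (∀ x ∈ T, y ≤ nm x ∧ (nm x : ℝ) ≤ y + h) → (T.card : ℝ) ≤ C * (h + √y + 1) := by
  have hc : 0 < 2 * Real.pi / √3 := by positivity
  refine ⟨2 * Real.pi / √3 * 8, by positivity, fun y h T hy hh hT => ?_⟩
  set A := (insert 0 (ball y)).filter fun x => (nm x : ℝ) < y with hA
  have hd : Disjoint T A := Finset.disjoint_left.2 fun x h1 h2 =>
    absurd (Finset.mem_filter.1 h2).2 (not_lt.2 (hT x h1).1)
  have h1 := bas2a_upper 0 (Real.sqrt_nonneg (y + h)) (T ∪ A) fun x hx => by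
    rw [add_zero, norm_toC]
    refine Real.sqrt_le_sqrt ?_
    rcases Finset.mem_union.1 hx with h2 | h2
    · exact (hT x h2).2
    · linarith [(Finset.mem_filter.1 h2).2]
  have h2 := bas2a_lower 0 (Real.sqrt_nonneg y) A fun x hx => by
    rw [add_zero, norm_toC, Real.sqrt_lt_sqrt_iff (by positivity)] at hx
    refine Finset.mem_filter.2 ⟨Finset.mem_insert.2 ?_, hx⟩
    exact (eq_or_ne x 0).imp_right fun h0 => mem_ball.2 ⟨h0, hx.le⟩
  rw [Finset.card_union_of_disjoint hd, add_sq, Real.sq_sqrt (by positivity), Nat.cast_add] at h1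
  rw [Real.sq_sqrt hy] at h2
  have h3 : √(y + h) ≤ √y + h + 1 := by
    have := Real.sq_sqrt hy
    have := Real.sqrt_nonneg y
    exact Real.sqrt_le_iff.2 ⟨by positivity, by nlinarith⟩
  have h4 := mul_le_mul_of_nonneg_left h3 hc.le
  have h5 := mul_nonneg hc.le hh
  linarith

theorem bas2a_harm : ∃ C : ℝ, 0 < C ∧ ∀ R : ℝ, 1 ≤ R →
    ∑ x ∈ ball R, (nm x : ℝ)⁻¹ ≤ C * (1 + Real.log R) := by
  refine ⟨12 * 2 ^ (1 : ℝ) * 2, by positivity, fun R hR => ?_⟩
  have h := bas2a_half (N := fun x : E => (nm x : ℝ)) (Q := fun x => x ≠ 0) (K := 12) (a := 1)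
    (by norm_num) zero_le_one (fun y T hy hT => ?_) hR (ball R)
    fun x hx => ⟨(mem_ball.1 hx).1, one_le_nmR (mem_ball.1 hx).1, (mem_ball.1 hx).2⟩
  · simpa only [Real.rpow_neg_one] using h
  · rw [Real.rpow_one]
    refine le_trans ?_ (card_ball_le hy)
    exact_mod_cast Finset.card_le_card fun x hx => mem_ball.2 (hT x hx)

theorem bas2a_pow (k : ℝ) (s : Finset P) : (k + 1) ^ s.card = ∑ d ∈ s.powerset, k ^ d.card := by
  simp only [← Finset.prod_const, Finset.prod_add_one]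

theorem bas2a_pow_div (k : ℕ) : ∃ C : ℝ, 0 < C ∧ ∀ R : ℝ, 1 ≤ R →
    ∑ s ∈ sqf R, (k : ℝ) ^ s.card / Ns s ≤ C * (1 + Real.log R) ^ k := by
  induction k with
  | zero =>
    refine ⟨1, one_pos, fun R _ => ?_⟩
    rw [Finset.sum_eq_single ∅]
    · simp [Ns_empty]
    · intro s _ hs
      simp [hs]
    · intro h
      exact absurd (mem_sqf.2 (by rwa [Ns_empty])) h
  | succ k ih =>
    obtain ⟨C, hC, ih⟩ := ih
    obtain ⟨D, hD, hh⟩ := bas2a_harm
    refine ⟨C * D, by positivity, fun R hR => ?_⟩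
    have hL : 0 ≤ 1 + Real.log R := by linarith [Real.log_nonneg hR]
    have h1 := bas2a_conv R (fun d e => (k : ℝ) ^ d.card / Ns d * (Ns e)⁻¹)
      fun d e => by have := Ns_pos d; have := Ns_pos e; positivity
    have h2 : ∀ d, ∑ e ∈ sqf (R / Ns d), (Ns e)⁻¹ ≤ D * (1 + Real.log R) := fun d =>
      (Finset.sum_le_sum_of_subset_of_nonneg (sqf_mono (div_le_self (by linarith) (one_le_Ns d)))
        fun e _ _ => (inv_pos.2 (Ns_pos e)).le).trans
        ((cnt_sqf (fun x => (nm x : ℝ)⁻¹) fun x => by positivity).trans (hh R hR))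
    refine le_trans (le_of_eq (Finset.sum_congr rfl fun s _ => ?_)) (h1.trans ?_)
    · rw [Nat.cast_succ, bas2a_pow, Finset.sum_div]
      refine Finset.sum_congr rfl fun d hd => ?_
      rw [← div_eq_mul_inv, div_div, ← Ns_union Finset.disjoint_sdiff,
        Finset.union_sdiff_of_subset (Finset.mem_powerset.1 hd)]
    · simp only [← Finset.mul_sum]
      refine (Finset.sum_le_sum fun d _ => mul_le_mul_of_nonneg_left (h2 d)
        (by have := Ns_pos d; positivity)).trans ?_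
      rw [← Finset.sum_mul, pow_succ, mul_mul_mul_comm]
      exact mul_le_mul_of_nonneg_right (ih R hR) (by positivity)

theorem bas2a_pow_card (k : ℕ) : ∃ C : ℝ, 0 < C ∧ ∀ R : ℝ, 1 ≤ R →
    ∑ s ∈ sqf R, ((k : ℝ) + 1) ^ s.card ≤ C * R * (1 + Real.log R) ^ k ∧
    ∑ s ∈ sqf R, (k : ℝ) ^ s.card / Ns s ≤ C * (1 + Real.log R) ^ k := by
  obtain ⟨C, hC, h⟩ := bas2a_pow_div k
  refine ⟨12 * C, by positivity, fun R hR => ⟨?_, (h R hR).trans ?_⟩⟩
  · simp only [bas2a_pow]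
    refine (bas2a_conv R (fun d _ => (k : ℝ) ^ d.card) fun d e => by positivity).trans ?_
    have h2 : ∀ d ∈ sqf R, ∑ _e ∈ sqf (R / Ns d), (k : ℝ) ^ d.card
        ≤ 12 * R * ((k : ℝ) ^ d.card / Ns d) := fun d _ => by
      rw [Finset.sum_const, nsmul_eq_mul]
      refine (mul_le_mul_of_nonneg_right (card_sqf_le (div_nonneg (by linarith) (Ns_pos d).le))
        (by positivity)).trans (le_of_eq ?_)
      ring
    refine (Finset.sum_le_sum h2).trans ?_
    rw [← Finset.mul_sum]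
    refine (mul_le_mul_of_nonneg_left (h R hR) (by positivity)).trans (le_of_eq ?_)
    ring
  · have hL : 0 ≤ 1 + Real.log R := by linarith [Real.log_nonneg hR]
    exact mul_le_mul_of_nonneg_right (by linarith) (by positivity)

theorem bas2a_card_log (s : Finset P) : (s.card : ℝ) ≤ Real.log (Ns s) := by
  rw [Ns_eq_prod, Real.log_prod fun p _ => (dvs_nmP_pos p).ne', Finset.card_eq_sum_ones,
    Nat.cast_sum]
  refine Finset.sum_le_sum fun p _ => ?_
  rw [Nat.cast_one, Real.le_log_iff_exp_le (dvs_nmP_pos p)]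
  linarith [Real.exp_one_lt_d9, dvs_four_le p]

theorem bas2a_tail_rough (A σ σ' : ℝ) (hA : 0 ≤ A) (h1 : 1 < σ') (h2 : σ' ≤ σ) :
    ∃ C : ℝ, 0 < C ∧ ∀ (w : ℝ) (T : Finset (Finset P)), 1 ≤ w → (∀ s ∈ T, s ≠ ∅ ∧ Rough w s) →
      ∑ s ∈ T, A ^ s.card * Ns s ^ (-σ) ≤ C * w ^ (σ' - σ) := by
  obtain ⟨C, hC, h⟩ := pow_card_le hA (ε := (σ' - 1) / 2) (by linarith)
  have hs := summable_Ns_rpow (σ := (σ' + 1) / 2) (by linarith)
  have h0 : ∀ s : Finset P, 0 ≤ Ns s ^ (-((σ' + 1) / 2)) := fun s =>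
    Real.rpow_nonneg (Ns_pos s).le _
  have h3 : 0 ≤ ∑' s : Finset P, Ns s ^ (-((σ' + 1) / 2)) := tsum_nonneg h0
  refine ⟨C * (∑' s, Ns s ^ (-((σ' + 1) / 2)) + 1), by positivity, fun w T hw hT => ?_⟩
  have h4 : ∀ s ∈ T, A ^ s.card * Ns s ^ (-σ)
      ≤ C * w ^ (σ' - σ) * Ns s ^ (-((σ' + 1) / 2)) := fun s hs => by
    obtain ⟨p, hp⟩ := Finset.nonempty_iff_ne_empty.2 (hT s hs).1
    have h5 : w ≤ Ns s := by
      refine ((hT s hs).2 p hp).le.trans ?_
      rw [← bas2a_Ns_one]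
      exact Ns_mono (Finset.singleton_subset_iff.2 hp)
    have h6 : Ns s ^ (σ' - σ) ≤ w ^ (σ' - σ) :=
      Real.rpow_le_rpow_of_nonpos (by linarith) h5 (by linarith)
    refine (mul_le_mul_of_nonneg_right (h s) (Real.rpow_nonneg (Ns_pos s).le _)).trans ?_
    rw [mul_assoc, mul_assoc, ← Real.rpow_add (Ns_pos s),
      show (σ' - 1) / 2 + -σ = σ' - σ + -((σ' + 1) / 2) by ring, Real.rpow_add (Ns_pos s)]
    exact mul_le_mul_of_nonneg_left (mul_le_mul_of_nonneg_right h6 (h0 s)) hC.le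
  refine (Finset.sum_le_sum h4).trans ?_
  rw [← Finset.mul_sum, mul_right_comm]
  refine mul_le_mul_of_nonneg_right (mul_le_mul_of_nonneg_left ?_ hC.le) (by positivity)
  linarith [hs.sum_le_tsum T fun s _ => h0 s]

theorem bas2a : Bas2a where
  circle := bas2a_circle
  thin := bas2a_thin
  thin_sqf := by
    obtain ⟨C, hC, h⟩ := bas2a_thin
    refine ⟨C, hC, fun y k T hy hk hT => ?_⟩
    rw [← Finset.card_image_of_injective T pr_inj]
    refine h y k _ hy hk fun x hx => ?_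
    obtain ⟨s, hs, rfl⟩ := Finset.mem_image.1 hx
    exact hT s hs
  harm := bas2a_harm
  pow_card := bas2a_pow_card
  card_sup := bas2a_card_sup
  card_log := bas2a_card_log
  tail_P := fun σ hσ => by
    obtain ⟨C, hC, h⟩ := tail_nm_rpow hσ
    refine ⟨C, hC, fun w T hw hT => ?_⟩
    rw [← Finset.sum_image (f := fun x : E => (nm x : ℝ) ^ (-σ)) Subtype.val_injective.injOn]
    refine h w (by linarith) _ fun x hx => ?_
    obtain ⟨p, hp, rfl⟩ := Finset.mem_image.1 hx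
    exact (hT p hp).le
  tail_rough := bas2a_tail_rough

end Pat
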