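import Vale.Agent.P006.IfA
import Vale.Agent.P026.Dvs

/-! Dyadic summation and convolution bounds. -/

noncomputable section
namespace Pat
open QRH Complex MeasureTheory Filter
open scoped ComplexConjugate Classical ContDiff Topology

section
variable {α : Type*} {N : α → ℝ} {Q : α → Prop} {K a : ℝ}

theorem bas2a_shell (hc : ∀ (y : ℝ) (T : Finset α), 0 ≤ y → (∀ x ∈ T, Q x ∧ N x ≤ y) →
      (T.card : ℝ) ≤ K * y ^ a) {σ M : ℝ} (hσ : 0 ≤ σ) (hM : 0 < M) (T : Finset α)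
    (hT : ∀ x ∈ T, Q x ∧ M ≤ N x ∧ N x ≤ 2 * M) :
    ∑ x ∈ T, N x ^ (-σ) ≤ K * 2 ^ a * M ^ (a - σ) := by
  have h1 := hc (2 * M) T (by positivity) fun x hx => ⟨(hT x hx).1, (hT x hx).2.2⟩
  have h2 := Finset.sum_le_card_nsmul T (fun x => N x ^ (-σ)) (M ^ (-σ)) fun x hx =>
    Real.rpow_le_rpow_of_nonpos hM (hT x hx).2.1 (by linarith)
  rw [nsmul_eq_mul] at h2
  refine h2.trans ((mul_le_mul_of_nonneg_right h1 (by positivity)).trans (le_of_eq ?_))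
  rw [Real.mul_rpow zero_le_two hM.le, sub_eq_add_neg, Real.rpow_add hM]
  ring

theorem bas2a_dy (hc : ∀ (y : ℝ) (T : Finset α), 0 ≤ y → (∀ x ∈ T, Q x ∧ N x ≤ y) →
      (T.card : ℝ) ≤ K * y ^ a) {σ M : ℝ} (hσ : 0 ≤ σ) (hM : 0 < M) (n : ℕ) (T : Finset α)
    (hT : ∀ x ∈ T, Q x ∧ M ≤ N x ∧ N x < 2 ^ n * M) :
    ∑ x ∈ T, N x ^ (-σ) ≤ K * 2 ^ a * M ^ (a - σ) * ∑ j ∈ Finset.range n, (2 ^ (a - σ)) ^ j := by
  induction n generalizing T with
  | zero =>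
    rw [Finset.sum_range_zero, mul_zero, Finset.sum_eq_zero]
    intro x hx
    have h := hT x hx
    rw [pow_zero, one_mul] at h
    exact absurd h.2.2 (not_lt.2 h.2.1)
  | succ n ih =>
    rw [← Finset.sum_filter_add_sum_filter_not T (fun x => N x < 2 ^ n * M),
      Finset.sum_range_succ, mul_add]
    refine add_le_add (ih _ fun x hx => ?_) ((bas2a_shell hc hσ (M := 2 ^ n * M) (by positivity) _
      fun x hx => ?_).trans (le_of_eq ?_))
    · obtain ⟨h1, h2⟩ := Finset.mem_filter.1 hx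
      exact ⟨(hT x h1).1, (hT x h1).2.1, h2⟩
    · obtain ⟨h1, h2⟩ := Finset.mem_filter.1 hx
      have h3 := (hT x h1).2.2
      rw [pow_succ] at h3
      exact ⟨(hT x h1).1, not_lt.1 h2, by linarith⟩
    · rw [Real.mul_rpow (x := 2 ^ n) (by positivity) hM.le, ← Real.rpow_natCast,
        ← Real.rpow_natCast, ← Real.rpow_mul zero_le_two, ← Real.rpow_mul zero_le_two,
        mul_comm (a - σ)]
      ring

theorem bas2a_half (hK : 0 ≤ K) (ha : 0 ≤ a)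
    (hc : ∀ (y : ℝ) (T : Finset α), 0 ≤ y → (∀ x ∈ T, Q x ∧ N x ≤ y) →
      (T.card : ℝ) ≤ K * y ^ a) {R : ℝ} (hR : 1 ≤ R) (T : Finset α)
    (hT : ∀ x ∈ T, Q x ∧ 1 ≤ N x ∧ N x ≤ R) :
    ∑ x ∈ T, N x ^ (-a) ≤ K * 2 ^ a * 2 * (1 + Real.log R) := by
  obtain ⟨n, h1, h2⟩ := exists_nat_pow_near hR one_lt_two
  have h3 := bas2a_dy hc ha one_pos (n + 1) T fun x hx =>
    ⟨(hT x hx).1, (hT x hx).2.1, by linarith [(hT x hx).2.2]⟩
  have h4 := Real.log_le_log (by positivity) h1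
  rw [Real.log_pow] at h4
  have h5 : (n : ℝ) * (1 / 2) ≤ n * Real.log 2 :=
    mul_le_mul_of_nonneg_left (by linarith [Real.log_two_gt_d9]) n.cast_nonneg
  simp only [sub_self, Real.rpow_zero, one_pow, Finset.sum_const, Finset.card_range, mul_one,
    nsmul_eq_mul] at h3
  refine h3.trans ?_
  rw [mul_assoc (K * 2 ^ a)]
  refine mul_le_mul_of_nonneg_left ?_ (by positivity)
  push_cast
  linarith

theorem bas2a_tail (hK : 0 < K)
    (hc : ∀ (y : ℝ) (T : Finset α), 0 ≤ y → (∀ x ∈ T, Q x ∧ N x ≤ y) →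
      (T.card : ℝ) ≤ K * y ^ a) {σ : ℝ} (hσ : 0 ≤ σ) (ha : a < σ) :
    ∃ C : ℝ, 0 < C ∧ ∀ (M : ℝ) (T : Finset α), 0 < M → (∀ x ∈ T, Q x ∧ M ≤ N x) →
      ∑ x ∈ T, N x ^ (-σ) ≤ C * M ^ (a - σ) := by
  have hq : (2 : ℝ) ^ (a - σ) < 1 := Real.rpow_lt_one_of_one_lt_of_neg one_lt_two (by linarith)
  have hq' : 0 < (1 - (2 : ℝ) ^ (a - σ))⁻¹ := inv_pos.2 (by linarith)
  refine ⟨K * 2 ^ a * (1 - 2 ^ (a - σ))⁻¹, by positivity, fun M T hM hT => ?_⟩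
  obtain ⟨n, hn⟩ := pow_unbounded_of_one_lt ((∑ x ∈ T, N x) / M) (one_lt_two (α := ℝ))
  rw [div_lt_iff₀ hM] at hn
  have h3 := bas2a_dy hc hσ hM n T fun x hx => ⟨(hT x hx).1, (hT x hx).2,
    (Finset.single_le_sum (fun y hy => hM.le.trans (hT y hy).2) hx).trans_lt hn⟩
  refine h3.trans ?_
  rw [mul_right_comm (K * 2 ^ a) (_)⁻¹]
  exact mul_le_mul_of_nonneg_left (dvs_geom (by positivity) hq n) (by positivity)

end

theorem bas2a_sup (R : ℝ) (d : Finset P) (F : Finset P → ℝ) (hF : ∀ e, 0 ≤ F e) :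
    ∑ s ∈ (sqf R).filter (fun s => d ⊆ s), F (s \ d) ≤ ∑ e ∈ sqf (R / Ns d), F e := by
  rw [← Finset.sum_image (g := fun s => s \ d) (f := F)]
  · refine Finset.sum_le_sum_of_subset_of_nonneg (fun e he => ?_) fun e _ _ => hF e
    obtain ⟨s, hs, rfl⟩ := Finset.mem_image.1 he
    obtain ⟨h1, h2⟩ := Finset.mem_filter.1 hs
    rw [mem_sqf, le_div_iff₀ (Ns_pos d), ← Ns_union Finset.sdiff_disjoint,
      Finset.sdiff_union_of_subset h2]
    exact mem_sqf.1 h1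
  · intro s hs t ht h
    rw [← Finset.sdiff_union_of_subset (Finset.mem_filter.1 hs).2,
      ← Finset.sdiff_union_of_subset (Finset.mem_filter.1 ht).2]
    exact congrArg (· ∪ d) h

theorem bas2a_card_sup (R : ℝ) (d : Finset P) (hR : 0 ≤ R) :
    (((sqf R).filter fun s => d ⊆ s).card : ℝ) ≤ 12 * R / Ns d := by
  have h := bas2a_sup R d (fun _ => 1) fun _ => zero_le_one
  simp only [Finset.sum_const, nsmul_eq_mul, mul_one] at h
  rw [mul_div_assoc]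
  exact h.trans (card_sqf_le (div_nonneg hR (Ns_pos d).le))

theorem bas2a_conv (R : ℝ) (F : Finset P → Finset P → ℝ) (hF : ∀ d e, 0 ≤ F d e) :
    ∑ s ∈ sqf R, ∑ d ∈ s.powerset, F d (s \ d) ≤ ∑ d ∈ sqf R, ∑ e ∈ sqf (R / Ns d), F d e := by
  rw [Finset.sum_comm' (t' := sqf R) (s' := fun d => (sqf R).filter fun s => d ⊆ s)]
  · exact Finset.sum_le_sum fun d _ => bas2a_sup R d (F d) (hF d)
  · intro s d
    simp only [Finset.mem_filter, Finset.mem_powerset, mem_sqf]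
    exact ⟨fun h => ⟨h, (Ns_mono h.2).trans h.1⟩, fun h => h.1⟩

theorem bas2a_Ns_one (p : P) : Ns {p} = nm p.1 := by rw [Ns, pr_singleton]

theorem bas2a_mem_prs {R : ℝ} {p : P} : p ∈ prs R ↔ (nm p.1 : ℝ) ≤ R := by
  simp only [prs, Finset.mem_biUnion, mem_sqf, id]
  refine ⟨fun ⟨s, h1, h2⟩ => le_trans ?_ h1, fun h => ⟨{p}, ?_, Finset.mem_singleton_self p⟩⟩
  · rw [← bas2a_Ns_one]
    exact Ns_mono (Finset.singleton_subset_iff.2 h2)
  · rwa [bas2a_Ns_one]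

end Pat
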