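import Vale.Agent.P006.Bas2aAux

/-! Counting facts, part b. -/

noncomputable section
namespace Pat
open QRH Complex MeasureTheory Filter
open scoped ComplexConjugate Classical ContDiff Topology

theorem bas2b_below (p : P) : ∃ l : ℕ, l.Prime ∧ p.1 ∣ (l : E) ∧ l ∣ nm p.1 := by
  obtain ⟨l, hl, h⟩ := e1_exists p
  refine ⟨l, hl, h, ?_⟩
  have h1 := nm_dvd h
  rw [nm_natCast] at h1
  obtain ⟨i, _, hi⟩ := (Nat.dvd_prime_pow hl).1 h1
  have h4 := p.four_le_nm
  rw [hi] at h4 ⊢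
  refine dvd_pow_self l fun h0 => ?_
  rw [h0, pow_zero] at h4
  omega

theorem bas2b_prs_le (y : ℝ) : (prs y).card ≤ 2 * Nat.primeCounting ⌊y⌋₊ := by
  choose l h1 h2 h3 using bas2b_below
  rw [← Nat.primesLE_card_eq_primeCounting]
  refine Finset.card_le_mul_card_image_of_maps_to (f := l) (fun p hp => ?_) 2 fun n _ => ?_
  · refine Nat.mem_primesLE.2 ⟨Nat.le_floor (le_trans ?_ (bas2a_mem_prs.1 hp)), h1 p⟩
    exact_mod_cast Nat.le_of_dvd (one_le_nm p.ne_zero) (h3 p)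
  · rcases ((prs y).filter fun p => l p = n).eq_empty_or_nonempty with h | ⟨p, hp⟩
    · simp [h]
    refine (Finset.card_le_card (t := {p, p.bar}) fun q hq => ?_).trans Finset.card_le_two
    have e : l q = l p := (Finset.mem_filter.1 hq).2.trans (Finset.mem_filter.1 hp).2.symm
    have h4 : q.1 ∣ (nm p.1 : E) := (h2 q).trans (e ▸ natCast_dvd_natCast.2 (h3 p))
    simpa using P.eq_or_bar h4

theorem bas2b_cheb : ∃ C : ℝ, 0 < C ∧ ∀ y : ℝ, 1 ≤ y →
    ((prs y).card : ℝ) ≤ C * y / (1 + Real.log y) := by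
  refine ⟨12 + 2 * (2 * Real.log 4 + 2), by positivity, fun y hy => ?_⟩
  have hL := Real.log_nonneg hy
  have h1 : ((prs y).card : ℝ) ≤ 12 * y := by
    refine le_trans ?_ (card_ball_le (by linarith))
    exact_mod_cast Finset.card_le_card_of_injOn Subtype.val
      (fun p hp => mem_ball.2 ⟨P.ne_zero p, bas2a_mem_prs.1 hp⟩) Subtype.val_injective.injOn
  have h2 : ((prs y).card : ℝ) ≤ 2 * Nat.primeCounting ⌊y⌋₊ := by exact_mod_cast bas2b_prs_le y
  have h3 : (Nat.primeCounting ⌊y⌋₊ : ℝ) * Real.log y ≤ (2 * Real.log 4 + 2) * y := by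
    rcases hy.eq_or_lt with rfl | h
    · rw [Real.log_one, mul_zero]
      positivity
    have h4 := mul_le_mul_of_nonneg_right (Chebyshev.pi_le_log4_mul_div h) hL
    have h5 := Real.log_le_sub_one_of_pos (Real.sqrt_pos.2 (show 0 < y by linarith))
    have h6 := Real.log_pos h
    have h7 := Real.mul_self_sqrt (show 0 ≤ y by linarith)
    have h8 := Real.sqrt_nonneg y
    rw [Real.log_sqrt (by linarith)] at h4 h5
    have h9 : Real.log 4 * y / (Real.log y / 2) * Real.log y = 2 * Real.log 4 * y := by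
      field_simp
    rw [add_mul, h9] at h4
    nlinarith
  rw [le_div_iff₀ (by linarith)]
  nlinarith

theorem bas2b_dec {m : E} (hm : Sqf m) :
    ∃ (s : Finset P) (a : E), a ≠ 0 ∧ m = pr s ^ 3 * a ^ 2 := by
  refine ⟨(fac m).filter fun p => vp p.1 m % 2 = 1,
    ∏ p ∈ fac m, p.1 ^ (vp p.1 m / 2 - vp p.1 m % 2),
    primary_ne_zero (primary_prod_pow _ _), ?_⟩
  rw [pr, Finset.prod_filter, ← Finset.prod_pow, ← Finset.prod_pow, ← Finset.prod_mul_distrib]
  refine (primary_factor hm.1).trans (Finset.prod_congr rfl fun p hp => ?_)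
  have h := hm.2 p hp
  split_ifs with h1
  · rw [← pow_mul, ← pow_add]
    congr 1
    omega
  · rw [one_pow, one_mul, ← pow_mul]
    congr 1
    omega

theorem bas2b_card : ∃ C : ℝ, 0 < C ∧ ∀ (M : ℝ) (T : Finset E), 0 ≤ M →
    (∀ m ∈ T, Sqf m ∧ (nm m : ℝ) ≤ M) → (T.card : ℝ) ≤ C * √M := by
  have hs := summable_Ns_rpow (σ := 3 / 2) (by norm_num)
  have h0 : ∀ s : Finset P, 0 ≤ Ns s ^ (-(3 / 2 : ℝ)) := fun s => Real.rpow_nonneg (Ns_pos s).le _
  have h3 : 0 ≤ ∑' s : Finset P, Ns s ^ (-(3 / 2 : ℝ)) := tsum_nonneg h0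
  refine ⟨12 * (∑' s : Finset P, Ns s ^ (-(3 / 2 : ℝ)) + 1), by positivity, fun M T hM hT => ?_⟩
  have h1 : T ⊆ (sqf M).biUnion fun s =>
      (ball (√M * Ns s ^ (-(3 / 2 : ℝ)))).image fun a => pr s ^ 3 * a ^ 2 := by
    intro m hm
    obtain ⟨s, a, ha, rfl⟩ := bas2b_dec (hT m hm).1
    have h4 := (hT _ hm).2
    rw [nm_mul, nm_pow, nm_pow] at h4
    push_cast at h4
    change Ns s ^ 3 * _ ≤ M at h4
    have h5 := one_le_Ns s
    have h6 := one_le_nmR ha
    refine Finset.mem_biUnion.2 ⟨s, mem_sqf.2 (le_trans ?_ h4),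
      Finset.mem_image.2 ⟨a, mem_ball.2 ⟨ha, ?_⟩, rfl⟩⟩
    · exact (le_self_pow₀ h5 three_ne_zero).trans
        (le_mul_of_one_le_right (by positivity) (one_le_pow₀ h6))
    · rw [Real.rpow_neg (by linarith), ← div_eq_mul_inv, le_div_iff₀ (by positivity)]
      refine Real.le_sqrt_of_sq_le (le_trans (le_of_eq ?_) h4)
      rw [mul_pow, ← Real.rpow_natCast (Ns s ^ _), ← Real.rpow_mul (by linarith), mul_comm,
        ← Real.rpow_natCast (Ns s) 3]
      norm_num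
  have h2 : (T.card : ℝ) ≤ ∑ s ∈ sqf M, ((ball (√M * Ns s ^ (-(3 / 2 : ℝ)))).card : ℝ) := by
    exact_mod_cast (Finset.card_le_card h1).trans (Finset.card_biUnion_le.trans
      (Finset.sum_le_sum fun s _ => Finset.card_image_le))
  refine h2.trans ((Finset.sum_le_sum fun s _ =>
    card_ball_le (mul_nonneg (Real.sqrt_nonneg M) (h0 s))).trans ?_)
  rw [← Finset.mul_sum, ← Finset.mul_sum, mul_assoc, mul_comm √M]
  refine mul_le_mul_of_nonneg_left (mul_le_mul_of_nonneg_right ?_ (Real.sqrt_nonneg M))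
    (by norm_num)
  linarith [hs.sum_le_tsum (sqf M) fun s _ => h0 s]

theorem bas2b_smooth {σ : ℝ} (h0 : 0 < σ) : ∃ C : ℝ, 0 < C ∧ ∀ w : ℝ, 0 ≤ w →
    ∑ s ∈ (prs w).powerset, Ns s ^ (σ - 1) ≤ Real.exp (C * w ^ σ) := by
  obtain ⟨C, hC, h⟩ := sum_ball_rpow (θ := σ - 1) (by linarith)
  refine ⟨C, hC, fun w hw => ?_⟩
  have h1 : ∀ s : Finset P, Ns s ^ (σ - 1) = ∏ p ∈ s, (nm p.1 : ℝ) ^ (σ - 1) := fun s => by
    rw [Ns_eq_prod, Real.finsetProd_rpow _ _ fun p _ => (dvs_nmP_pos p).le]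
  simp only [h1]
  rw [← Finset.prod_one_add]
  refine (Real.prod_one_add_le_exp_sum _ fun p => by positivity).trans (Real.exp_le_exp.2 ?_)
  have h2 := h w hw
  rw [add_sub_cancel] at h2
  rw [← Finset.sum_image (f := fun x : E => (nm x : ℝ) ^ (σ - 1)) Subtype.val_injective.injOn]
  refine le_trans (Finset.sum_le_sum_of_subset_of_nonneg (fun x hx => ?_)
    fun x _ _ => by positivity) h2
  obtain ⟨p, hp, rfl⟩ := Finset.mem_image.1 hx
  exact mem_ball.2 ⟨P.ne_zero p, bas2a_mem_prs.1 hp⟩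

theorem bas2b_rank {σ U w R : ℝ} (h0 : 0 ≤ σ) (hU : 0 < U) (hR : 0 ≤ R) :
    (((sqf R).filter fun b => U < Ns (b.filter fun p => (nm p.1 : ℝ) ≤ w)).card : ℝ)
      ≤ 12 * R * U ^ (-σ) * ∑ s ∈ (prs w).powerset, Ns s ^ (σ - 1) := by
  have h1 : ((sqf R).filter fun b => U < Ns (b.filter fun p => (nm p.1 : ℝ) ≤ w)) ⊆
      ((prs w).powerset.filter fun s => U < Ns s).biUnion fun s =>
        (sqf R).filter fun b => s ⊆ b := by
    intro b hb
    obtain ⟨h2, h3⟩ := Finset.mem_filter.1 hb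
    exact Finset.mem_biUnion.2 ⟨_, Finset.mem_filter.2 ⟨Finset.mem_powerset.2 fun p hp =>
      bas2a_mem_prs.2 (Finset.mem_filter.1 hp).2, h3⟩,
      Finset.mem_filter.2 ⟨h2, Finset.filter_subset _ _⟩⟩
  have h2 := (Nat.cast_le (α := ℝ)).2 ((Finset.card_le_card h1).trans Finset.card_biUnion_le)
  rw [Nat.cast_sum] at h2
  rw [Finset.mul_sum]
  refine h2.trans (le_trans (Finset.sum_le_sum fun s hs => (bas2a_card_sup R s hR).trans ?_)
    (Finset.sum_le_sum_of_subset_of_nonneg (Finset.filter_subset _ _)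
      fun s _ _ => by have := Ns_pos s; positivity))
  have h3 := Ns_pos s
  have h4 : Ns s ^ (-σ) ≤ U ^ (-σ) :=
    Real.rpow_le_rpow_of_nonpos hU (Finset.mem_filter.1 hs).2.le (by linarith)
  rw [div_eq_mul_inv, mul_assoc (12 * R), ← Real.rpow_neg_one,
    show (-1 : ℝ) = -σ + (σ - 1) by ring, Real.rpow_add h3]
  exact mul_le_mul_of_nonneg_left (mul_le_mul_of_nonneg_right h4 (by positivity)) (by positivity)

theorem bas2b_rankin (k : ℕ) (δ : ℝ) (hδ : 0 < δ) : ∃ c C : ℝ, 0 < c ∧ 0 < C ∧ ∀ X R : ℝ, 3 ≤ X →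
    0 ≤ R → (((sqf R).filter fun b =>
      X ^ δ < Ns (b.filter fun p => (nm p.1 : ℝ) ≤ Real.log X ^ k)).card : ℝ)
        ≤ C * R * X ^ (-c) := by
  set σ : ℝ := 1 / (2 * k + 2) with hσ
  have h0 : 0 < σ := by positivity
  obtain ⟨C, hC, h⟩ := bas2b_smooth h0
  have hc : 0 < δ * σ / 2 := by positivity
  refine ⟨δ * σ / 2, 12 * Real.exp (C ^ 2 / (4 * (δ * σ / 2))), hc, by positivity,
    fun X R hX hR => ?_⟩
  have hX0 : 0 < X := by linarith
  have hL : 1 ≤ Real.log X := by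
    rw [Real.le_log_iff_exp_le hX0]
    linarith [Real.exp_one_lt_d9]
  have h1 : (Real.log X ^ k) ^ σ ≤ √(Real.log X) := by
    rw [← Real.rpow_natCast, ← Real.rpow_mul (by linarith), Real.sqrt_eq_rpow]
    refine Real.rpow_le_rpow_of_exponent_le hL ?_
    rw [hσ, mul_one_div, div_le_div_iff₀ (by positivity) two_pos]
    linarith
  have h2 : C * √(Real.log X) ≤ C ^ 2 / (4 * (δ * σ / 2)) + Real.log X * (δ * σ / 2) := by
    generalize δ * σ / 2 = c at hc
    have h3 := Real.sq_sqrt (show 0 ≤ Real.log X by linarith)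
    rw [div_add' _ _ _ (by positivity), le_div_iff₀ (by positivity)]
    have h4 : c ^ 2 * √(Real.log X) ^ 2 = c ^ 2 * Real.log X := by rw [h3]
    nlinarith [sq_nonneg (C - 2 * c * √(Real.log X))]
  have h3 := (h _ (by positivity)).trans
    (Real.exp_le_exp.2 ((mul_le_mul_of_nonneg_left h1 hC.le).trans h2))
  refine (bas2b_rank h0.le (by positivity) hR).trans
    ((mul_le_mul_of_nonneg_left h3 (by positivity)).trans (le_of_eq ?_))
  rw [Real.exp_add, ← Real.rpow_def_of_pos hX0, ← Real.rpow_mul hX0.le,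
    show -(δ * σ / 2) = δ * -σ + δ * σ / 2 by ring, Real.rpow_add hX0]
  ring

theorem bas2b : Bas2b where
  cheb := bas2b_cheb
  sqfull_card := bas2b_card
  sqfull_tail := fun σ hσ => by
    obtain ⟨C, hC, h⟩ := bas2b_card
    simp only [Real.sqrt_eq_rpow] at h
    exact bas2a_tail (N := fun x : E => (nm x : ℝ)) hC h (by linarith) hσ
  sqfull_half := by
    obtain ⟨C, hC, h⟩ := bas2b_card
    simp only [Real.sqrt_eq_rpow] at h
    exact ⟨C * 2 ^ (1 / 2 : ℝ) * 2, by positivity, fun M T hM hT =>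
      bas2a_half (N := fun x : E => (nm x : ℝ)) hC.le (by norm_num) h hM T fun x hx =>
        ⟨(hT x hx).1, one_le_nmR (primary_ne_zero (hT x hx).1.1), (hT x hx).2⟩⟩
  rankin := bas2b_rankin

end Pat
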