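import Vale.Agent.P006.IfA

/-! Basic analytic facts: weights, polar coordinates, derivatives. -/

noncomputable section
namespace Pat
open QRH Complex MeasureTheory Filter Set
open scoped ComplexConjugate Classical ContDiff Topology

theorem bas3a_bx_nonneg (v : ℝ) : 0 ≤ bx v :=
  sub_nonneg.2 (Real.smoothTransition.monotone (by linarith))

theorem bas3a_bx_supp (v : ℝ) (h : bx v ≠ 0) : 0 < v ∧ v < 1 := by
  refine ⟨lt_of_not_ge fun c => h ?_, lt_of_not_ge fun c => h ?_⟩
  · rw [bx, Real.smoothTransition.zero_of_nonpos (by linarith),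
      Real.smoothTransition.zero_of_nonpos (by linarith), sub_self]
  · rw [bx, Real.smoothTransition.one_of_one_le (by linarith),
      Real.smoothTransition.one_of_one_le (by linarith), sub_self]

theorem bas3a_bx_smooth : ContDiff ℝ ∞ bx :=
  (Real.smoothTransition.contDiff.comp (contDiff_const.mul contDiff_id)).sub
    (Real.smoothTransition.contDiff.comp ((contDiff_const.mul contDiff_id).sub contDiff_const))

theorem bas3a_full (v : ℝ) (J : Finset ℤ) :
    ∑ i ∈ J ∪ {⌈2 * v⌉ - 1, ⌈2 * v⌉ - 2}, bx (v - i / 2) = 1 := by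
  have h1 := Int.le_ceil (2 * v)
  have h2 := Int.ceil_lt_add_one (2 * v)
  rw [← Finset.sum_subset Finset.subset_union_right, Finset.sum_pair (by omega)]
  · have a1 : Real.smoothTransition (2 * (v - ((⌈2 * v⌉ - 1 : ℤ) : ℝ) / 2) - 1) = 0 :=
      Real.smoothTransition.zero_of_nonpos (by push_cast; linarith)
    have a2 : Real.smoothTransition (2 * (v - ((⌈2 * v⌉ - 2 : ℤ) : ℝ) / 2)) = 1 :=
      Real.smoothTransition.one_of_one_le (by push_cast; linarith)
    have a3 : 2 * (v - ((⌈2 * v⌉ - 2 : ℤ) : ℝ) / 2) - 1 = 2 * (v - ((⌈2 * v⌉ - 1 : ℤ) : ℝ) / 2) := by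
      push_cast; ring
    rw [bx, bx, a1, a2, a3]
    ring
  · intro i _ hi
    by_contra c
    obtain ⟨b1, b2⟩ := bas3a_bx_supp _ c
    have b3 : (i : ℝ) < ⌈2 * v⌉ := by linarith
    have b4 : ((⌈2 * v⌉ : ℤ) : ℝ) < (i + 3 : ℤ) := by push_cast; linarith
    rw [Int.cast_lt] at b3 b4
    simp only [Finset.mem_insert, Finset.mem_singleton] at hi
    omega

theorem bas3a_bt_supp (v : ℝ) (h : bt v ≠ 0) : 0 < v ∧ v < 1 / 4 := by
  have h1 : v ∈ Function.support btB := h
  rw [btB.support_eq, Metric.mem_ball, Real.dist_eq, abs_lt] at h1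
  have h2 : btB.rOut = 1 / 8 := rfl
  rw [h2] at h1
  constructor <;> linarith [h1.1, h1.2]

theorem bas3a_om0_supp (v : ℝ) (h : om0 v ≠ 0) : 0 < v ∧ v < 3 / 4 := by
  have h1 : v ∈ Function.support omB := h
  rw [omB.support_eq, Metric.mem_ball, Real.dist_eq, abs_lt] at h1
  have h2 : omB.rOut = 3 / 8 := rfl
  rw [h2] at h1
  constructor <;> linarith [h1.1, h1.2]

theorem bas3a_Om_smooth : ContDiff ℝ ∞ Om :=
  btB.hasCompactSupport.contDiff_convolution_left (ContinuousLinearMap.mul ℝ ℝ) (μ := volume)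
    btB.contDiff omB.continuous.locallyIntegrable

theorem bas3a_Om_le (v : ℝ) : Om v ≤ 1 := by
  have h1 : Om v ≤ ∫ x, btB x :=
    integral_mono_of_nonneg (Eventually.of_forall fun x => mul_nonneg btB.nonneg omB.nonneg)
      btB.integrable (Eventually.of_forall fun x => mul_le_of_le_one_right btB.nonneg omB.le_one)
  have h2 := btB.integral_le_measure_closedBall (μ := volume)
  have h3 : btB.rOut = 1 / 8 := rfl
  rw [Real.volume_real_closedBall (by rw [h3]; norm_num), h3] at h2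
  linarith

theorem bas3a_Om_supp (v : ℝ) (h : Om v ≠ 0) : 0 ≤ v ∧ v ≤ 1 := by
  by_contra c
  refine h (integral_eq_zero_of_ae (Eventually.of_forall fun x => ?_))
  by_contra d
  obtain ⟨a1, a2⟩ := bas3a_bt_supp x (left_ne_zero_of_mul d)
  obtain ⟨a3, a4⟩ := bas3a_om0_supp _ (right_ne_zero_of_mul d)
  exact c ⟨by linarith, by linarith⟩

theorem bas3a_Om_low (v : ℝ) (h1 : 3 / 8 ≤ v) (h2 : v ≤ 5 / 8) : Om v = ∫ x, btB x := by
  refine integral_congr_ae (Eventually.of_forall fun x => ?_)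
  by_cases c : bt x = 0
  · simp only [c, zero_mul]
    exact c.symm
  · obtain ⟨a1, a2⟩ := bas3a_bt_supp x c
    have : om0 (v - x) = 1 := omB.one_of_mem_closedBall (by
      rw [Metric.mem_closedBall, Real.dist_eq, abs_le, show omB.rIn = 1 / 4 from rfl]
      constructor <;> linarith)
    simp only [this, mul_one]
    rfl

theorem bas3a_rad (φ : ℝ → ℂ) (a : ℝ) (h : ContDiff ℝ ∞ φ) (hc : HasCompactSupport φ) :
    ContDiff ℝ ∞ fun z : ℂ => if z = 0 then 0 else φ (Real.log (‖z‖ ^ 2) + a) := by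
  refine contDiff_iff_contDiffAt.2 fun z => ?_
  by_cases hz : z = 0
  · obtain ⟨R, hR⟩ := hc.isBounded.bddBelow
    have e : ∀ᶠ w : ℂ in 𝓝 z, ‖w‖ ^ 2 < Real.exp (R - a) := by
      refine (continuous_norm.pow 2).continuousAt.eventually_lt continuousAt_const ?_
      norm_num [hz, Real.exp_pos]
    refine (contDiffAt_const (c := (0 : ℂ))).congr_of_eventuallyEq (e.mono fun w hw => ?_)
    by_cases hw0 : w = 0
    · exact if_pos hw0
    · refine (if_neg hw0).trans (image_eq_zero_of_notMem_tsupport fun c => ?_)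
      have b1 := hR c
      have b2 := (Real.log_lt_iff_lt_exp (pow_pos (norm_pos_iff.2 hw0) 2)).2 hw
      linarith
  · have e : ∀ᶠ w : ℂ in 𝓝 z, w ≠ 0 := continuousAt_id.eventually_ne hz
    refine ContDiffAt.congr_of_eventuallyEq ?_ (e.mono fun w hw => if_neg hw)
    exact h.contDiffAt.comp z (((contDiff_norm_sq ℝ).contDiffAt.log
      (pow_pos (norm_pos_iff.2 hz) 2).ne').add contDiffAt_const)

theorem bas3a_polar (f : ℝ → ℂ) :
    ∫ z : ℂ, f (‖z‖ ^ 2) = Real.pi * ∫ y in Set.Ioi (0 : ℝ), f y := by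
  rw [integral_fun_norm_addHaar volume fun y => f (y ^ 2),
    ← integral_comp_rpow_Ioi_of_pos (g := f) two_pos, Complex.finrank_real_complex]
  have h1 : (volume : Measure ℂ).real (Metric.ball 0 1) = Real.pi := by
    simp [Measure.real, Complex.volume_ball]
  have h2 : ∫ x in Ioi (0 : ℝ), (2 * x ^ ((2 : ℝ) - 1)) • f (x ^ (2 : ℝ)) =
      (2 : ℝ) • ∫ y in Ioi (0 : ℝ), y ^ (2 - 1) • f (y ^ 2) := by
    rw [← integral_smul]
    refine integral_congr_ae (Eventually.of_forall fun x => ?_)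
    norm_num [mul_smul, mul_assoc]
  rw [h1, h2]
  simp only [nsmul_eq_mul, real_smul]
  push_cast
  ring

theorem bas3a_polar_int (f : ℝ → ℂ) :
    Integrable (fun z : ℂ => f (‖z‖ ^ 2)) ↔ IntegrableOn f (Set.Ioi 0) := by
  rw [integrable_fun_norm_addHaar volume (f := fun y => f (y ^ 2)),
    ← integrableOn_Ioi_comp_rpow_iff' f two_ne_zero, Complex.finrank_real_complex]
  norm_num

theorem bas3a_polar_log (f : ℝ → ℂ) :
    ∫ y in Set.Ioi (0 : ℝ), f y = ∫ v : ℝ, f (Real.exp v) * (Real.exp v : ℝ) := by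
  have := integral_image_eq_integral_abs_deriv_smul MeasurableSet.univ
    (fun x _ => (Real.hasDerivAt_exp x).hasDerivWithinAt) Real.exp_injective.injOn f
  rw [image_univ, Real.range_exp, Measure.restrict_univ] at this
  rw [this]
  refine integral_congr_ae (Eventually.of_forall fun x => ?_)
  simp only [abs_of_pos (Real.exp_pos x), real_smul, mul_comm]

theorem bas3a_bdd {φ : ℝ → ℂ} (h : Bump φ) (j : ℕ) : ∃ D, ∀ v, ‖iteratedDeriv j φ v‖ ≤ D := by
  have hc : HasCompactSupport φ :=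
    HasCompactSupport.intro (isCompact_Icc (a := 0) (b := 1)) fun x hx => by
      by_contra c
      exact hx (h.supp x c)
  obtain ⟨D, hD⟩ := (h.smooth.continuous_iteratedFDeriv (m := j) (by exact_mod_cast le_top)
    ).bounded_above_of_compact_support (hc.iteratedFDeriv (𝕜 := ℝ) j)
  exact ⟨D, fun v => (norm_iteratedFDeriv_eq_norm_iteratedDeriv (f := φ)).ge.trans (hD v)⟩

theorem bas3a_bump_bd (φ : ℝ → ℂ) (h : Bump φ) (n : ℕ) : ∃ D : ℝ, 0 < D ∧ BD n φ D := by
  choose D hD using bas3a_bdd h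
  have h0 : ∀ j, 0 ≤ D j := fun j => (norm_nonneg _).trans (hD j 0)
  have h1 : 0 ≤ ∑ j ∈ Finset.range (n + 1), D j := Finset.sum_nonneg fun j _ => h0 j
  refine ⟨∑ j ∈ Finset.range (n + 1), D j + 1, by linarith, h.smooth, fun v hv => ?_,
    fun j hj v => ?_⟩
  · obtain ⟨a, b⟩ := h.supp v hv
    constructor <;> linarith
  · have := Finset.single_le_sum (fun j _ => h0 j) (Finset.mem_range.2 (Nat.lt_succ_of_le hj))
    linarith [hD j v]

theorem bas3a_mo (φ : ℝ → ℂ) (h : Bump φ) :
    ∃ C : ℝ, 0 < C ∧ ∀ T σ : ℝ, 1 ≤ T → |σ| ≤ 2 → ‖mo φ T σ‖ ≤ C / T := by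
  obtain ⟨D, hD, hB⟩ := bas3a_bump_bd φ h 0
  refine ⟨D * Real.exp 2, by positivity, fun T σ hT hσ => ?_⟩
  have hT0 : 0 < T := one_pos.trans_le hT
  rw [mo, ← setIntegral_eq_integral_of_forall_compl_eq_zero (s := Icc 0 (1 / T)) fun x hx => ?_]
  · refine (norm_setIntegral_le_of_norm_le_const (C := D * Real.exp 2) measure_Icc_lt_top
      fun x hx => ?_).trans ?_
    · have a1 : ‖φ (T * x)‖ ≤ D := by simpa using hB.bd 0 le_rfl (T * x)
      have a2 : x ≤ 1 := hx.2.trans ((div_le_one hT0).2 hT)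
      have a3 : σ * x ≤ 2 := by nlinarith [hx.1, le_abs_self σ]
      rw [norm_mul, Complex.norm_real, Real.norm_of_nonneg (Real.exp_pos _).le]
      exact mul_le_mul a1 (Real.exp_le_exp.2 a3) (Real.exp_pos _).le hD.le
    · rw [Real.volume_real_Icc_of_le (by positivity), sub_zero, mul_one_div]
  · by_contra c
    obtain ⟨a1, a2⟩ := h.supp _ (left_ne_zero_of_mul c)
    exact hx ⟨nonneg_of_mul_nonneg_right a1 hT0, by rwa [le_div_iff₀' hT0]⟩

theorem bas3a_mul (n : ℕ) (φ g : ℝ → ℂ) (D D' : ℝ) (h : BD n φ D) (hg : ContDiff ℝ ∞ g)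
    (hb : ∀ j ≤ n, ∀ v, -3 ≤ v → v ≤ 3 → ‖iteratedDeriv j g v‖ ≤ D') :
    BD n (fun v => φ v * g v) (2 ^ n * D * D') := by
  have hD : 0 ≤ D := (norm_nonneg _).trans (h.bd 0 n.zero_le 0)
  have hD' : 0 ≤ D' := (norm_nonneg _).trans (hb 0 n.zero_le 0 (by norm_num) (by norm_num))
  refine ⟨h.smooth.mul hg, fun v hv => h.supp v (left_ne_zero_of_mul hv), fun j hj v => ?_⟩
  by_cases hv : v ∈ Icc (-3 : ℝ) 3
  · rw [iteratedDeriv_fun_mul (h.smooth.contDiffAt.of_le (by exact_mod_cast le_top))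
      (hg.contDiffAt.of_le (by exact_mod_cast le_top))]
    refine (norm_sum_le _ _).trans ?_
    calc _ ≤ ∑ i ∈ Finset.range (j + 1), (j.choose i : ℝ) * D * D' :=
          Finset.sum_le_sum fun i hi => by
            have := Finset.mem_range.1 hi
            rw [norm_mul, norm_mul, Complex.norm_natCast]
            exact mul_le_mul (mul_le_mul_of_nonneg_left (h.bd i (by omega) v) (Nat.cast_nonneg _))
              (hb _ (by omega) v hv.1 hv.2) (norm_nonneg _) (by positivity)
      _ = 2 ^ j * D * D' := by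
          rw [← Finset.sum_mul, ← Finset.sum_mul, ← Nat.cast_sum, Nat.sum_range_choose]
          push_cast
          rfl
      _ ≤ _ := by gcongr; exact one_le_two
  · have e : (fun v => φ v * g v) =ᶠ[𝓝 v] fun _ => 0 := by
      filter_upwards [isClosed_Icc.isOpen_compl.mem_nhds hv] with w hw
      by_contra c
      exact hw (h.supp w (left_ne_zero_of_mul c))
    rw [e.iteratedDeriv_eq j, iteratedDeriv_const]
    simp only [ite_self, norm_zero]
    positivity

theorem bas3a_exp (s : ℂ) (j : ℕ) :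
    iteratedDeriv j (fun v : ℝ => Complex.exp (s * v)) = fun v : ℝ => s ^ j * Complex.exp (s * v) := by
  induction j with
  | zero => simp
  | succ j ih =>
    rw [iteratedDeriv_succ, ih]
    funext v
    have := (((hasDerivAt_id (v : ℂ)).const_mul s).cexp.const_mul (s ^ j)).comp_ofReal
    simp only [id, mul_one] at this
    rw [this.deriv]
    ring

theorem bas3a_der (n : ℕ) (φ : ℝ → ℂ) (D T : ℝ) (s : ℂ) (h : BD n φ D) (hT : 1 ≤ T)
    (hs : |s.re| ≤ 3) : BD n (fun v => φ (T * v) * Complex.exp (s * v))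
      (2 ^ n * Real.exp 9 * D * T ^ n * (1 + ‖s‖) ^ n) := by
  have hD : 0 ≤ D := (norm_nonneg _).trans (h.bd 0 n.zero_le 0)
  have h1 : BD n (fun v => φ (T * v)) (D * T ^ n) := by
    refine ⟨h.smooth.comp (contDiff_const.mul contDiff_id), fun v hv => ?_, fun j hj v => ?_⟩
    · obtain ⟨a, b⟩ := h.supp _ hv
      constructor <;> nlinarith
    · rw [iteratedDeriv_comp_const_smul (h.smooth.of_le (by exact_mod_cast le_top)), norm_smul,
        mul_comm, Real.norm_of_nonneg (by positivity)]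
      exact mul_le_mul (h.bd j hj _) (pow_le_pow_right₀ hT hj) (by positivity) hD
  have h2 := bas3a_mul n _ (fun v : ℝ => Complex.exp (s * v)) _ (Real.exp 9 * (1 + ‖s‖) ^ n) h1
    (Complex.contDiff_exp.comp (contDiff_const.mul Complex.ofRealCLM.contDiff))
    fun j hj v a b => by
      rw [bas3a_exp, norm_mul, mul_comm, norm_pow, Complex.norm_exp]
      have a1 : (s * v).re ≤ 9 := by
        rw [abs_le] at hs
        simp only [mul_re, ofReal_re, ofReal_im, mul_zero, sub_zero]
        nlinarith [hs.1, hs.2]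
      exact mul_le_mul (Real.exp_le_exp.2 a1) ((pow_le_pow_left₀ (norm_nonneg s)
        (le_add_of_nonneg_left zero_le_one) j).trans
        (pow_le_pow_right₀ (le_add_of_nonneg_right (norm_nonneg s)) hj)) (by positivity)
        (Real.exp_pos _).le
  rwa [show 2 ^ n * (D * T ^ n) * (Real.exp 9 * (1 + ‖s‖) ^ n) =
    2 ^ n * Real.exp 9 * D * T ^ n * (1 + ‖s‖) ^ n by ring] at h2

theorem bas3a : Bas3a where
  bx_nonneg := bas3a_bx_nonneg
  bx_le v := by
    linarith [Real.smoothTransition.le_one (2 * v), Real.smoothTransition.nonneg (2 * v - 1),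
      show bx v = Real.smoothTransition (2 * v) - Real.smoothTransition (2 * v - 1) from rfl]
  bx_supp := bas3a_bx_supp
  bx_bump := ⟨Complex.ofRealCLM.contDiff.comp bas3a_bx_smooth, fun v hv =>
    (bas3a_bx_supp v (ofReal_ne_zero.1 hv)).imp le_of_lt le_of_lt⟩
  bx_sum v J hJ := by
    rw [← bas3a_full v J]
    refine Finset.sum_subset Finset.subset_union_left fun i _ hi => ?_
    by_contra c
    exact hi (hJ i (bas3a_bx_supp _ c).1 (bas3a_bx_supp _ c).2)
  bx_sum_le v J := by
    rw [← bas3a_full v J]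
    exact Finset.sum_le_sum_of_subset_of_nonneg Finset.subset_union_left
      fun i _ _ => bas3a_bx_nonneg _
  Vs_one v h := Real.smoothTransition.one_of_one_le (by linarith)
  Vs_zero v h := Real.smoothTransition.zero_of_nonpos (by linarith)
  Vs_mem v := ⟨Real.smoothTransition.nonneg _, Real.smoothTransition.le_one _⟩
  bt_smooth := btB.contDiff
  bt_supp := bas3a_bt_supp
  om0_smooth := omB.contDiff
  om0_supp := bas3a_om0_supp
  Om_nonneg v := integral_nonneg fun x => mul_nonneg btB.nonneg omB.nonneg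
  Om_le := bas3a_Om_le
  Om_bump := ⟨Complex.ofRealCLM.contDiff.comp bas3a_Om_smooth, fun v hv =>
    bas3a_Om_supp v (ofReal_ne_zero.1 hv)⟩
  Om_low := ⟨_, btB.integral_pos, fun v h1 h2 => (bas3a_Om_low v h1 h2).ge⟩
  rad_smooth := bas3a_rad
  polar := bas3a_polar
  polar_int := bas3a_polar_int
  polar_log := bas3a_polar_log
  bump_bd := bas3a_bump_bd
  mo_le := bas3a_mo
  der n := ⟨2 ^ n * Real.exp 9, by positivity, bas3a_der n⟩
  der_mul n := ⟨2 ^ n, by positivity, bas3a_mul n⟩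

end Pat
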