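import Vale.Agent.P006.IfA

/-! P006: Fourier representations of weights. -/

noncomputable section
namespace Pat
open QRH Complex MeasureTheory Filter
open scoped ComplexConjugate Classical ContDiff Topology FourierTransform

theorem bas3b_tsupp {φ : ℝ → ℂ} (h : ∀ v, φ v ≠ 0 → -3 ≤ v ∧ v ≤ 3) :
    tsupport φ ⊆ Set.Icc (-3) 3 :=
  closure_minimal (fun v hv => h v hv) isClosed_Icc

theorem bas3b_cs {φ : ℝ → ℂ} (h : ∀ v, φ v ≠ 0 → -3 ≤ v ∧ v ≤ 3) : HasCompactSupport φ :=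
  isCompact_Icc.of_isClosed_subset (isClosed_tsupport φ) (bas3b_tsupp h)

theorem bas3b_dzero {φ : ℝ → ℂ} (h : ∀ v, φ v ≠ 0 → -3 ≤ v ∧ v ≤ 3) (j : ℕ) {v : ℝ}
    (hv : v ∉ Set.Icc (-3 : ℝ) 3) : iteratedDeriv j φ v = 0 := by
  rw [← norm_eq_zero, ← norm_iteratedFDeriv_eq_norm_iteratedDeriv, norm_eq_zero]
  by_contra h'
  exact hv (bas3b_tsupp h (support_iteratedFDeriv_subset (𝕜 := ℝ) j h'))

theorem bas3b_dcs {φ : ℝ → ℂ} (h : ∀ v, φ v ≠ 0 → -3 ≤ v ∧ v ≤ 3) (j : ℕ) :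
    HasCompactSupport (iteratedDeriv j φ) :=
  HasCompactSupport.intro isCompact_Icc fun _ hv => bas3b_dzero h j hv

theorem bas3b_dcont {φ : ℝ → ℂ} (hs : ContDiff ℝ ∞ φ) (j : ℕ) :
    Continuous (iteratedDeriv j φ) :=
  hs.continuous_iteratedDeriv j (by exact_mod_cast le_top)

theorem bas3b_exD {φ : ℝ → ℂ} (hs : ContDiff ℝ ∞ φ) (h : ∀ v, φ v ≠ 0 → -3 ≤ v ∧ v ≤ 3) (k : ℕ) :
    ∃ D : ℝ, 0 < D ∧ BD k φ D := by
  have h1 : ∀ j : ℕ, ∃ D : ℝ, ∀ v, ‖iteratedDeriv j φ v‖ ≤ D := fun j =>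
    (bas3b_dcont hs j).bounded_above_of_compact_support (bas3b_dcs h j)
  choose D hD using h1
  have h0 : ∀ j, 0 ≤ D j := fun j => (norm_nonneg _).trans (hD j 0)
  refine ⟨1 + ∑ j ∈ Finset.range (k + 1), D j, ?_, hs, h, fun j hj v => ?_⟩
  · have := Finset.sum_nonneg fun j (_ : j ∈ Finset.range (k + 1)) => h0 j
    linarith
  · have := Finset.single_le_sum (fun j (_ : j ∈ Finset.range (k + 1)) => h0 j)
      (Finset.mem_range.2 (Nat.lt_succ_of_le hj))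
    linarith [hD j v]

theorem bas3b_four {g : ℝ → ℂ} {D : ℝ} (h : ∀ v, v ∉ Set.Icc (-3 : ℝ) 3 → g v = 0)
    (hD : ∀ v, ‖g v‖ ≤ D) (ξ : ℝ) : ‖𝓕 g ξ‖ ≤ 6 * D := by
  rw [Real.fourier_real_eq_integral_exp_smul,
    ← setIntegral_eq_integral_of_forall_compl_eq_zero (s := Set.Icc (-3 : ℝ) 3)
      fun v hv => by rw [h v hv, smul_zero]]
  refine (norm_setIntegral_le_of_norm_le_const (C := D) measure_Icc_lt_top fun v _ => ?_).trans ?_
  · rw [norm_smul, Complex.norm_exp_ofReal_mul_I, one_mul]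
    exact hD v
  · rw [Real.volume_real_Icc_of_le (by norm_num)]
    linarith

theorem bas3b_dec {k : ℕ} {φ : ℝ → ℂ} {D : ℝ} (h : BD k φ D) (τ : ℝ) :
    ‖𝓕 φ (τ / (2 * Real.pi))‖ ≤ 2 ^ k * 12 * D * (1 + |τ|) ^ (-(k : ℝ)) := by
  have h0 : ‖𝓕 φ (τ / (2 * Real.pi))‖ ≤ 6 * D :=
    bas3b_four (fun v hv => by simpa using bas3b_dzero h.supp 0 hv)
      (fun v => by simpa using h.bd 0 (Nat.zero_le _) v) _
  have h1 := bas3b_four (fun v hv => bas3b_dzero h.supp k hv) (h.bd k le_rfl) (τ / (2 * Real.pi))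
  rw [Real.fourier_iteratedDeriv (N := ⊤) h.smooth (fun j _ =>
    (bas3b_dcont h.smooth j).integrable_of_hasCompactSupport (bas3b_dcs h.supp j)) le_top] at h1
  have h2 : (2 * Real.pi * I * ((τ / (2 * Real.pi) : ℝ) : ℂ)) = τ * I := by
    have : (Real.pi : ℂ) ≠ 0 := ofReal_ne_zero.2 Real.pi_ne_zero
    push_cast
    field_simp
  simp only [h2, norm_smul, norm_pow, norm_mul, norm_real, norm_I, mul_one,
    Real.norm_eq_abs] at h1
  have h3 := add_pow_le zero_le_one (abs_nonneg τ) k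
  have h4 : (2 : ℝ) ^ (k - 1) ≤ 2 ^ k := pow_le_pow_right₀ one_le_two (Nat.sub_le _ _)
  have hp : 0 < (1 + |τ|) ^ k := by positivity
  rw [Real.rpow_neg (by positivity), Real.rpow_natCast, ← div_eq_mul_inv, le_div_iff₀ hp]
  generalize ‖𝓕 φ (τ / (2 * Real.pi))‖ = F at *
  have hF : 0 ≤ F → F * (1 + |τ|) ^ k ≤ 2 ^ k * 12 * D := fun hF => by
    calc F * (1 + |τ|) ^ k ≤ F * (2 ^ k * (1 + |τ| ^ k)) := by
          refine mul_le_mul_of_nonneg_left (h3.trans ?_) hF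
          rw [one_pow]
          exact mul_le_mul_of_nonneg_right h4 (by positivity)
      _ = 2 ^ k * (F + |τ| ^ k * F) := by ring
      _ ≤ 2 ^ k * (12 * D) := mul_le_mul_of_nonneg_left (by linarith) (by positivity)
      _ = _ := by ring
  rcases le_total 0 F with hF' | hF'
  · exact hF hF'
  · have hD : 0 ≤ D := (norm_nonneg _).trans (h.bd 0 (Nat.zero_le _) 0)
    exact (mul_nonpos_of_nonpos_of_nonneg hF' hp.le).trans (by positivity)

theorem bas3b_fr (k : ℕ) : ∃ C : ℝ, 0 < C ∧ ∀ (φ : ℝ → ℂ) (D : ℝ), BD k φ D →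
    ∃ h : ℝ → ℂ, Continuous h ∧ (∀ τ, ‖h τ‖ ≤ C * D * (1 + |τ|) ^ (-(k : ℝ))) ∧
      Integrable h ∧ ∀ v : ℝ, φ v = ∫ τ : ℝ, h τ * Complex.exp (τ * v * I) := by
  refine ⟨2 ^ k * 12, by positivity, fun φ D h => ?_⟩
  have hπ : 0 < 2 * Real.pi := by positivity
  let f := (bas3b_cs h.supp).toSchwartzMap h.smooth
  have hc : Continuous (𝓕 φ) := (𝓕 f).continuous
  have hi : Integrable (𝓕 φ) := (𝓕 f).integrable
  have hφ : Integrable φ := f.integrable
  refine ⟨fun τ => (((2 * Real.pi)⁻¹ : ℝ) : ℂ) * 𝓕 φ (τ / (2 * Real.pi)), by fun_prop, fun τ => ?_,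
    (hi.comp_div hπ.ne').const_mul _, fun v => ?_⟩
  · rw [norm_mul, norm_real, Real.norm_eq_abs, abs_of_pos (inv_pos.2 hπ)]
    refine le_trans (mul_le_of_le_one_left (norm_nonneg _) ?_) (bas3b_dec h τ)
    exact inv_le_one_of_one_le₀ (by linarith [Real.pi_gt_three])
  · have h1 := congrFun (h.smooth.continuous.fourierInv_fourier_eq hφ hi) v
    rw [Real.fourierInv_eq'] at h1
    have h2 := Measure.integral_comp_div
      (fun ξ : ℝ => Complex.exp (((2 * Real.pi * inner ℝ ξ v : ℝ) : ℂ) * I) • 𝓕 φ ξ) (2 * Real.pi)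
    rw [h1, abs_of_pos hπ] at h2
    have h3 : φ v = (((2 * Real.pi)⁻¹ : ℝ) : ℂ) * ((2 * Real.pi) • φ v) := by
      rw [real_smul, ← mul_assoc, ← ofReal_mul, inv_mul_cancel₀ hπ.ne', ofReal_one, one_mul]
    rw [h3, ← h2, ← integral_const_mul]
    refine integral_congr_ae (Eventually.of_forall fun τ => ?_)
    have h4 : 2 * Real.pi * inner ℝ (τ / (2 * Real.pi)) v = τ * v := by
      simp only [RCLike.inner_apply, conj_trivial]
      field_simp
    simp only [h4, smul_eq_mul, ofReal_mul]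
    ring

theorem bas3b_vr (k : ℕ) : ∃ C : ℝ, 0 < C ∧ ∀ L : ℝ, 0 ≤ L →
    ∃ h : ℝ → ℂ, Continuous h ∧ (∀ τ, ‖h τ‖ ≤ C * (1 + L) * (1 + |τ|) ^ (-(k : ℝ))) ∧
      Integrable h ∧ ∀ v : ℝ, -L ≤ v → (Vs v : ℂ) = ∫ τ : ℝ, h τ * Complex.exp (τ * v * I) := by
  have hV : ContDiff ℝ ∞ Vs :=
    Real.smoothTransition.contDiff.comp (contDiff_const.sub contDiff_id)
  have hz : ∀ v, 1 ≤ v → Vs v = 0 := fun v hv =>
    Real.smoothTransition.zero_of_nonpos (by linarith)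
  have ho : ∀ v, v ≤ 0 → Vs v = 1 := fun v hv =>
    Real.smoothTransition.one_of_one_le (by linarith)
  have hs : ContDiff ℝ ∞ fun v => ((Vs v - Vs (v + 1) : ℝ) : ℂ) :=
    ofRealCLM.contDiff.comp (hV.sub (hV.comp (contDiff_id.add contDiff_const)))
  obtain ⟨D, hD, hb⟩ := bas3b_exD hs (fun v hv => by
    refine ⟨not_lt.1 fun h => hv ?_, not_lt.1 fun h => hv ?_⟩
    · rw [ho v (by linarith), ho (v + 1) (by linarith)]
      simp
    · rw [hz v (by linarith), hz (v + 1) (by linarith)]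
      simp) k
  obtain ⟨C, hC, H⟩ := bas3b_fr k
  obtain ⟨g, hg, hgb, hgi, hgr⟩ := H _ D hb
  refine ⟨2 * C * D, by positivity, fun L hL => ?_⟩
  have hn : ∀ (τ x : ℝ), ‖Complex.exp (τ * x * I)‖ = 1 := fun τ x => by
    rw [← ofReal_mul, Complex.norm_exp_ofReal_mul_I]
  have hint : ∀ x : ℝ, Integrable fun τ : ℝ => g τ * Complex.exp (τ * x * I) := fun x =>
    hgi.mul_bdd (c := 1) (Continuous.aestronglyMeasurable (by fun_prop))
      (Eventually.of_forall fun τ => (hn τ x).le)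
  refine ⟨fun τ => ∑ i ∈ Finset.range (⌈L⌉₊ + 1), g τ * Complex.exp (τ * (i : ℝ) * I),
    by fun_prop, fun τ => ?_, integrable_finsetSum _ fun i _ => hint i, fun v hv => ?_⟩
  · refine (norm_sum_le _ _).trans ?_
    simp only [norm_mul, hn, mul_one, Finset.sum_const, Finset.card_range, nsmul_eq_mul]
    have h1 : ((⌈L⌉₊ + 1 : ℕ) : ℝ) ≤ 2 * (1 + L) := by
      have := Nat.ceil_lt_add_one hL
      push_cast
      linarith
    calc ((⌈L⌉₊ + 1 : ℕ) : ℝ) * ‖g τ‖ ≤ 2 * (1 + L) * (C * D * (1 + |τ|) ^ (-(k : ℝ))) :=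
          mul_le_mul h1 (hgb τ) (norm_nonneg _) (by positivity)
      _ = _ := by ring
  · have h1 : ∀ τ : ℝ, (∑ i ∈ Finset.range (⌈L⌉₊ + 1), g τ * Complex.exp (τ * (i : ℝ) * I)) *
        Complex.exp (τ * v * I) =
        ∑ i ∈ Finset.range (⌈L⌉₊ + 1), g τ * Complex.exp (τ * ((v + i : ℝ) : ℂ) * I) := fun τ => by
      rw [Finset.sum_mul]
      refine Finset.sum_congr rfl fun i _ => ?_
      rw [mul_assoc, ← Complex.exp_add]
      congr 2
      push_cast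
      ring
    simp only [h1]
    rw [integral_finsetSum _ fun i _ => hint _]
    simp only [← hgr]
    have h2 := Finset.sum_range_sub' (fun i : ℕ => Vs (v + i)) (⌈L⌉₊ + 1)
    have h3 : Vs (v + (⌈L⌉₊ + 1 : ℕ)) = 0 := hz _ (by
      have := Nat.le_ceil L
      push_cast
      linarith)
    rw [← ofReal_sum]
    simp only [h3, Nat.cast_zero, add_zero, sub_zero] at h2
    rw [← h2]
    congr 1
    refine Finset.sum_congr rfl fun i _ => ?_
    push_cast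
    rw [add_assoc]

theorem bas3b_e1 (x : ℝ) : e1 x = Complex.exp (((2 * Real.pi * x : ℝ) : ℂ) * I) := by
  rw [e1]
  congr 1
  push_cast
  ring

theorem bas3b_orth (m : ℤ) : ∫ θ in (0 : ℝ)..1, e1 (θ * m) = if m = 0 then 1 else 0 := by
  split_ifs with h
  · simp [h, e1]
  · have hc : (2 * Real.pi * I * m : ℂ) ≠ 0 := by
      have : (Real.pi : ℂ) ≠ 0 := ofReal_ne_zero.2 Real.pi_ne_zero
      have h' : (m : ℂ) ≠ 0 := Int.cast_ne_zero.2 h
      simp [this, h']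
    have h1 : ∀ θ : ℝ, e1 (θ * m) = Complex.exp (2 * Real.pi * I * m * θ) := fun θ => by
      rw [e1]
      congr 1
      push_cast
      ring
    simp only [h1]
    rw [integral_exp_mul_complex hc]
    have h2 : Complex.exp (2 * Real.pi * I * m) = 1 := by
      rw [mul_comm]
      exact Complex.exp_int_mul_two_pi_mul_I m
    simp [h2]

theorem bas3b_e1_add (x y : ℝ) : e1 (x + y) = e1 x * e1 y := by
  rw [e1, e1, e1, ← Complex.exp_add]
  congr 1
  push_cast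
  ring

theorem bas3b_e1_norm (x : ℝ) : ‖e1 x‖ = 1 := by
  rw [bas3b_e1, Complex.norm_exp_ofReal_mul_I]

theorem bas3b_e1_cont : Continuous e1 := by
  unfold e1
  fun_prop

theorem bas3b_geom (M : ℕ) (θ : ℝ) :
    (e1 (-θ) - 1) * ∑ k ∈ Finset.range M, e1 (-(θ * (k + 1 : ℕ))) =
      e1 (-(θ * (M + 1 : ℕ))) - e1 (-θ) := by
  induction M with
  | zero => simp
  | succ M ih =>
    rw [Finset.sum_range_succ, mul_add, ih]
    have : e1 (-(θ * (M + 1 + 1 : ℕ))) = e1 (-θ) * e1 (-(θ * (M + 1 : ℕ))) := by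
      rw [← bas3b_e1_add]
      congr 1
      push_cast
      ring
    rw [this]
    ring

theorem bas3b_low {θ : ℝ} (h0 : 0 ≤ θ) (h1 : θ ≤ 1) : 4 * min θ (1 - θ) ≤ ‖e1 (-θ) - 1‖ := by
  have h2 : ∀ x : ℝ, 0 ≤ x → x ≤ 1 / 2 → 2 * x ≤ Real.sin (Real.pi * x) := fun x hx hx' => by
    have := Real.mul_le_sin (x := Real.pi * x) (by positivity) (by nlinarith [Real.pi_pos])
    have h3 : 2 / Real.pi * (Real.pi * x) = 2 * x := by field_simp
    linarith
  rw [bas3b_e1, mul_comm _ I, Complex.norm_exp_I_mul_ofReal_sub_one,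
    show 2 * Real.pi * -θ / 2 = -(Real.pi * θ) by ring, Real.sin_neg, Real.norm_eq_abs, mul_neg,
    abs_neg]
  refine le_trans ?_ (le_abs_self _)
  rcases le_total θ (1 / 2) with h | h
  · have := h2 θ h0 h
    have := min_le_left θ (1 - θ)
    linarith
  · have h3 := h2 (1 - θ) (by linarith) (by linarith)
    rw [mul_sub Real.pi, mul_one, Real.sin_pi_sub] at h3
    have := min_le_right θ (1 - θ)
    linarith

theorem bas3b_Kle (M : ℕ) {θ : ℝ} (h0 : 0 ≤ θ) (h1 : θ ≤ 1) :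
    ‖∑ k ∈ Finset.range M, e1 (-(θ * (k + 1 : ℕ)))‖ ≤
      2 * (θ + ((M : ℝ) + 1)⁻¹)⁻¹ + 2 * (1 - θ + ((M : ℝ) + 1)⁻¹)⁻¹ := by
  have hM : (0 : ℝ) < M + 1 := by positivity
  have a1 : ‖∑ k ∈ Finset.range M, e1 (-(θ * (k + 1 : ℕ)))‖ ≤ M + 1 := by
    refine (norm_sum_le _ _).trans ?_
    simp [bas3b_e1_norm]
  have a2 := congrArg norm (bas3b_geom M θ)
  have a3 := norm_sub_le (e1 (-(θ * (M + 1 : ℕ)))) (e1 (-θ))
  rw [norm_mul] at a2
  rw [bas3b_e1_norm, bas3b_e1_norm, ← a2] at a3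
  have a4 := bas3b_low h0 h1
  have a0 := norm_nonneg (∑ k ∈ Finset.range M, e1 (-(θ * (k + 1 : ℕ))))
  generalize ‖∑ k ∈ Finset.range M, e1 (-(θ * (k + 1 : ℕ)))‖ = K at *
  have a5 : K * ((M : ℝ) + 1)⁻¹ ≤ 1 := by
    rw [← div_eq_mul_inv, div_le_one hM]
    exact a1
  have a6 := mul_le_mul_of_nonneg_right a4 a0
  have hi : (0 : ℝ) < ((M : ℝ) + 1)⁻¹ := inv_pos.2 hM
  have key : ∀ x : ℝ, 0 ≤ x → 4 * x * K ≤ 1 + 1 → K ≤ 2 * (x + ((M : ℝ) + 1)⁻¹)⁻¹ :=
    fun x hx hK => by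
      rw [← div_eq_mul_inv, le_div_iff₀ (by positivity)]
      nlinarith
  have p1 : 0 ≤ 2 * (θ + ((M : ℝ) + 1)⁻¹)⁻¹ := by positivity
  have p2 : 0 ≤ 2 * (1 - θ + ((M : ℝ) + 1)⁻¹)⁻¹ := by
    have : 0 ≤ 1 - θ := by linarith
    positivity
  rcases le_total θ (1 - θ) with h | h
  · rw [min_eq_left h] at a6
    linarith [key θ h0 (a6.trans a3)]
  · rw [min_eq_right h] at a6
    linarith [key (1 - θ) (by linarith) (a6.trans a3)]

theorem bas3b_log {a : ℝ} (ha : 0 < a) :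
    ∫ θ in (0 : ℝ)..1, (θ + a)⁻¹ = Real.log ((1 + a) / a) := by
  rw [intervalIntegral.integral_comp_add_right (fun x : ℝ => x⁻¹) a, zero_add,
    integral_inv_of_pos ha (by linarith)]

theorem bas3b_sepK : ∃ C : ℝ, 0 < C ∧ ∀ M : ℕ, ∃ K : ℝ → ℂ, Continuous K ∧
    ∫ θ in (0 : ℝ)..1, ‖K θ‖ ≤ C * (1 + Real.log (M + 1)) ∧
    ∀ x y : ℕ, x ≤ M → y ≤ M →
      (if x < y then (1 : ℂ) else 0) = ∫ θ in (0 : ℝ)..1, K θ * e1 (θ * y) * e1 (-(θ * x)) := by
  have hc := bas3b_e1_cont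
  refine ⟨4, by norm_num, fun M => ⟨fun θ => ∑ k ∈ Finset.range M, e1 (-(θ * (k + 1 : ℕ))),
    by fun_prop, ?_, fun x y hx hy => ?_⟩⟩
  · have hM : (0 : ℝ) < M + 1 := by positivity
    have hi : (0 : ℝ) < ((M : ℝ) + 1)⁻¹ := inv_pos.2 hM
    have i1 : IntervalIntegrable (fun θ : ℝ => (θ + ((M : ℝ) + 1)⁻¹)⁻¹) volume 0 1 := by
      refine ContinuousOn.intervalIntegrable (ContinuousOn.inv₀ (by fun_prop) fun θ hθ => ?_)
      rw [Set.uIcc_of_le zero_le_one] at hθ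
      linarith [hθ.1]
    have i2 : IntervalIntegrable (fun θ : ℝ => (1 - θ + ((M : ℝ) + 1)⁻¹)⁻¹) volume 0 1 := by
      refine ContinuousOn.intervalIntegrable (ContinuousOn.inv₀ (by fun_prop) fun θ hθ => ?_)
      rw [Set.uIcc_of_le zero_le_one] at hθ
      linarith [hθ.2]
    refine (intervalIntegral.integral_mono_on zero_le_one
      (Continuous.intervalIntegrable (by fun_prop) _ _)
      ((i1.const_mul 2).add (i2.const_mul 2)) fun θ hθ => bas3b_Kle M hθ.1 hθ.2).trans ?_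
    rw [intervalIntegral.integral_add (i1.const_mul 2) (i2.const_mul 2),
      intervalIntegral.integral_const_mul, intervalIntegral.integral_const_mul,
      intervalIntegral.integral_comp_sub_left (fun θ : ℝ => (θ + ((M : ℝ) + 1)⁻¹)⁻¹) 1,
      sub_self, sub_zero, bas3b_log hi]
    have h1 : (1 + ((M : ℝ) + 1)⁻¹) / ((M : ℝ) + 1)⁻¹ ≤ 2 * (M + 1) := by
      have : (1 + ((M : ℝ) + 1)⁻¹) / ((M : ℝ) + 1)⁻¹ = M + 1 + 1 := by field_simp
      have h0 : (0 : ℝ) ≤ M := Nat.cast_nonneg M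
      linarith
    have h2 := Real.log_le_log (by positivity) h1
    rw [Real.log_mul two_ne_zero hM.ne'] at h2
    have h3 := Real.log_le_sub_one_of_pos (two_pos (α := ℝ))
    linarith
  · have h1 : ∀ θ : ℝ, (∑ k ∈ Finset.range M, e1 (-(θ * (k + 1 : ℕ)))) * e1 (θ * y) *
        e1 (-(θ * x)) = ∑ k ∈ Finset.range M, e1 (θ * ((y - x - (k + 1) : ℤ) : ℝ)) := fun θ => by
      rw [Finset.sum_mul, Finset.sum_mul]
      refine Finset.sum_congr rfl fun k _ => ?_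
      rw [← bas3b_e1_add, ← bas3b_e1_add]
      congr 1
      push_cast
      ring
    simp only [h1]
    rw [intervalIntegral.integral_finsetSum fun k _ =>
      Continuous.intervalIntegrable (by fun_prop) _ _]
    simp only [bas3b_orth]
    split_ifs with h
    · rw [Finset.sum_eq_single (y - x - 1)]
      · rw [if_pos (by omega)]
      · intro k _ hk
        rw [if_neg (by omega)]
      · intro hk
        exact absurd (Finset.mem_range.2 (by omega)) hk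
    · refine (Finset.sum_eq_zero fun k _ => ?_).symm
      rw [if_neg (by omega)]

theorem bas3b_int (k : ℕ) :
    Integrable fun τ : ℝ => (1 + |τ|) ^ (-((k : ℝ) + 2)) * (1 + |τ|) ^ k := by
  have h := integrable_one_add_norm (E := ℝ) (μ := volume) (r := 2) (by simp)
  refine h.congr (Eventually.of_forall fun τ => ?_)
  have h0 : 0 < 1 + |τ| := by positivity
  simp only [Real.norm_eq_abs]
  rw [← Real.rpow_natCast, ← Real.rpow_add h0]
  congr 1
  ring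

theorem bas3b : Bas3b := ⟨bas3b_fr, bas3b_vr, bas3b_sepK, bas3b_int⟩

end Pat
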