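import Vale.Agent.P006.IfA
import Vale.Agent.P026.Cnt
import Vale.Agent.P026.Sym

/-! P006: the weight `GM` and the sums `Xi`. -/

noncomputable section
namespace Pat
open QRH Complex MeasureTheory Filter
open scoped ComplexConjugate Classical ContDiff Topology

theorem bas3c_pos {T y : ℝ} (hT : 0 < T) (hy : 0 ≤ y) : 0 < GM T y := by
  unfold GM; positivity

theorem bas3c_anti {T y y' : ℝ} (hT : 0 < T) (hy : 0 ≤ y) (h : y ≤ y') : GM T y' ≤ GM T y := by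
  unfold GM
  have hy' : 0 ≤ y' := hy.trans h
  refine mul_le_mul (mul_le_mul_of_nonneg_left ?_ (by positivity)) ?_ (by positivity)
    (by positivity)
  · exact Real.rpow_le_rpow_of_nonpos (by positivity) (by linarith) (by norm_num)
  · refine Real.rpow_le_rpow_of_nonpos (by positivity) ?_ (by norm_num)
    have := div_le_div_of_nonneg_right h (by positivity : (0 : ℝ) ≤ T ^ 2)
    linarith

theorem bas3c_inv {T y : ℝ} (hT : 0 < T) (hy : 0 ≤ y) : GM T y ≤ T⁻¹ := by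
  refine (bas3c_anti hT le_rfl hy).trans (le_of_eq ?_)
  simp [GM]

theorem bas3c_dec {T y θ : ℝ} (hT : 0 < T) (hy : 0 < y) (h0 : 0 ≤ θ) (h2 : θ ≤ 2) :
    GM T y ≤ T⁻¹ * y ^ (-(6 / 25) : ℝ) * (y / T ^ 2) ^ (-θ) := by
  unfold GM
  have hu : 0 < y / T ^ 2 := by positivity
  refine mul_le_mul (mul_le_mul_of_nonneg_left ?_ (by positivity)) ?_ (by positivity)
    (by positivity)
  · exact Real.rpow_le_rpow_of_nonpos hy (by linarith) (by norm_num)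
  · exact (Real.rpow_le_rpow_of_exponent_le (by linarith) (by linarith)).trans
      (Real.rpow_le_rpow_of_nonpos hu (by linarith) (by linarith))

theorem bas3c_Ds (y : Finset P → ℂ) (L : ℝ) (ξ : E) : ‖Ds y L ξ‖ ≤ nrm1 y L := by
  unfold Ds nrm1
  refine (norm_sum_le _ _).trans (Finset.sum_le_sum fun c _ => ?_)
  rw [norm_mul]
  exact mul_le_of_le_one_right (norm_nonneg _) (norm_xs_le ch_c3 c ξ)

theorem bas3c_nn (y : Finset P → ℂ) (L : ℝ) {K T : ℝ} (Pr : E → Prop) (hK : 0 < K) (hT : 0 < T)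
    (ξ : E) : 0 ≤ if ξ ≠ 0 ∧ Pr ξ then GM T (nm ξ / K) * ‖Ds y L ξ‖ ^ 2 else 0 := by
  split_ifs
  · exact mul_nonneg (bas3c_pos hT (by positivity)).le (by positivity)
  · exact le_rfl

theorem bas3c_summable (y : Finset P → ℂ) (L : ℝ) {K T : ℝ} (Pr : E → Prop) (hK : 0 < K)
    (hT : 0 < T) :
    Summable fun ξ : E => if ξ ≠ 0 ∧ Pr ξ then GM T (nm ξ / K) * ‖Ds y L ξ‖ ^ 2 else 0 := by
  refine Summable.of_nonneg_of_le (bas3c_nn y L Pr hK hT) (fun ξ => ?_)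
    ((summable_nm_rpow (σ := 2) (by norm_num)).mul_left
      (T⁻¹ * (K * T ^ 2) ^ (2 : ℝ) * nrm1 y L ^ 2))
  split_ifs with h
  · have h1 := one_le_nmR h.1
    have h2 : GM T (nm ξ / K) ≤ T⁻¹ * (K * T ^ 2) ^ (2 : ℝ) * (nm ξ : ℝ) ^ (-2 : ℝ) := by
      unfold GM
      have h3 : (1 + nm ξ / K) ^ (-(6 / 25) : ℝ) ≤ 1 :=
        Real.rpow_le_one_of_one_le_of_nonpos (le_add_of_nonneg_right (by positivity))
          (by norm_num)
      have h4 : (1 + nm ξ / K / T ^ 2) ^ (-2 : ℝ) ≤ (nm ξ / (K * T ^ 2)) ^ (-2 : ℝ) := by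
        refine Real.rpow_le_rpow_of_nonpos (by positivity) ?_ (by norm_num)
        rw [div_div]; linarith
      have h5 : (nm ξ / (K * T ^ 2)) ^ (-2 : ℝ) =
          (K * T ^ 2) ^ (2 : ℝ) * (nm ξ : ℝ) ^ (-2 : ℝ) := by
        rw [Real.div_rpow (by positivity) (by positivity),
          Real.rpow_neg (by positivity : 0 ≤ K * T ^ 2), div_inv_eq_mul, mul_comm]
      rw [mul_assoc T⁻¹ ((K * T ^ 2) ^ (2 : ℝ)), ← h5]
      refine mul_le_mul (mul_le_of_le_one_right (by positivity) h3) h4 (by positivity)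
        (by positivity)
    have h6 : ‖Ds y L ξ‖ ^ 2 ≤ nrm1 y L ^ 2 :=
      pow_le_pow_left₀ (norm_nonneg _) (bas3c_Ds y L ξ) 2
    calc _ ≤ T⁻¹ * (K * T ^ 2) ^ (2 : ℝ) * (nm ξ : ℝ) ^ (-2 : ℝ) * nrm1 y L ^ 2 :=
          mul_le_mul h2 h6 (by positivity) (by positivity)
      _ = _ := by ring
  · positivity

theorem bas3c_le (y : Finset P → ℂ) (L : ℝ) {K T : ℝ} (Pr Q R : E → Prop) (hK : 0 < K)
    (hT : 0 < T) (h : ∀ ξ, ξ ≠ 0 → Pr ξ → Q ξ ∨ R ξ) :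
    Xi y L K T Pr ≤ Xi y L K T Q + Xi y L K T R := by
  unfold Xi
  have hQ := bas3c_summable y L Q hK hT
  have hR := bas3c_summable y L R hK hT
  rw [← hQ.tsum_add hR]
  refine (bas3c_summable y L Pr hK hT).tsum_le_tsum (fun ξ => ?_) (hQ.add hR)
  have h1 := bas3c_nn y L Q hK hT ξ
  have h2 := bas3c_nn y L R hK hT ξ
  by_cases hP : ξ ≠ 0 ∧ Pr ξ
  · rw [if_pos hP]
    rcases h ξ hP.1 hP.2 with h3 | h3
    · rw [if_pos (⟨hP.1, h3⟩ : ξ ≠ 0 ∧ Q ξ)]; linarith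
    · rw [if_pos (⟨hP.1, h3⟩ : ξ ≠ 0 ∧ R ξ)]; linarith
  · rw [if_neg hP]; linarith

theorem bas3c_dyadic {γ γ' : ℝ} (h2 : γ ≤ 2.2) (h0 : 0 ≤ γ') (h : 2 * γ - 12 / 25 < γ') :
    ∃ C : ℝ, 0 < C ∧ ∀ T : ℝ, 1 ≤ T →
      Summable (fun j : ℕ => GM T (2 ^ j) * ((2 : ℝ) ^ (j + 1)) ^ γ) ∧
      T⁻¹ + ∑' j : ℕ, GM T (2 ^ j) * ((2 : ℝ) ^ (j + 1)) ^ γ ≤ C * T ^ (γ' - 1) := by
  set θ := min (γ' / 2) 2 with hθ
  have hθ0 : 0 ≤ θ := le_min (by linarith) (by norm_num)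
  have hθ2 : θ ≤ 2 := min_le_right _ _
  have hθ1 : θ ≤ γ' / 2 := min_le_left _ _
  have hδ : γ - 6 / 25 - θ < 0 := by
    have : γ - 6 / 25 < θ := lt_min (by linarith) (by linarith)
    linarith
  set r : ℝ := (2 : ℝ) ^ (γ - 6 / 25 - θ) with hr
  have hr0 : 0 ≤ r := by positivity
  have hr1 : r < 1 := Real.rpow_lt_one_of_one_lt_of_neg (by norm_num) hδ
  have hr2 : 0 < (1 - r)⁻¹ := inv_pos.2 (by linarith)
  refine ⟨1 + (2 : ℝ) ^ γ * (1 - r)⁻¹, by positivity, fun T hT => ?_⟩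
  have hT0 : 0 < T := by linarith
  have hb : ∀ j : ℕ, GM T (2 ^ j) * ((2 : ℝ) ^ (j + 1)) ^ γ ≤
      T ^ (γ' - 1) * (2 : ℝ) ^ γ * r ^ j := by
    intro j
    have hy : (0 : ℝ) < 2 ^ j := by positivity
    have h1 := bas3c_dec hT0 hy hθ0 hθ2
    have h3 : ((2 : ℝ) ^ j / T ^ 2) ^ (-θ) = ((2 : ℝ) ^ j) ^ (-θ) * T ^ (2 * θ) := by
      rw [Real.div_rpow hy.le (by positivity), Real.rpow_neg (by positivity : 0 ≤ T ^ 2),
        div_inv_eq_mul, Real.rpow_mul hT0.le, Real.rpow_two]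
    have h4 : ((2 : ℝ) ^ (j + 1)) ^ γ = ((2 : ℝ) ^ j) ^ γ * (2 : ℝ) ^ γ := by
      rw [pow_succ, Real.mul_rpow hy.le (by norm_num)]
    have h5 : r ^ j = ((2 : ℝ) ^ j) ^ (-(6 / 25) : ℝ) * ((2 : ℝ) ^ j) ^ (-θ) *
        ((2 : ℝ) ^ j) ^ γ := by
      rw [← Real.rpow_add hy, ← Real.rpow_add hy, hr, ← Real.rpow_natCast,
        ← Real.rpow_mul (by norm_num), ← Real.rpow_natCast, ← Real.rpow_mul (by norm_num)]
      congr 1; ring
    have h6 : T⁻¹ * T ^ (2 * θ) ≤ T ^ (γ' - 1) := by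
      rw [← Real.rpow_neg_one, ← Real.rpow_add hT0]
      exact Real.rpow_le_rpow_of_exponent_le hT (by linarith)
    refine (mul_le_mul_of_nonneg_right h1 (by positivity)).trans ?_
    rw [h3, h4]
    calc _ = T⁻¹ * T ^ (2 * θ) * ((2 : ℝ) ^ γ * r ^ j) := by rw [h5]; ring
      _ ≤ T ^ (γ' - 1) * ((2 : ℝ) ^ γ * r ^ j) := mul_le_mul_of_nonneg_right h6 (by positivity)
      _ = _ := by ring
  have hg := (summable_geometric_of_lt_one hr0 hr1).mul_left (T ^ (γ' - 1) * (2 : ℝ) ^ γ)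
  have hs : Summable (fun j : ℕ => GM T (2 ^ j) * ((2 : ℝ) ^ (j + 1)) ^ γ) :=
    Summable.of_nonneg_of_le
      (fun j => mul_nonneg (bas3c_pos hT0 (by positivity)).le (by positivity)) hb hg
  refine ⟨hs, ?_⟩
  have h7 := hs.tsum_le_tsum hb hg
  rw [tsum_mul_left, tsum_geometric_of_lt_one hr0 hr1] at h7
  have h8 : T⁻¹ ≤ T ^ (γ' - 1) := by
    rw [← Real.rpow_neg_one]
    exact Real.rpow_le_rpow_of_exponent_le hT (by linarith)
  linarith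

theorem bas3c_split (y : Finset P → ℂ) (L : ℝ) {K T : ℝ} (Pr : E → Prop) (f : ℝ → ℝ)
    (hK : 0 < K) (hT : 0 < T)
    (hf : ∀ R, 0 < R → ∑ ξ ∈ ball R with Pr ξ, ‖Ds y L ξ‖ ^ 2 ≤ f R)
    (hs : Summable (fun j : ℕ => GM T (2 ^ j) * f (2 ^ (j + 1) * K))) :
    Xi y L K T Pr ≤ T⁻¹ * f K + ∑' j : ℕ, GM T (2 ^ j) * f (2 ^ (j + 1) * K) := by
  have hJ : ∀ ξ : E, ∃ j : ℕ, K ≤ nm ξ →
      (2 : ℝ) ^ j ≤ nm ξ / K ∧ (nm ξ : ℝ) ≤ 2 ^ (j + 1) * K := by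
    intro ξ
    by_cases h : K ≤ nm ξ
    · obtain ⟨j, h1, h2⟩ := exists_nat_pow_near ((one_le_div hK).2 h) (one_lt_two (α := ℝ))
      exact ⟨j, fun _ => ⟨h1, ((div_lt_iff₀ hK).1 h2).le⟩⟩
    · exact ⟨0, fun h' => absurd h' h⟩
  choose J hJ using hJ
  set g : ℝ → E → ℝ := fun R ξ =>
    if ξ ∈ (ball R).filter Pr then ‖Ds y L ξ‖ ^ 2 else 0 with hg
  have hg0 : ∀ R ξ, 0 ≤ g R ξ := fun R ξ => by
    simp only [hg]; split_ifs <;> positivity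
  have hgs : ∀ (s : Finset E) R, 0 < R → ∑ ξ ∈ s, g R ξ ≤ f R := by
    intro s R hR
    refine le_trans ?_ (hf R hR)
    simp only [hg]
    rw [Finset.sum_ite_mem]
    exact Finset.sum_le_sum_of_subset_of_nonneg Finset.inter_subset_right
      fun _ _ _ => by positivity
  have hf0 : ∀ R, 0 < R → 0 ≤ f R := fun R hR => by simpa using hgs ∅ R hR
  have hG : ∀ j : ℕ, 0 ≤ GM T (2 ^ j) := fun j => (bas3c_pos hT (by positivity)).le
  unfold Xi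
  refine (bas3c_summable y L Pr hK hT).tsum_le_of_sum_le fun s => ?_
  set N := s.sup J + 1 with hN
  have hpt : ∀ ξ ∈ s, (if ξ ≠ 0 ∧ Pr ξ then GM T (nm ξ / K) * ‖Ds y L ξ‖ ^ 2 else 0) ≤
      T⁻¹ * g K ξ + ∑ j ∈ Finset.range N, GM T (2 ^ j) * g (2 ^ (j + 1) * K) ξ := by
    intro ξ hξ
    have h1 : 0 ≤ T⁻¹ * g K ξ := mul_nonneg (by positivity) (hg0 _ _)
    have h2 : 0 ≤ ∑ j ∈ Finset.range N, GM T (2 ^ j) * g (2 ^ (j + 1) * K) ξ :=
      Finset.sum_nonneg fun j _ => mul_nonneg (hG j) (hg0 _ _)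
    split_ifs with h
    · by_cases hk : K ≤ nm ξ
      · obtain ⟨h3, h4⟩ := hJ ξ hk
        have h5 : J ξ ∈ Finset.range N :=
          Finset.mem_range.2 (Nat.lt_succ_of_le (Finset.le_sup (f := J) hξ))
        have h6 := Finset.single_le_sum
          (f := fun j => GM T (2 ^ j) * g (2 ^ (j + 1) * K) ξ)
          (fun j _ => mul_nonneg (hG j) (hg0 _ _)) h5
        have h7 : g (2 ^ (J ξ + 1) * K) ξ = ‖Ds y L ξ‖ ^ 2 :=
          if_pos (Finset.mem_filter.2 ⟨mem_ball.2 ⟨h.1, h4⟩, h.2⟩)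
        simp only [h7] at h6
        have h8 := mul_le_mul_of_nonneg_right (bas3c_anti hT (by positivity) h3)
          (by positivity : 0 ≤ ‖Ds y L ξ‖ ^ 2)
        linarith
      · have h7 : g K ξ = ‖Ds y L ξ‖ ^ 2 :=
          if_pos (Finset.mem_filter.2 ⟨mem_ball.2 ⟨h.1, (not_le.1 hk).le⟩, h.2⟩)
        have h8 := mul_le_mul_of_nonneg_right
          (bas3c_inv hT (by positivity : (0 : ℝ) ≤ nm ξ / K))
          (by positivity : 0 ≤ ‖Ds y L ξ‖ ^ 2)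
        rw [h7]; linarith
    · linarith
  refine (Finset.sum_le_sum hpt).trans ?_
  rw [Finset.sum_add_distrib, ← Finset.mul_sum, Finset.sum_comm]
  refine add_le_add (mul_le_mul_of_nonneg_left (hgs s K hK) (by positivity)) ?_
  refine le_trans (Finset.sum_le_sum fun j _ => ?_) (hs.sum_le_tsum (Finset.range N)
    fun j _ => mul_nonneg (hG j) (hf0 _ (by positivity)))
  rw [← Finset.mul_sum]
  exact mul_le_mul_of_nonneg_left (hgs s _ (by positivity)) (hG j)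

theorem bas3c : Bas3c where
  GM_pos _ _ hT hy := bas3c_pos hT hy
  GM_le _ _ hT hy := (bas3c_inv (by linarith) hy).trans (inv_le_one_of_one_le₀ hT)
  GM_anti _ _ _ hT hy h := bas3c_anti hT hy h
  Xi_summable y L _ _ Pr hK hT := bas3c_summable y L Pr hK hT
  Xi_nonneg y L _ _ Pr hK hT := tsum_nonneg (bas3c_nn y L Pr hK hT)
  Xi_le y L _ _ Pr Q R hK hT h := bas3c_le y L Pr Q R hK hT h
  Xi_dyadic _ _ _ h2 h0 h := bas3c_dyadic h2 h0 h
  Xi_split y L _ _ Pr f hK hT hf hs := bas3c_split y L Pr f hK (by linarith) hf hs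

end Pat
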