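import Vale.Agent.P006.IfA
import Vale.Agent.P026.Recip
import Vale.Agent.P026.HOne
import Vale.Agent.P026.Phi1
import Vale.Agent.P026.Gauss

/-! P006: algebraic facts, part A. -/

noncomputable section
namespace Pat
open QRH Complex MeasureTheory Filter
open scoped ComplexConjugate Classical ContDiff Topology

theorem basA_pball (R : ℝ) (c : E) : c ∈ pball R ↔ Pm c ∧ (nm c : ℝ) ≤ R := by
  rw [pball, Finset.mem_filter, mem_ball]
  exact ⟨fun h => ⟨h.2, h.1.2⟩, fun h => ⟨⟨primary_ne_zero h.1, h.2⟩, h.1⟩⟩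

theorem basA_Ns1 (p : P) : Ns {p} = nm p.1 := by rw [Ns, pr_singleton]

theorem basA_prs (R : ℝ) (p : P) : p ∈ prs R ↔ (nm p.1 : ℝ) ≤ R := by
  rw [prs, Finset.mem_biUnion]
  constructor
  · rintro ⟨s, hs, hp⟩
    rw [← basA_Ns1]
    exact (Ns_mono (Finset.singleton_subset_iff.2 hp)).trans (mem_sqf.1 hs)
  · exact fun h => ⟨{p}, mem_sqf.2 (by rwa [basA_Ns1]), Finset.mem_singleton_self p⟩

theorem basA_sum_prs (R : ℝ) (F : Finset P → ℂ) :
    ∑ c ∈ sqf R with c.card = 1, F c = ∑ p ∈ prs R, F {p} := by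
  symm
  refine Finset.sum_nbij (fun p => {p}) (fun p hp => ?_)
    (fun p _ q _ h => Finset.singleton_injective h) (fun c hc => ?_) fun _ _ => rfl
  · exact Finset.mem_filter.2 ⟨mem_sqf.2 (by rw [basA_Ns1]; exact (basA_prs R p).1 hp),
      Finset.card_singleton p⟩
  · obtain ⟨h1, h2⟩ := Finset.mem_filter.1 (Finset.mem_coe.1 hc)
    obtain ⟨p, rfl⟩ := Finset.card_eq_one.1 h2
    exact ⟨p, Finset.mem_coe.2 ((basA_prs R p).2 (by rw [← basA_Ns1]; exact mem_sqf.1 h1)), rfl⟩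

theorem basA_sq_ne (s : Finset P) : ((√(Ns s) : ℝ) : ℂ) ≠ 0 :=
  ofReal_ne_zero.2 (Real.sqrt_pos.2 (Ns_pos s)).ne'

theorem basA_gn (s : Finset P) :
    gn s = conj (xs c3 s lam) * gs c3 s / ((√(Ns s) : ℝ) : ℂ) := by
  rw [gn, ← gs_twist ch_c3 (fun p _ => c3_nt p)]
  simp only [mul_comm lam]

theorem basA_norm_gn (s : Finset P) : ‖gn s‖ = 1 := by
  rw [basA_gn, norm_div, norm_mul, RCLike.norm_conj, norm_xs ch_c3 (fun p _ => p.not_dvd_lam),
    norm_gs ch_c3 (fun p _ => c3_nt p), norm_toC, one_mul, Complex.norm_real, Real.norm_eq_abs,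
    abs_of_nonneg (Real.sqrt_nonneg _)]
  exact div_self (Real.sqrt_pos.2 (Ns_pos s)).ne'

theorem basA_norm_tt (s : Finset P) : ‖tt s‖ = 1 := by
  rw [tt, RCLike.norm_conj, basA_norm_gn]

theorem basA_tt_gn (s : Finset P) : tt s * gn s = 1 := by
  rw [tt, Complex.conj_mul', basA_norm_gn]; simp

theorem basA_recip1 (c : E) (b : Finset P) (hc : Pm c) : xv c3 c (pr b) = xs c3 b c := by
  rw [xv_c3_recip cubRec hc (pr_primary b), xv_pr]

theorem basA_recip2 (a b : Finset P) : xs c3 a (pr b) = xs c3 b (pr a) := by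
  rw [← xv_pr, basA_recip1 _ _ (pr_primary a)]

theorem basA_conj_xv (c z : E) : conj (xv c3 c z) = xv c3 c (z ^ 2) := by
  rw [xv_pow ch_c3, xv, map_prod, ← Finset.prod_pow]
  exact Finset.prod_congr rfl fun p _ => by rw [map_pow, conj_c3, ← pow_mul, ← pow_mul, mul_comm]

theorem basA_conj_xs (s : Finset P) (z : E) : conj (xs c3 s z) = xs c3 s (z ^ 2) := by
  rw [← xv_pr, ← xv_pr, basA_conj_xv]

theorem basA_xv_cube (c j : E) (hc : c ≠ 0) (hj : j ≠ 0) :
    xv c3 c (j ^ 3) = if Disjoint (fac c) (fac j) then 1 else 0 := by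
  rw [xv_pow ch_c3]
  split_ifs with h
  · exact xv_c3_cube hc fun p hp =>
      Finset.disjoint_left.1 h ((mem_fac hc).2 hp.1) ((mem_fac hj).2 hp.2)
  · obtain ⟨p, h1, h2⟩ := Finset.not_disjoint_iff.1 h
    rw [(xv_eq_zero_iff ch_c3 hc).2 ⟨p, (mem_fac hc).1 h1, (mem_fac hj).1 h2⟩]
    norm_num

theorem basA_xs_cube (s : Finset P) (j : E) (hj : j ≠ 0) :
    xs c3 s (j ^ 3) = if Disjoint s (fac j) then 1 else 0 := by
  rw [← xv_pr, basA_xv_cube _ _ (pr_ne_zero s) hj, fac_pr]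

theorem basA_sqrt_union {a b : Finset P} (h : Disjoint a b) :
    ((√(Ns (a ∪ b)) : ℝ) : ℂ) = (√(Ns a) : ℝ) * (√(Ns b) : ℝ) := by
  rw [Ns_union h, Real.sqrt_mul (Ns_pos a).le, ofReal_mul]

theorem basA_tt_union (a b : Finset P) (h : Disjoint a b) :
    tt (a ∪ b) = tt a * tt b * xs c3 b (pr a) := by
  have h1 : gn (a ∪ b) = gn a * gn b * conj (xs c3 b (pr a)) := by
    rw [basA_gn, basA_gn, basA_gn, gs_union ch_c3 h, xs_union h, basA_sqrt_union h,
      basA_recip2 a b, basA_conj_xs b (pr a), xs_pow ch_c3, map_mul]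
    have := basA_sq_ne a
    have := basA_sq_ne b
    field_simp
  rw [tt, h1, map_mul, map_mul, conj_conj, tt, tt]

theorem basA_th_pr (s : Finset P) : th (pr s) = tt s := by
  rw [th, tt, basA_gn, xv_pr, Tg_pr, map_div₀, map_mul, conj_conj, conj_ofReal, Ns]

theorem basA_th_cube (c d : E) (hc : Pm c) (hd : Pm d) :
    th (c * d ^ 3) = (√(nm d : ℝ) : ℝ) * th c := by
  have hc0 := primary_ne_zero hc
  have hd0 := primary_ne_zero hd
  have h1 : xv c3 d lam ^ 3 = 1 := xv_c3_cube hd0 fun p hp => p.not_dvd_lam hp.2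
  have h2 : (0 : ℝ) < nm d := zero_lt_one.trans_le (one_le_nmR hd0)
  have h3 : (0 : ℝ) < nm c := zero_lt_one.trans_le (one_le_nmR hc0)
  have h4 : √((nm (c * d ^ 3) : ℕ) : ℝ) = √(nm c : ℝ) * √(nm d : ℝ) ^ 3 := by
    rw [nm_mul, nm_pow, Nat.cast_mul, Nat.cast_pow, Real.sqrt_mul h3.le, pow_three, pow_three,
      Real.sqrt_mul h2.le, Real.sqrt_mul h2.le]
  have h5 : (nm d : ℂ) = ((√(nm d : ℝ) : ℝ) : ℂ) ^ 2 := by
    rw [← ofReal_pow, Real.sq_sqrt h2.le, ofReal_natCast]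
  have h6 : ((√(nm d : ℝ) : ℝ) : ℂ) ≠ 0 := ofReal_ne_zero.2 (Real.sqrt_pos.2 h2).ne'
  have h7 : ((√(nm c : ℝ) : ℝ) : ℂ) ≠ 0 := ofReal_ne_zero.2 (Real.sqrt_pos.2 h3).ne'
  rw [th, th, Tg_cube hc0 hd, xv_mul_left hc0 (pow_ne_zero 3 hd0), xv_pow_left hd0, h1, h4,
    ofReal_mul, ofReal_pow, h5]
  field_simp

theorem basA_th_zero (c : E) (p : P) (hc : c ≠ 0) (h : vp p.1 c % 3 = 2) : th c = 0 := by
  rw [th, Tg_eq_zero hc h, mul_zero, zero_div]

theorem basA_th_dec (c : E) (hc : Pm c) (h : th c ≠ 0) : ∃ s d, Pm d ∧ c = pr s * d ^ 3 :=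
  Tg_decomp hc fun h0 => h (by rw [th, h0, mul_zero, zero_div])

theorem basA_th_sd (s : Finset P) {d : E} (hd : Pm d) :
    th (pr s * d ^ 3) = (√(nm d : ℝ) : ℝ) * tt s := by
  rw [basA_th_cube _ _ (pr_primary s) hd, basA_th_pr]

theorem basA_th_mul1 (b s : Finset P) {d : E} (hd : Pm d) (h : Disjoint b (fac (pr s * d ^ 3))) :
    th (pr b * (pr s * d ^ 3)) = tt b * th (pr s * d ^ 3) * xs c3 b (pr s * d ^ 3) := by
  have hd0 := primary_ne_zero hd
  rw [fac_mul (pr_ne_zero s) (pow_ne_zero 3 hd0), fac_pr, fac_pow hd0 three_ne_zero,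
    Finset.disjoint_union_right] at h
  rw [← mul_assoc, ← pr_union h.1, basA_th_sd _ hd, basA_th_sd _ hd, basA_tt_union _ _ h.1,
    xs_mul ch_c3, basA_xs_cube _ _ hd0, if_pos h.2, basA_recip2 s b]
  ring

theorem basA_th_mul (a : E) (b : Finset P) (ha : Pm a) (h : Disjoint b (fac a)) :
    th (pr b * a) = tt b * th a * xs c3 b a := by
  have ha0 := primary_ne_zero ha
  by_cases h0 : th a = 0
  · by_cases h1 : th (pr b * a) = 0
    · rw [h0, h1, mul_zero, zero_mul]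
    obtain ⟨s, d, hd, e⟩ := basA_th_dec _ (primary_mul (pr_primary b) ha) h1
    have h2 : b ⊆ s := fun p hp => by
      have h3 := ph_vp_decomp s hd p
      rw [← e, vp_mul p.2.1 (pr_ne_zero b) ha0, vp_pr, if_pos hp,
        vp_of_not_dvd fun h4 => Finset.disjoint_left.1 h hp ((mem_fac ha0).2 h4)] at h3
      by_contra h4
      rw [if_neg h4] at h3
      omega
    rw [← Finset.union_sdiff_of_subset h2, pr_union Finset.disjoint_sdiff, mul_assoc] at e
    have e' := mul_left_cancel₀ (pr_ne_zero b) e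
    rw [e'] at h ⊢
    exact basA_th_mul1 b _ hd h
  · obtain ⟨s, d, hd, rfl⟩ := basA_th_dec a ha h0
    exact basA_th_mul1 b s hd h

theorem basA_nm_le {x y : E} (hy : y ≠ 0) (h : x ∣ y) : (nm x : ℝ) ≤ nm y :=
  Nat.cast_le.2 (nm_le_of_dvd h hy)

theorem basA_pair {M : Type} [AddCommMonoid M] (R : ℝ) (F : E → M) (h0 : ∀ c, th c = 0 → F c = 0)
    (h1 : ∀ c : E, R < nm c → F c = 0) :
    ∑ c ∈ pball R, F c = ∑ d ∈ pball R, ∑ s ∈ sqf R, F (pr s * d ^ 3) := by
  rw [← Finset.sum_product' (pball R) (sqf R) fun d s => F (pr s * d ^ 3),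
    ← Finset.sum_image (f := F) (g := fun x : E × Finset P => pr x.2 * x.1 ^ 3)]
  · refine Finset.sum_congr_of_eq_on_inter (fun c hc hn => h0 c ?_) (fun c hc hn => h1 c ?_)
      fun _ _ _ => rfl
    · by_contra h
      obtain ⟨h2, h3⟩ := (basA_pball R c).1 hc
      obtain ⟨s, d, hd, e⟩ := basA_th_dec c h2 h
      have hc0 := primary_ne_zero h2
      refine hn (Finset.mem_image.2 ⟨(d, s), Finset.mem_product.2 ⟨(basA_pball R d).2 ⟨hd, ?_⟩,
        mem_sqf.2 ?_⟩, e.symm⟩)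
      · exact (basA_nm_le hc0 (e ▸ (dvd_pow_self d three_ne_zero).mul_left _)).trans h3
      · exact (basA_nm_le hc0 (e ▸ dvd_mul_right _ _)).trans h3
    · obtain ⟨x, hx, rfl⟩ := Finset.mem_image.1 hc
      have h2 := ((basA_pball R _).1 (Finset.mem_product.1 hx).1).1
      exact lt_of_not_ge fun h3 => hn ((basA_pball R _).2
        ⟨primary_mul (pr_primary _) (primary_pow h2 3), h3⟩)
  · intro x hx y hy e
    have := decomp_unique ((basA_pball R _).1 (Finset.mem_product.1 hx).1).1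
      ((basA_pball R _).1 (Finset.mem_product.1 hy).1).1 e
    exact Prod.ext this.2 this.1

theorem basA_norm_sd (s : Finset P) {d : E} (hd : Pm d) :
    ‖th (pr s * d ^ 3)‖ = √(nm d : ℝ) := by
  rw [basA_th_sd s hd, norm_mul, basA_norm_tt, mul_one, Complex.norm_real, Real.norm_eq_abs,
    abs_of_nonneg (Real.sqrt_nonneg _)]

theorem basA_sum_dvd {M : Type} [AddCommMonoid M] (R : ℝ) (m : E) (g : E → M) (hm : Pm m) :
    ∑ c ∈ pball R, (if m ∣ c then g c else 0) = ∑ n ∈ pball (R / nm m), g (m * n) := by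
  have hm0 := primary_ne_zero hm
  have h0 : (0 : ℝ) < nm m := zero_lt_one.trans_le (one_le_nmR hm0)
  have h1 : ∀ n : E, (nm n : ℝ) ≤ R / nm m ↔ (nm (m * n) : ℝ) ≤ R := fun n => by
    rw [le_div_iff₀ h0, nm_mul, Nat.cast_mul, mul_comm]
  rw [← Finset.sum_filter]
  symm
  refine Finset.sum_nbij (fun n => m * n) (fun n hn => ?_)
    (fun n _ n' _ h => mul_left_cancel₀ hm0 h) (fun c hc => ?_) fun _ _ => rfl
  · obtain ⟨h2, h3⟩ := (basA_pball _ n).1 hn
    exact Finset.mem_filter.2 ⟨(basA_pball _ _).2 ⟨primary_mul hm h2, (h1 n).1 h3⟩,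
      dvd_mul_right _ _⟩
  · obtain ⟨h2, n, rfl⟩ := Finset.mem_filter.1 (Finset.mem_coe.1 hc)
    obtain ⟨h3, h4⟩ := (basA_pball _ _).1 h2
    exact ⟨n, Finset.mem_coe.2 ((basA_pball _ _).2 ⟨primary_of_mul hm h3, (h1 n).2 h4⟩), rfl⟩

theorem basA_sum_mul (R : ℝ) {m : E} (g : E → ℂ) (hm : Pm m) (hg : ∀ c : E, R < nm c → g c = 0) :
    ∑ n ∈ pball R, g (m * n) = ∑ c ∈ pball R, (if m ∣ c then g c else 0) := by
  have hm0 := primary_ne_zero hm
  have h0 := one_le_nmR hm0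
  rw [basA_sum_dvd R m g hm]
  symm
  refine Finset.sum_subset (fun n hn => ?_) fun n hn h => hg _ ?_
  · obtain ⟨h2, h3⟩ := (basA_pball _ n).1 hn
    rw [le_div_iff₀ (by linarith)] at h3
    exact (basA_pball _ n).2 ⟨h2, le_trans (le_mul_of_one_le_right (by positivity) h0) h3⟩
  · refine lt_of_not_ge fun h1 => h ((basA_pball _ n).2 ⟨((basA_pball _ n).1 hn).1, ?_⟩)
    rwa [le_div_iff₀ (by linarith), mul_comm, ← Nat.cast_mul, ← nm_mul]

theorem basA_mu_pow {R : ℝ} {c : E} (hc : c ≠ 0) (hR : (nm c : ℝ) ≤ R) {k : ℕ} (hk : k ≠ 0) :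
    ∑ d ∈ sqf R, (if pr d ^ k ∣ c then mu d else 0) = if ∀ p : P, vp p.1 c < k then 1 else 0 := by
  have h1 : ∀ d : Finset P, pr d ^ k ∣ c ↔ d ⊆ (fac c).filter fun p => k ≤ vp p.1 c := fun d => by
    constructor
    · intro h p hp
      have h2 : p.1 ^ k ∣ c := (pow_dvd_pow_of_dvd (dvd_pr_iff.2 hp) k).trans h
      exact Finset.mem_filter.2 ⟨(mem_fac hc).2 ((dvd_pow_self _ hk).trans h2),
        (pow_dvd_iff p.2.1 hc k).1 h2⟩
    · intro h
      rw [pr, ← Finset.prod_pow]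
      exact e2_prod_dvd (k := fun _ => k) fun p hp =>
        (pow_dvd_iff p.2.1 hc k).2 (Finset.mem_filter.1 (h hp)).2
  have h2 : (sqf R).filter (fun d => pr d ^ k ∣ c) =
      ((fac c).filter fun p => k ≤ vp p.1 c).powerset := by
    ext d
    rw [Finset.mem_filter, Finset.mem_powerset, ← h1, mem_sqf]
    exact ⟨fun h => h.2, fun h => ⟨(e2_Ns_le hc ((dvd_pow_self _ hk).trans h)).trans hR, h⟩⟩
  rw [← Finset.sum_filter, h2, sum_mu]
  refine if_congr ?_ rfl rfl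
  rw [Finset.filter_eq_empty_iff]
  refine ⟨fun h p => ?_, fun h p _ => (h p).not_ge⟩
  by_cases hp : p ∈ fac c
  · exact lt_of_not_ge (h hp)
  · rw [vp_of_not_dvd fun h3 => hp ((mem_fac hc).2 h3)]; omega

theorem basA_free (R : ℝ) (F : E → ℂ) (hF : ∀ c : E, R < nm c → F c = 0) {k : ℕ} (hk : k ≠ 0) :
    ∑ d ∈ sqf R, ∑ n ∈ pball R, mu d * F (pr d ^ k * n)
      = ∑ c ∈ pball R with ∀ p : P, vp p.1 c < k, F c := by
  have h1 : ∀ d ∈ sqf R, ∑ n ∈ pball R, mu d * F (pr d ^ k * n)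
      = ∑ c ∈ pball R, (if pr d ^ k ∣ c then mu d else 0) * F c := fun d _ => by
    rw [← Finset.mul_sum, basA_sum_mul R F (primary_pow (pr_primary d) k) hF, Finset.mul_sum]
    exact Finset.sum_congr rfl fun c _ => by split_ifs <;> simp
  rw [Finset.sum_congr rfl h1, Finset.sum_comm, Finset.sum_filter]
  refine Finset.sum_congr rfl fun c hc => ?_
  obtain ⟨h2, h3⟩ := (basA_pball R c).1 hc
  rw [← Finset.sum_mul, basA_mu_pow (primary_ne_zero h2) h3 hk]
  split_ifs <;> simp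

theorem basA_sqf (R : ℝ) (F : E → ℂ) :
    ∑ s ∈ sqf R, F (pr s) = ∑ c ∈ pball R with ∀ p : P, vp p.1 c < 2, F c := by
  refine Finset.sum_nbij pr (fun s hs => ?_) (fun s _ t _ h => pr_inj h) (fun c hc => ?_)
    fun _ _ => rfl
  · refine Finset.mem_filter.2 ⟨(basA_pball R _).2 ⟨pr_primary s, mem_sqf.1 hs⟩, fun p => ?_⟩
    rw [vp_pr]; split_ifs <;> omega
  · obtain ⟨h1, h2⟩ := Finset.mem_filter.1 (Finset.mem_coe.1 hc)
    obtain ⟨h3, h4⟩ := (basA_pball R c).1 h1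
    have e := eq_pr_of_vp_le h3 fun p => Nat.lt_succ_iff.1 (h2 p)
    refine ⟨fac c, Finset.mem_coe.2 (mem_sqf.2 ?_), e.symm⟩
    rwa [Ns, ← e]

theorem basA_th_inv (R : ℝ) (g : E → ℂ) (hg : ∀ c : E, R < nm c → g c = 0) :
    ∑ s ∈ sqf R, tt s * g (pr s)
      = ∑ d ∈ sqf R, ∑ n ∈ pball R, mu d * (√(Ns d) : ℝ) * th n * g (pr d ^ 3 * n) := by
  have h1 : ∑ d ∈ sqf R, ∑ n ∈ pball R, mu d * (√(Ns d) : ℝ) * th n * g (pr d ^ 3 * n)
      = ∑ d ∈ sqf R, ∑ n ∈ pball R, mu d * (th (pr d ^ 3 * n) * g (pr d ^ 3 * n)) :=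
    Finset.sum_congr rfl fun d _ => Finset.sum_congr rfl fun n hn => by
      have := basA_th_cube n (pr d) ((basA_pball R n).1 hn).1 (pr_primary d)
      rw [mul_comm n] at this
      rw [this, Ns]; ring
  rw [h1, basA_free R (fun c => th c * g c) (fun c hc => by rw [hg c hc, mul_zero]) three_ne_zero]
  simp only [← basA_th_pr]
  rw [basA_sqf R fun c => th c * g c]
  refine Finset.sum_subset (fun c hc => ?_) fun c hc hn => ?_
  · rw [Finset.mem_filter] at hc ⊢
    exact ⟨hc.1, fun p => (hc.2 p).trans (by norm_num)⟩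
  · rw [Finset.mem_filter] at hc hn
    obtain ⟨p, hp⟩ := not_forall.1 fun h => hn ⟨hc.1, h⟩
    have := hc.2 p
    rw [basA_th_zero c p (primary_ne_zero ((basA_pball R c).1 hc.1).1) (by omega), zero_mul]

theorem basA_neg_one (s : Finset P) : xs c3 s (-1) = 1 :=
  Finset.prod_eq_one fun p _ => c3_neg_one p

theorem basA_inv3 {s : Finset P} {a : E} (h : pr s ∣ 3 * a - 1) : xs c3 s a = xs c3 s lam := by
  have h1 := xs_per ch_c3 s _ _ h
  have h2 : (3 : E) * a = -1 * lam ^ 2 * a := by rw [lam_sq]; ring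
  have h3 := basA_xs_cube s lam lam_prime.ne_zero
  rw [fac_lam, if_pos (Finset.disjoint_empty_right s), xs_pow ch_c3] at h3
  rw [xs_one ch_c3, h2, xs_mul ch_c3, xs_mul ch_c3, basA_neg_one, xs_pow ch_c3] at h1
  linear_combination xs c3 s lam * h1 - xs c3 s a * h3

theorem basA_twist (s : Finset P) (ξ : E) {a : E} (h : pr s ∣ 3 * a - 1) :
    rsum (pr s) (fun y => xs c3 s y * psf (y * (ξ * a)) (pr s))
      = conj (xs c3 s ξ) * gn s * (√(Ns s) : ℝ) := by
  rw [gs_twist ch_c3 (fun p _ => c3_nt p), xs_mul ch_c3, basA_inv3 h, basA_gn, map_mul]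
  have := basA_sq_ne s
  field_simp

theorem basA_twist' (s : Finset P) (ξ : E) {a : E} (h : pr s ∣ 3 * a - 1) :
    rsum (pr s) (fun y => conj (xs c3 s y) * psf (y * (ξ * a)) (pr s))
      = xs c3 s ξ * conj (gn s) * (√(Ns s) : ℝ) := by
  have h1 := congrArg conj (basA_twist s (-1 * ξ) h)
  rw [conj_rsum, xs_mul ch_c3, basA_neg_one, one_mul, map_mul, map_mul, conj_conj,
    conj_ofReal] at h1
  rw [← h1]
  congr 1
  funext y
  rw [map_mul, ← psf_neg]
  congr 2; ring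

theorem basA_gauss_pair (c c' : Finset P) (ξ : E) (h : Disjoint c c') :
    rsum (3 * pr c * pr c') (fun y => (if Pm y then xs c3 c y * conj (xs c3 c' y) else 0)
        * psf (y * ξ) (3 * pr c * pr c'))
      = psf ξ 3 * conj (xs c3 c ξ) * xs c3 c' ξ * gn c * conj (gn c') * (√(Ns c * Ns c') : ℝ) := by
  have hm : (3 : E) ∣ pr c * pr c' - 1 := primary_mul (pr_primary c) (pr_primary c')
  have hm0 := primary_ne_zero hm
  have h3 : (3 : E) ≠ 0 := fun e => lam_prime.ne_zero (by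
    have := lam_sq; rw [e, neg_zero] at this; exact pow_eq_zero_iff two_ne_zero |>.1 this)
  have hcop : IsCoprime (3 : E) (pr c * pr c') :=
    (isCoprime_three.2 (not_lam_dvd_of_primary hm)).symm
  obtain ⟨a, ha⟩ : ∃ a, pr c * pr c' ∣ 3 * a - 1 := ⟨_, inv_spec hcop⟩
  have p1 : Per (pr c') fun y => conj (xs c3 c' y) := fun x y e => by
    simp only [xs_per ch_c3 c' x y e]
  have p2 : Per 3 fun y => (if Pm y then (1 : ℂ) else 0) * psf (y * ξ) 3 := by
    refine Per.mul (fun x y e => if_congr ?_ rfl rfl) (per_psf ξ 3)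
    unfold Pm
    exact ⟨fun h1 => by simpa using dvd_sub h1 e, fun h1 => by simpa using dvd_add h1 e⟩
  have p3 : Per (pr c * pr c') fun y => xs c3 c y * conj (xs c3 c' y) *
      psf (y * (ξ * a)) (pr c * pr c') :=
    (((xs_per ch_c3 c).mono (dvd_mul_right _ _)).mul (p1.mono (dvd_mul_left _ _))).mul
      (per_psf _ _)
  have e1 : (fun y => (if Pm y then xs c3 c y * conj (xs c3 c' y) else 0)
        * psf (y * ξ) (3 * (pr c * pr c'))) = fun y => ((if Pm y then (1 : ℂ) else 0) *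
          psf (y * ξ) 3) * (xs c3 c y * conj (xs c3 c' y) * psf (y * (ξ * a)) (pr c * pr c')) := by
    funext y
    rw [psf_crt (b' := 1) h3 hm0 hcop ha (by rwa [mul_one]), mul_one, mul_assoc y]
    split_ifs <;> ring
  have e2 : rsum 3 (fun y => (if Pm y then (1 : ℂ) else 0) * psf (y * ξ) 3) = psf ξ 3 := by
    rw [rsum_single h3 p2 1 fun x hx => by rw [if_neg (show ¬ Pm x from hx), zero_mul]]
    have : Pm 1 := by simp [Pm]
    simp only [if_pos this, one_mul]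
  have e3 : xs c3 c (pr c') * conj (xs c3 c' (pr c)) = 1 := by
    rw [basA_recip2 c' c, xs_mul_conj ch_c3,
      if_pos fun p hp h1 => Finset.disjoint_left.1 h hp (dvd_pr_iff.1 h1)]
  rw [mul_assoc (3 : E), e1, rsum_crt h3 hm0 hcop p2 p3, e2,
    ga_split (pr_ne_zero c) (pr_ne_zero c') (coprime_pr.2 h) (xs_per ch_c3 c) p1 (xs_mul ch_c3 c)
      (fun x y => by rw [xs_mul ch_c3, map_mul]), e3,
    basA_twist c ξ ((dvd_mul_right _ _).trans ha), basA_twist' c' ξ ((dvd_mul_left _ _).trans ha),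
    Real.sqrt_mul (Ns_pos c).le, ofReal_mul]
  ring

theorem basA : BasA where
  mem_pball := basA_pball
  mem_prs := basA_prs
  sum_prs := basA_sum_prs
  norm_gn := basA_norm_gn
  norm_tt := basA_norm_tt
  tt_gn := basA_tt_gn
  recip _ _ := xv_c3_recip cubRec
  recip1 := basA_recip1
  recip2 := basA_recip2
  conj_xv := basA_conj_xv
  conj_xs := basA_conj_xs
  xv_cube := basA_xv_cube
  xs_cube := basA_xs_cube
  tt_union := basA_tt_union
  th_pr := basA_th_pr
  th_cube := basA_th_cube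
  th_mul := basA_th_mul
  th_zero := basA_th_zero
  th_dec := basA_th_dec
  th_sum R g hg := by
    rw [basA_pair R (fun c => th c * g c) (fun c h => by rw [h, zero_mul])
      fun c h => by rw [hg c h, mul_zero]]
    exact Finset.sum_congr rfl fun d hd => Finset.sum_congr rfl fun s _ => by
      rw [basA_th_sd s ((basA_pball R d).1 hd).1]
  th_sum_sq R g hg := by
    rw [basA_pair R (fun c => ‖th c‖ ^ 2 * g c) (fun c h => by simp [h])
      fun c h => by rw [hg c h, mul_zero]]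
    exact Finset.sum_congr rfl fun d hd => Finset.sum_congr rfl fun s _ => by
      rw [basA_norm_sd s ((basA_pball R d).1 hd).1, Real.sq_sqrt (by positivity)]
  th_sum_abs R g hg := by
    rw [basA_pair R (fun c => ‖th c‖ * g c) (fun c h => by simp [h])
      fun c h => by rw [hg c h, mul_zero]]
    exact Finset.sum_congr rfl fun d hd => Finset.sum_congr rfl fun s _ => by
      rw [basA_norm_sd s ((basA_pball R d).1 hd).1]
  th_inv := basA_th_inv
  sqf_sum R g hg := by rw [basA_free R g hg two_ne_zero, basA_sqf]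
  sum_dvd := basA_sum_dvd
  gauss_pair := basA_gauss_pair

end Pat
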