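import Vale.Agent.P006.IfA
import Vale.Agent.P026.Recip
import Vale.Agent.P026.HOne
import Vale.Agent.P026.Phi1
import Vale.Agent.P026.VorL

noncomputable section
namespace Pat
open QRH Complex MeasureTheory Filter
open scoped ComplexConjugate Classical ContDiff Topology

theorem basB_disj (z : E) : Disjoint (cf1 z) (cf2 z) :=
  Finset.disjoint_filter.2 fun _ _ h h' => by omega

theorem basB_prod (z : E) :
    ∏ p ∈ fac z, p.1 ^ vp p.1 z = pr (cf1 z) * pr (cf2 z) ^ 2 * jc z ^ 3 := by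
  rw [pr, pr, cf1, cf2, jc, Finset.prod_filter, Finset.prod_filter, ← Finset.prod_pow,
    ← Finset.prod_pow, ← Finset.prod_mul_distrib, ← Finset.prod_mul_distrib]
  refine Finset.prod_congr rfl fun p _ => ?_
  have h := Nat.mod_add_div (vp p.1 z) 3
  have h3 : vp p.1 z % 3 < 3 := Nat.mod_lt _ (by norm_num)
  generalize vp p.1 z / 3 = q at *
  generalize hr : vp p.1 z % 3 = r at *
  rw [← h]
  interval_cases r <;> simp <;> ring

theorem basB_dec {z : E} (hz : z ≠ 0) : ∃ i < 3, ∃ u : E, (u = 1 ∨ u = -1) ∧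
    z = u * om ^ i * lam ^ vp lam z * (pr (cf1 z) * pr (cf2 z) ^ 2 * jc z ^ 3) := by
  obtain ⟨u, hu, h⟩ := exists_factor hz
  rw [basB_prod] at h
  obtain ⟨i, hi, h1 | h1⟩ := isUnit_cases hu
  · exact ⟨i, hi, 1, Or.inl rfl, by rw [one_mul, ← h1]; exact h⟩
  · exact ⟨i, hi, -1, Or.inr rfl, by rw [neg_one_mul, ← h1]; exact h⟩

theorem basB_dec2 {z u : E} {i : ℕ} (hu : u = 1 ∨ u = -1)
    (h : z = u * om ^ i * lam ^ vp lam z * (pr (cf1 z) * pr (cf2 z) ^ 2 * jc z ^ 3)) :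
    z = cf0 i (vp lam z % 3) (cf1 z) (cf2 z) * (u * lam ^ (vp lam z / 3) * jc z) ^ 3 := by
  have h1 : lam ^ vp lam z = lam ^ (vp lam z % 3) * (lam ^ (vp lam z / 3)) ^ 3 := by
    rw [← pow_mul, ← pow_add, mul_comm, Nat.mod_add_div]
  have h2 : u ^ 3 = u := by rcases hu with rfl | rfl <;> norm_num
  refine h.trans ?_
  rw [h1, cf0, mul_pow, mul_pow, h2]
  ring

theorem basB_jc (z : E) : Pm (jc z) := primary_prod_pow _ _

theorem basB_nm_jc (z : E) : (nm (jc z) : ℝ) = Jc z := by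
  simp [jc, Jc, nm_prod, nm_pow]

theorem basB_nm_eq {z : E} (hz : z ≠ 0) : (nm z : ℝ) = 3 ^ vp lam z * Qc z * Jc z ^ 3 := by
  obtain ⟨i, -, u, hu, h⟩ := basB_dec hz
  have h1 : nm u = 1 := by
    rcases hu with rfl | rfl
    · exact nm_one
    · exact (nm_neg 1).trans nm_one
  have h2 := congrArg (fun x => (nm x : ℝ)) h
  simp only [nm_mul, nm_pow, h1, nm_om, nm_lam] at h2
  rw [h2, Qc, ← basB_nm_jc, Ns, Ns]
  push_cast
  ring

theorem basB_ne (i k : ℕ) (s t : Finset P) : cf0 i k s t ≠ 0 :=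
  mul_ne_zero (mul_ne_zero (mul_ne_zero (isUnit_om.pow i).ne_zero
    (pow_ne_zero _ lam_prime.ne_zero)) (pr_ne_zero s)) (pow_ne_zero _ (pr_ne_zero t))

theorem basB_vp (i k : ℕ) (s t : Finset P) (p : P) :
    vp p.1 (cf0 i k s t) = (if p ∈ s then 1 else 0) + 2 * if p ∈ t then 1 else 0 := by
  have h0 := (isUnit_om.pow i).ne_zero
  have h1 := pow_ne_zero k lam_prime.ne_zero
  rw [cf0, vp_mul p.2.1 (mul_ne_zero (mul_ne_zero h0 h1) (pr_ne_zero s))
    (pow_ne_zero _ (pr_ne_zero t)), vp_mul p.2.1 (mul_ne_zero h0 h1) (pr_ne_zero s),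
    vp_mul p.2.1 h0 h1, vp_pow p.2.1 (pr_ne_zero t), vp_pow p.2.1 lam_prime.ne_zero,
    vp_of_not_dvd (p.not_dvd_unit (isUnit_om.pow i)), vp_of_not_dvd p.not_dvd_lam, vp_pr, vp_pr]
  simp

theorem basB_vl (i k : ℕ) (s t : Finset P) : vp lam (cf0 i k s t) = k := by
  have h : ¬ lam ∣ om ^ i * (pr s * pr t ^ 2) := fun h =>
    not_lam_dvd_of_primary (primary_mul (pr_primary s) (primary_pow (pr_primary t) 2))
      ((isUnit_om.pow i).dvd_mul_left.1 h)
  have h1 : cf0 i k s t = lam ^ k * (om ^ i * (pr s * pr t ^ 2)) := by rw [cf0]; ring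
  rw [h1]
  exact (vp_up_eq lam_prime h k).1

theorem basB_fac (i k : ℕ) (s t : Finset P) : fac (cf0 i k s t) = s ∪ t := by
  ext p
  rw [mem_fac (basB_ne i k s t), dvd_iff_vp p.2.1 (basB_ne i k s t), basB_vp, Finset.mem_union]
  by_cases h : p ∈ s <;> by_cases h' : p ∈ t <;> simp [h, h']

theorem basB_cf (i k : ℕ) {s t : Finset P} {j : E} (h : Disjoint s t) (hj : j ≠ 0) :
    cf1 (cf0 i k s t * j ^ 3) = s ∧ cf2 (cf0 i k s t * j ^ 3) = t := by
  have h0 := mul_ne_zero (basB_ne i k s t) (pow_ne_zero 3 hj)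
  have hv : ∀ p : P, vp p.1 (cf0 i k s t * j ^ 3) =
      (if p ∈ s then 1 else 0) + 2 * (if p ∈ t then 1 else 0) + 3 * vp p.1 j := fun p => by
    rw [vp_mul p.2.1 (basB_ne i k s t) (pow_ne_zero 3 hj), basB_vp, vp_pow p.2.1 hj]
  constructor <;> ext p <;> simp only [cf1, cf2, Finset.mem_filter] <;>
    rw [mem_fac h0, dvd_iff_vp p.2.1 h0, hv] <;> have : p ∈ s → p ∉ t := (fun a => Finset.disjoint_left.1 h a) <;>
    by_cases h1 : p ∈ s <;> by_cases h2 : p ∈ t <;> simp_all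

theorem basB_cube_mul (z : E) {j : E} (hj : j ≠ 0) : IsCube (z * j ^ 3) ↔ IsCube z := by
  constructor
  · rintro ⟨m, hm⟩
    have h1 : j ^ 3 ∣ m ^ 3 := hm ▸ dvd_mul_left _ _
    obtain ⟨n, rfl⟩ := (UniqueFactorizationMonoid.pow_dvd_pow_iff_dvd (by norm_num)).1 h1
    refine ⟨n, mul_right_cancel₀ (pow_ne_zero 3 hj) ?_⟩
    rw [hm]
    ring
  · rintro ⟨m, rfl⟩
    exact ⟨m * j, (mul_pow _ _ _).symm⟩

theorem basB_om {n : ℕ} (h : IsCube (om ^ n)) : n % 3 = 0 := by
  obtain ⟨u, hu⟩ := h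
  have h1 : IsUnit u := (isUnit_pow_iff (by norm_num : 3 ≠ 0)).1 (hu ▸ isUnit_om.pow n)
  have h3 : ∀ m : ℕ, (om ^ m) ^ 3 = 1 := fun m => by rw [← pow_mul, mul_comm, pow_mul, om_cube, one_pow]
  obtain ⟨m, -, h2 | h2⟩ := isUnit_cases h1
  · rw [h2, h3] at hu
    have h4 := congrArg toC hu
    rw [map_pow, toC_om, map_one, ← pow_zero omC, omC_pow_eq_iff] at h4
    exact h4
  · rw [h2, Odd.neg_pow (by decide), h3] at hu
    have h4 := h3 n
    rw [hu] at h4
    have h5 := congrArg toC h4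
    norm_num at h5

theorem basB_ratio {i k i' k' : ℕ} {s t s' t' : Finset P} (hi : i < 3) (hk : k < 3) (hi' : i' < 3)
    (hk' : k' < 3) (h : Disjoint s t) (h' : Disjoint s' t')
    (hc : IsCube (cf0 i k s t * cf0 i' k' s' t' ^ 2)) : i = i' ∧ k = k' ∧ s = s' ∧ t = t' := by
  have h0 := basB_ne i k s t
  have h1 := basB_ne i' k' s' t'
  obtain ⟨j, hj⟩ := id hc
  have hj0 : j ≠ 0 := by
    rintro rfl
    exact mul_ne_zero h0 (pow_ne_zero 2 h1) (by simpa using hj)
  have hv : ∀ q, Prime q → vp q (cf0 i k s t) + 2 * vp q (cf0 i' k' s' t') = 3 * vp q j :=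
    fun q hq => by rw [← vp_pow hq hj0, ← hj, vp_mul hq h0 (pow_ne_zero 2 h1), vp_pow hq h1]
  have e1 : k = k' := by
    have := hv lam lam_prime
    rw [basB_vl, basB_vl] at this
    omega
  have e2 : ∀ p : P, (p ∈ s ↔ p ∈ s') ∧ (p ∈ t ↔ p ∈ t') := fun p => by
    have h2 := hv p.1 p.2.1
    rw [basB_vp, basB_vp] at h2
    have h3 : p ∈ s → p ∉ t := fun a => Finset.disjoint_left.1 h a
    have h4 : p ∈ s' → p ∉ t' := fun a => Finset.disjoint_left.1 h' a
    by_cases a1 : p ∈ s <;> by_cases a2 : p ∈ t <;> by_cases a3 : p ∈ s' <;>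
      by_cases a4 : p ∈ t' <;> simp_all <;> omega
  obtain rfl : s = s' := Finset.ext fun p => (e2 p).1
  obtain rfl : t = t' := Finset.ext fun p => (e2 p).2
  subst e1
  refine ⟨?_, rfl, rfl, rfl⟩
  have e3 : cf0 i k s t * cf0 i' k s t ^ 2 = om ^ (i + 2 * i') * cf0 0 k s t ^ 3 := by
    simp only [cf0]
    ring
  rw [e3, basB_cube_mul _ (basB_ne 0 k s t)] at hc
  have := basB_om hc
  omega

theorem basB_Qc {z : E} (hz : z ≠ 0) (h : IsCube z) : Qc z = 1 := by
  obtain ⟨j, rfl⟩ := h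
  have hj : j ≠ 0 := fun h => hz (by simp [h])
  have h1 := basB_cf 0 0 (Finset.disjoint_empty_left ∅) hj
  have h2 : cf0 0 0 ∅ ∅ = 1 := by simp [cf0, pr_empty]
  rw [h2, one_mul] at h1
  rw [Qc, h1.1, h1.2, Ns_empty]
  norm_num

theorem basB_fibre (z : E) (T : Finset E) (h : ∀ j ∈ T, j ^ 3 = z) : T.card ≤ 3 := by
  refine le_trans (Finset.card_le_card (t := (Polynomial.nthRoots 3 z).toFinset) fun j hj => ?_)
    ((Multiset.toFinset_card_le _).trans (Polynomial.card_nthRoots 3 z))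
  rw [Multiset.mem_toFinset, Polynomial.mem_nthRoots (by norm_num)]
  exact h j hj

theorem basB_roots {j m : E} (h : m ^ 3 = j ^ 3) : m = j ∨ m = om * j ∨ m = om ^ 2 * j := by
  have h1 : (m - j) * (m - om * j) * (m - om ^ 2 * j) = 0 := by
    have h2 := om_rel
    have h3 := om_cube
    linear_combination h + (-m ^ 2 * j + om * m * j ^ 2) * h2 - j ^ 3 * h3
  rcases mul_eq_zero.1 h1 with h2 | h2
  · rcases mul_eq_zero.1 h2 with h3 | h3
    · exact Or.inl (sub_eq_zero.1 h3)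
    · exact Or.inr (Or.inl (sub_eq_zero.1 h3))
  · exact Or.inr (Or.inr (sub_eq_zero.1 h2))

theorem basB_tsum (F : E → ℂ) (hF : Summable (fun j : E => if j = 0 then 0 else F (j ^ 3))) :
    ∑' j : E, (if j = 0 then 0 else F (j ^ 3))
      = 3 * ∑' ξ : E, if ξ ≠ 0 ∧ IsCube ξ then F ξ else 0 := by
  rw [← (hF.hasSum.tsum_fiberwise fun j : E => j ^ 3).tsum_eq, ← tsum_mul_left]
  refine tsum_congr fun ξ => ?_
  rw [tsum_subtype _ fun j : E => if j = 0 then 0 else F (j ^ 3)]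
  split_ifs with h
  · obtain ⟨h0, j, rfl⟩ := h
    have hj : j ≠ 0 := fun h => h0 (by simp [h])
    have o1 : om ≠ 1 := by decide
    have o2 : om ^ 2 ≠ 1 := by decide
    have o3 : om ≠ om ^ 2 := by decide
    have c1 : (om * j) ^ 3 = j ^ 3 := by rw [mul_pow, om_cube, one_mul]
    have c2 : (om ^ 2 * j) ^ 3 = j ^ 3 := by
      rw [mul_pow, ← pow_mul, mul_comm 2 3, pow_mul, om_cube, one_pow, one_mul]
    have hv : ∀ m : E, m ^ 3 = j ^ 3 → Set.indicator ((fun j : E => j ^ 3) ⁻¹' {j ^ 3})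
        (fun j : E => if j = 0 then 0 else F (j ^ 3)) m = F (j ^ 3) := fun m hm => by
      rw [Set.indicator_of_mem (by simpa using hm), if_neg (fun h => h0 (by simp [← hm, h])), hm]
    rw [tsum_eq_sum (s := {j, om * j, om ^ 2 * j}) fun m hm => Set.indicator_of_notMem
      (fun h => hm (by simpa using basB_roots h)) _, Finset.sum_insert, Finset.sum_pair,
      hv _ rfl, hv _ c1, hv _ c2]
    · ring
    · exact fun h => o3 (mul_right_cancel₀ hj h)
    · simp only [Finset.mem_insert, Finset.mem_singleton, not_or]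
      exact ⟨fun h => o1 (mul_right_cancel₀ hj (h.symm.trans (one_mul j).symm)),
        fun h => o2 (mul_right_cancel₀ hj (h.symm.trans (one_mul j).symm))⟩
  · rw [mul_zero]
    refine (tsum_congr fun m => ?_).trans tsum_zero
    refine Set.indicator_apply_eq_zero.2 fun hm => if_pos ?_
    by_contra h0
    have h1 : m ^ 3 = ξ := hm
    exact h ⟨h1 ▸ pow_ne_zero 3 h0, m, h1.symm⟩

theorem basB_psf (j : E) : psf (j ^ 3) 3 = 1 := by
  have h : (3 : E) ∣ j ^ 3 - ((j.re ^ 3 + j.im ^ 3 : ℤ) : E) := by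
    refine ⟨(j.re : E) ^ 2 * j.im * om + j.re * (j.im : E) ^ 2 * om ^ 2, ?_⟩
    have h1 : j = (j.re : E) + (j.im : E) * om := by
      ext <;> simp [om]
    have h3 := om_cube
    generalize j.re = a at *
    generalize j.im = b at *
    rw [h1]
    push_cast
    linear_combination (b : E) ^ 3 * h3
  rw [psf_congr h, psf, map_intCast, map_ofNat]
  have h2 := psi_coord (((j.re ^ 3 + j.im ^ 3 : ℤ) : ℝ) / 3) 0
  simp only [ofReal_zero, zero_mul, add_zero, mul_zero, Complex.exp_zero] at h2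
  rw [← h2]
  congr 1
  push_cast
  ring

theorem basB_pm {x y : E} (h : (9 : E) ∣ x - y) : Pm x ↔ Pm y := by
  have h3 : (3 : E) ∣ x - y := (show (3 : E) ∣ 9 from ⟨3, by norm_num⟩).trans h
  constructor <;> intro h1
  · have := dvd_sub h1 h3
    rwa [sub_sub_sub_cancel_left] at this
  · have := dvd_add h3 h1
    rwa [sub_add_sub_cancel] at this

theorem basB_congr {c c' u : E} (hc : Pm c) (h : (9 : E) ∣ c' - c) (hu : fac u = ∅) (h0 : u ≠ 0) :
    xv c3 c' u = xv c3 c u := by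
  have hc' : Pm c' := (basB_pm h).2 hc
  have hp : ∀ p : P, ¬ p.1 ∣ u := fun p hp => by simpa [hu] using (mem_fac h0).2 hp
  have hx : ∀ n, xv c3 u n = 1 := fun n => by simp [xv, hu]
  have h1 := (hCongr cubRec c c' u (primary_ne_zero hc) h0
    (by rwa [vp_of_not_dvd (not_lam_dvd_of_primary hc), pow_zero, mul_one])).1
  rwa [H_coprime (primary_ne_zero hc) h0 fun p h => hp p h.2,
    H_coprime (primary_ne_zero hc') h0 fun p h => hp p h.2, hx, hx, map_one, mul_one,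
    mul_one] at h1

theorem basB_com {c c' : E} (hc : Pm c) (h : (9 : E) ∣ c' - c) : xv c3 c' om = xv c3 c om :=
  basB_congr hc h (fac_unit isUnit_om) isUnit_om.ne_zero

theorem basB_clam {c c' : E} (hc : Pm c) (h : (9 : E) ∣ c' - c) : xv c3 c' lam = xv c3 c lam :=
  basB_congr hc h fac_lam lam_prime.ne_zero

theorem basB_sub1 (z : E) : cf1 z ⊆ fac z := Finset.filter_subset _ _
theorem basB_sub2 (z : E) : cf2 z ⊆ fac z := Finset.filter_subset _ _

theorem basB_val {z u : E} {i : ℕ} (hz : z ≠ 0) (hu : u = 1 ∨ u = -1)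
    (h : z = u * om ^ i * lam ^ vp lam z * (pr (cf1 z) * pr (cf2 z) ^ 2 * jc z ^ 3)) {c : E}
    (hc : Pm c) : xv c3 c z =
    if Disjoint (fac c) (fac z) then xv c3 c om ^ i * xv c3 c lam ^ vp lam z
      * xs c3 (cf1 z) c * conj (xs c3 (cf2 z) c) else 0 := by
  have hc0 := primary_ne_zero hc
  split_ifs with hd
  · have h1 : xv c3 c u = 1 := by
      rcases hu with rfl | rfl
      · exact xv_one ch_c3 c
      · simp [xv, c3_neg_one]
    have h2 : xv c3 c (jc z) ^ 3 = 1 := by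
      refine xv_c3_cube hc0 fun p hp => Finset.disjoint_left.1 hd ((mem_fac hc0).2 hp.1)
        ((mem_fac hz).2 ?_)
      rw [h]
      exact ((hp.2.trans (dvd_pow_self _ (by norm_num))).mul_left _).mul_left _
    have h3 : ∀ s, xv c3 c (pr s) = xs c3 s c := fun s => by
      rw [xv_c3_recip cubRec hc (pr_primary s), xv_pr]
    have h4 : conj (xs c3 (cf2 z) c) = xs c3 (cf2 z) c ^ 2 := by
      simp only [xs, map_prod, conj_c3, Finset.prod_pow]
    have h5 := congrArg (xv c3 c) h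
    simp only [xv_mul ch_c3, xv_pow ch_c3, h1, h2, h3] at h5
    rw [h5, h4]
    ring
  · obtain ⟨p, h1, h2⟩ := Finset.not_disjoint_iff.1 hd
    exact (xv_eq_zero_iff ch_c3 hc0).2 ⟨p, (mem_fac hc0).1 h1, (mem_fac hz).1 h2⟩

theorem basB_per {z : E} (hz : z ≠ 0) :
    Per (9 * pr (fac z)) fun c => if Pm c then xv c3 c z else 0 := by
  intro x y h
  have h9 : (9 : E) ∣ x - y := (dvd_mul_right _ _).trans h
  have hp : pr (fac z) ∣ x - y := (dvd_mul_left _ _).trans h
  by_cases hy : Pm y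
  · have hx := (basB_pm h9).2 hy
    obtain ⟨i, -, u, hu, hd⟩ := basB_dec hz
    have h1 : Disjoint (fac x) (fac z) ↔ Disjoint (fac y) (fac z) := by
      simp only [Finset.disjoint_right, mem_fac (primary_ne_zero hx), mem_fac (primary_ne_zero hy)]
      refine forall₂_congr fun p hp' => not_congr ?_
      exact dvd_iff_dvd_of_dvd_sub (pr_dvd_iff.1 hp p hp')
    beta_reduce
    rw [if_pos hx, if_pos hy, basB_val hz hu hd hx, basB_val hz hu hd hy, basB_com hy h9,
      basB_clam hy h9, xs_per ch_c3 (cf1 z) x y ((pr_dvd_pr.2 (basB_sub1 z)).trans hp),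
      xs_per ch_c3 (cf2 z) x y ((pr_dvd_pr.2 (basB_sub2 z)).trans hp)]
    exact if_congr h1 rfl rfl
  · beta_reduce
    rw [if_neg hy, if_neg fun hx => hy ((basB_pm h9).1 hx)]

theorem basB_crt {a b : E} (h : IsCoprime a b) (x y : E) : ∃ c, a ∣ c - x ∧ b ∣ c - y := by
  obtain ⟨s, t, hst⟩ := h
  exact ⟨x * (t * b) + y * (s * a), ⟨s * (y - x), by linear_combination x * hst⟩,
    ⟨t * (x - y), by linear_combination y * hst⟩⟩

theorem basB_nine (s : Finset P) : IsCoprime (9 : E) (pr s) :=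
  coprime_pr_iff.2 fun p _ h => p.not_dvd_three (p.2.1.dvd_of_dvd_pow
    (show p.1 ∣ 3 ^ 2 by norm_num; exact h))

/-- The primary prime of norm seven. -/
def basBp : P := ⟨⟨-2, -3⟩, prime_of_nm_prime (by decide), (e1_prim _).2 (by decide)⟩

theorem basB_seven : xv c3 basBp.1 lam = omC := by
  rw [xv_prime, ← pow_one omC]
  refine c3_eq_of ⟨-om, ?_⟩
  have h : nm basBp.1 = 7 := by decide
  rw [h]
  decide

theorem basB_two : xv c3 pTwo.1 om = omC ∧ xv c3 pTwo.1 lam = 1 := by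
  have h4 : nm pTwo.1 = 4 := (nm_neg 2).trans (nm_natCast 2)
  constructor
  · rw [xv_prime, c3_om, h4, pow_one]
  · rw [xv_prime, (c3_mc pTwo).per lam 1 ⟨-om, by decide⟩, (c3_mc pTwo).one]

theorem basB_xs1 {s : Finset P} {c : E} (h : pr s ∣ c - 1) : xs c3 s c = 1 := by
  rw [xs_per ch_c3 s c 1 h, xs_one ch_c3]

theorem basB_nt {z : E} (hz : z ≠ 0) (hn : ¬ IsCube z) :
    ∃ c, Pm c ∧ xv c3 c z ≠ 0 ∧ xv c3 c z ≠ 1 := by
  obtain ⟨i, hi, u, hu, hd⟩ := basB_dec hz
  have hw : omC ≠ 0 := fun h => by simpa [h] using norm_omC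
  have h1 : Pm 1 := by simp [Pm]
  by_cases he : cf1 z = ∅ ∧ cf2 z = ∅
  · have key : ∀ c0, Pm c0 → ∃ c, Pm c ∧
        xv c3 c z = xv c3 c0 om ^ i * xv c3 c0 lam ^ vp lam z := fun c0 h0 => by
      obtain ⟨c, hc1, hc2⟩ := basB_crt (basB_nine (fac z)) c0 1
      have hc := (basB_pm hc1).2 h0
      refine ⟨c, hc, ?_⟩
      rw [basB_val hz hu hd hc, if_pos, he.1, he.2, xs_empty, map_one, mul_one, mul_one,
        basB_com h0 hc1, basB_clam h0 hc1]
      refine Finset.disjoint_left.2 fun p hp hp' => p.not_dvd_unit isUnit_one ?_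
      exact (dvd_iff_dvd_of_dvd_sub (pr_dvd_iff.1 hc2 p hp')).1 ((mem_fac (primary_ne_zero hc)).1 hp)
    by_cases hi0 : i = 0
    · obtain ⟨c, hc, h⟩ := key basBp.1 basBp.2.2
      rw [hi0, pow_zero, one_mul, basB_seven] at h
      refine ⟨c, hc, h ▸ pow_ne_zero _ hw, fun h2 => hn ?_⟩
      rw [h, ← pow_zero omC, omC_pow_eq_iff] at h2
      have h3 := basB_dec2 hu hd
      rw [hi0, h2, he.1, he.2] at h3
      exact ⟨u * lam ^ (vp lam z / 3) * jc z, h3.trans (by simp [cf0, pr_empty])⟩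
    · obtain ⟨c, hc, h⟩ := key pTwo.1 pTwo.2.2
      rw [basB_two.1, basB_two.2, one_pow, mul_one] at h
      refine ⟨c, hc, h ▸ pow_ne_zero _ hw, fun h2 => hi0 ?_⟩
      rw [h, ← pow_zero omC, omC_pow_eq_iff] at h2
      omega
  · obtain ⟨p, hp⟩ : ∃ p, p ∈ cf1 z ∨ p ∈ cf2 z := by
      by_contra h
      exact he ⟨Finset.eq_empty_of_forall_notMem fun p hp => h ⟨p, Or.inl hp⟩,
        Finset.eq_empty_of_forall_notMem fun p hp => h ⟨p, Or.inr hp⟩⟩
    obtain ⟨x, hx, hx1⟩ := c3_nt p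
    have hcop : IsCoprime (9 * pr ((fac z).erase p)) p.1 := by
      rw [← pr_singleton p]
      exact (basB_nine _).mul_left (coprime_pr.2 (by simp))
    obtain ⟨c, hc1, hc2⟩ := basB_crt hcop 1 x
    have h9 : (9 : E) ∣ c - 1 := (dvd_mul_right _ _).trans hc1
    have hq : pr ((fac z).erase p) ∣ c - 1 := (dvd_mul_left _ _).trans hc1
    have hc := (basB_pm h9).2 h1
    have hv : c3 p c = c3 p x := (c3_mc p).per c x hc2
    have hx0 : c3 p x ≠ 0 := fun h => hx ((c3_mc p).eq_zero_iff.1 h)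
    have hin : ∀ s ⊆ fac z, p ∈ s → xs c3 s c = c3 p x := fun s hs hps => by
      rw [xs, ← Finset.mul_prod_erase _ _ hps, hv]
      exact (congrArg _ (basB_xs1 ((pr_dvd_pr.2 (Finset.erase_subset_erase p hs)).trans hq))).trans
        (mul_one _)
    have hout : ∀ s ⊆ fac z, p ∉ s → xs c3 s c = 1 := fun s hs hps =>
      basB_xs1 ((pr_dvd_pr.2 (Finset.subset_erase.2 ⟨hs, hps⟩)).trans hq)
    have hdj : Disjoint (fac c) (fac z) := by
      refine Finset.disjoint_left.2 fun q hq1 hq2 => ?_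
      have hq3 := (mem_fac (primary_ne_zero hc)).1 hq1
      by_cases hqp : q = p
      · exact hx ((dvd_iff_dvd_of_dvd_sub hc2).1 (hqp ▸ hq3))
      · exact q.not_dvd_unit isUnit_one ((dvd_iff_dvd_of_dvd_sub
          (pr_dvd_iff.1 hq q (Finset.mem_erase.2 ⟨hqp, hq2⟩))).1 hq3)
    have hval := basB_val hz hu hd hc
    rw [if_pos hdj, basB_com h1 h9, basB_clam h1 h9, xv_unit isUnit_one, xv_unit isUnit_one,
      one_pow, one_pow, one_mul, one_mul] at hval
    refine ⟨c, hc, ?_⟩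
    rcases hp with hp | hp
    · rw [hval, hin _ (basB_sub1 z) hp, hout _ (basB_sub2 z)
        (Finset.disjoint_left.1 (basB_disj z) hp), map_one, mul_one]
      exact ⟨hx0, hx1⟩
    · rw [hval, hin _ (basB_sub2 z) hp, hout _ (basB_sub1 z)
        (Finset.disjoint_right.1 (basB_disj z) hp), one_mul]
      exact ⟨by simpa using hx0, fun h => hx1 (by simpa using congrArg conj h)⟩

theorem basB_rper : Per (Lam 1) rho0 := by
  intro x y h
  have h9 := (nine_dvd_Lam le_rfl).trans h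
  by_cases hy : Pm y
  · rw [rho0, rho0, if_pos hy, if_pos ((basB_pm h9).2 hy), basB_clam hy h9]
  · rw [rho0, rho0, if_neg hy, if_neg fun hx => hy ((basB_pm h9).1 hx)]

theorem basB_rmean : rsum (Lam 1) rho0 = 0 := by
  have h1 := rsum_mul_unit (Lam_ne_zero 1) basB_rper (coprime_Lam basBp.not_lam_dvd 1)
  have h2 : (fun x => rho0 (basBp.1 * x)) = fun x => omC * rho0 x := funext fun x => by
    by_cases hx : Pm x
    · rw [rho0, rho0, if_pos hx, if_pos (show Pm _ from primary_mul basBp.2.2 hx),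
        xv_mul_left basBp.ne_zero (primary_ne_zero hx), basB_seven]
    · rw [rho0, rho0, if_neg hx, 
        if_neg fun h : Pm _ => hx (primary_of_mul basBp.2.2 h), mul_zero]
  rw [h2, rsum_mul_left] at h1
  have h3 : (omC - 1) * rsum (Lam 1) rho0 = 0 := by linear_combination h1
  exact (mul_eq_zero.1 h3).resolve_left (sub_ne_zero.2 omC_ne_one)

theorem basB : BasB where
  cf_disj := basB_disj
  cube_dec z hz := by
    obtain ⟨i, hi, u, hu, h⟩ := basB_dec hz
    exact ⟨i, hi, u, hu, basB_dec2 hu h⟩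
  jc_pm := basB_jc
  nm_jc := basB_nm_jc
  nm_eq _ hz := basB_nm_eq hz
  nm_cf0 i k s t := by simp [cf0, nm_mul, nm_pow, nm_om, nm_lam, Ns]
  fac_cf0 := basB_fac
  cf_eq i k _ _ _ h hj := basB_cf i k h hj
  cube_ratio _ _ _ _ _ _ _ _ := basB_ratio
  cube_mul z _ hj := basB_cube_mul z hj
  cube_Qc _ := basB_Qc
  cube_fibre := basB_fibre
  tsum_cube := basB_tsum
  psf_cube := basB_psf
  char_per _ := basB_per
  char_nt _ := basB_nt
  char_dec z hz := by
    obtain ⟨i, hi, u, hu, h⟩ := basB_dec hz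
    exact ⟨i, hi, fun c hc => basB_val hz hu h hc⟩
  rho0_per := basB_rper
  rho0_mean := basB_rmean

end Pat
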