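import Vale.Agent.P006.IfA
import Vale.Agent.P026.Eis2

/-! P006: algebraic facts, part C. -/

noncomputable section
namespace Pat
open QRH Complex MeasureTheory Filter
open scoped ComplexConjugate Classical ContDiff Topology

theorem basC_split {z : E} (hz : z ≠ 0) :
    ∏ p ∈ fac z, p.1 ^ vp p.1 z = sfp z * pr (sq1 z) := by
  rw [← Finset.prod_filter_mul_prod_filter_not (fac z) fun p => 2 ≤ vp p.1 z]
  have e : (fac z).filter (fun p => ¬ 2 ≤ vp p.1 z) = sq1 z := by
    refine Finset.filter_congr fun p hp => ?_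
    have h := (dvd_iff_vp p.2.1 hz).1 ((mem_fac hz).1 hp)
    omega
  have e2 : ∏ p ∈ sq1 z, p.1 ^ vp p.1 z = pr (sq1 z) :=
    Finset.prod_congr rfl fun p hp => by rw [(Finset.mem_filter.1 hp).2, pow_one]
  rw [e, e2]
  rfl

theorem basC_pm (z : E) : Pm (sfp z) := primary_prod_pow _ _

theorem basC_mem {z : E} {p : P} (hp : p ∈ fac (sfp z)) :
    2 ≤ vp p.1 z ∧ vp p.1 (sfp z) = vp p.1 z := by
  have h0 := primary_ne_zero (basC_pm z)
  have h := (dvd_iff_vp p.2.1 h0).1 ((mem_fac h0).1 hp)
  have e : vp p.1 (sfp z) = if p ∈ (fac z).filter (fun p => 2 ≤ vp p.1 z) then vp p.1 z else 0 :=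
    vp_prod_pow _ (fun p => vp p.1 z) p
  by_cases h1 : p ∈ (fac z).filter (fun p => 2 ≤ vp p.1 z)
  · rw [if_pos h1] at e
    exact ⟨(Finset.mem_filter.1 h1).2, e⟩
  · rw [if_neg h1] at e
    exact absurd e h

theorem basC_eq {m : E} {r : Finset P} (hm : Sqf m) (hd : Disjoint (fac m) r) :
    sfp (m * pr r) = m ∧ sq1 (m * pr r) = r := by
  have h0 := primary_ne_zero hm.1
  have hf : fac (m * pr r) = fac m ∪ r := by rw [fac_mul h0 (pr_ne_zero r), fac_pr]
  have hv : ∀ p : P, vp p.1 (m * pr r) = vp p.1 m + if p ∈ r then 1 else 0 := fun p => by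
    rw [vp_mul p.2.1 h0 (pr_ne_zero r), vp_pr]
  have h1 : ∀ p ∈ fac m, vp p.1 (m * pr r) = vp p.1 m := fun p hp => by
    rw [hv, if_neg (Finset.disjoint_left.1 hd hp), add_zero]
  have h2 : ∀ p ∈ r, vp p.1 (m * pr r) = 1 := fun p hp => by
    rw [hv, if_pos hp,
      vp_of_not_dvd fun h => Finset.disjoint_right.1 hd hp ((mem_fac h0).2 h)]
  constructor
  · have e : (fac (m * pr r)).filter (fun p => 2 ≤ vp p.1 (m * pr r)) = fac m := by
      ext p
      rw [Finset.mem_filter, hf, Finset.mem_union]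
      constructor
      · rintro ⟨h | h, h3⟩
        · exact h
        · rw [h2 p h] at h3
          omega
      · exact fun h => ⟨Or.inl h, (h1 p h).symm ▸ hm.2 p h⟩
    unfold sfp
    rw [e, Finset.prod_congr rfl fun p hp => by rw [h1 p hp]]
    exact (primary_factor hm.1).symm
  · ext p
    unfold sq1
    rw [Finset.mem_filter, hf, Finset.mem_union]
    constructor
    · rintro ⟨h | h, h3⟩
      · have h4 := hm.2 p h
        rw [h1 p h] at h3
        omega
      · exact h
    · exact fun h => ⟨Or.inr h, h2 p h⟩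

theorem basC_sum {M : Type} [AddCommMonoid M] (L : ℝ) (g : E → M)
    (hg : ∀ n, n ≠ pr (fac n) → g n = 0) : ∑ n ∈ pball L, g n = ∑ c ∈ sqf L, g (pr c) := by
  refine (Finset.sum_of_injOn pr pr_inj.injOn (fun c hc => ?_) (fun n hn h => hg n fun e => ?_)
    fun _ _ => rfl).symm
  · exact Finset.mem_coe.2 (Finset.mem_filter.2
      ⟨mem_ball.2 ⟨pr_ne_zero c, mem_sqf.1 (Finset.mem_coe.1 hc)⟩, pr_primary c⟩)
  · refine h ⟨fac n, Finset.mem_coe.2 (mem_sqf.2 ?_), e.symm⟩
    unfold Ns
    rw [← e]
    exact (mem_ball.1 (Finset.mem_filter.1 hn).1).2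

theorem basC_ex (y : Finset P → ℂ) (c : Finset P) : ex y (pr c) = y c := by
  unfold ex
  rw [fac_pr, if_pos rfl]

theorem basC_xv (c : Finset P) (ξ : E) : xv c3 (pr c) ξ = xs c3 c ξ := by
  unfold xv xs
  rw [fac_pr]
  exact Finset.prod_congr rfl fun p hp => by rw [vp_pr, if_pos hp, pow_one]

theorem basC_key (p : P) : 2 * nm p.1 ≤ key p ∧ key p ≤ 2 * nm p.1 + 1 := by
  unfold key
  split_ifs <;> omega

theorem basC_inj : Function.Injective key := by
  intro p q h
  have h1 := basC_key p
  have h2 := basC_key q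
  have hn : nm p.1 = nm q.1 := by omega
  have hd : q.1 ∣ (nm p.1 : E) := by
    rw [hn, ← mul_star_eq]
    exact dvd_mul_right _ _
  rcases P.eq_or_bar hd with e | e
  · exact e.symm
  · have e1 : q.1 = star p.1 := by rw [e]; rfl
    have e2 : q.1.im = -p.1.im := by rw [e1, QuadraticAlgebra.im_star]
    have e3 : p.1.im = 0 := by
      unfold key at h
      rw [hn, e2] at h
      split_ifs at h <;> omega
    refine Subtype.ext ?_
    rw [e1]
    ext
    · rw [QuadraticAlgebra.re_star, e3, mul_zero, add_zero]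
    · rw [QuadraticAlgebra.im_star, e3, neg_zero]

theorem basC : BasC where
  sq_dec z hz := by
    obtain ⟨u, hu, e⟩ := exists_factor hz
    refine ⟨u, hu, ?_⟩
    rw [mul_assoc (u * _), ← basC_split hz]
    exact e
  sq_dec1 n hn := by
    rw [← basC_split (primary_ne_zero hn)]
    exact primary_factor hn
  sfp_sqf z := ⟨basC_pm z, fun p hp => (basC_mem hp).2.symm ▸ (basC_mem hp).1⟩
  sfp_disj z := Finset.disjoint_left.2 fun p hp h => by
    have h1 := (basC_mem hp).1
    have h2 := (Finset.mem_filter.1 h).2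
    omega
  nm_sfp z := by
    unfold sfp Nsf
    rw [nm_prod, Nat.cast_prod]
    exact Finset.prod_congr rfl fun p _ => by rw [nm_pow, Nat.cast_pow]
  sfp_eq m r hm hd := basC_eq hm hd
  ex_Dn y L ξ := by
    unfold Dn Ds
    rw [basC_sum L _ fun n hn => by unfold ex; rw [if_neg hn, zero_mul]]
    exact Finset.sum_congr rfl fun c _ => by rw [basC_ex, basC_xv]
  ex_nrm y L := by
    unfold nrmE nrm2
    rw [basC_sum L _ fun n hn => by unfold ex; rw [if_neg hn, norm_zero, zero_pow two_ne_zero]]
    exact Finset.sum_congr rfl fun c _ => by rw [basC_ex]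
  key_inj := basC_inj
  key_lt p q h := by
    have h1 := basC_key p
    have h2 := basC_key q
    omega
  key_le p q h := by
    have h1 := basC_key p
    have h2 := basC_key q
    omega
  card_nm n T hT := by
    refine (Finset.card_le_card_of_injOn key (t := {2 * n, 2 * n + 1}) (fun p hp => ?_)
      basC_inj.injOn).trans Finset.card_le_two
    have h1 := basC_key p
    have h2 := hT p hp
    rw [Finset.mem_coe, Finset.mem_insert, Finset.mem_singleton]
    omega
  kc_lt w s p hp := by
    have h1 := basC_key p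
    have h2 := Nat.le_floor hp
    unfold kc
    rw [Finset.lt_fold_min]
    exact ⟨fun h => h.2, fun h => ⟨by omega, h⟩⟩
  kc_le w s := (Finset.fold_min_le _).2 (Or.inl le_rfl)
  kc_insert w s q h := by
    have h1 : kc w s ≤ key q := by
      refine (Finset.fold_min_le _).2 (h.imp (fun h2 => ?_) id)
      have h3 := basC_key q
      have h4 := q.four_le_nm
      have h5 := (Nat.floor_lt' (n := nm q.1) (by omega)).2 h2
      omega
    unfold kc at h1 ⊢
    rw [Finset.fold_insert_idem, min_eq_right h1]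

end Pat
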