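import Vale.Agent.P006.BoxAux

/-! The statements `Box` and `NB` (P006). -/

noncomputable section
namespace Pat
open QRH Complex MeasureTheory Filter
open scoped ComplexConjugate Classical ContDiff Topology

theorem box_rp {Z x ε : ℝ} (hε : 0 ≤ ε) (hx : 0 ≤ x) (h : x ≤ Z) : x ^ ε ≤ Z ^ ε :=
  Real.rpow_le_rpow hx h hε

theorem box_rp4 {Z ε : ℝ} (hZ : 0 ≤ Z) : Z ^ ε = (Z ^ (ε / 4)) ^ 4 := by
  rw [← Real.rpow_mul_natCast hZ]
  norm_num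

theorem box (hb : BA) (α : ℝ) (hα : 1 ≤ α) (h1 : LSd α) (h2 : HM1g) : Box α := by
  intro ε hε
  have he : 0 < ε / 4 := by positivity
  obtain ⟨C0, hC0, H0⟩ := log_le_rpow he
  obtain ⟨C1, hC1, H1⟩ := h1 _ he
  obtain ⟨C2, hC2, H2⟩ := h2 _ he
  refine ⟨31104 * C0 * (C1 + C2), by positivity, ?_⟩
  intro y L X1 Y J Z S hZ hL hX hXZ hY hYZ hJ hS
  rcases lt_or_ge L 1 with hL1 | hL1
  · simp [(box_small y hL1).1, (box_small y hL1).2]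
  obtain ⟨A, hA, hA'⟩ := exists_nat_pow_near hZ one_lt_two
  have a0 := H0 Z A hZ hA
  have n0 := box_nrm2_nonneg y L
  rw [box_rp4 (by linarith : 0 ≤ Z)]
  obtain ⟨U, hU⟩ : ∃ U, U = Z ^ (ε / 4) := ⟨_, rfl⟩
  have u1 : 1 ≤ U := hU ▸ Real.one_le_rpow hZ he.le
  have uL : L ^ (ε / 4) ≤ U := hU ▸ box_rp he.le (by linarith) hL
  have uX : X1 ^ (ε / 4) ≤ U := hU ▸ box_rp he.le (by linarith) hXZ
  have uY : Y ^ (ε / 4) ≤ U := hU ▸ box_rp he.le (by linarith) hYZ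
  rw [← hU] at a0 ⊢
  rcases le_total (Y * (L + X1 ^ α + (X1 * L) ^ (2 / 3 : ℝ))) (L + (X1 * Y) ^ 2) with hm | hm
  · rw [min_eq_left hm]
    obtain ⟨W, hW⟩ : ∃ W, W = L + X1 ^ α + (X1 * L) ^ (2 / 3 : ℝ) := ⟨_, rfl⟩
    have w0 : 0 ≤ W := by rw [hW]; positivity
    have b1 : (X1 * L) ^ (ε / 4) ≤ U ^ 3 := by
      rw [Real.mul_rpow (by linarith) (by linarith)]
      calc _ ≤ U * U := mul_le_mul uX uL (by positivity) (by positivity)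
        _ = U * U * 1 := by ring
        _ ≤ U * U * U := by gcongr
        _ = _ := by ring
    refine (box_one hb hA' (by linarith) (by linarith) (M := C1 * U ^ 3 * W) (by positivity) hS
      fun x => (H1 X1 L x hX hL1).trans ?_).trans ?_
    · rw [← hW]
      have := box_nrm2_nonneg x L
      gcongr
    · rw [← hW]
      calc _ ≤ 31104 * (C0 * U) * J * Y * ((C1 + C2) * U ^ 3 * W) * nrm2 y L := by
            gcongr
            · norm_num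
            · linarith
        _ = _ := by ring
  · rw [min_eq_right hm]
    obtain ⟨f1, f2⟩ := box_Z_fam hb (X1 := X1) (Y := Y) (by linarith)
    have k1 : 1 ≤ X1 * Y := one_le_mul_of_one_le_of_one_le hX hY
    have b1 : (X1 * Y) ^ (ε / 4) ≤ U ^ 2 := by
      rw [Real.mul_rpow (by linarith) (by linarith), sq]
      exact mul_le_mul uX uY (by positivity) (by positivity)
    have b2 : L + (boxZ X1 Y).card * (X1 * Y) ^ (1 + ε / 4)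
        ≤ 1296 * U ^ 2 * (L + (X1 * Y) ^ 2) := by
      rw [Real.rpow_add (by linarith), Real.rpow_one]
      have c1 := box_card_Z (X1 := X1) (Y := Y) (by linarith) (by linarith)
      have c2 : ((boxZ X1 Y).card : ℝ) * (X1 * Y * (X1 * Y) ^ (ε / 4))
          ≤ 1296 * (X1 * Y) * (X1 * Y * U ^ 2) := by gcongr
      have c3 : 1 * L ≤ 1296 * U ^ 2 * L := by
        have := one_le_pow₀ (n := 2) u1
        gcongr
        linarith
      nlinarith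
    refine (box_two hb hA' (by linarith) (M := C2 * U * (1296 * U ^ 2 * (L + (X1 * Y) ^ 2)))
      (by positivity) hS fun a => (H2 _ _ L a k1 hL1 f1 f2).trans ?_).trans ?_
    · have : 0 ≤ nrmE a L := Finset.sum_nonneg fun _ _ => sq_nonneg _
      gcongr
    · calc _ ≤ 24 * (C0 * U) * J * ((C1 + C2) * U * (1296 * U ^ 2 * (L + (X1 * Y) ^ 2)))
            * nrm2 y L := by
            gcongr
            linarith
        _ = _ := by ring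

theorem box_le23 {a b : ℝ} (hb : 0 ≤ b) (h : a ^ 3 ≤ b ^ 2) : a ≤ b ^ (2 / 3 : ℝ) := by
  refine le_of_pow_le_pow_left₀ three_ne_zero (by positivity) (h.trans_eq ?_)
  rw [← Real.rpow_mul_natCast hb]
  norm_num

/-- The elementary inequality behind `NB`. -/
theorem box_ineq {α x y j L R Z1 : ℝ} (hα : 1 ≤ α) (hx : 1 ≤ x) (hy : 1 ≤ y) (hj : 1 ≤ j)
    (hL : 1 ≤ L) (hR : x * y ^ 2 * j ^ 3 ≤ R) (hZ0 : 0 < Z1) (hZ : Z1 ≤ 2 * x * (2 * y) ^ 2) :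
    2 * j * min (2 * y * (L + (2 * x) ^ α + (2 * x * L) ^ (2 / 3 : ℝ))) (L + (2 * x * (2 * y)) ^ 2)
      ≤ (4 * 2 ^ α + 40) *
        (R ^ (1 / 3 : ℝ) * L * Z1 ^ (-(1 / 3) : ℝ) + R ^ α + (R * L) ^ (2 / 3 : ℝ)) := by
  have r0 : 0 ≤ R := le_trans (by positivity) hR
  have r2 : (x * y ^ 2 * j ^ 3) ^ 2 ≤ R ^ 2 := by gcongr
  have j3 : j ^ 3 ≤ j ^ 6 := pow_le_pow_right₀ hj (by norm_num)
  have y3 : y ^ 3 ≤ y ^ 4 := pow_le_pow_right₀ hy (by norm_num)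
  have t1 : j * y * (2 * x) ^ α ≤ 2 ^ α * R ^ α := by
    have a1 : j * y ≤ (j * y) ^ α :=
      Real.self_le_rpow_of_one_le (one_le_mul_of_one_le_of_one_le hj hy) hα
    have a2 : j * y * x ≤ R := by
      refine le_trans ?_ hR
      have b1 : j ≤ j ^ 3 := le_self_pow₀ hj (by norm_num)
      have b2 : y ≤ y ^ 2 := le_self_pow₀ hy (by norm_num)
      calc j * y * x ≤ j ^ 3 * y ^ 2 * x := by gcongr
        _ = _ := by ring
    calc _ ≤ (j * y) ^ α * (2 * x) ^ α := by gcongr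
      _ = 2 ^ α * (j * y * x) ^ α := by
          rw [Real.mul_rpow (x := j * y) (by positivity) (by positivity),
            Real.mul_rpow (x := 2) (by positivity) (by positivity)]
          ring
      _ ≤ _ := by gcongr
  have t2 : j * y * (2 * x * L) ^ (2 / 3 : ℝ) / 2 ≤ (R * L) ^ (2 / 3 : ℝ) := by
    refine box_le23 (by positivity) ?_
    have a1 : ((2 * x * L) ^ (2 / 3 : ℝ)) ^ 3 = (2 * x * L) ^ 2 := by
      rw [← Real.rpow_mul_natCast (by positivity)]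
      norm_num
    rw [div_pow, mul_pow, a1]
    calc _ = (x ^ 2 * y ^ 3 * j ^ 3) * L ^ 2 / 2 := by ring
      _ ≤ (x ^ 2 * y ^ 4 * j ^ 6) * L ^ 2 / 1 := by
          gcongr
          norm_num
      _ = (x * y ^ 2 * j ^ 3) ^ 2 * L ^ 2 := by ring
      _ ≤ R ^ 2 * L ^ 2 := by gcongr
      _ = _ := by ring
  have t3 : j / 2 ≤ R ^ (1 / 3 : ℝ) * Z1 ^ (-(1 / 3) : ℝ) := by
    refine le_of_pow_le_pow_left₀ three_ne_zero (by positivity) ?_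
    rw [mul_pow, ← Real.rpow_mul_natCast r0, ← Real.rpow_mul_natCast hZ0.le]
    norm_num [Real.rpow_neg_one]
    rw [← div_eq_mul_inv, le_div_iff₀ hZ0]
    calc _ ≤ (j / 2) ^ 3 * (2 * x * (2 * y) ^ 2) := by gcongr
      _ = x * y ^ 2 * j ^ 3 := by ring
      _ ≤ R := hR
  obtain ⟨m, hm⟩ : ∃ m, m = min (y * L) (x ^ 2 * y ^ 2) := ⟨_, rfl⟩
  have m0 : 0 ≤ m := hm ▸ le_min (by positivity) (by positivity)
  have m1 : m ≤ y * L := hm ▸ min_le_left _ _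
  have m2 : m ≤ x ^ 2 * y ^ 2 := hm ▸ min_le_right _ _
  have t4 : j * m ≤ (R * L) ^ (2 / 3 : ℝ) := by
    refine box_le23 (by positivity) ?_
    calc _ = j ^ 3 * m ^ 2 * m := by ring
      _ ≤ j ^ 6 * (y * L) ^ 2 * (x ^ 2 * y ^ 2) := by gcongr
      _ = (x * y ^ 2 * j ^ 3) ^ 2 * L ^ 2 := by ring
      _ ≤ R ^ 2 * L ^ 2 := by gcongr
      _ = _ := by ring
  obtain ⟨p, hp⟩ : ∃ p, p = (2 * x) ^ α := ⟨_, rfl⟩
  obtain ⟨q, hq⟩ : ∃ q, q = (2 * x * L) ^ (2 / 3 : ℝ) := ⟨_, rfl⟩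
  have p0 : 0 ≤ y * p := by rw [hp]; positivity
  have q0 : 0 ≤ y * q := by rw [hq]; positivity
  rw [← hp] at t1 ⊢
  rw [← hq] at t2 ⊢
  have t5 : min (2 * y * (L + p + q)) (L + (2 * x * (2 * y)) ^ 2)
      ≤ 2 * (y * p) + 2 * (y * q) + L + 16 * m := by
    rcases le_total (y * L) (x ^ 2 * y ^ 2) with h | h
    · rw [min_eq_left h] at hm
      refine (min_le_left _ _).trans ?_
      nlinarith
    · rw [min_eq_right h] at hm
      refine (min_le_right _ _).trans ?_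
      nlinarith
  have t6 : j * L / 2 ≤ R ^ (1 / 3 : ℝ) * L * Z1 ^ (-(1 / 3) : ℝ) := by
    have := mul_le_mul_of_nonneg_right t3 (by linarith : 0 ≤ L)
    linarith
  obtain ⟨a, ha⟩ : ∃ a, a = R ^ (1 / 3 : ℝ) * L * Z1 ^ (-(1 / 3) : ℝ) := ⟨_, rfl⟩
  obtain ⟨b, hb⟩ : ∃ b, b = R ^ α := ⟨_, rfl⟩
  obtain ⟨c, hc⟩ : ∃ c, c = (R * L) ^ (2 / 3 : ℝ) := ⟨_, rfl⟩
  obtain ⟨d, hd⟩ : ∃ d, d = (2 : ℝ) ^ α := ⟨_, rfl⟩
  have a0 : 0 ≤ a := by rw [ha]; positivity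
  have b0 : 0 ≤ b := by rw [hb]; positivity
  have c0 : 0 ≤ c := by rw [hc]; positivity
  have d0 : 0 ≤ d := by rw [hd]; positivity
  rw [← ha] at t6 ⊢
  rw [← hb, ← hd] at t1 ⊢
  rw [← hc] at t2 t4 ⊢
  have t7 := mul_le_mul_of_nonneg_left t5 (by linarith : 0 ≤ 2 * j)
  have := mul_nonneg d0 a0
  have := mul_nonneg d0 c0
  linarith

theorem box_dy : ∃ g : ℝ → ℕ, ∀ x, 1 ≤ x → (2 : ℝ) ^ g x ≤ x ∧ x < 2 ^ (g x + 1) := by
  have h : ∀ x : ℝ, ∃ n : ℕ, 1 ≤ x → (2 : ℝ) ^ n ≤ x ∧ x < 2 ^ (n + 1) := by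
    intro x
    by_cases hx : 1 ≤ x
    · obtain ⟨n, hn⟩ := exists_nat_pow_near hx one_lt_two
      exact ⟨n, fun _ => hn⟩
    · exact ⟨0, fun h => absurd h hx⟩
  exact ⟨fun x => (h x).choose, fun x => (h x).choose_spec⟩

theorem box_parts (hb : BA) {ξ : E} (h0 : ξ ≠ 0) :
    Ns (cf1 ξ) * Ns (cf2 ξ) ^ 2 * Jc ξ ^ 3 ≤ nm ξ := by
  rw [hb.nm_eq ξ h0, mul_assoc ((3 : ℝ) ^ _)]
  have := box_Qc ξ
  have := box_Jc hb ξ
  exact le_mul_of_one_le_left (by positivity) (one_le_pow₀ (by norm_num))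

theorem box_three {a b c R : ℝ} (ha : 1 ≤ a) (hb : 1 ≤ b) (hc : 1 ≤ c)
    (h : a * b ^ 2 * c ^ 3 ≤ R) : a ≤ R ∧ b ≤ R ∧ c ≤ R := by
  have b1 : b ≤ b ^ 2 := le_self_pow₀ hb (by norm_num)
  have c1 : c ≤ c ^ 3 := le_self_pow₀ hc (by norm_num)
  refine ⟨le_trans ?_ h, le_trans ?_ h, le_trans ?_ h⟩
  · calc a = a * 1 * 1 := by ring
      _ ≤ _ := by gcongr <;> linarith
  · calc b = 1 * b * 1 := by ring
      _ ≤ _ := by gcongr; linarith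
  · calc c = 1 * 1 * c := by ring
      _ ≤ _ := by gcongr; linarith

theorem nB (hb : BA) (α : ℝ) (hα : 1 ≤ α) (h : Box α) : NB α := by
  intro ε hε
  have he : 0 < ε / 4 := by positivity
  obtain ⟨C0, hC0, H0⟩ := log_le_rpow he
  obtain ⟨C1, hC1, H1⟩ := h _ he
  refine ⟨C0 ^ 3 * (C1 * 2 ^ (ε / 4) * (4 * 2 ^ α + 40)), by positivity, ?_⟩
  intro y L R Z1 Z hZ hL hR hRZ hZ1
  rcases lt_or_ge L 1 with hL1 | hL1
  · simp [(box_small y hL1).1, (box_small y hL1).2]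
  obtain ⟨A, hA, hA'⟩ := exists_nat_pow_near hZ one_lt_two
  have a0 := H0 Z A hZ hA
  have n0 := box_nrm2_nonneg y L
  obtain ⟨g, hg⟩ := box_dy
  have gA : ∀ x, 1 ≤ x → x ≤ Z → g x < A + 1 := fun x h1 h2 =>
    (pow_lt_pow_iff_right₀ (by norm_num : (1 : ℝ) < 2)).1 (by linarith [(hg x h1).1])
  obtain ⟨W, hW⟩ : ∃ W, W = R ^ (1 / 3 : ℝ) * L * Z1 ^ (-(1 / 3) : ℝ) + R ^ α
    + (R * L) ^ (2 / 3 : ℝ) := ⟨_, rfl⟩
  have w0 : 0 ≤ W := by rw [hW]; positivity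
  rw [← hW, ← Finset.sum_fiberwise_of_maps_to
    (t := Finset.range (A + 1) ×ˢ Finset.range (A + 1) ×ˢ Finset.range (A + 1))
    (g := fun ξ => (g (Ns (cf1 ξ)), g (Ns (cf2 ξ)), g (Jc ξ)))]
  swap
  · intro ξ hξ
    obtain ⟨h0, h1⟩ := mem_ball.1 (Finset.mem_filter.1 hξ).1
    obtain ⟨b1, b2, b3⟩ := box_three (one_le_Ns _) (one_le_Ns _) (box_Jc hb ξ)
      ((box_parts hb h0).trans (h1.trans hRZ))
    simp only [Finset.mem_product, Finset.mem_range]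
    exact ⟨gA _ (one_le_Ns _) b1, gA _ (one_le_Ns _) b2, gA _ (box_Jc hb ξ) b3⟩
  refine (Finset.sum_le_card_nsmul _ _
    (C1 * (2 * Z) ^ (ε / 4) * ((4 * 2 ^ α + 40) * W) * nrm2 y L) ?_).trans ?_
  · rintro ⟨a, b, c⟩ -
    rcases Finset.eq_empty_or_nonempty (((ball R).filter fun ξ => Z1 ≤ Qc ξ).filter
      fun ξ => (g (Ns (cf1 ξ)), g (Ns (cf2 ξ)), g (Jc ξ)) = (a, b, c)) with he | ⟨ξ, hξ⟩
    · rw [he, Finset.sum_empty]
      positivity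
    have key : ∀ ξ ∈ ((ball R).filter fun ξ => Z1 ≤ Qc ξ).filter
        fun ξ => (g (Ns (cf1 ξ)), g (Ns (cf2 ξ)), g (Jc ξ)) = (a, b, c),
        ξ ≠ 0 ∧ (nm ξ : ℝ) ≤ R ∧ Z1 ≤ Qc ξ ∧ (2 ^ a ≤ Ns (cf1 ξ) ∧ Ns (cf1 ξ) < 2 * 2 ^ a) ∧
          (2 ^ b ≤ Ns (cf2 ξ) ∧ Ns (cf2 ξ) < 2 * 2 ^ b) ∧ 2 ^ c ≤ Jc ξ ∧ Jc ξ < 2 * 2 ^ c := by
      intro ξ hξ
      simp only [Finset.mem_filter, mem_ball, Prod.mk.injEq] at hξ
      obtain ⟨⟨⟨b1, b2⟩, b3⟩, rfl, rfl, rfl⟩ := hξ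
      simp only [← pow_succ']
      exact ⟨b1, b2, b3, hg _ (one_le_Ns _), hg _ (one_le_Ns _), hg _ (box_Jc hb ξ)⟩
    obtain ⟨b1, b2, b3, ⟨b4, b5⟩, ⟨b6, b7⟩, b8, b9⟩ := key ξ hξ
    have e1 : ∀ n : ℕ, (1 : ℝ) ≤ 2 ^ n := fun n => one_le_pow₀ (by norm_num)
    have c1 : (2 : ℝ) ^ a * (2 ^ b) ^ 2 * (2 ^ c) ^ 3 ≤ R := by
      refine le_trans ?_ ((box_parts hb b1).trans b2)
      have := Ns_pos (cf1 ξ)
      gcongr
    have c2 : Z1 ≤ 2 * 2 ^ a * (2 * 2 ^ b) ^ 2 := by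
      refine b3.trans ?_
      rw [Qc]
      have := Ns_pos (cf2 ξ)
      gcongr
    obtain ⟨c3, c4, -⟩ := box_three (e1 a) (e1 b) (e1 c) (c1.trans hRZ)
    refine (H1 y L (2 * 2 ^ a) (2 * 2 ^ b) (2 * 2 ^ c) (2 * Z) _ (by linarith) (by linarith)
      (by linarith [e1 a]) (by linarith) (by linarith [e1 b]) (by linarith) (by linarith [e1 c])
      fun ξ hξ => ?_).trans ?_
    · obtain ⟨b1, b2, -, ⟨-, b5⟩, ⟨-, b7⟩, -, b9⟩ := key ξ hξ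
      exact ⟨b1, by linarith, b5.le, b7.le, b9.le⟩
    · rw [mul_assoc (C1 * _), hW]
      have := box_ineq hα (e1 a) (e1 b) (e1 c) hL1 c1 (by linarith) c2
      gcongr
  · simp only [Finset.card_product, Finset.card_range, nsmul_eq_mul]
    push_cast
    rw [box_rp4 (ε := ε) (by linarith : 0 ≤ Z), Real.mul_rpow (by norm_num) (by linarith)]
    obtain ⟨U, hU⟩ : ∃ U, U = Z ^ (ε / 4) := ⟨_, rfl⟩
    have u0 : 0 ≤ U := by rw [hU]; positivity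
    rw [← hU] at a0 ⊢
    calc _ ≤ (C0 * U) * ((C0 * U) * (C0 * U)) *
          (C1 * (2 ^ (ε / 4) * U) * ((4 * 2 ^ α + 40) * W) * nrm2 y L) := by gcongr
      _ = _ := by ring

end Pat
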