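import Vale.Agent.P006.IfB
import Vale.Agent.P026.Cnt
import Vale.Agent.P026.Sym

/-! One box of cubic characters (P006). -/

noncomputable section
namespace Pat
open QRH Complex MeasureTheory Filter
open scoped ComplexConjugate Classical ContDiff Topology

theorem box_cover {ι κ : Type*} (S : Finset E) (A : Finset ι) (B : Finset κ) (m : ι → κ → E)
    (F : E → ℝ) (hF : ∀ x, 0 ≤ F x) (h : ∀ x ∈ S, ∃ a ∈ A, ∃ b ∈ B, x = m a b) {M : ℝ}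
    (hM : ∀ a ∈ A, ∑ b ∈ B, F (m a b) ≤ M) : ∑ x ∈ S, F x ≤ A.card * M := by
  have h1 : S ⊆ (A ×ˢ B).image fun x => m x.1 x.2 := by
    intro x hx
    obtain ⟨a, ha, b, hb, rfl⟩ := h x hx
    exact Finset.mem_image.2 ⟨(a, b), Finset.mem_product.2 ⟨ha, hb⟩, rfl⟩
  refine (Finset.sum_le_sum_of_subset_of_nonneg h1 fun x _ _ => hF x).trans ?_
  refine (Finset.sum_image_le_of_nonneg fun x _ => hF x).trans ?_
  rw [Finset.sum_product]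
  simpa only [nsmul_eq_mul] using Finset.sum_le_card_nsmul A _ M hM

theorem box_nrm2_nonneg (y : Finset P → ℂ) (L : ℝ) : 0 ≤ nrm2 y L :=
  Finset.sum_nonneg fun _ _ => sq_nonneg _

theorem box_Ds_mul (y : Finset P → ℂ) (L : ℝ) (w z : E) :
    Ds y L (w * z) = Ds (fun c => y c * xs c3 c w) L z := by
  simp only [Ds, xs_mul ch_c3, mul_assoc]

theorem box_nrm2_mul (y : Finset P → ℂ) (L : ℝ) (w : E) :
    nrm2 (fun c => y c * xs c3 c w) L ≤ nrm2 y L := by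
  refine Finset.sum_le_sum fun c _ => pow_le_pow_left₀ (norm_nonneg _) ?_ 2
  rw [norm_mul]
  exact mul_le_of_le_one_right (norm_nonneg _) (norm_xs_le ch_c3 c w)

theorem box_small (y : Finset P → ℂ) {L : ℝ} (hL : L < 1) :
    (∀ ξ, Ds y L ξ = 0) ∧ nrm2 y L = 0 := by
  simp [Ds, nrm2, sqf_eq_empty hL]

/-- The possible cube roots. -/
def boxJ (A : ℕ) (J : ℝ) : Finset E :=
  (({1, -1} : Finset E) ×ˢ Finset.range (A + 1) ×ˢ ball J).image fun x => x.1 * lam ^ x.2.1 * x.2.2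

theorem box_card_J (A : ℕ) {J : ℝ} (hJ : 0 ≤ J) : ((boxJ A J).card : ℝ) ≤ 24 * (A + 1) * J := by
  have h1 : (boxJ A J).card ≤ 2 * ((A + 1) * (ball J).card) := by
    refine Finset.card_image_le.trans ?_
    rw [Finset.card_product, Finset.card_product, Finset.card_range]
    exact Nat.mul_le_mul_right _ Finset.card_le_two
  have h2 : ((boxJ A J).card : ℝ) ≤ 2 * ((A + 1) * (ball J).card) := by exact_mod_cast h1
  have h3 := mul_le_mul_of_nonneg_left (card_ball_le hJ) (show (0 : ℝ) ≤ A + 1 by positivity)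
  linarith

theorem box_Qc (z : E) : 1 ≤ Qc z :=
  one_le_mul_of_one_le_of_one_le (one_le_Ns _) (one_le_pow₀ (one_le_Ns _))

theorem box_jc_ne (z : E) : jc z ≠ 0 :=
  Finset.prod_ne_zero_iff.2 fun p _ => pow_ne_zero _ p.2.1.ne_zero

theorem box_Jc (hb : BA) (z : E) : 1 ≤ Jc z := by
  rw [← hb.nm_jc]
  exact one_le_nmR (box_jc_ne z)

theorem box_dec (hb : BA) {ξ : E} {A : ℕ} {Z J : ℝ} (h0 : ξ ≠ 0) (h1 : (nm ξ : ℝ) ≤ Z)
    (hZ : Z < 2 ^ (A + 1)) (hJ : Jc ξ ≤ J) :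
    ∃ i < 3, ∃ k < 3, ∃ j ∈ boxJ A J, ξ = cf0 i k (cf1 ξ) (cf2 ξ) * j ^ 3 := by
  obtain ⟨i, hi, u, hu, h⟩ := hb.cube_dec ξ h0
  refine ⟨i, hi, _, Nat.mod_lt _ (by norm_num), _, ?_, h⟩
  refine Finset.mem_image.2 ⟨(u, vp lam ξ / 3, jc ξ), ?_, rfl⟩
  simp only [Finset.mem_product, Finset.mem_insert, Finset.mem_singleton, Finset.mem_range,
    mem_ball]
  refine ⟨hu, ?_, box_jc_ne ξ, by rwa [hb.nm_jc]⟩
  have a1 : (3 : ℝ) ^ vp lam ξ ≤ nm ξ := by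
    rw [hb.nm_eq ξ h0, mul_assoc]
    exact le_mul_of_one_le_right (by positivity)
      (one_le_mul_of_one_le_of_one_le (box_Qc ξ) (one_le_pow₀ (box_Jc hb ξ)))
  have a2 : (2 : ℝ) ^ vp lam ξ ≤ 3 ^ vp lam ξ := pow_le_pow_left₀ (by norm_num) (by norm_num) _
  have a3 : (2 : ℝ) ^ vp lam ξ < 2 ^ (A + 1) := by linarith
  have a4 := (pow_lt_pow_iff_right₀ (by norm_num : (1 : ℝ) < 2)).1 a3
  omega

/-- The first bound. -/
theorem box_one (hb : BA) {y : Finset P → ℂ} {L X1 Y J Z M : ℝ} {S : Finset E} {A : ℕ}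
    (hZ : Z < 2 ^ (A + 1)) (hY : 0 ≤ Y) (hJ : 0 ≤ J) (hM : 0 ≤ M)
    (hS : ∀ ξ ∈ S, ξ ≠ 0 ∧ (nm ξ : ℝ) ≤ Z ∧ Ns (cf1 ξ) ≤ X1 ∧ Ns (cf2 ξ) ≤ Y ∧ Jc ξ ≤ J)
    (h : ∀ x : Finset P → ℂ, ∑ m ∈ sqf X1, ‖Ds x L (pr m)‖ ^ 2 ≤ M * nrm2 x L) :
    ∑ ξ ∈ S, ‖Ds y L ξ‖ ^ 2 ≤ 2592 * (A + 1) * J * Y * M * nrm2 y L := by
  have key := box_cover S (Finset.range 3 ×ˢ Finset.range 3 ×ˢ boxJ A J ×ˢ sqf Y) (sqf X1)
    (fun a s => (om ^ a.1 * lam ^ a.2.1 * pr a.2.2.2 ^ 2 * a.2.2.1 ^ 3) * pr s)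
    (fun ξ => ‖Ds y L ξ‖ ^ 2) (fun _ => sq_nonneg _) ?_ (M := M * nrm2 y L) ?_
  · refine key.trans ?_
    have n0 := box_nrm2_nonneg y L
    have c1 : ((Finset.range 3 ×ˢ Finset.range 3 ×ˢ boxJ A J ×ˢ sqf Y).card : ℝ)
        ≤ 2592 * (A + 1) * J * Y := by
      simp only [Finset.card_product, Finset.card_range]
      push_cast
      have := mul_le_mul (box_card_J A hJ) (card_sqf_le hY) (Nat.cast_nonneg _) (by positivity)
      linarith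
    calc _ ≤ (2592 * (A + 1) * J * Y) * (M * nrm2 y L) :=
          mul_le_mul_of_nonneg_right c1 (by positivity)
      _ = _ := by ring
  · intro ξ hξ
    obtain ⟨h0, h1, h2, h3, h4⟩ := hS ξ hξ
    obtain ⟨i, hi, k, hk, j, hj, e⟩ := box_dec hb h0 h1 hZ h4
    refine ⟨(i, k, j, cf2 ξ), ?_, cf1 ξ, mem_sqf.2 h2, ?_⟩
    · simp only [Finset.mem_product, Finset.mem_range, mem_sqf]
      exact ⟨hi, hk, hj, h3⟩
    · refine e.trans ?_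
      simp only [cf0]
      ring
  · intro a _
    simp only [box_Ds_mul y L _ (pr _)]
    exact (h _).trans (mul_le_mul_of_nonneg_left (box_nrm2_mul y L _) hM)

/-- The cube-free representatives. -/
def boxZ (X1 Y : ℝ) : Finset E :=
  (Finset.range 3 ×ˢ Finset.range 3 ×ˢ (sqf X1 ×ˢ sqf Y).filter fun x => Disjoint x.1 x.2).image
    fun x => cf0 x.1 x.2.1 x.2.2.1 x.2.2.2

theorem box_mem_Z {X1 Y : ℝ} {z : E} : z ∈ boxZ X1 Y ↔ ∃ i < 3, ∃ k < 3, ∃ s t, Ns s ≤ X1 ∧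
    Ns t ≤ Y ∧ Disjoint s t ∧ z = cf0 i k s t := by
  simp only [boxZ, Finset.mem_image, Finset.mem_product, Finset.mem_range, Finset.mem_filter,
    mem_sqf]
  constructor
  · rintro ⟨x, ⟨a1, a2, ⟨a3, a4⟩, a5⟩, rfl⟩
    exact ⟨_, a1, _, a2, _, _, a3, a4, a5, rfl⟩
  · rintro ⟨i, a1, k, a2, s, t, a3, a4, a5, rfl⟩
    exact ⟨(i, k, s, t), ⟨a1, a2, ⟨a3, a4⟩, a5⟩, rfl⟩

theorem box_card_Z {X1 Y : ℝ} (hX : 0 ≤ X1) (hY : 0 ≤ Y) :
    ((boxZ X1 Y).card : ℝ) ≤ 1296 * (X1 * Y) := by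
  have h1 : (boxZ X1 Y).card ≤ 3 * (3 * ((sqf X1).card * (sqf Y).card)) := by
    refine Finset.card_image_le.trans ?_
    rw [Finset.card_product, Finset.card_product, Finset.card_range, ← Finset.card_product]
    exact Nat.mul_le_mul_left _ (Nat.mul_le_mul_left _ (Finset.card_filter_le _ _))
  have h2 : ((boxZ X1 Y).card : ℝ) ≤ 3 * (3 * ((sqf X1).card * (sqf Y).card)) := by
    exact_mod_cast h1
  have := mul_le_mul (card_sqf_le hX) (card_sqf_le hY) (Nat.cast_nonneg _) (by positivity)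
  linarith

theorem box_Z_fam (hb : BA) {X1 Y : ℝ} (hX : 0 ≤ X1) :
    (∀ z ∈ boxZ X1 Y, z ≠ 0 ∧ Ns (fac z) ≤ X1 * Y) ∧
      ∀ z ∈ boxZ X1 Y, ∀ z' ∈ boxZ X1 Y, z ≠ z' → ¬ IsCube (z * z' ^ 2) := by
  constructor
  · intro z hz
    obtain ⟨i, -, k, -, s, t, a3, a4, -, rfl⟩ := box_mem_Z.1 hz
    refine ⟨fun h0 => ?_, ?_⟩
    · have a := hb.nm_cf0 i k s t
      rw [h0, nm_zero, Nat.cast_zero] at a
      have := Ns_pos s
      have := Ns_pos t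
      exact absurd a (by positivity)
    · rw [hb.fac_cf0]
      exact (Ns_union_le s t).trans (mul_le_mul a3 a4 (Ns_pos t).le hX)
  · intro z hz z' hz' hne hc
    obtain ⟨i, a1, k, a2, s, t, -, -, a5, rfl⟩ := box_mem_Z.1 hz
    obtain ⟨i', b1, k', b2, s', t', -, -, b5, rfl⟩ := box_mem_Z.1 hz'
    obtain ⟨rfl, rfl, rfl, rfl⟩ := hb.cube_ratio i k s t i' k' s' t' a1 a2 b1 b2 a5 b5 hc
    exact hne rfl

/-- The second bound. -/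
theorem box_two (hb : BA) {y : Finset P → ℂ} {L X1 Y J Z M : ℝ} {S : Finset E} {A : ℕ}
    (hZ : Z < 2 ^ (A + 1)) (hJ : 0 ≤ J) (hM : 0 ≤ M)
    (hS : ∀ ξ ∈ S, ξ ≠ 0 ∧ (nm ξ : ℝ) ≤ Z ∧ Ns (cf1 ξ) ≤ X1 ∧ Ns (cf2 ξ) ≤ Y ∧ Jc ξ ≤ J)
    (h : ∀ a : E → ℂ, ∑ z ∈ boxZ X1 Y, ‖Dn a L z‖ ^ 2 ≤ M * nrmE a L) :
    ∑ ξ ∈ S, ‖Ds y L ξ‖ ^ 2 ≤ 24 * (A + 1) * J * M * nrm2 y L := by
  have key := box_cover S (boxJ A J) (boxZ X1 Y) (fun j z => j ^ 3 * z)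
    (fun ξ => ‖Ds y L ξ‖ ^ 2) (fun _ => sq_nonneg _) ?_ (M := M * nrm2 y L) ?_
  · refine key.trans ?_
    have n0 := box_nrm2_nonneg y L
    calc _ ≤ (24 * (A + 1) * J) * (M * nrm2 y L) :=
          mul_le_mul_of_nonneg_right (box_card_J A hJ) (by positivity)
      _ = _ := by ring
  · intro ξ hξ
    obtain ⟨h0, h1, h2, h3, h4⟩ := hS ξ hξ
    obtain ⟨i, hi, k, hk, j, hj, e⟩ := box_dec hb h0 h1 hZ h4
    exact ⟨j, hj, _, box_mem_Z.2 ⟨i, hi, k, hk, _, _, h2, h3, hb.cf_disj ξ, rfl⟩,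
      e.trans (mul_comm _ _)⟩
  · intro j _
    simp only [box_Ds_mul y L (j ^ 3), ← hb.ex_Dn]
    refine (h _).trans (mul_le_mul_of_nonneg_left ?_ hM)
    rw [hb.ex_nrm]
    exact box_nrm2_mul y L _

end Pat
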