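import Vale.Agent.P006.BridgeAux

noncomputable section
namespace Pat
open QRH Complex MeasureTheory Filter Asymptotics
open scoped ComplexConjugate Classical ContDiff Topology

theorem br_sqrt : (fun X : ℝ => √X) =o[atTop] fun X : ℝ => X ^ (5 / 6 : ℝ) / Real.log X := by
  have h := isLittleO_log_rpow_atTop (r := 1 / 3) (by norm_num)
  rw [isLittleO_iff] at h ⊢
  intro c hc
  filter_upwards [h hc, eventually_gt_atTop 1] with X h1 hX
  have h0 : 0 < X := by linarith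
  have hl := Real.log_pos hX
  rw [Real.norm_of_nonneg hl.le, Real.norm_of_nonneg (by positivity)] at h1
  rw [Real.norm_of_nonneg (Real.sqrt_nonneg X), Real.norm_of_nonneg (by positivity),
    ← mul_div_assoc, le_div_iff₀ hl, Real.sqrt_eq_rpow,
    show (5 / 6 : ℝ) = 1 / 2 + 1 / 3 by norm_num, Real.rpow_add h0]
  have h2 : 0 < X ^ (1 / 2 : ℝ) := by positivity
  nlinarith

theorem br_kap : 0 < kap := by
  have := Real.Gamma_pos_of_pos (s := 2 / 3) (by norm_num)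
  have := Real.pi_pos
  unfold kap
  positivity

theorem br_eq (hb : BA) (hr : RatF) (X : ℝ) :
    (∑ p ∈ Finset.Icc 1 ⌊X⌋₊ with p.Prime ∧ p % 3 = 1,
      (∑ x ∈ Finset.range p, Complex.exp (2 * Real.pi * I * ((x : ℂ) ^ 3 / p)))
        / (2 * (√(p : ℝ) : ℝ)))
      = (1 / 2) * conj (∑ p ∈ prs X, dl {p})
        + ((kap / 2 * ∑ p ∈ prs X, (nm p.1 : ℝ) ^ (-(1 / 6) : ℝ) : ℝ) : ℂ)
        - (1 / 2) * ∑ p ∈ prs X with ¬ (nm p.1).Prime, gn {p} := by
  have h1 := br_split hb X fun p => gn {p}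
  have h2 : ∑ p ∈ prs X, gn {p} = conj (∑ p ∈ prs X, dl {p})
      + ((kap * ∑ p ∈ prs X, (nm p.1 : ℝ) ^ (-(1 / 6) : ℝ) : ℝ) : ℂ) := by
    rw [map_sum, Finset.mul_sum, ofReal_sum, ← Finset.sum_add_distrib]
    refine Finset.sum_congr rfl fun p _ => ?_
    rw [dl, map_sub, tt, conj_conj, t0, conj_ofReal, Ns, pr_singleton, sub_add_cancel]
  have h3 : (∑ p ∈ Finset.Icc 1 ⌊X⌋₊ with p.Prime ∧ p % 3 = 1,
      (∑ x ∈ Finset.range p, Complex.exp (2 * Real.pi * I * ((x : ℂ) ^ 3 / p)))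
        / (2 * (√(p : ℝ) : ℝ))) = (1 / 2) * ∑ l ∈ Finset.Icc 1 ⌊X⌋₊ with l.Prime ∧ l % 3 = 1,
      (gn {brSp l} + gn {(brSp l).bar}) := by
    rw [Finset.mul_sum]
    refine Finset.sum_congr rfl fun l hl => ?_
    obtain ⟨-, hl2, hl3⟩ := Finset.mem_filter.1 hl
    have e := br_sp hl2 hl3
    have h4 := br_kummer hr (p := brSp l) (e.symm ▸ hl2)
    rw [e] at h4
    have h5 : ((√(l : ℝ) : ℝ) : ℂ) ≠ 0 :=
      ofReal_ne_zero.2 (Real.sqrt_pos.2 (by exact_mod_cast hl2.pos)).ne'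
    rw [h4]
    field_simp
  rw [h3]
  push_cast at h2 ⊢
  linear_combination (1 / 2) * h2 - (1 / 2) * h1

theorem bridge (hb : BA) (hr : RatF) (h1 : FinD) (h2 : PNTK) : Final := by
  have hk := br_kap
  set g : ℝ → ℝ := fun X => X ^ (5 / 6 : ℝ) / Real.log X with hg
  have a1 : (fun X : ℝ => (1 / 2) * conj (∑ p ∈ prs X, dl {p})) =o[atTop] g := by
    refine IsLittleO.const_mul_left ?_ _
    rw [← isLittleO_norm_left]
    simp only [Complex.norm_conj]
    exact isLittleO_norm_left.2 h1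
  have a2 : (fun X : ℝ => ((kap / 2 * (∑ p ∈ prs X, (nm p.1 : ℝ) ^ (-(1 / 6) : ℝ)
      - 6 / 5 * X ^ (5 / 6 : ℝ) / Real.log X) : ℝ) : ℂ)) =o[atTop] g := by
    rw [isLittleO_ofReal_left]
    refine IsLittleO.const_mul_left ?_ _
    refine IsLittleO.trans_isBigO h2 ?_
    simp only [mul_div_assoc]
    exact isBigO_const_mul_self _ _ _
  have a3 : (fun X : ℝ => (1 / 2) * ∑ p ∈ prs X with ¬ (nm p.1).Prime, gn {p}) =o[atTop] g := by
    refine IsLittleO.const_mul_left (IsBigO.trans_isLittleO ?_ br_sqrt) _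
    refine IsBigO.of_bound 1 (Eventually.of_forall fun X => ?_)
    rw [one_mul, Real.norm_of_nonneg (Real.sqrt_nonneg X)]
    refine (norm_sum_le _ _).trans ?_
    simp only [hb.norm_gn, Finset.sum_const, nsmul_eq_mul, mul_one]
    exact br_inert hb X
  have hc : (2 * Real.pi) ^ (2 / 3 : ℝ) / (5 * Real.Gamma (2 / 3)) = 3 / 5 * kap := by
    have := Real.Gamma_pos_of_pos (s := 2 / 3) (by norm_num)
    unfold kap
    field_simp
  unfold Final IsEquivalent
  rw [isLittleO_ofReal_right, hc]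
  refine IsLittleO.const_mul_right (by positivity) (((a1.add a2).sub a3).congr_left fun X => ?_)
  rw [Pi.sub_apply, br_eq hb hr]
  push_cast
  ring

end Pat
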