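import Vale.Agent.P006.IfA
import Vale.Agent.P026.Recip

noncomputable section
namespace Pat
open QRH Complex MeasureTheory Filter
open scoped ComplexConjugate Classical ContDiff Topology

theorem ratA_bar_bar (p : P) : p.bar.bar = p := Subtype.ext (star_star p.1)

theorem ratA_bar_inj : Function.Injective P.bar :=
  Function.LeftInverse.injective ratA_bar_bar

theorem ratA_self {s : Finset P} : SelfC s ↔ ∀ p ∈ s, p.bar ∈ s :=
  ⟨fun h p hp => by
    obtain ⟨q, hq, e⟩ := h p hp
    have : p.bar = q := Subtype.ext e.symm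
    rwa [this], fun h p hp => ⟨p.bar, h p hp, rfl⟩⟩

theorem ratA_prim {s : Finset P} : Prim s ↔ ∀ p ∈ s, p.bar ∉ s :=
  ⟨fun h p hp hq => h p hp _ hq rfl, fun h p hp q hq e => h p hp (by
    have : p.bar = q := Subtype.ext e.symm
    rwa [this])⟩

/-- The conjugate set. -/
def ratA_cs (s : Finset P) : Finset P := s.image P.bar

theorem ratA_mem {s : Finset P} {p : P} : p ∈ ratA_cs s ↔ p.bar ∈ s := by
  unfold ratA_cs
  rw [Finset.mem_image]
  exact ⟨fun ⟨q, hq, e⟩ => by rw [← e, ratA_bar_bar]; exact hq,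
    fun h => ⟨p.bar, h, ratA_bar_bar p⟩⟩

theorem ratA_cs_self {s : Finset P} (h : SelfC s) : ratA_cs s = s := by
  ext p
  rw [ratA_mem]
  exact ⟨fun hp => ratA_bar_bar p ▸ ratA_self.1 h _ hp, ratA_self.1 h p⟩

theorem ratA_pr_cs (s : Finset P) : pr (ratA_cs s) = star (pr s) := by
  unfold ratA_cs pr
  rw [Finset.prod_image fun a _ b _ h => ratA_bar_inj h, star_prod]
  rfl

theorem ratA_xs_cs (s : Finset P) (x : E) :
    xs c3 (ratA_cs s) (star x) = conj (xs c3 s x) := by
  unfold ratA_cs xs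
  rw [Finset.prod_image fun a _ b _ h => ratA_bar_inj h, map_prod]
  exact Finset.prod_congr rfl fun p _ => c3_star p x

theorem ratA_real {s : Finset P} {x : E} (hx : ∀ p ∈ s, ¬ p.1 ∣ x)
    (h : conj (xs c3 s x) = xs c3 s x) : xs c3 s x = 1 := by
  have h1 : conj (xs c3 s x) = xs c3 s x ^ 2 := by
    unfold xs
    rw [map_prod, ← Finset.prod_pow]
    exact Finset.prod_congr rfl fun p _ => conj_c3 p x
  have h2 : xs c3 s x ≠ 0 := by
    rw [← norm_ne_zero_iff, norm_xs ch_c3 hx]
    exact one_ne_zero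
  rw [h, sq] at h1
  exact (mul_left_cancel₀ h2 (h1.symm.trans (mul_one _).symm))

theorem ratA_xs_one {s : Finset P} (h : SelfC s) {x : E} (hx : star x = x)
    (hs : ∀ p ∈ s, ¬ p.1 ∣ x) : xs c3 s x = 1 := by
  refine ratA_real hs ?_
  rw [← ratA_xs_cs, ratA_cs_self h, hx]

theorem ratA_disj {s : Finset P} (h : Prim s) : Disjoint s (ratA_cs s) :=
  Finset.disjoint_left.2 fun p hp hq => ratA_prim.1 h p hp (ratA_mem.1 hq)

theorem ratA_cop {s : Finset P} (h : Prim s) : IsCoprime (pr s) (star (pr s)) := by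
  rw [← ratA_pr_cs]
  exact coprime_pr.2 (ratA_disj h)

theorem ratA_xs_star (hb : BA) {s : Finset P} (h : Prim s) : xs c3 s (star (pr s)) = 1 := by
  refine ratA_real (coprime_pr_iff.1 (ratA_cop h).symm) ?_
  rw [← ratA_xs_cs, star_star, hb.recip2, ratA_pr_cs]

theorem ratA_psf_star (A B : E) : psf (star A) (star B) = conj (psf A B) := by
  unfold psf
  rw [toC_star, toC_star, ← map_div₀, ← psi_neg]
  unfold psi
  rw [conj_im, neg_im]

theorem ratA_star_lam : star lam = -lam := by
  ext <;> simp [lam]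

theorem ratA_xs_neg (s : Finset P) (x : E) : xs c3 s (-x) = xs c3 s x :=
  Finset.prod_congr rfl fun p _ => c3_neg p x

theorem ratA_per (s : Finset P) : Per (pr s) fun y => xs c3 s y * psf (lam * y) (pr s) :=
  (xs_per ch_c3 s).mul fun x y h => psf_congr (by rw [← mul_sub]; exact h.mul_left _)

theorem ratA_gn_cs (s : Finset P) : gn (ratA_cs s) = conj (gn s) := by
  have hN : Ns (ratA_cs s) = Ns s := by
    unfold Ns
    rw [ratA_pr_cs, nm_star]
  have h0 := pr_ne_zero s
  unfold gn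
  rw [map_div₀, conj_ofReal, hN, conj_rsum,
    rsum_eq_sum (pr_ne_zero _) (ratA_per _) (reps (pr s)) (fun y => -star y)]
  · congr 1
    refine Finset.sum_congr rfl fun y _ => ?_
    have e : lam * -star y = star (lam * y) := by
      rw [star_mul', ratA_star_lam]
      ring
    rw [ratA_xs_neg, ratA_xs_cs, e, ratA_pr_cs, ratA_psf_star, ← map_mul]
  · intro i hi j hj h
    have h1 := sy_star_dvd h
    rw [ratA_pr_cs, star_star, star_sub, star_neg, star_neg, star_star, star_star,
      neg_sub_neg] at h1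
    exact (rep_unique h0 hj hi h1).symm
  · intro x
    obtain ⟨r, hr, h⟩ := exists_rep h0 (-star x)
    refine ⟨r, hr, ?_⟩
    have h1 := sy_star_dvd h
    rw [star_sub, star_neg, star_star] at h1
    rw [ratA_pr_cs, ← dvd_neg]
    have e : -(x - -star r) = -x - star r := by ring
    rwa [e]

theorem ratA_gn_eq (s : Finset P) (m : E) :
    rsum (pr s) (fun y => xs c3 s y * psf (y * (lam * m)) (pr s))
      = conj (xs c3 s m) * gn s * (√(Ns s) : ℝ) := by
  have h0 : ((√(Ns s) : ℝ) : ℂ) ≠ 0 := ofReal_ne_zero.2 (Real.sqrt_pos.2 (Ns_pos s)).ne'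
  have h1 := gs_twist ch_c3 (s := s) (fun p _ => c3_nt p) lam
  unfold gn
  simp only [mul_comm lam]
  rw [h1, gs_twist ch_c3 fun p _ => c3_nt p, xs_mul ch_c3, map_mul, mul_assoc (conj _) (_ / _),
    div_mul_cancel₀ _ h0, mul_assoc]

theorem ratA_inert {p : P} {l : ℕ} (hl : l.Prime) (h : p.1 = -(l : E)) : tt {p} = 1 := by
  have hb : p.bar = p := Subtype.ext (by
    change star p.1 = p.1
    rw [h, star_neg, star_natCast])
  have hs : SelfC {p} := ratA_self.2 fun q hq => by
    rw [Finset.mem_singleton] at hq ⊢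
    rw [hq, hb]
  have h1 : conj (gn {p}) = gn {p} := by rw [← ratA_gn_cs, ratA_cs_self hs]
  have hN : √(Ns {p}) = l := by
    unfold Ns
    rw [pr_singleton, h, nm_neg, nm_natCast]
    push_cast
    exact Real.sqrt_sq (Nat.cast_nonneg l)
  have hl0 : (l : ℂ) ≠ 0 := Nat.cast_ne_zero.2 hl.ne_zero
  have h2 := ratA_gn_eq {p} 1
  rw [gs_twist ch_c3 fun q _ => c3_nt q, xs_one ch_c3, map_one, one_mul, mul_one, hN,
    ga_xs_singleton] at h2
  have h3 : gn {p} ^ 3 = 1 := by
    have h4 := congrArg (· ^ 3) h2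
    simp only [mul_pow] at h4
    rw [← map_pow, c3_cube p.not_dvd_lam, map_one, one_mul, g3Cube p, h, map_neg, map_natCast,
      map_neg, map_natCast, ofReal_natCast] at h4
    apply mul_right_cancel₀ (pow_ne_zero 3 hl0)
    rw [← h4]
    ring
  obtain ⟨r, hr⟩ := conj_eq_iff_real.1 h1
  unfold tt
  rw [h1, hr]
  rw [hr] at h3
  have h5 : r ^ 3 = 1 := by exact_mod_cast h3
  have h6 : r = 1 := (Odd.pow_injective (R := ℝ) (n := 3) (by decide)) (by simpa using h5)
  rw [h6, ofReal_one]

theorem ratA_pair (hb : BA) (p : P) : tt {p, p.bar} = 1 := by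
  rcases p.nm_cases with ⟨-, h⟩ | ⟨l, hl, -, h⟩
  · have hd : Disjoint ({p} : Finset P) {p.bar} := Finset.disjoint_singleton.2 h.symm
    have e : ratA_cs {p} = {p.bar} := Finset.image_singleton _ _
    have hp : Prim {p.bar} := ratA_prim.2 fun q hq => by
      rw [Finset.mem_singleton] at hq ⊢
      rw [hq, ratA_bar_bar]
      exact h.symm
    have h1 := ratA_xs_star hb hp
    rw [← e, ratA_pr_cs, star_star, e] at h1
    have h2 : tt {p.bar} = gn {p} := by
      unfold tt
      rw [← e, ratA_gn_cs, conj_conj]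
    rw [Finset.insert_eq, hb.tt_union _ _ hd, h1, h2, hb.tt_gn, mul_one]
  · have hb : p.bar = p := Subtype.ext (by
      change star p.1 = p.1
      rw [h, star_neg, star_natCast])
    rw [hb, Finset.pair_eq_singleton]
    exact ratA_inert hl h

theorem ratA_tt (hb : BA) (s : Finset P) : SelfC s → tt s = 1 := by
  induction s using Finset.strongInduction with
  | H s ih =>
    intro hs
    rcases s.eq_empty_or_nonempty with rfl | ⟨p, hp⟩
    · have h := ratA_gn_eq ∅ 0
      rw [ga_empty, xs_empty, Ns_empty, Real.sqrt_one, map_one, ofReal_one, one_mul,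
        mul_one] at h
      unfold tt
      rw [← h, map_one]
    have hu : SelfC {p, p.bar} := ratA_self.2 fun q hq => by
      rw [Finset.mem_insert, Finset.mem_singleton] at hq ⊢
      rcases hq with rfl | rfl
      · exact Or.inr rfl
      · exact Or.inl (ratA_bar_bar p)
    have hsub : {p, p.bar} ⊆ s := by
      intro q hq
      rw [Finset.mem_insert, Finset.mem_singleton] at hq
      rcases hq with rfl | rfl
      · exact hp
      · exact ratA_self.1 hs p hp
    have ht : SelfC (s \ {p, p.bar}) := ratA_self.2 fun q hq => by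
      rw [Finset.mem_sdiff] at hq ⊢
      exact ⟨ratA_self.1 hs q hq.1, fun h => hq.2 (ratA_bar_bar q ▸ ratA_self.1 hu _ h)⟩
    have h1 := ih _ (Finset.sdiff_ssubset hsub ⟨p, Finset.mem_insert_self _ _⟩) ht
    have h2 : xs c3 (s \ {p, p.bar}) (pr {p, p.bar}) = 1 :=
      ratA_xs_one ht (by rw [← ratA_pr_cs, ratA_cs_self hu])
        fun q hq h => (Finset.mem_sdiff.1 hq).2 (dvd_pr_iff.1 h)
    rw [← Finset.union_sdiff_of_subset hsub, hb.tt_union _ _ Finset.disjoint_sdiff, h1, h2,
      ratA_pair hb, mul_one, mul_one]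

theorem ratA_int {s : Finset P} (h : SelfC s) : pr s = (((pr s).re : ℤ) : E) := by
  have h1 : star (pr s) = pr s := by rw [← ratA_pr_cs, ratA_cs_self h]
  have h2 := congrArg QuadraticAlgebra.im h1
  rw [QuadraticAlgebra.im_star] at h2
  ext
  · simp
  · simp only [QuadraticAlgebra.im_intCast]
    omega

theorem ratA_ell {s : Finset P} (h : SelfC s) : ell s = (pr s).re.natAbs ∧
    nm (pr s) = (pr s).re.natAbs ^ 2 := by
  have h1 : nm (pr s) = (pr s).re.natAbs ^ 2 := by
    have h2 := congrArg QuadraticAlgebra.im (ratA_int h)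
    rw [QuadraticAlgebra.im_intCast] at h2
    have h3 := nm_int (pr s)
    rw [h2] at h3
    zify
    rw [h3, sq_abs]
    simp
  exact ⟨by unfold ell; rw [h1, Nat.sqrt_eq'], h1⟩

theorem ratA_pr_self {s : Finset P} (h : SelfC s) :
    pr s = (ell s : E) ∨ pr s = -(ell s : E) := by
  rw [(ratA_ell h).1]
  have h1 := ratA_int h
  generalize (pr s).re = k at h1 ⊢
  rcases Int.natAbs_eq k with h2 | h2
  · left
    rw [h1]
    conv_lhs => rw [h2]
    rw [Int.cast_natCast]
  · right
    rw [h1]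
    conv_lhs => rw [h2]
    rw [Int.cast_neg, Int.cast_natCast]

theorem ratA_assoc {s : Finset P} (h : SelfC s) : Associated (pr s) (ell s : E) := by
  rcases ratA_pr_self h with h1 | h1
  · rw [← h1]
  · rw [h1]
    exact (Associated.refl _).neg_left

theorem ratA_sqf {s : Finset P} (h : SelfC s) : Squarefree (ell s) := by
  rw [Nat.squarefree_iff_prime_squarefree]
  intro l hl hd
  have h1 : (l : E) * l ∣ pr s := by
    refine dvd_trans ?_ (ratA_assoc h).symm.dvd
    exact_mod_cast Nat.cast_dvd_cast (α := E) hd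
  have key : ∀ p : P, ¬ p.1 ∣ (l : E) := fun p hp => by
    have h2 : p.1 ^ 2 ∣ pr s := by
      rw [sq]
      exact (mul_dvd_mul hp hp).trans h1
    rw [pow_dvd_iff p.2.1 (pr_ne_zero s), vp_pr] at h2
    split_ifs at h2 <;> omega
  have h3 : l % 3 = 0 ∨ l % 3 = 1 ∨ l % 3 = 2 := by omega
  rcases h3 with h3 | h3 | h3
  · refine not_lam_dvd_of_primary (pr_primary s) (dvd_trans ?_ ((dvd_mul_right _ _).trans h1))
    refine lam_dvd_three.trans ?_
    exact_mod_cast Nat.cast_dvd_cast (α := E) (Nat.dvd_of_mod_eq_zero h3)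
  · obtain ⟨p, hp⟩ := exists_P_split hl h3
    exact key p ⟨star p.1, by rw [mul_star_eq, hp]⟩
  · obtain ⟨p, hp⟩ := exists_P_inert hl h3
    exact key p (by rw [hp]; exact neg_dvd.2 dvd_rfl)

theorem ratA_xs_self {s : Finset P} (k : ℤ) (h : SelfC s) :
    xs c3 s (k : E) = if Int.gcd k (ell s) = 1 then 1 else 0 := by
  split_ifs with hg
  · refine ratA_xs_one h (star_intCast k) (coprime_pr_iff.1 ?_)
    have h1 := (Int.isCoprime_iff_gcd_eq_one.2 hg).map (Int.castRingHom E)
    rw [eq_intCast, eq_intCast, Int.cast_natCast] at h1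
    exact h1.of_isCoprime_of_dvd_right (ratA_assoc h).dvd
  · rw [xs_eq_zero_iff ch_c3]
    by_contra hn
    push Not at hn
    have h1 := coprime_pr_iff.2 hn
    have h2 : ((Int.gcd k (ell s) : ℕ) : E) ∣ (k : E) := by
      have := Int.cast_dvd_cast (α := E) _ _ (Int.gcd_dvd_left k (ell s))
      rwa [Int.cast_natCast] at this
    have h3 : ((Int.gcd k (ell s) : ℕ) : E) ∣ pr s := by
      refine dvd_trans ?_ (ratA_assoc h).symm.dvd
      have := Int.cast_dvd_cast (α := E) _ _ (Int.gcd_dvd_right k (ell s))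
      rwa [Int.cast_natCast, Int.cast_natCast] at this
    have h4 := isUnit_iff.1 (h1.isUnit_of_dvd' h2 h3)
    rw [nm_natCast] at h4
    exact hg ((Nat.pow_eq_one.1 h4).resolve_right two_ne_zero)

theorem ratA_per_int (s : Finset P) (x y : ℤ) (h : (nm (pr s) : ℤ) ∣ x - y) :
    xs c3 s (x : E) = xs c3 s (y : E) := by
  refine xs_per ch_c3 s _ _ (dvd_trans ⟨star (pr s), (mul_star_eq _).symm⟩ ?_)
  have := Int.cast_dvd_cast (α := E) _ _ h
  rwa [Int.cast_natCast, Int.cast_sub] at this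

theorem ratA_dvd {s : Finset P} (h : Prim s) {n : ℤ} (hn : pr s ∣ (n : E)) :
    (nm (pr s) : ℤ) ∣ n := by
  have h1 := sy_star_dvd hn
  rw [star_intCast] at h1
  have h2 := (ratA_cop h).mul_dvd hn h1
  rw [mul_star_eq, natCast_dvd_iff] at h2
  simpa using h2.1

theorem ratA_inj {s : Finset P} (h : Prim s) : ∀ i ∈ Finset.range (nm (pr s)),
    ∀ j ∈ Finset.range (nm (pr s)), pr s ∣ (i : E) - (j : E) → i = j := by
  intro i hi j hj hd
  rw [Finset.mem_range] at hi hj
  have h1 := ratA_dvd h (n := (i : ℤ) - j) (by push_cast; exact hd)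
  exact (Nat.ModEq.eq_of_lt_of_lt ((Nat.modEq_iff_dvd).2 h1) hj hi).symm

theorem ratA_surj {s : Finset P} (h : Prim s) (x : E) :
    ∃ i ∈ Finset.range (nm (pr s)), pr s ∣ x - (i : E) := by
  have h0 := pr_ne_zero s
  choose r hr using exists_rep h0
  have key := Finset.surj_on_of_inj_on_of_card_le (s := Finset.range (nm (pr s)))
    (t := reps (pr s)) (fun i _ => r (i : E)) (fun i _ => (hr _).1)
    (fun i j hi hj e => ratA_inj h i hi j hj (by
      have h1 := (hr (i : E)).2
      have h2 := (hr (j : E)).2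
      rw [e] at h1
      simpa using dvd_sub h1 h2))
    (by rw [card_reps h0, Finset.card_range])
  obtain ⟨i, hi, e⟩ := key (r x) (hr x).1
  refine ⟨i, hi, ?_⟩
  have h1 := (hr x).2
  have h2 := (hr (i : E)).2
  rw [e] at h1
  simpa using dvd_sub h1 h2

theorem ratA_psf (g : E) (hg : g ≠ 0) (k : ℤ) :
    psf (lam * (k : E)) g = e1 (k * (2 * g.re - g.im : ℤ) / nm g) := by
  have hs : star g ≠ 0 := star_ne_zero.2 hg
  rw [← psf_scale hs, mul_comm (star g) g, mul_star_eq]
  unfold psf e1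
  rw [map_natCast, toC_apply]
  have e1 : (star g * (lam * (k : E))).im = k * (2 * g.re - g.im) := by
    simp [lam]
    ring
  rw [e1]
  have e2 := psi_coord (((star g * (lam * (k : E))).re : ℝ) / nm g)
    (k * (2 * g.re - g.im : ℤ) / nm g)
  rw [← e2]
  congr 1
  push_cast
  ring

theorem ratA_gz (hb : BA) (s : Finset P) (n : ℤ) (h : Prim s) :
    ∑ x ∈ Finset.range (nm (pr s)), xs c3 s (x : E) * e1 (x * n / nm (pr s))
      = conj (xs c3 s (n : E)) * gn s * (√(Ns s) : ℝ) := by
  have h0 := pr_ne_zero s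
  set t : ℤ := 2 * (pr s).re - (pr s).im with ht
  have e0 : (t : E) = pr s + star (pr s) := by
    generalize pr s = g at ht
    ext
    · simp only [QuadraticAlgebra.re_intCast, QuadraticAlgebra.re_add, QuadraticAlgebra.re_star, ht]
      simp only [Int.cast_id]
      ring
    · simp
  have hd : pr s ∣ (t : E) - star (pr s) := by rw [e0, add_sub_cancel_right]
  have h1 : xs c3 s (t : E) = 1 := (xs_per ch_c3 s _ _ hd).trans (ratA_xs_star hb h)
  have hc : IsCoprime (t : E) (pr s) := by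
    rw [e0, add_comm]
    simpa using (ratA_cop h).symm.add_mul_left_left 1
  obtain ⟨i, -, hi⟩ := ratA_surj h (inv (pr s) t)
  have h2 : pr s ∣ (t : E) * i - 1 := by
    have e : (t : E) * i - 1 = (t * inv (pr s) t - 1) - t * (inv (pr s) t - i) := by ring
    rw [e]
    exact dvd_sub (inv_spec hc) (hi.mul_left _)
  have h3 : xs c3 s (i : E) = 1 := by
    have := xs_per ch_c3 s _ _ h2
    rwa [xs_mul ch_c3, h1, one_mul, xs_one ch_c3] at this
  obtain ⟨k, hk⟩ := ratA_dvd h (n := t * i - 1) (by push_cast; exact h2)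
  have h4 := ratA_gn_eq s ((n : E) * i)
  rw [xs_mul ch_c3, h3, mul_one, rsum_eq_sum h0 ((xs_per ch_c3 s).mul (per_psf _ _))
    (Finset.range (nm (pr s))) (fun i : ℕ => (i : E)) (ratA_inj h) (ratA_surj h)] at h4
  rw [← h4]
  refine Finset.sum_congr rfl fun x _ => ?_
  congr 1
  have e1 : (x : E) * (lam * ((n : E) * i)) = lam * ((x * n * i : ℤ) : E) := by
    push_cast
    ring
  rw [e1, ratA_psf _ h0, ← ht]
  have hN : (nm (pr s) : ℝ) ≠ 0 := Nat.cast_ne_zero.2 (nm_eq_zero.not.2 h0)
  have e2 : ((x * n * i : ℤ) : ℝ) * t / nm (pr s) = x * n / nm (pr s) + ((x * n * k : ℤ) : ℝ) := by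
    have hk' : (t : ℝ) * i - 1 = nm (pr s) * k := by exact_mod_cast hk
    push_cast
    field_simp
    linear_combination (x * n : ℝ) * hk'
  rw [e2]
  unfold Pat.e1
  rw [ofReal_add, mul_add, Complex.exp_add, ofReal_intCast, mul_comm _ ((_ : ℤ) : ℂ),
    Complex.exp_int_mul_two_pi_mul_I, mul_one]

theorem ratA_split (s : Finset P) : ∃! x : Finset P × Finset P,
    SelfC x.1 ∧ Prim x.2 ∧ Disjoint x.1 x.2 ∧ s = x.1 ∪ x.2 := by
  refine ⟨(s.filter fun p => p.bar ∈ s, s.filter fun p => p.bar ∉ s), ⟨?_, ?_, ?_, ?_⟩, ?_⟩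
  · refine ratA_self.2 fun p hp => ?_
    rw [Finset.mem_filter] at hp ⊢
    exact ⟨hp.2, by rw [ratA_bar_bar]; exact hp.1⟩
  · refine ratA_prim.2 fun p hp hq => ?_
    rw [Finset.mem_filter] at hp hq
    exact hp.2 hq.1
  · exact Finset.disjoint_filter_filter_not _ _ _
  · exact (Finset.filter_union_filter_not_eq _ _).symm
  · rintro ⟨a, b⟩ ⟨h1, h2, h3, rfl⟩
    have k1 := ratA_self.1 h1
    have k2 := ratA_prim.1 h2
    have k3 := Finset.disjoint_left.1 h3
    dsimp only at k1 k2 k3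
    have k4 : ∀ p ∈ b, p.bar ∉ a := fun p hp hq => k3 (ratA_bar_bar p ▸ k1 _ hq) hp
    refine Prod.ext ?_ ?_
    · ext p
      simp only [Finset.mem_filter, Finset.mem_union]
      exact ⟨fun h => ⟨Or.inl h, Or.inl (k1 p h)⟩, fun h => h.1.elim id fun hp =>
        h.2.elim (fun hq => absurd hq (k4 p hp)) fun hq => absurd hq (k2 p hp)⟩
    · ext p
      simp only [Finset.mem_filter, Finset.mem_union]
      exact ⟨fun h => ⟨Or.inr h, fun hq => hq.elim (k4 p h) (k2 p h)⟩, fun h =>
        h.1.elim (fun hp => absurd (Or.inl (k1 p hp)) h.2) id⟩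

theorem ratA (hb : BA) : RatA where
  gz := ratA_gz hb
  per := ratA_per_int
  tt_self := ratA_tt hb
  pr_self := fun _ h => ratA_pr_self h
  ell_sq := fun _ h => by rw [(ratA_ell h).1, (ratA_ell h).2]
  ell_sqf := fun _ h => ratA_sqf h
  ell_inj := fun s t hs ht e => pr_inj (primary_unique (pr_primary s) (pr_primary t)
    ((ratA_assoc hs).trans (e ▸ (ratA_assoc ht).symm)))
  xs_self := fun _ k h => ratA_xs_self k h
  split := ratA_split

end Pat
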