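import Vale.Agent.P006.IfC
import Vale.Agent.P006.RatA

noncomputable section
namespace Pat
open QRH Complex MeasureTheory Filter
open scoped ComplexConjugate Classical ContDiff Topology

/-- A prime above `l`. -/
def brSp (l : ℕ) : P := if h : ∃ p : P, nm p.1 = l then h.choose else pTwo

theorem br_sp {l : ℕ} (hl : l.Prime) (h : l % 3 = 1) : nm (brSp l).1 = l := by
  have h1 := exists_P_split hl h
  rw [brSp, dif_pos h1]
  exact h1.choose_spec

theorem br_ne {p : P} (h : (nm p.1).Prime) : p.bar ≠ p := by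
  rcases p.nm_cases with ⟨-, h1⟩ | ⟨l, -, -, h1⟩
  · exact h1
  · rw [h1, nm_neg, nm_natCast] at h
    exact absurd h (Nat.Prime.not_prime_pow le_rfl)

theorem br_nm_bar (p : P) : nm p.bar.1 = nm p.1 := nm_star p.1

theorem br_split {M : Type*} [AddCommMonoid M] (hb : BA) (X : ℝ) (F : P → M) :
    ∑ p ∈ prs X, F p = ∑ l ∈ Finset.Icc 1 ⌊X⌋₊ with l.Prime ∧ l % 3 = 1,
      (F (brSp l) + F (brSp l).bar) + ∑ p ∈ prs X with ¬ (nm p.1).Prime, F p := by
  rw [← Finset.sum_filter_add_sum_filter_not (prs X) fun p => (nm p.1).Prime]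
  congr 1
  rw [← Finset.sum_fiberwise_of_maps_to (g := fun p : P => nm p.1)
    (t := (Finset.Icc 1 ⌊X⌋₊).filter fun l => l.Prime ∧ l % 3 = 1)]
  · refine Finset.sum_congr rfl fun l hl => ?_
    obtain ⟨hl1, hl2, hl3⟩ := Finset.mem_filter.1 hl
    have h1 := br_sp hl2 hl3
    have h2 : (l : ℝ) ≤ X := (Nat.le_floor_iff' hl2.ne_zero).1 (Finset.mem_Icc.1 hl1).2
    rw [← Finset.sum_pair (br_ne (h1.symm ▸ hl2)).symm]
    refine Finset.sum_congr ?_ fun _ _ => rfl
    ext q
    simp only [Finset.mem_filter, hb.mem_prs, Finset.mem_insert, Finset.mem_singleton]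
    constructor
    · rintro ⟨-, hq⟩
      refine P.eq_or_bar ?_
      rw [h1, ← hq, ← mul_star_eq]
      exact dvd_mul_right _ _
    · rintro (rfl | rfl)
      · rw [h1]
        exact ⟨⟨h2, hl2⟩, rfl⟩
      · rw [br_nm_bar, h1]
        exact ⟨⟨h2, hl2⟩, rfl⟩
  · intro p hp
    obtain ⟨h1, h2⟩ := Finset.mem_filter.1 hp
    rw [hb.mem_prs] at h1
    exact Finset.mem_filter.2 ⟨Finset.mem_Icc.2 ⟨h2.pos, Nat.le_floor h1⟩, h2, p.nm_mod⟩

theorem br_inert (hb : BA) (X : ℝ) :
    (((prs X).filter fun p => ¬ (nm p.1).Prime).card : ℝ) ≤ √X := by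
  have h1 : ((prs X).filter fun p => ¬ (nm p.1).Prime).card ≤ (Finset.Icc 1 ⌊√X⌋₊).card := by
    refine Finset.card_le_card_of_injOn (fun p => p.1.re.natAbs) (fun p hp => ?_)
      fun p hp q hq h => ?_
    · obtain ⟨h1, h2⟩ := Finset.mem_filter.1 hp
      rw [hb.mem_prs] at h1
      rcases p.nm_cases with ⟨h3, -⟩ | ⟨l, hl, -, h3⟩
      · exact absurd h3 h2
      · have e : p.1.re.natAbs = l := by rw [h3]; simp
        rw [h3, nm_neg, nm_natCast] at h1
        simp only [e, Finset.coe_Icc, Set.mem_Icc]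
        refine ⟨hl.pos, Nat.le_floor (Real.le_sqrt_of_sq_le ?_)⟩
        exact_mod_cast h1
    · have hp2 := (Finset.mem_filter.1 hp).2
      have hq2 := (Finset.mem_filter.1 hq).2
      rcases p.nm_cases with ⟨h3, -⟩ | ⟨l, -, -, h3⟩
      · exact absurd h3 hp2
      rcases q.nm_cases with ⟨h4, -⟩ | ⟨m, -, -, h4⟩
      · exact absurd h4 hq2
      have e1 : p.1.re.natAbs = l := by rw [h3]; simp
      have e2 : q.1.re.natAbs = m := by rw [h4]; simp
      have e3 : l = m := by rw [← e1, ← e2]; exact h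
      exact Subtype.ext (by rw [h3, h4, e3])
  rw [Nat.card_Icc, Nat.add_sub_cancel] at h1
  exact (Nat.cast_le.2 h1).trans (Nat.floor_le (Real.sqrt_nonneg X))

theorem br_card (p : P) (y : E) :
    ((Finset.univ.filter fun z : Fp p => z ^ 3 = rd p y).card : ℂ)
      = 1 + c3 p y + conj (c3 p y) := by
  by_cases hy : p.1 ∣ y
  · rw [rd_eq_zero.2 hy, sy_c3_zero hy]
    have : (Finset.univ.filter fun z : Fp p => z ^ 3 = 0) = {0} := by
      ext z
      simp
    rw [this]
    simp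
  have h0 : rd p y ≠ 0 := fun h => hy (rd_eq_zero.1 h)
  have h1 : (Finset.univ.filter fun z : Fp p => z ^ 3 = rd p y)
      = (Polynomial.nthRoots 3 (rd p y)).toFinset := by
    ext z
    simp [Polynomial.mem_nthRoots]
  rw [h1, Multiset.toFinset_card_of_nodup ((rd_om_prim p).nthRoots_nodup h0),
    (rd_om_prim p).card_nthRoots]
  have h2 : (∃ α : Fp p, α ^ 3 = rd p y) ↔ c3 p y = 1 := by
    rw [c3_eq_one_iff hy]
    constructor
    · rintro ⟨a, ha⟩
      obtain ⟨x, rfl⟩ := rd_surj p a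
      exact ⟨x, rd_eq_iff.1 (by rw [map_pow, ha])⟩
    · rintro ⟨x, hx⟩
      exact ⟨rd p x, by rw [← map_pow]; exact (rd_eq_iff.2 hx).symm⟩
  by_cases h3 : c3 p y = 1
  · rw [if_pos (h2.2 h3), h3]
    norm_num
  · rw [if_neg (fun h => h3 (h2.1 h)), conj_c3]
    have h4 : (c3 p y - 1) * (1 + c3 p y + c3 p y ^ 2) = 0 := by
      linear_combination c3_cube hy
    rw [Nat.cast_zero, (mul_eq_zero.1 h4).resolve_left (sub_ne_zero.2 h3)]

theorem br_cube {p : P} {f : E → ℂ} (hf : Per p.1 f) :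
    rsum p.1 (fun x => f (x ^ 3)) = rsum p.1 fun y => (1 + c3 p y + conj (c3 p y)) * f y := by
  obtain ⟨F, hF⟩ : ∃ F : Fp p → ℂ, ∀ x, f x = F (rd p x) :=
    ⟨fun z => f (rd_surj p z).choose, fun x =>
      hf _ _ (rd_eq_iff.1 (rd_surj p (rd p x)).choose_spec.symm)⟩
  have h1 : rsum p.1 (fun x => f (x ^ 3)) = ∑ z : Fp p, F (z ^ 3) := by
    rw [← rsum_rd p (fun z => F (z ^ 3))]
    simp only [hF, map_pow]
  have h2 : (rsum p.1 fun y => (1 + c3 p y + conj (c3 p y)) * f y) =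
      ∑ a : Fp p, ((Finset.univ.filter fun z : Fp p => z ^ 3 = a).card : ℂ) * F a := by
    rw [← rsum_rd p (fun a => ((Finset.univ.filter fun z : Fp p => z ^ 3 = a).card : ℂ) * F a)]
    simp only [hF, br_card]
  rw [h1, h2, ← Finset.sum_fiberwise (s := Finset.univ) (g := fun z : Fp p => z ^ 3)]
  refine Finset.sum_congr rfl fun a _ => ?_
  have h4 : ∑ z ∈ Finset.univ with z ^ 3 = a, F (z ^ 3) =
      ∑ z ∈ Finset.univ with z ^ 3 = a, F a :=
    Finset.sum_congr rfl fun z hz => by rw [(Finset.mem_filter.1 hz).2]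
  rw [h4, Finset.sum_const, nsmul_eq_mul]

theorem br_e1_int (x : ℝ) (n : ℤ) : e1 (x + n) = e1 x := by
  unfold e1
  rw [show 2 * (Real.pi : ℂ) * I * ((x + n : ℝ) : ℂ) = 2 * Real.pi * I * x + n * (2 * Real.pi * I) by
    push_cast; ring, Complex.exp_add, Complex.exp_int_mul_two_pi_mul_I, mul_one]

theorem br_e1_sum {l : ℕ} (hl : 2 ≤ l) : ∑ x ∈ Finset.range l, e1 (x / l) = 0 := by
  have h := (Complex.isPrimitiveRoot_exp l (by omega)).geom_sum_eq_zero (by omega)
  rw [← h]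
  refine Finset.sum_congr rfl fun x _ => ?_
  rw [← Complex.exp_nat_mul, e1]
  congr 1
  push_cast
  ring

theorem br_prim {p : P} (h : (nm p.1).Prime) : Prim {p} :=
  ratA_prim.2 fun q hq hq' => by
    rw [Finset.mem_singleton] at hq hq'
    subst hq
    exact br_ne h hq'

/-- Kummer's sum in terms of Gauss sums. -/
theorem br_kummer (hr : RatF) {p : P} (h : (nm p.1).Prime) :
    ∑ x ∈ Finset.range (nm p.1), Complex.exp (2 * Real.pi * I * ((x : ℂ) ^ 3 / nm p.1))
      = (gn {p} + gn {p.bar}) * (√(nm p.1 : ℝ) : ℝ) := by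
  have hp := br_prim h
  have hinj := ratA_inj hp
  have hsur := ratA_surj hp
  rw [pr_singleton] at hinj hsur
  choose g hg1 hg2 using hsur
  have hl0 : (nm p.1 : ℝ) ≠ 0 := by exact_mod_cast h.ne_zero
  have hf : Per p.1 fun y => e1 (g y / nm p.1) := fun x y hxy => by
    have : g x = g y := hinj _ (hg1 x) _ (hg1 y) (by
      have := dvd_sub (dvd_add (hg2 y) hxy) (hg2 x)
      rwa [show y - (g y : E) + (x - y) - (x - g x) = (g x : E) - g y by ring] at this)
    simp only [this]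
  have hn : ∀ n : ℕ, e1 (g n / nm p.1) = e1 (n / nm p.1) := fun n => by
    have h1 := ratA_dvd hp (n := (n : ℤ) - g n) (by
      rw [pr_singleton]
      push_cast
      exact hg2 n)
    rw [pr_singleton] at h1
    obtain ⟨k, hk⟩ := h1
    have h2 : (n : ℝ) - g n = nm p.1 * k := by exact_mod_cast hk
    rw [← br_e1_int _ k]
    congr 1
    field_simp
    linarith
  have key := br_cube hf
  rw [rsum_eq_sum p.ne_zero (fun x y hxy => hf _ _ (hxy.trans (sub_dvd_pow_sub_pow x y 3))) _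
      (fun i : ℕ => (i : E)) hinj fun x => ⟨g x, hg1 x, hg2 x⟩,
    rsum_eq_sum p.ne_zero (fun x y hxy => by
      simp only [(c3_mc p).per x y hxy, hf x y hxy]) _
      (fun i : ℕ => (i : E)) hinj fun x => ⟨g x, hg1 x, hg2 x⟩] at key
  have e1' : ∀ x : ℕ, Complex.exp (2 * Real.pi * I * ((x : ℂ) ^ 3 / nm p.1))
      = e1 (g ((x : E) ^ 3) / nm p.1) := fun x => by
    rw [← Nat.cast_pow, ← Nat.cast_pow (α := E), hn, e1]
    push_cast
    rfl
  have g1 := hr.gz {p} 1 hp
  have g2 := hr.gz {p.bar} 1 (br_prim (by rw [br_nm_bar]; exact h))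
  simp only [pr_singleton, xs, Finset.prod_singleton, Int.cast_one, mul_one, (c3_mc _).one,
    map_one, one_mul, Ns, br_nm_bar] at g1 g2
  have g3 : ∀ x : ℕ, c3 p.bar (x : E) = conj (c3 p x) := fun x => by
    rw [← c3_star, star_natCast]
  simp only [e1', key, hn, add_mul, Finset.sum_add_distrib, one_mul, br_e1_sum h.two_le,
    zero_add, ← g1, ← g2, g3]

end Pat
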