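import Vale.Agent.P006.IfA
import Vale.Agent.P026.Wt
import Vale.Agent.P026.FtD

/-! The complex Airy constant is nonzero; growth of the gamma factor. -/

noncomputable section
namespace Pat
open QRH Complex MeasureTheory Filter Set
open scoped ComplexConjugate Classical ContDiff Topology

theorem c0_diff {s : ℂ} (hs : 0 < s.re) : DifferentiableAt ℂ Gamma s :=
  differentiableAt_Gamma s fun m h => by
    rw [h] at hs
    simp at hs
    linarith [(by positivity : (0 : ℝ) ≤ m)]

theorem c0_dq {s : ℂ} (hs : 0 < s.re) :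
    DifferentiableAt ℂ (fun s => Gamma s / Gamma (1 - s)) s := by
  simp only [div_eq_mul_inv]
  exact (c0_diff hs).mul
    ((differentiable_one_div_Gamma (1 - s)).comp s ((differentiableAt_const _).sub differentiableAt_id))

theorem c0_norm_Gamma {s : ℂ} (hs : 0 < s.re) : ‖Gamma s‖ ≤ Real.Gamma s.re := by
  rw [Gamma_eq_integral hs, Real.Gamma_eq_integral hs, GammaIntegral]
  refine (norm_integral_le_integral_norm _).trans_eq (setIntegral_congr_fun measurableSet_Ioi ?_)
  intro x hx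
  simp only [norm_mul, norm_cpow_eq_rpow_re_of_pos hx, sub_re, one_re, norm_real,
    Real.norm_of_nonneg (Real.exp_pos _).le]

theorem c0_sin (z : ℂ) : ‖sin z‖ ≤ Real.exp |z.im| := by
  have h1 : ‖exp (-z * I)‖ ≤ Real.exp |z.im| := by
    rw [norm_exp]
    exact Real.exp_le_exp.2 (by simpa using le_abs_self _)
  have h2 : ‖exp (z * I)‖ ≤ Real.exp |z.im| := by
    rw [norm_exp]
    exact Real.exp_le_exp.2 (by simpa using neg_le_abs _)
  rw [sin, norm_div, norm_mul, norm_I, mul_one, div_le_iff₀ (by simp), Complex.norm_two]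
  linarith [norm_sub_le (exp (-z * I)) (exp (z * I))]

theorem c0_refl {s : ℂ} (hs : 0 < s.re) :
    Gamma s / Gamma (1 - s) = Gamma s ^ 2 * sin (Real.pi * s) / Real.pi := by
  have h := Gamma_mul_Gamma_one_sub s
  have h0 := Gamma_ne_zero_of_re_pos hs
  have hπ : (Real.pi : ℂ) ≠ 0 := ofReal_ne_zero.2 Real.pi_ne_zero
  by_cases h1 : sin (Real.pi * s) = 0
  · rw [h1, div_zero, mul_eq_zero] at h
    rw [h1, h.resolve_left h0]
    simp
  · have h2 : Gamma (1 - s) ≠ 0 := fun h2 => by
      rw [h2, mul_zero] at h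
      exact div_ne_zero hπ h1 h.symm
    rw [eq_div_iff h1] at h
    rw [div_eq_div_iff h2 hπ]
    linear_combination -Gamma s * h

theorem c0_half {s : ℂ} (hs : s.re = 1 / 2) : ‖Gamma s / Gamma (1 - s)‖ = 1 := by
  have h : 1 - s = conj s := by
    apply Complex.ext
    · simp [hs]
      norm_num
    · simp
  rw [h, Gamma_conj, norm_div, norm_conj,
    div_self (norm_ne_zero_iff.2 (Gamma_ne_zero_of_re_pos (by rw [hs]; norm_num)))]

theorem c0_three {s : ℂ} (hs : s.re = 3 / 2) : ‖Gamma s / Gamma (1 - s)‖ ≤ (1 + |s.im|) ^ 2 := by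
  have h0 : s - 1 ≠ 0 := fun h => by
    have := congrArg re h
    simp [hs] at this
    norm_num at this
  have h1 : 1 - s ≠ 0 := fun h => h0 (by linear_combination -h)
  have h2 := Gamma_add_one _ h0
  have h3 := Gamma_add_one _ h1
  have h4 := c0_half (s := s - 1) (by simp [hs]; norm_num)
  rw [sub_add_cancel] at h2
  rw [show 1 - (s - 1) = 1 - s + 1 by ring, h3] at h4
  have h5 : Gamma s / Gamma (1 - s) =
      (s - 1) * (1 - s) * (Gamma (s - 1) / ((1 - s) * Gamma (1 - s))) := by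
    rw [h2, ← div_div, div_eq_mul_inv, div_eq_mul_inv, div_eq_mul_inv]
    linear_combination (-(s - 1) * Gamma (s - 1) * (Gamma (1 - s))⁻¹) * mul_inv_cancel₀ h1
  have h6 : ‖s - 1‖ ≤ 1 + |s.im| := by
    refine (norm_le_abs_re_add_abs_im _).trans ?_
    simp only [sub_re, one_re, sub_im, one_im, sub_zero, hs]
    norm_num
  rw [h5, norm_mul, h4, norm_mul, norm_sub_rev 1 s, mul_one, sq]
  exact mul_le_mul h6 h6 (norm_nonneg _) (by positivity)

theorem c0_exp (s : ℂ) (t : ℝ) :
    ‖exp ((s - t * I) ^ 2)‖ = Real.exp (s.re ^ 2 - (s.im - t) ^ 2) := by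
  rw [norm_exp]
  congr 1
  simp [sq]

theorem c0_strip {σ : ℝ} (t : ℝ) (h1 : 1 / 2 ≤ σ) (h2 : σ ≤ 3 / 2) :
    ‖Gamma (σ + t * I) / Gamma (1 - (σ + t * I))‖ ≤ 2 * Real.exp 3 * (1 + |t|) ^ (2 * σ - 1) := by
  obtain ⟨M, hM⟩ := (isCompact_Icc (a := (1 / 2 : ℝ)) (b := 3 / 2)).bddAbove_image
    (f := Real.Gamma) fun x hx => (Real.differentiableAt_Gamma fun m h => by
      linarith [hx.1, (by positivity : (0 : ℝ) ≤ m)]).continuousAt.continuousWithinAt
  have hK : (1 : ℝ) ≤ 2 * Real.exp 3 := by linarith [Real.add_one_le_exp 3]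
  have h := HadamardThreeLines.norm_le_interp_of_mem_verticalClosedStrip'
    (f := fun s => Gamma s / Gamma (1 - s) * exp ((s - t * I) ^ 2)) (z := σ + t * I)
    (a := 2 * Real.exp 3) (b := 2 * Real.exp 3 * (1 + |t|) ^ 2) (l := 1 / 2) (u := 3 / 2)
    (by norm_num) (by simpa [HadamardThreeLines.verticalClosedStrip] using ⟨by linarith, h2⟩)
    (DifferentiableOn.diffContOnCl fun s hs => by
      rw [HadamardThreeLines.verticalStrip, closure_preimage_re, closure_Ioo (by norm_num)] at hs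
      exact ((c0_dq (by linarith [hs.1])).mul (by fun_prop)).differentiableWithinAt)
    ⟨M ^ 2 * Real.exp (4 * |t| + 7), by
      rintro _ ⟨s, hs, rfl⟩
      have h0 : 0 < s.re := by linarith [hs.1]
      have h3 : ‖Gamma s‖ ≤ M := (c0_norm_Gamma h0).trans (hM ⟨_, hs, rfl⟩)
      have h4 := c0_sin (Real.pi * s)
      have h5 : |s.im| ≤ |t| + |s.im - t| := by
        linarith [abs_add_le t (s.im - t), show t + (s.im - t) = s.im by ring,
          congrArg abs (show t + (s.im - t) = s.im by ring)]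
      have h6 : s.re ^ 2 ≤ 3 := by nlinarith [hs.1, hs.2]
      have h7 : |(Real.pi * s).im| ≤ 4 * |s.im| := by
        rw [im_ofReal_mul, abs_mul, abs_of_pos Real.pi_pos]
        exact mul_le_mul_of_nonneg_right Real.pi_le_four (abs_nonneg _)
      replace h4 := h4.trans (Real.exp_le_exp.2 h7)
      simp only [Function.comp, c0_refl h0, norm_mul, norm_div, norm_pow, c0_exp, norm_real,
        Real.norm_of_nonneg Real.pi_pos.le]
      calc _ ≤ M ^ 2 * Real.exp (4 * |s.im|) / 1 * Real.exp (s.re ^ 2 - (s.im - t) ^ 2) := by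
            refine mul_le_mul_of_nonneg_right (div_le_div₀ (by positivity) ?_ one_pos
              (by linarith [Real.pi_gt_three])) (by positivity)
            gcongr
        _ ≤ _ := by
            rw [div_one, mul_assoc, ← Real.exp_add]
            refine mul_le_mul_of_nonneg_left (Real.exp_le_exp.2 ?_) (by positivity)
            nlinarith [sq_abs (s.im - t), sq_nonneg (|s.im - t| - 2)]⟩
    (fun s hs => by
      have hs' : s.re = 1 / 2 := hs
      rw [norm_mul, c0_half hs', c0_exp, hs', one_mul]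
      have : Real.exp ((1 / 2) ^ 2 - (s.im - t) ^ 2) ≤ Real.exp 3 :=
        Real.exp_le_exp.2 (by nlinarith [sq_nonneg (s.im - t)])
      linarith [Real.exp_pos 3])
    (fun s hs => by
      have hs' : s.re = 3 / 2 := hs
      have h3 : 1 + |s.im| ≤ (1 + |t|) * (1 + |s.im - t|) := by
        nlinarith [abs_add_le t (s.im - t), congrArg abs (show t + (s.im - t) = s.im by ring),
          mul_nonneg (abs_nonneg t) (abs_nonneg (s.im - t))]
      have h4 : (1 + |s.im - t|) ^ 2 ≤ 2 * Real.exp ((s.im - t) ^ 2) := by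
        nlinarith [Real.add_one_le_exp ((s.im - t) ^ 2), sq_abs (s.im - t),
          sq_nonneg (|s.im - t| - 1)]
      rw [norm_mul, c0_exp, hs']
      calc _ ≤ (1 + |t|) ^ 2 * (2 * Real.exp ((s.im - t) ^ 2)) *
            Real.exp (3 - (s.im - t) ^ 2) := by
            gcongr
            · refine (c0_three hs').trans ((pow_le_pow_left₀ (by positivity) h3 2).trans ?_)
              rw [mul_pow]
              gcongr
            · norm_num
        _ = _ := by
            rw [Real.exp_sub]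
            field_simp)
  have h0 : (0 : ℝ) < 1 + |t| := by positivity
  have h3 : (σ + t * I : ℂ).re = σ := by simp
  have h4 : (σ + t * I : ℂ).im = t := by simp
  rw [norm_mul, c0_exp, Real.mul_rpow (x := 2 * Real.exp 3) (y := (1 + |t|) ^ 2) (by positivity)
    (by positivity), ← mul_assoc,
    ← Real.rpow_add (by positivity), sub_add_cancel, Real.rpow_one, h3, h4, ← Real.rpow_natCast (1 + |t|) 2,
    ← Real.rpow_mul h0.le, show ((2 : ℕ) : ℝ) * ((σ - 1 / 2) / (3 / 2 - 1 / 2)) = 2 * σ - 1 by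
      push_cast; ring] at h
  refine le_trans (le_mul_of_one_le_right (norm_nonneg _) (Real.one_le_exp ?_)) h
  rw [sub_self]
  nlinarith [sq_nonneg σ]

theorem c0_c : (1 : ℝ) ≤ 2 * Real.pi / √3 := by
  rw [le_div_iff₀ (by positivity)]
  linarith [Real.sqrt_le_iff.2 ⟨by norm_num, (by norm_num : (3 : ℝ) ≤ 2 ^ 2)⟩, Real.pi_gt_three]

theorem gamB : GamB := by
  refine ⟨2 * Real.exp 3, by positivity, fun σ t h1 h2 => ?_⟩
  rw [gam0, mul_div_assoc, norm_mul, norm_cpow_eq_rpow_re_of_pos (by positivity)]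
  refine (mul_le_of_le_one_left (norm_nonneg _) ?_).trans (c0_strip t h1 h2)
  refine Real.rpow_le_one_of_one_le_of_nonpos c0_c ?_
  simp
  linarith

theorem c0_low : ∃ c : ℝ, 0 < c ∧ ∀ s ∈ Icc (1 / 4 : ℝ) (1 / 3), c ≤ ‖gam0 s‖ := by
  have hc : ((2 * Real.pi / √3 : ℝ) : ℂ) ≠ 0 := ofReal_ne_zero.2 (by positivity)
  refine isCompact_Icc.exists_forall_le' (f := fun s : ℝ => ‖gam0 s‖) (fun s hs => ?_)
    fun s hs => ?_
  · have h : ContinuousAt gam0 s := by
      unfold gam0
      simp only [mul_div_assoc]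
      refine ContinuousAt.mul (ContinuousAt.const_cpow (by fun_prop) (Or.inl ?_))
        (c0_dq (by simpa using (by linarith [hs.1] : (0 : ℝ) < s))).continuousAt
      simpa only [mul_div_assoc] using hc
    exact (h.comp continuous_ofReal.continuousAt).norm.continuousWithinAt
  · refine norm_pos_iff.2 (div_ne_zero (mul_ne_zero (by simp [hc, -ofReal_div])
      (Gamma_ne_zero_of_re_pos ?_)) (Gamma_ne_zero_of_re_pos ?_))
    · simpa using (by linarith [hs.1] : (0 : ℝ) < s)
    · simpa using (by linarith [hs.2] : s < (1 : ℝ))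

theorem c0_b0 : ∃ m : ℝ, 0 < m ∧ ∀ i ≤ 1, ∀ x : ℂ,
    ‖iteratedFDeriv ℝ i b0 x‖ ≤ m * (1 + ‖x‖) ^ (-3 : ℝ) := by
  have hs : ∀ z, b0 z ≠ 0 → ‖z‖ ≤ 2 := fun z h => by linarith [b0_supp h]
  obtain ⟨W, hW, h⟩ := wt_bound contDiff_b0 hs 1
  refine ⟨27 * W, by positivity, fun i hi x => ?_⟩
  by_cases hx : x ∈ Metric.closedBall (0 : ℂ) 2
  · have h1 : (3 : ℝ) ^ (-3 : ℝ) ≤ (1 + ‖x‖) ^ (-3 : ℝ) :=
      Real.rpow_le_rpow_of_nonpos (by positivity) (by linarith [mem_closedBall_zero_iff.1 hx])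
        (by norm_num)
    rw [Real.rpow_neg (by norm_num), show (3 : ℝ) ^ (3 : ℝ) = 27 by norm_num] at h1
    nlinarith [h i hi x]
  · rw [fd_supp hs i hx, norm_zero]
    positivity

/-- The majorant on the half line. -/
def c0G (y : ℝ) : ℝ := if y ≤ 1 then y ^ (-(3 / 4) : ℝ) else y ^ (-(13 / 12) : ℝ)

theorem c0_G_int : IntegrableOn c0G (Ioi 0) := by
  rw [← Ioc_union_Ioi_eq_Ioi zero_le_one]
  refine IntegrableOn.union ?_ ?_
  · exact ((intervalIntegrable_iff_integrableOn_Ioc_of_le zero_le_one).1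
      (intervalIntegral.intervalIntegrable_rpow' (r := -(3 / 4)) (by norm_num))).congr_fun
      (fun y hy => (if_pos hy.2).symm) measurableSet_Ioc
  · exact (integrableOn_Ioi_rpow_of_lt (a := -(13 / 12)) (by norm_num) one_pos).congr_fun
      (fun y hy => (if_neg (not_le.2 hy)).symm) measurableSet_Ioi

theorem c0_real (hb : BA) {f : ℝ → ℝ} (hf : IntegrableOn f (Ioi 0)) :
    Integrable fun z : ℂ => f (‖z‖ ^ 2) := by
  have h := ((hb.polar_int fun y => (f y : ℂ)).2 hf.ofReal).re
  simpa using h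

theorem c0_b1_int {r : ℝ} (hr : -1 < r) : IntegrableOn (fun y => b1B y * y ^ r) (Ioi 0) := by
  refine ((intervalIntegrable_iff_integrableOn_Ioc_of_le zero_le_one).1
    ((intervalIntegral.intervalIntegrable_rpow' hr).continuousOn_mul
      b1B.continuous.continuousOn)).of_forall_sdiff_eq_zero measurableSet_Ioi fun y hy => ?_
  have h1 : 1 < y := by
    by_contra h
    exact hy.2 ⟨hy.1, not_lt.1 h⟩
  rw [b1B.zero_of_le_dist, zero_mul]
  rw [Real.dist_eq, sub_zero, abs_of_pos hy.1]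
  exact le_trans (by norm_num [b1B]) h1.le

theorem c0_b1_low {r : ℝ} (hr : -1 < r) (hr0 : r ≤ 0) :
    1 / (32 * (r + 1)) ≤ ∫ y in Ioi (0 : ℝ), b1B y * y ^ r := by
  have h0 : 0 < r + 1 := by linarith
  calc _ = (1 / 32 : ℝ) ^ (1 : ℝ) / (r + 1) := by
        rw [Real.rpow_one, div_div]
    _ ≤ ((1 / 32 : ℝ) ^ (r + 1) - 0 ^ (r + 1)) / (r + 1) := by
        rw [Real.zero_rpow h0.ne', sub_zero]
        exact div_le_div_of_nonneg_right
          (Real.rpow_le_rpow_of_exponent_ge (by norm_num) (by norm_num) (by linarith)) h0.le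
    _ = ∫ y in Ioc (0 : ℝ) (1 / 32), b1B y * y ^ r := by
        rw [← integral_rpow (Or.inl hr), intervalIntegral.integral_of_le (by norm_num)]
        refine setIntegral_congr_fun measurableSet_Ioc fun y hy => ?_
        rw [b1B.one_of_mem_closedBall, one_mul]
        rw [Metric.mem_closedBall, Real.dist_eq, sub_zero, abs_of_pos hy.1]
        exact hy.2
    _ ≤ _ := by
        refine setIntegral_mono_set (c0_b1_int hr) ?_ Ioc_subset_Ioi_self.eventuallyLE
        exact (ae_restrict_iff' measurableSet_Ioi).2 (ae_of_all _ fun y hy =>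
          mul_nonneg b1B.nonneg (Real.rpow_nonneg (le_of_lt hy) _))

theorem c0_pow (y : ℂ) (s : ℝ) : (‖y ^ 3‖ ^ 2) ^ (-s) = (‖y‖ ^ 2) ^ (-(3 * s)) := by
  rw [norm_pow, ← pow_mul, mul_comm 3 2, pow_mul, ← Real.rpow_natCast _ 3,
    ← Real.rpow_mul (by positivity)]
  congr 1
  push_cast
  ring

theorem c0ne (hb : BA) (h1 : CO) (h2 : Tate) : C0ne := by
  intro h0
  obtain ⟨C, hC, h1⟩ := h1
  obtain ⟨m, hm, hb0⟩ := c0_b0
  obtain ⟨c, hc, hg⟩ := c0_low
  have hi : Integrable b0 := contDiff_b0.continuous.integrable_of_hasCompactSupport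
    (HasCompactSupport.intro (isCompact_closedBall 0 1) fun x hx => by
      by_contra h
      exact hx (mem_closedBall_zero_iff.2 (by linarith [b0_supp h])))
  obtain ⟨H, hH⟩ : ∃ H : ℂ → ℂ, H = fun z => ∫ y, b0 y * psi (y ^ 3 * z) := ⟨_, rfl⟩
  have hHc : Continuous H := by
    rw [hH]
    refine continuous_of_dominated (bound := fun y => ‖b0 y‖) (fun z => ?_)
      (fun z => ae_of_all _ fun y => ?_) hi.norm (ae_of_all _ fun y => ?_)
    · exact (contDiff_b0.continuous.mul (continuous_psi.comp (by fun_prop))).aestronglyMeasurable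
    · rw [norm_mul, norm_psi, mul_one]
    · exact continuous_const.mul (continuous_psi.comp (by fun_prop))
  obtain ⟨K, hK⟩ : ∃ K : ℝ, K = C * m + ∫ y, ‖b0 y‖ := ⟨_, rfl⟩
  have hI : 0 ≤ ∫ y, ‖b0 y‖ := integral_nonneg fun _ => norm_nonneg _
  have hK0 : 0 < K := by rw [hK]; positivity
  have hH1 : ∀ z, ‖H z‖ ≤ K := fun z => by
    rw [hH, hK]
    refine (norm_integral_le_integral_norm _).trans ?_
    simp only [norm_mul, norm_psi, mul_one]
    linarith [mul_pos hC hm]
  have hH2 : ∀ z, z ≠ 0 → ‖H z‖ ≤ K * (‖z‖ ^ 2) ^ (-(5 / 12) : ℝ) := fun z hz => by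
    have h := h1 b0 m z⁻¹ (inv_ne_zero hz) (contDiff_b0.of_le (by simp))
      (fun x => by simpa only [norm_iteratedFDeriv_zero] using hb0 0 zero_le_one x)
      (fun x => by simpa only [norm_iteratedFDeriv_one] using hb0 1 le_rfl x)
    simp only [h0, zero_mul, sub_zero, div_inv_eq_mul, mul_comm (psi _)] at h
    rw [norm_inv, ← Real.rpow_neg_eq_inv_rpow] at h
    rw [hH, ← Real.rpow_natCast _ 2, ← Real.rpow_mul (norm_nonneg _),
      show ((2 : ℕ) : ℝ) * -(5 / 12) = -(5 / 6) by norm_num]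
    exact h.trans (mul_le_mul_of_nonneg_right (by linarith) (by positivity))
  have hG := (c0_real hb c0_G_int).const_mul K
  obtain ⟨L, hL⟩ : ∃ L : ℝ, L = ∫ z : ℂ, K * c0G (‖z‖ ^ 2) := ⟨_, rfl⟩
  have key : ∀ s : ℝ, 1 / 4 ≤ s → s < 1 / 3 → c / (64 * (-(3 * s) + 1)) ≤ L := fun s hs1 hs2 => by
    have hr : -1 < -(3 * s) := by linarith
    have hd : ∀ᵐ z : ℂ, ‖H z‖ * (‖z‖ ^ 2) ^ (s - 1) ≤ K * c0G (‖z‖ ^ 2) := by
      filter_upwards [compl_mem_ae_iff.2 (measure_singleton (0 : ℂ))] with z hz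
      have hz0 : 0 < ‖z‖ ^ 2 := pow_pos (norm_pos_iff.2 hz) 2
      unfold c0G
      split_ifs with h
      · exact mul_le_mul (hH1 z) (Real.rpow_le_rpow_of_exponent_ge hz0 h (by linarith))
          (by positivity) hK0.le
      · refine (mul_le_mul_of_nonneg_right (hH2 z hz) (by positivity)).trans ?_
        rw [mul_assoc, ← Real.rpow_add hz0]
        exact mul_le_mul_of_nonneg_left
          (Real.rpow_le_rpow_of_exponent_le (not_le.1 h).le (by linarith)) hK0.le
    have hm : Integrable fun z : ℂ => ‖H z‖ * (‖z‖ ^ 2) ^ (s - 1) :=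
      hG.mono' (Measurable.aestronglyMeasurable (hHc.measurable.norm.mul (by fun_prop))) (by
        filter_upwards [hd] with z hz
        rwa [Real.norm_of_nonneg (by positivity)])
    have h := h2 b0 (fun y => y ^ 3) s (by simpa using (by linarith : 0 < s))
      (by simpa using (by linarith : s < 1)) hi (by fun_prop)
      (by
        filter_upwards [compl_mem_ae_iff.2 (measure_singleton (0 : ℂ))] with z hz
        exact pow_ne_zero 3 hz)
      (by
        simp only [ofReal_re, c0_pow, b0, norm_real, Real.norm_of_nonneg b1B.nonneg]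
        exact c0_real hb (c0_b1_int hr))
      (by simpa only [hH, ofReal_re] using hm)
    have h3 : ∫ y : ℂ, b0 y * ((‖y ^ 3‖ ^ 2 : ℝ) : ℂ) ^ (-(s : ℂ)) =
        ((Real.pi * ∫ y in Ioi (0 : ℝ), b1B y * y ^ (-(3 * s)) : ℝ) : ℂ) := by
      rw [ofReal_mul, ← integral_complex_ofReal, ← hb.polar]
      refine integral_congr_ae (ae_of_all _ fun y => ?_)
      simp only [b0]
      rw [← ofReal_neg, ← ofReal_cpow (by positivity), c0_pow, ofReal_mul]
    have h4 := c0_b1_low hr (by linarith)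
    have h5 : ‖∫ z : ℂ, (∫ y, b0 y * psi (y ^ 3 * z)) * ((‖z‖ ^ 2 : ℝ) : ℂ) ^ ((s : ℂ) - 1)‖ ≤ L := by
      rw [hL]
      refine norm_integral_le_of_norm_le hG ?_
      filter_upwards [hd] with z hz
      rw [norm_mul, ← ofReal_one, ← ofReal_sub, ← ofReal_cpow (by positivity), norm_real,
        Real.norm_of_nonneg (by positivity)]
      simpa only [hH] using hz
    have h6 : 0 < -(3 * s) + 1 := by linarith
    have h7 : 0 < 1 / (32 * (-(3 * s) + 1)) := by positivity
    rw [h, h3, norm_mul, norm_mul, norm_real, norm_real, Real.norm_of_nonneg (by positivity),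
      Real.norm_of_nonneg (mul_nonneg Real.pi_pos.le (h7.le.trans h4))] at h5
    refine le_trans ?_ h5
    calc _ = 1 / 2 * c * (1 * (1 / (32 * (-(3 * s) + 1)))) := by
          field_simp
          ring
      _ ≤ _ := by
          gcongr
          · exact Real.one_le_sqrt.2 (by norm_num)
          · exact hg s ⟨hs1, hs2.le⟩
          · linarith [Real.pi_gt_three]
  have hL0 : 0 < L := lt_of_lt_of_le (by positivity) (key (1 / 4) le_rfl (by norm_num))
  obtain ⟨δ, hδ⟩ : ∃ δ : ℝ, δ = min (1 / 4) (c / (128 * L)) := ⟨_, rfl⟩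
  have hδ0 : 0 < δ := by rw [hδ]; positivity
  have hδ1 : δ ≤ 1 / 4 := hδ ▸ min_le_left _ _
  have hδ2 : δ * (128 * L) ≤ c := (le_div_iff₀ (by positivity)).1 (hδ ▸ min_le_right _ _)
  have h := key ((1 - δ) / 3) (by linarith) (by linarith)
  rw [show -(3 * ((1 - δ) / 3)) + 1 = δ by ring, div_le_iff₀ (by positivity)] at h
  nlinarith [mul_pos hδ0 hL0]

end Pat
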