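import Vale.Agent.P006.IfA
import Vale.Agent.P026.Wt
import Vale.Agent.P026.FtD

/-! The cubic oscillatory integral. -/

noncomputable section
namespace Pat
open QRH Complex MeasureTheory Filter
open scoped ComplexConjugate Classical ContDiff Topology

def cO_k : ℝ := 2 * Real.pi / √3
/-- The Wirtinger derivative. -/
def cO_d (F : ℂ → ℂ) (y : ℂ) : ℂ := (fderiv ℝ F y 1 - I * fderiv ℝ F y I) / 2
def cO_P (y : ℂ) : ℂ := psi (y ^ 3)
def cO_r (y : ℂ) : ℂ := (1 - b0 y) / (3 * cO_k * y ^ 2)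

theorem cO_kpos : 0 < cO_k := by
  unfold cO_k
  positivity

theorem cO_w {t : ℝ} (ht : 0 ≤ t) : (1 + t) ^ (-3 : ℝ) = ((1 + t) ^ 3)⁻¹ := by
  rw [Real.rpow_neg (by linarith), ← Real.rpow_natCast]
  norm_num

theorem cO_w_le {t : ℝ} (ht : 0 ≤ t) : (1 + t) ^ (-3 : ℝ) ≤ 1 :=
  Real.rpow_le_one_of_one_le_of_nonpos (by linarith) (by norm_num)

theorem cO_w_mul {t : ℝ} (ht : 0 ≤ t) : t * (1 + t) ^ (-3 : ℝ) ≤ 1 := by
  rw [cO_w ht, ← div_eq_mul_inv, div_le_one (by positivity)]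
  nlinarith [sq_nonneg t, pow_nonneg ht 3]

theorem cO_w_sqrt {t : ℝ} (ht : 0 ≤ t) : t * (1 + t) ^ (-3 : ℝ) ≤ √t := by
  rcases le_total t 1 with h | h
  · refine (mul_le_of_le_one_right ht (cO_w_le ht)).trans ?_
    exact Real.le_sqrt_of_sq_le (by nlinarith)
  · exact (cO_w_mul ht).trans (Real.one_le_sqrt.2 h)

theorem cO_w_half {t : ℝ} (ht : 0 ≤ t) :
    √t * (1 + t) ^ (-3 : ℝ) ≤ (1 + t) ^ (-(5 / 2) : ℝ) := by
  have h : (1 + t) ^ (-(5 / 2) : ℝ) = √(1 + t) * (1 + t) ^ (-3 : ℝ) := by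
    rw [Real.sqrt_eq_rpow, ← Real.rpow_add (by linarith)]
    norm_num
  rw [h]
  exact mul_le_mul_of_nonneg_right (Real.sqrt_le_sqrt (by linarith)) (by positivity)

theorem cO_P_eq : cO_P = fun y => Complex.exp (cO_k * (y ^ 3 - conj (y ^ 3))) := by
  funext y
  rw [cO_P, psi, Complex.sub_conj, cO_k]
  congr 1
  push_cast
  ring

theorem cO_P_smooth : ContDiff ℝ 1 cO_P := contDiff_psi.comp (contDiff_id.pow 3)

theorem cO_P_norm (y : ℂ) : ‖cO_P y‖ = 1 := norm_psi _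

theorem cO_P_fderiv (y v : ℂ) :
    fderiv ℝ cO_P y v = cO_P y * (cO_k * (3 * y ^ 2 * v - conj (3 * y ^ 2 * v))) := by
  have h1 := (hasDerivAt_pow 3 y).complexToReal_fderiv
  have h2 := ((h1.sub (conjCLE.toContinuousLinearMap.hasFDerivAt.comp y h1)).const_mul
    (cO_k : ℂ)).cexp
  have h3 := h2.congr_of_eventuallyEq (f₁ := cO_P) (.of_forall fun z => congrFun cO_P_eq z)
  rw [h3.fderiv, cO_P_eq]
  simp

theorem cO_P_d (y : ℂ) : cO_d cO_P y = 3 * cO_k * y ^ 2 * cO_P y := by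
  rw [cO_d, cO_P_fderiv, cO_P_fderiv]
  simp only [map_mul, conj_I, map_one]
  linear_combination (-(cO_P y * cO_k * (3 * y ^ 2 + conj 3 * conj (y ^ 2))) / 2) * I_mul_I

theorem cO_P_le (y v : ℂ) : ‖fderiv ℝ cO_P y v‖ ≤ 2 * ‖3 * cO_k * y ^ 2‖ * ‖v‖ := by
  have h := norm_sub_le (3 * y ^ 2 * v) (conj (3 * y ^ 2 * v))
  rw [Complex.norm_conj] at h
  rw [cO_P_fderiv, norm_mul, cO_P_norm, one_mul, norm_mul]
  refine (mul_le_mul_of_nonneg_left h (norm_nonneg _)).trans (le_of_eq ?_)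
  simp only [norm_mul]
  ring

theorem cO_d_le (F : ℂ → ℂ) (y : ℂ) : ‖cO_d F y‖ ≤ ‖fderiv ℝ F y‖ := by
  have h1 := (fderiv ℝ F y).le_opNorm 1
  have h2 := (fderiv ℝ F y).le_opNorm I
  have h3 := norm_sub_le (fderiv ℝ F y 1) (I * fderiv ℝ F y I)
  rw [norm_mul, norm_I, one_mul] at h3
  rw [norm_one, mul_one] at h1
  rw [norm_I, mul_one] at h2
  rw [cO_d, norm_div, Complex.norm_ofNat]
  linarith

theorem cO_fd_mul {F G : ℂ → ℂ} (hF : ContDiff ℝ 1 F) (hG : ContDiff ℝ 1 G) (y v : ℂ) :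
    fderiv ℝ (fun y => F y * G y) y v = fderiv ℝ F y v * G y + F y * fderiv ℝ G y v := by
  rw [fderiv_fun_mul (hF.differentiable one_ne_zero y) (hG.differentiable one_ne_zero y)]
  simp only [add_apply, smul_apply, smul_eq_mul]
  ring

theorem cO_d_mul {F G : ℂ → ℂ} (hF : ContDiff ℝ 1 F) (hG : ContDiff ℝ 1 G) (y : ℂ) :
    cO_d (fun y => F y * G y) y = cO_d F y * G y + F y * cO_d G y := by
  rw [cO_d, cO_d, cO_d, cO_fd_mul hF hG, cO_fd_mul hF hG]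
  ring

theorem cO_fd_cont {F : ℂ → ℂ} (hF : ContDiff ℝ 1 F) (v : ℂ) :
    Continuous fun y => fderiv ℝ F y v :=
  (hF.continuous_fderiv one_ne_zero).clm_apply continuous_const

theorem cO_d_cont {F : ℂ → ℂ} (hF : ContDiff ℝ 1 F) : Continuous (cO_d F) :=
  ((cO_fd_cont hF 1).sub (continuous_const.mul (cO_fd_cont hF I))).div_const _

theorem cO_zero {H : ℂ → ℂ} (hH : ContDiff ℝ 1 H) (h1 : Integrable H)
    (h2 : ∀ v, Integrable fun y => fderiv ℝ H y v) :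
    Integrable (cO_d H) ∧ ∫ y, cO_d H y = 0 := by
  have h3 : ∀ v, ∫ y, fderiv ℝ H y v = 0 := fun v => by
    have h := integral_mul_fderiv_eq_neg_fderiv_mul_of_integrable (μ := (volume : Measure ℂ))
      (f := fun _ : ℂ => (1 : ℂ)) (g := H) (v := v) (by simp) (by simpa using h2 v)
      (by simpa using h1) (fun _ _ => differentiableAt_const _)
      (fun x _ => hH.differentiable one_ne_zero x)
    simpa using h
  refine ⟨((h2 1).sub ((h2 I).const_mul I)).div_const 2, ?_⟩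
  simp only [cO_d]
  rw [integral_div, integral_sub (h2 1) ((h2 I).const_mul I), integral_const_mul, h3, h3]
  simp

theorem cO_dec {F : Type*} [NormedAddCommGroup F] {f : ℂ → F} (hf : Continuous f) {A : ℝ}
    (h : ∀ y, 1 ≤ ‖y‖ → ‖f y‖ ≤ A / ‖y‖ ^ 3) :
    ∃ C : ℝ, 0 < C ∧ ∀ y, ‖f y‖ ≤ C * (1 + ‖y‖) ^ (-3 : ℝ) := by
  obtain ⟨M, hM⟩ := (isCompact_closedBall (0 : ℂ) 1).exists_bound_of_continuousOn hf.continuousOn
  refine ⟨8 * (|M| + |A| + 1), by positivity, fun y => ?_⟩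
  have hy := norm_nonneg y
  rw [cO_w hy, ← div_eq_mul_inv, le_div_iff₀ (by positivity)]
  rcases le_total ‖y‖ 1 with h1 | h1
  · have h2 := (hM y (mem_closedBall_zero_iff.2 h1)).trans (le_abs_self M)
    have h3 : (1 + ‖y‖) ^ 3 ≤ 2 ^ 3 := pow_le_pow_left₀ (by positivity) (by linarith) 3
    have h4 := mul_le_mul h2 h3 (by positivity) (abs_nonneg M)
    nlinarith [abs_nonneg A]
  · have h2 := h y h1
    rw [le_div_iff₀ (by positivity)] at h2
    have h3 : (1 + ‖y‖) ^ 3 ≤ (2 * ‖y‖) ^ 3 := pow_le_pow_left₀ (by positivity) (by linarith) 3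
    have h4 := mul_le_mul_of_nonneg_left h3 (norm_nonneg (f y))
    nlinarith [abs_nonneg M, le_abs_self A]

theorem cO_b0_one {y : ℂ} (hy : ‖y‖ < 1 / 6) : b0 y = 1 := by
  have h : b1B.rIn = 1 / 32 := rfl
  rw [b0, b1B.one_of_mem_closedBall, ofReal_one]
  rw [h, mem_closedBall_zero_iff, Real.norm_of_nonneg (by positivity)]
  nlinarith [norm_nonneg y]

theorem cO_b0_zero {y : ℂ} (hy : 1 / 4 < ‖y‖) : b0 y = 0 := by
  by_contra h
  linarith [b0_supp h]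

theorem cO_b0_smooth : ContDiff ℝ 1 b0 := contDiff_b0.of_le (by exact_mod_cast le_top)

theorem cO_ev {y : ℂ} (hy : 1 ≤ ‖y‖) : ∀ᶠ z : ℂ in 𝓝 y, b0 z = 0 := by
  have h : ∀ᶠ z : ℂ in 𝓝 y, 1 / 4 < ‖z‖ :=
    continuous_norm.continuousAt.eventually (lt_mem_nhds (by linarith))
  exact h.mono fun z hz => cO_b0_zero hz

theorem cO_b0_bd : ∃ m : ℝ, (∀ x, ‖b0 x‖ ≤ m * (1 + ‖x‖) ^ (-3 : ℝ)) ∧
    ∀ x, ‖fderiv ℝ b0 x‖ ≤ m * (1 + ‖x‖) ^ (-3 : ℝ) := by
  obtain ⟨C1, h1, h1'⟩ := cO_dec cO_b0_smooth.continuous (A := 0) fun y hy => by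
    rw [cO_b0_zero (by linarith), norm_zero, zero_div]
  obtain ⟨C2, h2, h2'⟩ := cO_dec (cO_b0_smooth.continuous_fderiv one_ne_zero) (A := 0)
    fun y hy => by
      have h : b0 =ᶠ[𝓝 y] fun _ => 0 := cO_ev hy
      rw [h.fderiv_eq]
      simp
  refine ⟨C1 + C2, fun x => (h1' x).trans ?_, fun x => (h2' x).trans ?_⟩
  · exact mul_le_mul_of_nonneg_right (by linarith) (by positivity)
  · exact mul_le_mul_of_nonneg_right (by linarith) (by positivity)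

theorem cO_ne {y : ℂ} (hy : y ≠ 0) : 3 * (cO_k : ℂ) * y ^ 2 ≠ 0 :=
  mul_ne_zero (mul_ne_zero three_ne_zero (ofReal_ne_zero.2 cO_kpos.ne')) (pow_ne_zero 2 hy)

theorem cO_r_smooth : ContDiff ℝ 1 cO_r := by
  refine contDiff_iff_contDiffAt.2 fun y => ?_
  by_cases hy : y = 0
  · have h : ∀ᶠ z : ℂ in 𝓝 y, ‖z‖ < 1 / 6 :=
      continuous_norm.continuousAt.eventually (gt_mem_nhds (by simp [hy]))
    refine (contDiffAt_const (c := (0 : ℂ))).congr_of_eventuallyEq (h.mono fun z hz => ?_)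
    rw [cO_r, cO_b0_one hz, sub_self, zero_div]
  · have h1 : ContDiffAt ℝ 1 (fun y : ℂ => (3 * (cO_k : ℂ) * y ^ 2)⁻¹) y :=
      (contDiffAt_const.mul (contDiffAt_id.pow 2)).inv (cO_ne hy)
    exact (contDiffAt_const.sub cO_b0_smooth.contDiffAt).mul h1

theorem cO_r_mul (y : ℂ) : cO_r y * (3 * cO_k * y ^ 2) = 1 - b0 y := by
  by_cases hy : y = 0
  · rw [cO_b0_one (by rw [hy, norm_zero]; norm_num), hy]
    simp
  · rw [cO_r, div_mul_cancel₀ _ (cO_ne hy)]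

theorem cO_r_two (y : ℂ) : ‖cO_r y‖ * ‖3 * cO_k * y ^ 2‖ ≤ 2 := by
  have h := norm_sub_le 1 (b0 y)
  rw [← norm_mul, cO_r_mul]
  rw [norm_one] at h
  linarith [norm_b0_le y]

theorem cO_r_bd : ∃ C : ℝ, 0 < C ∧ (∀ y, ‖cO_r y‖ ≤ C * ‖y‖ * (1 + ‖y‖) ^ (-3 : ℝ)) ∧
    ∀ y, ‖fderiv ℝ cO_r y‖ ≤ C * (1 + ‖y‖) ^ (-3 : ℝ) := by
  have hk := cO_kpos
  obtain ⟨C2, h2, h2'⟩ := cO_dec (cO_r_smooth.continuous_fderiv one_ne_zero)
    (A := 2 / (3 * cO_k)) fun y hy => by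
      have hy0 : y ≠ 0 := norm_pos_iff.1 (by linarith)
      have h : cO_r =ᶠ[𝓝 y] fun y => (3 * (cO_k : ℂ) * y ^ 2)⁻¹ :=
        (cO_ev hy).mono fun z hz => by rw [cO_r, hz, sub_zero, one_div]
      have h3 := (((hasDerivAt_pow 2 y).const_mul (3 * (cO_k : ℂ))).fun_inv
        (cO_ne hy0)).complexToReal_fderiv
      rw [h.fderiv_eq, HasFDerivAt.fderiv h3, norm_smul, norm_one, mul_one]
      have hy1 : ‖y‖ ≠ 0 := by positivity
      simp only [norm_div, norm_neg, norm_mul, norm_pow, Complex.norm_real, Real.norm_of_nonneg hk.le,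
        Complex.norm_ofNat, Nat.cast_ofNat]
      refine le_of_eq ?_
      norm_num
      field_simp
  refine ⟨C2 + 343 / cO_k, by positivity, fun y => ?_, fun y => (h2' y).trans ?_⟩
  · by_cases hy : ‖y‖ < 1 / 6
    · rw [cO_r, cO_b0_one hy, sub_self, zero_div, norm_zero]
      positivity
    have hy0 : 0 < ‖y‖ := by linarith
    have h3 := cO_r_two y
    simp only [norm_mul, norm_pow, Complex.norm_real, Real.norm_of_nonneg hk.le,
      Complex.norm_ofNat] at h3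
    have h4 : (1 + ‖y‖) ^ 3 ≤ (7 * ‖y‖) ^ 3 := pow_le_pow_left₀ (by positivity) (by linarith) 3
    have h5 := mul_le_mul_of_nonneg_left h4 (norm_nonneg (cO_r y))
    have h6 : ‖cO_r y‖ * (7 * ‖y‖) ^ 3 ≤ 343 / cO_k * ‖y‖ := by
      rw [div_mul_eq_mul_div, le_div_iff₀ hk]
      nlinarith
    rw [cO_w hy0.le, ← div_eq_mul_inv, le_div_iff₀ (by positivity)]
    nlinarith
  · exact mul_le_mul_of_nonneg_right (le_add_of_nonneg_right (by positivity)) (by positivity)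

theorem cO_m {B : ℂ → ℂ} {m : ℝ} (h1 : ∀ x, ‖B x‖ ≤ m * (1 + ‖x‖) ^ (-3 : ℝ)) : 0 ≤ m := by
  have h := (norm_nonneg _).trans (h1 0)
  simpa using h

theorem cO_lip {B : ℂ → ℂ} {m : ℝ} (hB : ContDiff ℝ 1 B)
    (h1 : ∀ x, ‖B x‖ ≤ m * (1 + ‖x‖) ^ (-3 : ℝ))
    (h2 : ∀ x, ‖fderiv ℝ B x‖ ≤ m * (1 + ‖x‖) ^ (-3 : ℝ)) (x : ℂ) :
    ‖B x - B 0‖ ≤ 2 * m * √‖x‖ := by
  have hm := cO_m h1
  have h3 : ∀ x : ℂ, m * (1 + ‖x‖) ^ (-3 : ℝ) ≤ m := fun x =>
    mul_le_of_le_one_right hm (cO_w_le (norm_nonneg x))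
  rcases le_total ‖x‖ 1 with h | h
  · have h4 := convex_univ.norm_image_sub_le_of_norm_fderiv_le (𝕜 := ℝ) (f := B) (C := m)
      (fun x _ => hB.differentiable one_ne_zero x) (fun x _ => (h2 x).trans (h3 x))
      (Set.mem_univ 0) (Set.mem_univ x)
    rw [sub_zero] at h4
    have h5 : ‖x‖ ≤ √‖x‖ := Real.le_sqrt_of_sq_le (by nlinarith [norm_nonneg x])
    have h6 := mul_le_mul_of_nonneg_left h5 hm
    have h7 := mul_nonneg hm (Real.sqrt_nonneg ‖x‖)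
    linarith
  · have h4 := norm_sub_le (B x) (B 0)
    have h5 := mul_le_mul_of_nonneg_left (Real.one_le_sqrt.2 h) hm
    linarith [(h1 x).trans (h3 x), (h1 0).trans (h3 0)]

theorem cO_fd_comp {B : ℂ → ℂ} (hB : ContDiff ℝ 1 B) (ε y : ℂ) :
    ‖fderiv ℝ (fun y => B (ε * y)) y‖ ≤ ‖fderiv ℝ B (ε * y)‖ * ‖ε‖ := by
  have h1 := ((hasDerivAt_id y).const_mul ε).complexToReal_fderiv
  have h2 : HasFDerivAt (fun y => B (ε * y)) _ y :=
    (hB.differentiable one_ne_zero (ε * y)).hasFDerivAt.comp y h1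
  rw [h2.fderiv]
  refine (ContinuousLinearMap.opNorm_comp_le _ _).trans (le_of_eq ?_)
  rw [norm_smul, norm_one, mul_one, mul_one]

theorem cO_int {ε : ℂ} (hε : ε ≠ 0) : Integrable fun y : ℂ => (1 + ‖ε * y‖) ^ (-3 : ℝ) := by
  have h := (integrable_decay (σ := 3) (by norm_num)).comp_smul (norm_ne_zero_iff.2 hε)
  simpa only [norm_smul, norm_norm, norm_mul] using h

theorem cO_main : ∃ (G : ℂ) (C : ℝ), 0 < C ∧ ∀ (B : ℂ → ℂ) (m : ℝ) (ε : ℂ), ε ≠ 0 →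
    ContDiff ℝ 1 B → (∀ x, ‖B x‖ ≤ m * (1 + ‖x‖) ^ (-3 : ℝ)) →
    (∀ x, ‖fderiv ℝ B x‖ ≤ m * (1 + ‖x‖) ^ (-3 : ℝ)) →
    ‖(∫ y, cO_P y * B (ε * y)) - G * B 0‖ ≤ C * m * √‖ε‖ := by
  obtain ⟨C, hC, r1, r2⟩ := cO_r_bd
  obtain ⟨m0, b1, -⟩ := cO_b0_bd
  have hm0 := cO_m b1
  obtain ⟨g, hg⟩ : ∃ g : ℂ → ℂ, ∀ y, g y = cO_P y * (b0 y - cO_d cO_r y) := ⟨_, fun _ => rfl⟩
  have g1 : ∀ y, ‖g y‖ ≤ (m0 + C) * (1 + ‖y‖) ^ (-3 : ℝ) := fun y => by
    rw [hg, norm_mul, cO_P_norm, one_mul, add_mul]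
    exact (norm_sub_le _ _).trans (add_le_add (b1 y) ((cO_d_le _ y).trans (r2 y)))
  have g2 : Continuous g := by
    rw [funext hg]
    exact cO_P_smooth.continuous.mul (cO_b0_smooth.continuous.sub (cO_d_cont cO_r_smooth))
  have g3 : Integrable g := ((integrable_decay (σ := 3) (by norm_num)).const_mul _).mono'
    g2.aestronglyMeasurable (.of_forall g1)
  have j1 := integrable_decay (σ := 5 / 2) (by norm_num)
  obtain ⟨J, hJ⟩ : ∃ J, J = ∫ y : ℂ, (1 + ‖y‖) ^ (-(5 / 2) : ℝ) := ⟨_, rfl⟩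
  have hJ0 : 0 ≤ J := hJ ▸ integral_nonneg fun y => by positivity
  refine ⟨∫ y, g y, (2 * m0 + 3 * C) * J + 1, by positivity, fun B m ε hε hB h1 h2 => ?_⟩
  have hm := cO_m h1
  obtain ⟨A, hA⟩ : ∃ A : ℂ → ℂ, A = fun y => B (ε * y) := ⟨_, rfl⟩
  have a0 : ∀ y, A y = B (ε * y) := congrFun hA
  have a1 : ContDiff ℝ 1 A := hA ▸ hB.comp (contDiff_const.mul contDiff_id)
  have a2 : ∀ y, ‖A y‖ ≤ m * (1 + ‖ε * y‖) ^ (-3 : ℝ) := fun y => a0 y ▸ h1 _
  have a3 : ∀ y, ‖fderiv ℝ A y‖ ≤ m * (1 + ‖ε * y‖) ^ (-3 : ℝ) * ‖ε‖ := fun y =>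
    hA ▸ (cO_fd_comp hB ε y).trans (mul_le_mul_of_nonneg_right (h2 _) (norm_nonneg _))
  have r3 : ∀ y, ‖cO_r y‖ ≤ C := fun y => (r1 y).trans (by
    rw [mul_assoc]
    exact mul_le_of_le_one_right hC.le (cO_w_mul (norm_nonneg y)))
  have r4 : ∀ y, ‖fderiv ℝ cO_r y‖ ≤ C := fun y =>
    (r2 y).trans (mul_le_of_le_one_right hC.le (cO_w_le (norm_nonneg y)))
  have w1 := cO_int hε
  have s1 : ContDiff ℝ 1 fun y => cO_r y * A y := cO_r_smooth.mul a1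
  have s2 : ContDiff ℝ 1 fun y => cO_r y * A y * cO_P y := s1.mul cO_P_smooth
  obtain ⟨z1, z2⟩ := cO_zero s2 ((w1.const_mul (C * m)).mono' s2.continuous.aestronglyMeasurable
    (.of_forall fun y => by
      rw [norm_mul, cO_P_norm, mul_one, norm_mul, mul_assoc]
      exact mul_le_mul (r3 y) (a2 y) (norm_nonneg _) hC.le)) fun v =>
    (w1.const_mul ((C + C * ‖ε‖ + 4) * m * ‖v‖)).mono' (cO_fd_cont s2 v).aestronglyMeasurable
      (.of_forall fun y => by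
        have hv := norm_nonneg v
        have t1 := mul_le_mul (((fderiv ℝ cO_r y).le_opNorm v).trans
          (mul_le_mul_of_nonneg_right (r4 y) hv)) (a2 y) (norm_nonneg _) (by positivity)
        have t2 := mul_le_mul (r3 y) (((fderiv ℝ A y).le_opNorm v).trans
          (mul_le_mul_of_nonneg_right (a3 y) hv)) (norm_nonneg _) hC.le
        have t3 : ‖cO_r y‖ * ‖fderiv ℝ cO_P y v‖ ≤ 4 * ‖v‖ := by
          have t4 := mul_le_mul_of_nonneg_left (cO_P_le y v) (norm_nonneg (cO_r y))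
          have t5 := mul_le_mul_of_nonneg_right (cO_r_two y) hv
          linarith
        have t4 := mul_le_mul t3 (a2 y) (norm_nonneg _) (by positivity)
        rw [cO_fd_mul s1 cO_P_smooth, cO_fd_mul cO_r_smooth a1]
        refine (norm_add_le _ _).trans ?_
        rw [norm_mul, cO_P_norm, mul_one, norm_mul, norm_mul]
        refine (add_le_add_left (norm_add_le _ _) _).trans ?_
        rw [norm_mul, norm_mul]
        linarith)
  have i1 : Integrable fun y => cO_P y * A y := (w1.const_mul m).mono'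
    (cO_P_smooth.mul a1).continuous.aestronglyMeasurable (.of_forall fun y => by
      rw [norm_mul, cO_P_norm, one_mul]
      exact a2 y)
  have e1 : (∫ y, cO_P y * B (ε * y)) - (∫ y, g y) * B 0
      = ∫ y, (g y * (B (ε * y) - B 0) - cO_P y * (cO_r y * cO_d A y)) := by
    simp only [← a0]
    have i2 : Integrable fun y => cO_P y * A y - g y * B 0 := i1.sub (g3.mul_const _)
    have e0 := integral_sub i2 z1
    rw [z2, sub_zero] at e0
    rw [← integral_mul_const, ← integral_sub i1 (g3.mul_const _), ← e0]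
    refine integral_congr_ae (.of_forall fun y => ?_)
    have e2 := cO_r_mul y
    simp only [cO_d_mul s1 cO_P_smooth, cO_d_mul cO_r_smooth a1, cO_P_d, hg]
    linear_combination (-(A y * cO_P y)) * e2
  rw [e1]
  refine (norm_integral_le_of_norm_le (j1.const_mul ((2 * m0 + 3 * C) * m * √‖ε‖))
    (.of_forall fun y => ?_)).trans ?_
  · have hy := norm_nonneg y
    have t0 : √‖ε * y‖ = √‖ε‖ * √‖y‖ := by rw [norm_mul, Real.sqrt_mul (norm_nonneg _)]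
    have t1 := mul_le_mul (g1 y) (cO_lip hB h1 h2 (ε * y)) (norm_nonneg _) (by positivity)
    have t2 := mul_le_mul (r1 y) ((cO_d_le A y).trans (a3 y)) (norm_nonneg _) (by positivity)
    have t3 := mul_le_mul_of_nonneg_left (cO_w_sqrt (norm_nonneg (ε * y)))
      (by positivity : 0 ≤ C * m * (1 + ‖y‖) ^ (-3 : ℝ))
    have t4 := mul_le_mul_of_nonneg_left (cO_w_half hy)
      (by positivity : 0 ≤ (2 * m0 + 3 * C) * m * √‖ε‖)
    refine (norm_sub_le _ _).trans ?_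
    rw [norm_mul, norm_mul, cO_P_norm, one_mul, norm_mul]
    rw [t0] at t1 t3
    generalize (1 + ‖ε * y‖) ^ (-3 : ℝ) = W at t2 t3
    rw [norm_mul] at t3
    linarith
  · rw [integral_const_mul, ← hJ]
    have t1 := mul_nonneg hm (Real.sqrt_nonneg ‖ε‖)
    linarith

theorem cO : CO := by
  obtain ⟨G, C, hC, h⟩ := cO_main
  have hG : C0 = G := by
    obtain ⟨m, b1, b2⟩ := cO_b0_bd
    refine Tendsto.limUnder_eq (tendsto_iff_norm_sub_tendsto_zero.2 ?_)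
    have h1 : Tendsto (fun M : ℝ => C * m * √(M⁻¹)) atTop (𝓝 (C * m * √0)) :=
      (tendsto_inv_atTop_zero.sqrt).const_mul _
    rw [Real.sqrt_zero, mul_zero] at h1
    refine squeeze_zero' (.of_forall fun _ => norm_nonneg _) ?_ h1
    filter_upwards [eventually_gt_atTop 0] with M hM
    have h2 := h b0 m (M : ℂ)⁻¹ (inv_ne_zero (ofReal_ne_zero.2 hM.ne')) cO_b0_smooth b1 b2
    rw [cO_b0_one (by rw [norm_zero]; norm_num), mul_one, norm_inv, Complex.norm_real,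
      Real.norm_of_nonneg hM.le] at h2
    simpa only [cO_P, div_eq_inv_mul] using h2
  refine ⟨C, hC, fun B m t ht hB h1 h2 => ?_⟩
  obtain ⟨ε, rfl⟩ := IsAlgClosed.exists_pow_nat_eq t (n := 3) (by norm_num)
  have hε : ε ≠ 0 := fun h0 => ht (by rw [h0, zero_pow three_ne_zero])
  have hn : 0 < ‖ε‖ := norm_pos_iff.2 hε
  have e1 := integral_comp_mul_left_complex (fun x => psi (x ^ 3 / ε ^ 3) * B x) hε
  have e2 : ∀ y, psi ((ε * y) ^ 3 / ε ^ 3) = cO_P y := fun y => by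
    rw [mul_pow, mul_div_cancel_left₀ _ ht, cO_P]
  have e3 : ‖ε ^ 3‖ ^ (2 / 3 : ℝ) = ‖ε‖ ^ 2 := by
    rw [norm_pow, ← Real.rpow_natCast, ← Real.rpow_mul hn.le, ← Real.rpow_natCast]
    norm_num
  have e4 : ‖ε ^ 3‖ ^ (5 / 6 : ℝ) = ‖ε‖ ^ 2 * √‖ε‖ := by
    rw [norm_pow, ← Real.rpow_natCast, ← Real.rpow_mul hn.le, ← Real.rpow_natCast,
      Real.sqrt_eq_rpow, ← Real.rpow_add hn]
    norm_num
  have e5 : ((‖ε‖ ^ 2 : ℝ) : ℂ) ≠ 0 := ofReal_ne_zero.2 (by positivity)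
  simp only [e2] at e1
  rw [eq_inv_mul_iff_mul_eq₀ e5] at e1
  rw [← e1, e3, e4, hG, mul_comm G, mul_assoc, ← mul_sub, norm_mul, Complex.norm_real,
    Real.norm_of_nonneg (by positivity), mul_left_comm]
  exact mul_le_mul_of_nonneg_left (h B m ε hε hB h1 h2) (by positivity)

end Pat
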