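import Vale.Agent.P006.CRAux

/-! The critical range for products of primes. -/

noncomputable section
namespace Pat
open QRH Complex MeasureTheory Filter
open scoped ComplexConjugate Classical ContDiff Topology

def CR_PD (ε : ℝ) (k : ℕ) (C : ℝ) : Prop :=
  ∀ (w τ κ R S M : ℝ) (i : ℤ) (s : ℂ) (F : Finset E) (ρ : E → ℝ), 2 ≤ i →
    w ≤ Real.exp (i / 2) → |κ| ≤ 1 → |s.re| ≤ 1 → 1 ≤ R → R ^ (1 / 2 + ε) ≤ S →
    √(Real.exp (i / 2)) ≤ S → (∀ ξ ∈ F, ξ ∈ ball R ∧ ¬ IsCube ξ) → (∀ ξ, 0 ≤ ρ ξ) →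
    (∀ (a : Fin 4 → E → ℂ) (N : Fin 4 → ℝ), (∀ j n, ‖a j n‖ ≤ 1) → (∀ j, 1 ≤ N j) →
      ∏ j, N j ≤ 300 * Real.exp (i / 2) →
      (∀ j, N j ≤ 6 * √(Real.exp (i / 2)) ∨ ∀ ξ ∈ F, ‖Dn (a j) (N j) ξ‖ ≤ S) →
      ∑ ξ ∈ F, ρ ξ * ‖∏ j, Dn (a j) (N j) ξ‖ ^ 2 ≤ M) →
    ∑ ξ ∈ F, ρ ξ * ‖Ap w τ κ i s ξ‖ ^ 2
      ≤ C * Real.exp (i / 2) ^ ε * ((1 + |τ|) * (1 + ‖s‖)) ^ k * M

theorem CR_Bl_ge (l : List ℤ) (h : ∀ i ∈ l, 1 ≤ Real.exp (i / 2)) :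
    1 ≤ Bl l ∧ ∀ i ∈ l, Real.exp (i / 2) ≤ Bl l := by
  induction l with
  | nil => simp [Bl]
  | cons j l ih =>
    obtain ⟨h1, h2⟩ := ih fun i hi => h i (List.mem_cons_of_mem _ hi)
    have h3 := h j List.mem_cons_self
    rw [CR_Bl_cons]
    refine ⟨by nlinarith, fun i hi => ?_⟩
    rcases List.mem_cons.1 hi with rfl | hi
    · nlinarith
    · nlinarith [h2 i hi]

theorem CR_prod (hb : BA) {n k : ℕ} {C1 C C2 δ1 : ℝ} (hC : 0 ≤ C) (hC2 : 0 ≤ C2)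
    (h : CR_LV n C1 C) (hp : CR_PD (δ1 / 4) k C2) {F : Finset E} {l : List ℤ}
    (hB : 1 ≤ Bl l) (hB' : 3 ≤ Bl l ^ (0.02 : ℝ)) (hd : 0 < δ1) (hd' : δ1 ≤ 1 / 40000)
    (hF : ∀ ξ ∈ F, ξ ∈ ball (Bl l ^ (1 + δ1)) ∧ ¬ IsCube ξ)
    (hA : HAf F (Bl l) δ1 (1 / 1000) C1) {w : ℝ} (τ : ℝ) {κ : ℝ} (hκ : |κ| ≤ 1) {s : ℂ}
    (hs : |s.re| ≤ 1) (hl : l.length ≤ n) (hw : w ≤ √(Bl l)) :
    ∑ ξ ∈ F, ‖(l.map fun i => Ap w τ κ i s ξ).prod‖ ^ 2 ≤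
      (C2 + 1) * (36 ^ n * C) * ((1 + |τ|) * (1 + ‖s‖)) ^ k *
        Bl l ^ (7 / 3 - 1 / 40000 : ℝ) := by
  set B := Bl l with hBl
  have hB0 : 0 < B := by linarith
  have hts : 1 ≤ ((1 + |τ|) * (1 + ‖s‖)) ^ k :=
    one_le_pow₀ (by nlinarith [abs_nonneg τ, norm_nonneg s])
  by_cases hz : ∃ i ∈ l, 3 * Real.exp (i / 2) < 4
  · obtain ⟨i, hi, h1⟩ := hz
    rw [Finset.sum_eq_zero]
    · positivity
    intro ξ _
    rw [List.prod_eq_zero (List.mem_map.2 ⟨i, hi, CR_Ap_zero hb w τ κ h1 s ξ⟩)]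
    simp
  push Not at hz
  have h1l : ∀ i ∈ l, 1 ≤ Real.exp (i / 2) := fun i hi => by linarith [hz i hi]
  have hF' : F ⊆ ball (B ^ (1 + δ1)) := fun ξ hξ => (hF ξ hξ).1
  have e62 : 3 * B ^ (0.6 : ℝ) ≤ B ^ (0.62 : ℝ) := by
    rw [show (0.62 : ℝ) = 0.02 + 0.6 by norm_num, Real.rpow_add hB0]
    gcongr
  by_cases hlong : ∃ i ∈ l, B ^ (0.6 : ℝ) < Real.exp (i / 2)
  · obtain ⟨i, hi, hi1⟩ := hlong
    have hperm := List.perm_cons_erase hi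
    set l' := l.erase i with hl'
    have eB : B = Real.exp (i / 2) * Bl l' := by
      rw [← CR_Bl_cons, hBl]
      unfold Bl
      rw [hperm.sum_eq]
    obtain ⟨g1, g2⟩ := CR_Bl_ge l' fun j hj => h1l j (List.mem_of_mem_erase hj)
    have g3 : Real.exp (i / 2) ≤ B := (CR_Bl_ge l h1l).2 i hi
    have g4 : Bl l' ≤ B ^ (0.6 : ℝ) := by
      have e1 : B ≤ B ^ (0.6 : ℝ) * B ^ (0.6 : ℝ) := by
        rw [← Real.rpow_add hB0]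
        calc B = B ^ (1 : ℝ) := (Real.rpow_one B).symm
          _ ≤ _ := Real.rpow_le_rpow_of_exponent_le hB (by norm_num)
      have e2 : 0 < B ^ (0.6 : ℝ) := Real.rpow_pos_of_pos hB0 _
      by_contra hc
      push Not at hc
      nlinarith
    have g5 : √B ≤ B ^ (0.6 : ℝ) := by
      rw [Real.sqrt_eq_rpow]
      exact Real.rpow_le_rpow_of_exponent_le hB (by norm_num)
    have g6 : 2 ≤ i := by
      have e1 : B ^ (0.02 : ℝ) ≤ B ^ (0.6 : ℝ) := Real.rpow_le_rpow_of_exponent_le hB (by norm_num)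
      have e2 : Real.exp 1 < Real.exp (i / 2) := by linarith [Real.exp_one_lt_d9]
      have e3 : (2 : ℝ) < i := by linarith [Real.exp_lt_exp.1 e2]
      exact_mod_cast e3.le
    have g7 : √(Real.exp (i / 2)) ≤ B ^ (1 / 2 : ℝ) := by
      rw [← Real.sqrt_eq_rpow]; exact Real.sqrt_le_sqrt g3
    have g8 := hp w τ κ (B ^ (1 + δ1)) (B ^ (1 / 2 + δ1))
      (36 ^ n * C * B ^ (7 / 3 - 1 / 10000 : ℝ)) i s F
      (fun ξ => ‖(l'.map fun i => Ap w τ κ i s ξ).prod‖ ^ 2) g6 (by linarith) hκ hs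
      (Real.one_le_rpow hB (by linarith)) ?_
      (g7.trans (Real.rpow_le_rpow_of_exponent_le hB (by linarith))) hF (fun _ => by positivity) ?_
    · have e : ∀ ξ, ‖(l.map fun i => Ap w τ κ i s ξ).prod‖ ^ 2 =
          ‖(l'.map fun i => Ap w τ κ i s ξ).prod‖ ^ 2 * ‖Ap w τ κ i s ξ‖ ^ 2 := by
        intro ξ
        rw [(hperm.map _).prod_eq, List.map_cons, List.prod_cons, norm_mul]
        ring
      simp only [e]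
      refine g8.trans ?_
      have e1 : Real.exp (i / 2) ^ (δ1 / 4) * B ^ (7 / 3 - 1 / 10000 : ℝ) ≤
          B ^ (7 / 3 - 1 / 40000 : ℝ) := by
        calc _ ≤ B ^ (δ1 / 4) * B ^ (7 / 3 - 1 / 10000 : ℝ) := by gcongr
          _ ≤ _ := by
            rw [← Real.rpow_add hB0]
            exact Real.rpow_le_rpow_of_exponent_le hB (by linarith)
      calc _ = C2 * (36 ^ n * C) * ((1 + |τ|) * (1 + ‖s‖)) ^ k *
            (Real.exp (i / 2) ^ (δ1 / 4) * B ^ (7 / 3 - 1 / 10000 : ℝ)) := by ring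
        _ ≤ _ := by gcongr; linarith
    · rw [← Real.rpow_mul hB0.le]
      exact Real.rpow_le_rpow_of_exponent_le hB (by nlinarith)
    · intro a N ha hN hpr hN'
      refine CR_short hb hC h hB hd hd' hF' hA w τ hκ hs
        ((List.length_erase_le).trans hl) (fun j hj => ⟨?_, ?_⟩) le_rfl a N ha hN ?_ fun j => ?_
      · linarith [h1l j (List.mem_of_mem_erase hj)]
      · linarith [g2 j hj]
      · rw [eB, ← mul_assoc]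
        gcongr
      · refine (hN' j).imp_left fun h1 => h1.trans ?_
        have e1 : B ^ (0.62 : ℝ) = B ^ (0.02 : ℝ) * B ^ (0.02 : ℝ) * B ^ (0.58 : ℝ) := by
          rw [← Real.rpow_add hB0, ← Real.rpow_add hB0]; norm_num
        have e2 : B ^ (1 / 2 : ℝ) ≤ B ^ (0.58 : ℝ) :=
          Real.rpow_le_rpow_of_exponent_le hB (by norm_num)
        rw [e1]
        calc 6 * √(Real.exp (i / 2)) ≤ 3 * 3 * B ^ (0.58 : ℝ) := by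
              linarith [Real.sqrt_nonneg (Real.exp (i / 2))]
          _ ≤ _ := by gcongr
  · push Not at hlong
    have g := CR_short hb hC h hB hd hd' hF' hA w τ hκ hs hl
      (fun j hj => ⟨by linarith [h1l j hj], by linarith [hlong j hj]⟩) (m := 0) (by norm_num)
      (fun j => j.elim0) (fun j => j.elim0) (fun j => j.elim0) (fun j => j.elim0)
      (by simp; linarith) (fun j => j.elim0)
    simp only [Finset.univ_eq_empty, Finset.prod_empty, norm_one, one_pow, mul_one] at g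
    refine g.trans ?_
    have e1 : B ^ (7 / 3 - 1 / 10000 : ℝ) ≤ B ^ (7 / 3 - 1 / 40000 : ℝ) :=
      Real.rpow_le_rpow_of_exponent_le hB (by norm_num)
    calc _ = 1 * (36 ^ n * C) * 1 * B ^ (7 / 3 - 1 / 10000 : ℝ) := by ring
      _ ≤ _ := by gcongr; linarith

def CR_NG (ε C : ℝ) : Prop :=
  ∀ (a : E → ℂ) (N R m0 Z : ℝ), 1 ≤ N → N ≤ Z → 1 ≤ R → R ≤ Z → 1 ≤ m0 → (∀ n, ‖a n‖ ≤ 1) →
    (∀ n, a n ≠ 0 → m0 ≤ Nsf n) →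
    ∑ ξ ∈ ball R, ‖Dn a N ξ‖ ^ 2 ≤ C * Z ^ ε * N *
      (R + (R ^ (1 / 3 : ℝ) * N + (R * N) ^ (2 / 3 : ℝ)) * m0 ^ (-(1 / 2) : ℝ))

theorem CR_err {C D B Λ δ1 δ2 η w : ℝ} (hC : 0 ≤ C) (hD : 0 < D) (h : CR_NG (δ1 / 4) C)
    (hB : 1 ≤ B) (hΛ : 1 ≤ Λ) (hd : 0 < δ1) (hd1 : δ1 ≤ 1 / 40000) (hd1' : δ1 ≤ η / 2)
    (hd2 : δ2 ≤ 1 / 40000) (hd2' : δ2 ≤ η / 4) (hw : B ^ η ≤ w) {a : E → ℂ}
    (ha : ∀ m, ‖a m‖ ≤ D) (ha' : ∀ m, a m ≠ 0 → w ^ 2 ≤ Nsf m) :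
    ∑ ξ ∈ ball (B ^ (1 + δ1)), ‖Dn a (Λ * B) ξ‖ ^ 2 ≤
      D ^ 2 * (C * (3 * Λ ^ 3)) * B ^ (7 / 3 - δ2) := by
  have hB0 : 0 < B := by linarith
  have hη : 0 < η := by linarith
  have hw1 : 1 ≤ w := (Real.one_le_rpow hB hη.le).trans hw
  have hR : B ^ (1 + δ1) ≤ B ^ (2 : ℝ) := Real.rpow_le_rpow_of_exponent_le hB (by linarith)
  have hB2 : B ≤ B ^ (2 : ℝ) := by
    calc B = B ^ (1 : ℝ) := (Real.rpow_one B).symm
      _ ≤ _ := Real.rpow_le_rpow_of_exponent_le hB (by norm_num)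
  have g := h (fun m => a m / D) (Λ * B) (B ^ (1 + δ1)) (w ^ 2) (Λ * B ^ (2 : ℝ)) (by nlinarith)
    (by gcongr) (Real.one_le_rpow hB (by linarith))
    (hR.trans (le_mul_of_one_le_left (by linarith) hΛ)) (one_le_pow₀ hw1)
    (fun m => by
      rw [norm_div, Complex.norm_real, Real.norm_of_nonneg hD.le]
      exact div_le_one_of_le₀ (ha m) hD.le)
    (fun m hm => ha' m fun h0 => hm (by simp [h0]))
  have e : ∀ ξ, ‖Dn a (Λ * B) ξ‖ ^ 2 = D ^ 2 * ‖Dn (fun m => a m / D) (Λ * B) ξ‖ ^ 2 := by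
    intro ξ
    have : Dn a (Λ * B) ξ = D * Dn (fun m => a m / D) (Λ * B) ξ := by
      unfold Dn
      rw [Finset.mul_sum]
      refine Finset.sum_congr rfl fun m _ => ?_
      have : (D : ℂ) ≠ 0 := by exact_mod_cast hD.ne'
      field_simp
    rw [this, norm_mul, Complex.norm_real, Real.norm_of_nonneg hD.le, mul_pow]
  simp only [e]
  rw [← Finset.mul_sum, mul_assoc (D ^ 2)]
  refine mul_le_mul_of_nonneg_left (g.trans ?_) (by positivity)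
  have e1 : (Λ * B ^ (2 : ℝ)) ^ (δ1 / 4) ≤ Λ * B ^ (δ1 / 2) := by
    rw [Real.mul_rpow (by linarith) (by positivity), ← Real.rpow_mul hB0.le,
      show 2 * (δ1 / 4) = δ1 / 2 by ring]
    gcongr
    calc Λ ^ (δ1 / 4) ≤ Λ ^ (1 : ℝ) := Real.rpow_le_rpow_of_exponent_le hΛ (by linarith)
      _ = Λ := Real.rpow_one Λ
  have e2 : (w ^ 2) ^ (-(1 / 2) : ℝ) ≤ B ^ (-η) := by
    rw [← Real.rpow_natCast, ← Real.rpow_mul (by linarith), Real.rpow_neg hB0.le]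
    norm_num
    rw [Real.rpow_neg_one]
    exact inv_anti₀ (Real.rpow_pos_of_pos hB0 _) hw
  set X := B ^ (4 / 3 - δ2 - δ1 / 2) with hX
  have e3 : B ^ (1 + δ1) ≤ Λ * X := by
    have : B ^ (1 + δ1) ≤ X := Real.rpow_le_rpow_of_exponent_le hB (by linarith)
    nlinarith [Real.rpow_pos_of_pos hB0 (1 + δ1)]
  have e4 : (B ^ (1 + δ1)) ^ (1 / 3 : ℝ) * (Λ * B) * B ^ (-η) ≤ Λ * X := by
    have : (B ^ (1 + δ1)) ^ (1 / 3 : ℝ) * B ^ (1 : ℝ) * B ^ (-η) ≤ X := by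
      rw [← Real.rpow_mul hB0.le, ← Real.rpow_add hB0, ← Real.rpow_add hB0]
      exact Real.rpow_le_rpow_of_exponent_le hB (by linarith)
    rw [Real.rpow_one] at this
    calc _ = Λ * ((B ^ (1 + δ1)) ^ (1 / 3 : ℝ) * B * B ^ (-η)) := by ring
      _ ≤ _ := by gcongr
  have e5 : (B ^ (1 + δ1) * (Λ * B)) ^ (2 / 3 : ℝ) * B ^ (-η) ≤ Λ * X := by
    have h1 : B ^ (1 + δ1) * (Λ * B) = Λ * B ^ (2 + δ1) := by
      rw [show 2 + δ1 = 1 + δ1 + 1 by ring, Real.rpow_add_one hB0.ne']; ring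
    have h2 : Λ ^ (2 / 3 : ℝ) ≤ Λ := by
      calc Λ ^ (2 / 3 : ℝ) ≤ Λ ^ (1 : ℝ) := Real.rpow_le_rpow_of_exponent_le hΛ (by norm_num)
        _ = Λ := Real.rpow_one Λ
    have h3 : (B ^ (2 + δ1)) ^ (2 / 3 : ℝ) * B ^ (-η) ≤ X := by
      rw [← Real.rpow_mul hB0.le, ← Real.rpow_add hB0]
      exact Real.rpow_le_rpow_of_exponent_le hB (by linarith)
    rw [h1, Real.mul_rpow (by linarith) (by positivity), mul_assoc]
    gcongr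
  have e6 : B ^ (δ1 / 2) * B * X = B ^ (7 / 3 - δ2) := by
    rw [hX, ← Real.rpow_add_one hB0.ne', ← Real.rpow_add hB0]
    congr 1; ring
  calc _ ≤ C * (Λ * B ^ (δ1 / 2)) * (Λ * B) * (B ^ (1 + δ1) + ((B ^ (1 + δ1)) ^ (1 / 3 : ℝ) *
        (Λ * B) + (B ^ (1 + δ1) * (Λ * B)) ^ (2 / 3 : ℝ)) * B ^ (-η)) := by gcongr
    _ ≤ C * (Λ * B ^ (δ1 / 2)) * (Λ * B) * (3 * (Λ * X)) := by
        gcongr
        rw [add_mul]; linarith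
    _ = _ := by rw [← e6]; ring

theorem CR_small {y : Finset P → ℂ} {Λ B δ1 : ℝ} (hy1 : ∀ c, ‖y c‖ ≤ Λ) (hΛ : 1 ≤ Λ) (hB : 1 ≤ B)
    (hB' : ¬ 3 ≤ B ^ (0.02 : ℝ)) (d3 : δ1 ≤ 1 / 40000) :
    ∑ ξ ∈ ball (B ^ (1 + δ1)), ‖Ds y (Λ * B) ξ‖ ^ 2 ≤
      12 * (3 ^ 50) ^ 2 * (12 * (Λ * 3 ^ 50) * Λ) ^ 2 := by
  have hB0 : 0 < B := by linarith
  have g1 : B ≤ 3 ^ 50 := by
    calc B = (B ^ (0.02 : ℝ)) ^ 50 := by
          rw [← Real.rpow_natCast, ← Real.rpow_mul hB0.le]; norm_num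
      _ ≤ 3 ^ 50 := by gcongr; linarith
  have g2 : B ^ (1 + δ1) ≤ (3 ^ 50) ^ 2 := by
    calc B ^ (1 + δ1) ≤ B ^ ((2 : ℕ) : ℝ) :=
          Real.rpow_le_rpow_of_exponent_le hB (by push_cast; linarith)
      _ = B ^ 2 := Real.rpow_natCast B 2
      _ ≤ _ := by gcongr
  calc _ ≤ (ball (B ^ (1 + δ1))).card • (12 * (Λ * 3 ^ 50) * Λ : ℝ) ^ 2 := by
        refine Finset.sum_le_card_nsmul _ _ _ fun ξ _ => ?_
        refine pow_le_pow_left₀ (norm_nonneg _) ((CR_Ds hy1 (by positivity) ξ).trans ?_) 2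
        gcongr
    _ ≤ _ := by
        rw [nsmul_eq_mul, mul_assoc 12]
        gcongr
        exact (card_ball_le (by positivity)).trans (by gcongr)

theorem CR_sq {x u v : ℂ} {m : ℕ} (hm : 0 < m) (h : (m : ℂ) * x = u - v) :
    ‖x‖ ^ 2 ≤ 2 * ‖u‖ ^ 2 + 2 * ‖v‖ ^ 2 := by
  have e1 : ‖x‖ ≤ ‖u‖ + ‖v‖ := by
    refine le_trans ?_ (norm_sub_le _ _)
    rw [← h, norm_mul, Complex.norm_natCast]
    exact le_mul_of_one_le_left (norm_nonneg _) (by exact_mod_cast hm)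
  nlinarith [norm_nonneg x, sq_nonneg (‖u‖ - ‖v‖)]

theorem CR_cover (T F1 F2 : Finset E) (p : E → Prop) (f : E → ℝ) (hf : ∀ ξ, 0 ≤ f ξ) :
    ∑ ξ ∈ T with p ξ, f ξ ≤ ∑ ξ ∈ (T.filter p).filter fun ξ => ξ ∈ F1, f ξ +
      ∑ ξ ∈ (T.filter p).filter fun ξ => ξ ∈ F2, f ξ +
      ∑ ξ ∈ T with p ξ ∧ ξ ∉ F1 ∧ ξ ∉ F2, f ξ := by
  rw [Finset.filter_filter, Finset.filter_filter]
  simp only [Finset.sum_filter]
  rw [← Finset.sum_add_distrib, ← Finset.sum_add_distrib]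
  refine Finset.sum_le_sum fun ξ _ => ?_
  have := hf ξ
  by_cases c0 : p ξ <;> by_cases c1 : ξ ∈ F1 <;> by_cases c2 : ξ ∈ F2 <;> simp [c0, c1, c2, this]

theorem CR_fam {F : Finset E} {x u v : E → ℂ} {m : ℕ} (hm : 0 < m)
    (h : ∀ ξ, (m : ℂ) * x ξ = u ξ - v ξ) {K2 K3 Q X X' : ℝ} (hK2 : 0 ≤ K2) (hK3 : 0 ≤ K3)
    (hQ : 1 ≤ Q) (hX : X' ≤ X) (hX0 : 0 ≤ X) (g1 : ∑ ξ ∈ F, ‖u ξ‖ ^ 2 ≤ K2 * Q * X')
    (g2 : ∑ ξ ∈ F, ‖v ξ‖ ^ 2 ≤ K3 * X) :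
    ∑ ξ ∈ F, ‖x ξ‖ ^ 2 ≤ (2 * K2 + 2 * K3) * (Q * X) := by
  have g5 : K2 * Q * X' ≤ K2 * (Q * X) := by
    rw [mul_assoc]; gcongr
  have g6 : K3 * X ≤ K3 * (Q * X) := by
    gcongr
    exact le_mul_of_one_le_left hX0 hQ
  calc _ ≤ ∑ ξ ∈ F, (2 * ‖u ξ‖ ^ 2 + 2 * ‖v ξ‖ ^ 2) := Finset.sum_le_sum fun ξ _ => CR_sq hm (h ξ)
    _ ≤ _ := by
      rw [Finset.sum_add_distrib, ← Finset.mul_sum, ← Finset.mul_sum]
      linarith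

theorem cR (hb : BA) (h1 : HA12) (h2 : RS) (h3 : LV) (h4 : PD) (h5 : CoI) (h6 : NG) : CR := by
  intro η n hη
  obtain ⟨δ1, d1, d3, d4⟩ : ∃ δ1 : ℝ, 0 < δ1 ∧ δ1 ≤ 1 / 40000 ∧ δ1 ≤ η / 2 :=
    ⟨min (1 / 40000) (η / 2), lt_min (by norm_num) (by linarith), min_le_left _ _, min_le_right _ _⟩
  obtain ⟨δ2, d2, d5, d6⟩ : ∃ δ2 : ℝ, 0 < δ2 ∧ δ2 ≤ 1 / 40000 ∧ δ2 ≤ η / 4 :=
    ⟨min (1 / 40000) (η / 4), lt_min (by norm_num) (by linarith), min_le_left _ _, min_le_right _ _⟩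
  have hΛ : (1 : ℝ) ≤ 3 ^ n := one_le_pow₀ (by norm_num)
  obtain ⟨C1, hC1, h1⟩ := h1 δ1 (1 / 2000) d1 (by linarith) (by norm_num)
  obtain ⟨C2, hC2, h2⟩ := h2 δ1 (1 / 2000) (3 ^ n) d1 (by linarith) (by norm_num) hΛ
  obtain ⟨C3, hC3, h3⟩ := h3 (n + 4) (300 * 3 ^ n) C1 (by linarith) hC1
  obtain ⟨k, C4, hC4, h4⟩ := h4 (δ1 / 4) (by linarith)
  obtain ⟨C5, hC5, h5⟩ := h5 n
  obtain ⟨C6, hC6, h6⟩ := h6 (δ1 / 4) (by linarith)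
  obtain ⟨K0, hK0⟩ : ∃ K0 : ℝ, K0 = 12 * (3 ^ 50) ^ 2 * (12 * (3 ^ n * 3 ^ 50) * 3 ^ n) ^ 2 :=
    ⟨_, rfl⟩
  obtain ⟨K1, hK1⟩ : ∃ K1 : ℝ, K1 = C2 * (12 * 3 ^ n * (3 ^ n) ^ 2) := ⟨_, rfl⟩
  obtain ⟨K2, hK2⟩ : ∃ K2 : ℝ, K2 = (C4 + 1) * (36 ^ n * C3) := ⟨_, rfl⟩
  obtain ⟨K3, hK3⟩ : ∃ K3 : ℝ, K3 = C5 ^ 2 * (C6 * (3 * (3 ^ n) ^ 3)) := ⟨_, rfl⟩
  have p0 : 0 < K0 := by rw [hK0]; positivity
  have p1 : 0 < K1 := by rw [hK1]; positivity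
  have p2 : 0 < K2 := by rw [hK2]; positivity
  have p3 : 0 < K3 := by rw [hK3]; positivity
  refine ⟨δ1, δ2, k, K0 + K1 + 4 * K2 + 4 * K3, d1, d2, by linarith, by positivity, ?_⟩
  intro w τ κ l hl hκ hB hw hw' s hs
  have hB0 : 0 < Bl l := by linarith
  have hy1 : ∀ c, ‖tw (nb w τ κ l) (Bl l) s c‖ ≤ 3 ^ n := CR_tw hb hκ hl hs
  obtain ⟨Q, hQ⟩ : ∃ Q, Q = ((1 + |τ|) * (1 + ‖s‖)) ^ k := ⟨_, rfl⟩
  have hQ1 : 1 ≤ Q := by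
    rw [hQ]; exact one_le_pow₀ (by nlinarith [abs_nonneg τ, norm_nonneg s])
  obtain ⟨X, hX⟩ : ∃ X, X = Bl l ^ (7 / 3 - δ2) := ⟨_, rfl⟩
  have hX1 : 1 ≤ X := by rw [hX]; exact Real.one_le_rpow hB (by linarith)
  have goal : (K0 + K1 + 4 * K2 + 4 * K3) * (1 + |τ|) ^ k * Bl l ^ (7 / 3 - δ2) * (1 + ‖s‖) ^ k =
      (K0 + K1 + 4 * K2 + 4 * K3) * (Q * X) := by rw [hQ, hX, mul_pow]; ring
  rw [goal]
  have hQX : X ≤ Q * X := le_mul_of_one_le_left (by linarith) hQ1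
  have hL : (0 : ℝ) ≤ 3 ^ n * Bl l := by positivity
  by_cases hB' : 3 ≤ Bl l ^ (0.02 : ℝ)
  swap
  · have g := CR_small hy1 hΛ hB hB' d3
    rw [← hK0] at g
    refine le_trans (Finset.sum_le_sum_of_subset_of_nonneg (Finset.filter_subset _ _)
      fun _ _ _ => by positivity) (g.trans ?_)
    calc K0 ≤ K0 + K1 + 4 * K2 + 4 * K3 := by linarith
      _ ≤ _ := le_mul_of_one_le_right (by positivity) (by linarith)
  have hB1 : 1 < Bl l := by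
    by_contra hc
    have : Bl l = 1 := by linarith
    rw [this, Real.one_rpow] at hB'
    linarith
  have hw1 : 1 ≤ w := (Real.one_le_rpow hB hη.le).trans hw
  obtain ⟨a, ha1, ha2, ha3⟩ := h5 w τ κ (3 ^ n * Bl l) l s hl hw1 hκ hs le_rfl
  have err := CR_err hC6.le hC5 h6 hB hΛ d1 d3 d4 d5 d6 hw ha1 ha2
  rw [← hK3, ← hX] at err
  have fam : ∀ F : Finset E,
      (∀ ξ ∈ F, ξ ∈ ball (Bl l ^ (1 + δ1)) ∧ Bl l ^ (1 / 10 : ℝ) ≤ Qc ξ) →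
      HAf F (Bl l) δ1 (1 / 1000) C1 →
      ∑ ξ ∈ F, ‖Ds (tw (nb w τ κ l) (Bl l) s) (3 ^ n * Bl l) ξ‖ ^ 2 ≤
        (2 * K2 + 2 * K3) * (Q * X) := by
    intro F hF hA
    have g1 := CR_prod hb hC3.le hC4.le h3 h4 hB hB' d1 d3 (F := F) (fun ξ hξ => ⟨(hF ξ hξ).1,
      fun hc => by
        have e1 := hb.cube_Qc ξ (mem_ball.1 (hF ξ hξ).1).1 hc
        have e2 := (hF ξ hξ).2
        have e3 : 1 < Bl l ^ (1 / 10 : ℝ) := Real.one_lt_rpow hB1 (by norm_num)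
        linarith⟩) hA τ hκ hs hl hw'
    rw [← hK2, ← hQ] at g1
    refine CR_fam (Nat.mul_pos (by positivity) (Nat.factorial_pos _)) ha3 p2.le p3.le hQ1 ?_
      (by linarith) g1 ((Finset.sum_le_sum_of_subset_of_nonneg (fun ξ hξ => (hF ξ hξ).1)
        fun _ _ _ => by positivity).trans err)
    rw [hX]
    exact Real.rpow_le_rpow_of_exponent_le hB (by linarith)
  obtain ⟨a1, a2⟩ := h1 (Bl l) hB
  rw [show 2 * (1 / 2000 : ℝ) = 1 / 1000 by norm_num] at a1 a2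
  have f1 := fam (((ball (Bl l ^ (1 + δ1))).filter fun ξ => Bl l ^ (1 / 10 : ℝ) ≤ Qc ξ).filter
      fun ξ => ξ ∈ Fam1 (Bl l) δ1 (1 / 2000))
    (fun ξ hξ => Finset.mem_filter.1 (Finset.mem_filter.1 hξ).1)
    fun S hS => a1 S fun ξ hξ => (Finset.mem_filter.1 (hS hξ)).2
  have f2 := fam (((ball (Bl l ^ (1 + δ1))).filter fun ξ => Bl l ^ (1 / 10 : ℝ) ≤ Qc ξ).filter
      fun ξ => ξ ∈ Fam2 (Bl l) δ1 (1 / 2000))
    (fun ξ hξ => Finset.mem_filter.1 (Finset.mem_filter.1 hξ).1)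
    fun S hS => a2 S fun ξ hξ => (Finset.mem_filter.1 (hS hξ)).2
  have f3 := h2 (Bl l) (3 ^ n * Bl l) (tw (nb w τ κ l) (Bl l) s) hB le_rfl
  have f4 : C2 * Bl l ^ (4 / 3 - 1 / 2000 / 10 : ℝ) *
      nrm2 (tw (nb w τ κ l) (Bl l) s) (3 ^ n * Bl l) ≤ K1 * (Q * X) := by
    have e1 : Bl l ^ (4 / 3 - 1 / 2000 / 10 : ℝ) * Bl l ≤ X := by
      rw [← Real.rpow_add_one hB0.ne', hX]
      exact Real.rpow_le_rpow_of_exponent_le hB (by linarith)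
    calc _ ≤ C2 * Bl l ^ (4 / 3 - 1 / 2000 / 10 : ℝ) * (12 * (3 ^ n * Bl l) * (3 ^ n) ^ 2) :=
          mul_le_mul_of_nonneg_left (CR_nrm2 hy1 hL) (by positivity)
      _ = K1 * (Bl l ^ (4 / 3 - 1 / 2000 / 10 : ℝ) * Bl l) := by rw [hK1]; ring
      _ ≤ _ := mul_le_mul_of_nonneg_left (e1.trans hQX) p1.le
  have f5 := CR_cover (ball (Bl l ^ (1 + δ1))) (Fam1 (Bl l) δ1 (1 / 2000))
    (Fam2 (Bl l) δ1 (1 / 2000)) (fun ξ => Bl l ^ (1 / 10 : ℝ) ≤ Qc ξ)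
    (fun ξ => ‖Ds (tw (nb w τ κ l) (Bl l) s) (3 ^ n * Bl l) ξ‖ ^ 2) fun _ => by positivity
  have f6 : 0 ≤ K0 * (Q * X) := by positivity
  refine le_trans (by convert f5) ?_
  refine (add_le_add (add_le_add (by convert f1) (by convert f2)) (f3.trans f4)).trans ?_
  linarith

end Pat
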