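import Vale.Agent.P006.IfB
import Vale.Agent.P026.Cnt
import Vale.Agent.P026.Sym

/-! The critical range: bounds for the coefficients. -/

noncomputable section
namespace Pat
open QRH Complex MeasureTheory Filter
open scoped ComplexConjugate Classical ContDiff Topology

theorem CR_pu_le (hb : BA) {w τ κ : ℝ} (hκ : |κ| ≤ 1) (i : ℤ) (p : P) : ‖pu w τ κ i p‖ ≤ 2 := by
  unfold pu
  split_ifs
  · have h0 : (0 : ℝ) < nm p.1 := by
      have := p.four_le_nm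
      exact_mod_cast (by omega : 0 < nm p.1)
    have h1 : ‖((nm p.1 : ℝ) : ℂ) ^ (τ * I)‖ = 1 := by
      rw [Complex.norm_cpow_eq_rpow_re_of_pos h0]; simp
    have h2 : ‖1 - κ * ((nm p.1 : ℝ) : ℂ) ^ (τ * I)‖ ≤ 2 := by
      refine (norm_sub_le _ _).trans ?_
      rw [norm_mul, h1, norm_one, Complex.norm_real, Real.norm_eq_abs]
      linarith
    rw [norm_mul, Complex.norm_real, Real.norm_of_nonneg (hb.bx_nonneg _)]
    have := hb.bx_le (Real.log (nm p.1) - i / 2)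
    have := hb.bx_nonneg (Real.log (nm p.1) - i / 2)
    nlinarith [norm_nonneg (1 - κ * ((nm p.1 : ℝ) : ℂ) ^ (τ * I))]
  · simp

theorem CR_pu_supp (hb : BA) {w τ κ : ℝ} {i : ℤ} {p : P} (h : pu w τ κ i p ≠ 0) :
    Real.exp (i / 2) ≤ nm p.1 ∧ (nm p.1 : ℝ) ≤ 3 * Real.exp (i / 2) := by
  have h0 : (0 : ℝ) < nm p.1 := by
    have := p.four_le_nm
    exact_mod_cast (by omega : 0 < nm p.1)
  have h1 : bx (Real.log (nm p.1) - i / 2) ≠ 0 := by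
    intro h2
    apply h
    unfold pu
    rw [h2]; simp
  obtain ⟨h2, h3⟩ := hb.bx_supp _ h1
  constructor
  · rw [← Real.exp_log h0]
    exact Real.exp_le_exp.2 (by linarith)
  · calc (nm p.1 : ℝ) = Real.exp (Real.log (nm p.1)) := (Real.exp_log h0).symm
      _ ≤ Real.exp (1 + i / 2) := Real.exp_le_exp.2 (by linarith)
      _ ≤ _ := by
        rw [Real.exp_add]
        gcongr
        linarith [Real.exp_one_lt_d9]

theorem CR_Bl_cons (i : ℤ) (l : List ℤ) : Bl (i :: l) = Real.exp (i / 2) * Bl l := by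
  unfold Bl
  rw [← Real.exp_add, List.sum_cons]
  push_cast
  ring_nf

theorem CR_Bl_pos (l : List ℤ) : 0 < Bl l := Real.exp_pos _

theorem CR_Bl_prod (l : List ℤ) : Bl l = (l.map fun i : ℤ => Real.exp (i / 2)).prod := by
  induction l with
  | nil => simp [Bl]
  | cons i l ih => rw [CR_Bl_cons, ih]; simp

theorem CR_Cv (hb : BA) {w τ κ : ℝ} (hκ : |κ| ≤ 1) (l : List ℤ) (c : Finset P) :
    ‖Cv (l.map (pu w τ κ)) c‖ ≤ ((2 ^ l.length * l.length.factorial : ℕ) : ℝ) ∧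
    (Cv (l.map (pu w τ κ)) c ≠ 0 →
      c.card = l.length ∧ Bl l ≤ Ns c ∧ Ns c ≤ 3 ^ l.length * Bl l) := by
  induction l generalizing c with
  | nil =>
    simp only [List.map_nil, Cv, List.length_nil]
    split_ifs with h
    · subst h
      simp [Bl, Ns_empty]
    · simp
  | cons i l ih =>
    have hs : Cv ((i :: l).map (pu w τ κ)) c ≠ 0 → c.card = (i :: l).length ∧
        Bl (i :: l) ≤ Ns c ∧ Ns c ≤ 3 ^ (i :: l).length * Bl (i :: l) := by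
      intro h
      simp only [List.map_cons, Cv] at h
      obtain ⟨p, hp, h1⟩ := Finset.exists_ne_zero_of_sum_ne_zero h
      obtain ⟨h2, h3⟩ := mul_ne_zero_iff.1 h1
      obtain ⟨h4, h5, h6⟩ := (ih _).2 h3
      obtain ⟨h7, h8⟩ := CR_pu_supp hb h2
      have e : Ns c = nm p.1 * Ns (c.erase p) := by
        rw [Ns_eq_prod, Ns_eq_prod, Finset.mul_prod_erase c (fun p => (nm p.1 : ℝ)) hp]
      have hB := CR_Bl_pos l
      rw [e, CR_Bl_cons, List.length_cons, ← h4, Finset.card_erase_add_one hp]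
      refine ⟨rfl, by gcongr, ?_⟩
      calc (nm p.1 : ℝ) * Ns (c.erase p) ≤ 3 * Real.exp (i / 2) * (3 ^ l.length * Bl l) := by
            have := (Ns_pos (c.erase p)).le
            gcongr
        _ = _ := by rw [← Finset.card_erase_add_one hp, h4]; ring
    refine ⟨?_, hs⟩
    by_cases h : Cv ((i :: l).map (pu w τ κ)) c = 0
    · rw [h, norm_zero]; positivity
    have hc := (hs h).1
    simp only [List.map_cons, Cv]
    calc _ ≤ ∑ p ∈ c, ‖pu w τ κ i p * Cv (l.map (pu w τ κ)) (c.erase p)‖ := norm_sum_le _ _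
      _ ≤ c.card • (2 * ((2 ^ l.length * l.length.factorial : ℕ) : ℝ)) := by
        refine Finset.sum_le_card_nsmul _ _ _ fun p _ => ?_
        rw [norm_mul]
        exact mul_le_mul (CR_pu_le hb hκ i p) (ih _).1 (norm_nonneg _) (by norm_num)
      _ = _ := by
        rw [hc, nsmul_eq_mul, List.length_cons, Nat.factorial_succ]
        push_cast
        ring

theorem CR_cpow {x M : ℝ} {s : ℂ} (h1 : 1 ≤ x) (h2 : x ≤ M) (hs : |s.re| ≤ 1) :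
    ‖(x : ℂ) ^ s‖ ≤ M := by
  rw [Complex.norm_cpow_eq_rpow_re_of_pos (by linarith)]
  calc x ^ s.re ≤ x ^ (1 : ℝ) := Real.rpow_le_rpow_of_exponent_le h1 (le_of_abs_le hs)
    _ ≤ M := by rwa [Real.rpow_one]

theorem CR_tw (hb : BA) {w τ κ : ℝ} (hκ : |κ| ≤ 1) {l : List ℤ} {n : ℕ} (hl : l.length ≤ n)
    {s : ℂ} (hs : |s.re| ≤ 1) (c : Finset P) : ‖tw (nb w τ κ l) (Bl l) s c‖ ≤ 3 ^ n := by
  obtain ⟨h1, h2⟩ := CR_Cv hb (w := w) (τ := τ) hκ l c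
  unfold tw nb
  by_cases h : Cv (l.map (pu w τ κ)) c = 0
  · rw [h]; simp
  obtain ⟨-, h3, h4⟩ := h2 h
  have hB := CR_Bl_pos l
  have h5 : ‖((Ns c / Bl l : ℝ) : ℂ) ^ s‖ ≤ 3 ^ n := by
    refine CR_cpow ((one_le_div hB).2 h3) ?_ hs
    rw [div_le_iff₀ hB]
    refine h4.trans ?_
    gcongr
    norm_num
  have h6 : ‖Cv (l.map (pu w τ κ)) c / ((2 ^ l.length * l.length.factorial : ℕ) : ℂ)‖ ≤ 1 := by
    rw [norm_div, Complex.norm_natCast]
    exact div_le_one_of_le₀ h1 (by positivity)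
  rw [norm_mul, Complex.norm_conj]
  calc _ ≤ 1 * (3 : ℝ) ^ n := by gcongr
    _ = _ := one_mul _

theorem CR_nrm2 {y : Finset P → ℂ} {M L : ℝ} (h : ∀ c, ‖y c‖ ≤ M) (hL : 0 ≤ L) :
    nrm2 y L ≤ 12 * L * M ^ 2 := by
  unfold nrm2
  calc _ ≤ (sqf L).card • M ^ 2 :=
        Finset.sum_le_card_nsmul _ _ _ fun c _ => pow_le_pow_left₀ (norm_nonneg _) (h c) 2
    _ ≤ _ := by
      rw [nsmul_eq_mul]
      gcongr
      exact card_sqf_le hL

theorem CR_Ds {y : Finset P → ℂ} {M L : ℝ} (h : ∀ c, ‖y c‖ ≤ M) (hL : 0 ≤ L) (ξ : E) :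
    ‖Ds y L ξ‖ ≤ 12 * L * M := by
  have hM : 0 ≤ M := (norm_nonneg _).trans (h ∅)
  unfold Ds
  calc _ ≤ ∑ c ∈ sqf L, ‖y c * xs c3 c ξ‖ := norm_sum_le _ _
    _ ≤ (sqf L).card • M := by
      refine Finset.sum_le_card_nsmul _ _ _ fun c _ => ?_
      rw [norm_mul]
      calc _ ≤ M * 1 := mul_le_mul (h c) (norm_xs_le ch_c3 c ξ) (norm_nonneg _) hM
        _ = M := mul_one M
    _ ≤ _ := by
      rw [nsmul_eq_mul]
      gcongr
      exact card_sqf_le hL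

theorem CR_Ap (hb : BA) (w τ : ℝ) {κ : ℝ} (hκ : |κ| ≤ 1) (i : ℤ) {s : ℂ} (hs : |s.re| ≤ 1) :
    ∃ a : E → ℂ, (∀ n, ‖a n‖ ≤ 1) ∧
      ∀ ξ, Ap w τ κ i s ξ = 6 * Dn a (3 * Real.exp (i / 2)) ξ := by
  set g : P → ℂ := fun p =>
    conj (pu w τ κ i p) * ((nm p.1 / Real.exp (i / 2) : ℝ) : ℂ) ^ s / 6 with hg
  have hg1 : ∀ p, ‖g p‖ ≤ 1 := by
    intro p
    by_cases h : pu w τ κ i p = 0
    · simp [hg, h]
    obtain ⟨h1, h2⟩ := CR_pu_supp hb h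
    have h3 : ‖((nm p.1 / Real.exp (i / 2) : ℝ) : ℂ) ^ s‖ ≤ 3 :=
      CR_cpow ((one_le_div (Real.exp_pos _)).2 h1) ((div_le_iff₀ (Real.exp_pos _)).2 h2) hs
    have h4 := mul_le_mul (CR_pu_le hb (w := w) (τ := τ) hκ i p) h3 (norm_nonneg _) (by norm_num)
    simp only [hg]
    rw [norm_div, norm_mul, Complex.norm_conj, Complex.norm_ofNat]
    linarith
  set y : Finset P → ℂ := fun c => if c.card = 1 then ∑ p ∈ c, g p else 0 with hy
  have hy1 : ∀ c, ‖y c‖ ≤ 1 := by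
    intro c
    simp only [hy]
    split_ifs with h
    · obtain ⟨p, rfl⟩ := Finset.card_eq_one.1 h
      simpa using hg1 p
    · simp
  refine ⟨ex y, fun n => ?_, fun ξ => ?_⟩
  · unfold ex
    split_ifs
    · exact hy1 _
    · simp
  rw [hb.ex_Dn]
  have : Ds y (3 * Real.exp (i / 2)) ξ = ∑ c ∈ sqf (3 * Real.exp (i / 2)) with c.card = 1,
      (∑ p ∈ c, g p) * xs c3 c ξ := by
    unfold Ds
    rw [Finset.sum_filter]
    refine Finset.sum_congr rfl fun c _ => ?_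
    simp only [hy]
    split_ifs <;> simp
  rw [this, hb.sum_prs, Finset.mul_sum]
  unfold Ap
  refine Finset.sum_congr rfl fun p _ => ?_
  simp only [Finset.sum_singleton, xs, Finset.prod_singleton, hg]
  ring

theorem CR_Ap_zero (hb : BA) (w τ κ : ℝ) {i : ℤ} (h : 3 * Real.exp (i / 2) < 4) (s : ℂ) (ξ : E) :
    Ap w τ κ i s ξ = 0 := by
  unfold Ap
  refine Finset.sum_eq_zero fun p hp => ?_
  rw [hb.mem_prs] at hp
  have : (4 : ℝ) ≤ nm p.1 := by exact_mod_cast p.four_le_nm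
  linarith

/-- The large values bound with fixed parameters. -/
def CR_LV (n : ℕ) (C1 C : ℝ) : Prop :=
  ∀ (ι : Type) (J : Finset ι) (B δ1 : ℝ) (F : Finset E) (a : ι → E → ℂ) (N : ι → ℝ),
    J.card ≤ n + 4 → 1 ≤ B → 0 < δ1 → δ1 ≤ 1 / 40000 → F ⊆ ball (B ^ (1 + δ1)) →
    HAf F B δ1 (1 / 1000) C1 → (∀ i n, ‖a i n‖ ≤ 1) → (∀ i ∈ J, 1 ≤ N i) →
    ∏ i ∈ J, N i ≤ 300 * 3 ^ n * B →
    (∀ i ∈ J, N i ≤ B ^ (0.62 : ℝ) ∨ ∀ ξ ∈ F, ‖Dn (a i) (N i) ξ‖ ≤ B ^ (1 / 2 + δ1)) →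
    ∑ ξ ∈ F, ‖∏ i ∈ J, Dn (a i) (N i) ξ‖ ^ 2 ≤ C * B ^ (7 / 3 - 1 / 10000 : ℝ)

theorem CR_short (hb : BA) {n : ℕ} {C1 C : ℝ} (hC : 0 ≤ C) (h : CR_LV n C1 C) {B δ1 : ℝ}
    {F : Finset E}
    (hB : 1 ≤ B) (hd : 0 < δ1) (hd' : δ1 ≤ 1 / 40000) (hF : F ⊆ ball (B ^ (1 + δ1)))
    (hA : HAf F B δ1 (1 / 1000) C1) (w τ : ℝ) {κ : ℝ} (hκ : |κ| ≤ 1) {s : ℂ} (hs : |s.re| ≤ 1)
    {l : List ℤ} (hl : l.length ≤ n)
    (hl1 : ∀ i ∈ l, 1 ≤ 3 * Real.exp (i / 2) ∧ 3 * Real.exp (i / 2) ≤ B ^ (0.62 : ℝ))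
    {m : ℕ} (hm : m ≤ 4) (a : Fin m → E → ℂ) (N : Fin m → ℝ) (ha : ∀ j n, ‖a j n‖ ≤ 1)
    (hN : ∀ j, 1 ≤ N j) (hp : (∏ j, N j) * Bl l ≤ 300 * B)
    (hN' : ∀ j, N j ≤ B ^ (0.62 : ℝ) ∨ ∀ ξ ∈ F, ‖Dn (a j) (N j) ξ‖ ≤ B ^ (1 / 2 + δ1)) :
    ∑ ξ ∈ F, ‖(l.map fun i => Ap w τ κ i s ξ).prod‖ ^ 2 * ‖∏ j, Dn (a j) (N j) ξ‖ ^ 2
      ≤ 36 ^ n * C * B ^ (7 / 3 - 1 / 10000 : ℝ) := by
  choose b hb1 hb2 using fun i : ℤ => CR_Ap hb w τ hκ i hs
  have h1 := h (Fin m ⊕ Fin l.length) Finset.univ B δ1 F (Sum.elim a fun j => b l[j])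
    (Sum.elim N fun j => 3 * Real.exp (l[j] / 2)) (by simp; omega) hB hd hd' hF hA
    (by rintro (j | j) x; exacts [ha j x, hb1 _ x])
    (by rintro (j | j) -; exacts [hN j, (hl1 _ (List.getElem_mem _)).1]) ?_
    (by rintro (j | j) -; exacts [hN' j, Or.inl (hl1 _ (List.getElem_mem _)).2])
  · have e : ∀ ξ, ‖(l.map fun i => Ap w τ κ i s ξ).prod‖ ^ 2 * ‖∏ j, Dn (a j) (N j) ξ‖ ^ 2 =
        36 ^ l.length * ‖∏ i : Fin m ⊕ Fin l.length, Dn (Sum.elim a (fun j => b l[j]) i)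
          (Sum.elim N (fun j => 3 * Real.exp (((l[j] : ℤ) : ℝ) / 2)) i) ξ‖ ^ 2 := by
      intro ξ
      rw [Fintype.prod_sum_type, ← Fin.prod_univ_fun_getElem l fun i => Ap w τ κ i s ξ]
      simp only [hb2, Sum.elim_inl, Sum.elim_inr, Finset.prod_mul_distrib, Finset.prod_const,
        Finset.card_univ, Fintype.card_fin, norm_mul, norm_pow, Complex.norm_ofNat, mul_pow,
        Fin.getElem_fin]
      rw [← pow_mul, mul_comm l.length 2, pow_mul]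
      norm_num
      ring
    simp only [e]
    rw [← Finset.mul_sum, mul_assoc]
    have : (36 : ℝ) ^ l.length ≤ 36 ^ n := by gcongr; norm_num
    exact mul_le_mul this h1 (Finset.sum_nonneg fun _ _ => by positivity) (by positivity)
  · rw [Fintype.prod_sum_type]
    simp only [Sum.elim_inl, Sum.elim_inr, Finset.prod_mul_distrib, Finset.prod_const,
      Finset.card_univ, Fintype.card_fin, Fin.getElem_fin]
    rw [Fin.prod_univ_fun_getElem l fun i : ℤ => Real.exp (i / 2), ← CR_Bl_prod]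
    have h3 : (3 : ℝ) ^ l.length ≤ 3 ^ n := by gcongr; norm_num
    have h0 : 0 ≤ (∏ j, N j) * Bl l :=
      mul_nonneg (Finset.prod_nonneg fun j _ => by linarith [hN j]) (CR_Bl_pos l).le
    calc (∏ j, N j) * (3 ^ l.length * Bl l) = 3 ^ l.length * ((∏ j, N j) * Bl l) := by ring
      _ ≤ 3 ^ n * (300 * B) := by gcongr
      _ = _ := by ring

end Pat
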