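import Vale.Agent.P006.IfC
import Vale.Agent.P026.Del
import Vale.Agent.P026.Pois

/-! The sum over cubes. -/

noncomputable section
namespace Pat
open QRH Complex MeasureTheory Filter
open scoped ComplexConjugate Classical ContDiff Topology

def cs_w (z : ℂ) : ℂ := (Om (1 * Real.log (‖z‖ ^ 2)) : ℝ)
def cs_g (z : ℂ) : ℂ := ft cs_w (z ^ 3)

theorem cs_Om_zero (hb : BA) : (Om 0 : ℂ) = 0 := by
  have h1 : Tendsto (fun v => (Om v : ℂ)) (𝓝[<] 0) (𝓝 (Om 0 : ℂ)) :=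
    (hb.Om_bump.smooth.continuous.tendsto 0).mono_left nhdsWithin_le_nhds
  refine tendsto_nhds_unique h1 (tendsto_const_nhds.congr' ?_)
  filter_upwards [self_mem_nhdsWithin] with v hv
  by_contra h
  exact absurd (hb.Om_bump.supp v (Ne.symm h)).1 (not_le.2 hv)

theorem cs_w_smooth (hb : BA) : ContDiff ℝ ∞ cs_w := by
  have h := hb.rad_smooth (fun v => (Om v : ℂ)) 0 hb.Om_bump.smooth
    (HasCompactSupport.intro (isCompact_Icc (a := 0) (b := 1)) fun v hv => by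
      by_contra h
      exact hv (hb.Om_bump.supp v h))
  convert h using 2 with z
  split_ifs with hz
  · simp [cs_w, hz, cs_Om_zero hb]
  · rw [cs_w, one_mul, add_zero]

theorem cs_w_supp (hb : BA) (z : ℂ) (h : cs_w z ≠ 0) : 1 ≤ ‖z‖ ∧ ‖z‖ ≤ 2 := by
  have hz : z ≠ 0 := fun hz => h (by simp [cs_w, hz, cs_Om_zero hb])
  have h0 : 0 < ‖z‖ ^ 2 := pow_pos (norm_pos_iff.2 hz) 2
  obtain ⟨h1, h2⟩ := hb.Om_bump.supp _ h
  rw [one_mul] at h1 h2
  rw [Real.log_nonneg_iff h0] at h1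
  rw [Real.log_le_iff_le_exp h0] at h2
  have h3 := Real.exp_one_lt_d9
  have h4 := norm_nonneg z
  constructor <;> nlinarith

theorem cs_rad (z : ℂ) : ft cs_w z = hO 1 (‖z‖ ^ 2) := by
  rw [hO, Real.sqrt_sq (norm_nonneg _)]
  change _ = ft cs_w (‖z‖ : ℝ)
  by_cases hz : z = 0
  · simp [hz]
  have h0 : (‖z‖ : ℂ) ≠ 0 := ofReal_ne_zero.2 (norm_ne_zero_iff.2 hz)
  have hu : ‖z / (‖z‖ : ℂ)‖ = 1 := by
    rw [norm_div, Complex.norm_real, norm_norm, div_self (norm_ne_zero_iff.2 hz)]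
  have h := ft_rot (f := cs_w) (k := 1) hu (fun y => by rw [cs_w, cs_w, norm_mul, hu]; simp)
    (‖z‖ : ℝ)
  rwa [one_mul, div_mul_cancel₀ _ h0] at h

theorem cs_g_eq (z : ℂ) : cs_g z = hO 1 ((‖z‖ ^ 2) ^ 3) := by
  rw [cs_g, cs_rad, norm_pow, ← pow_mul, ← pow_mul]

theorem cs_temp : Function.HasTemperateGrowth fun z : ℂ => z ^ 3 :=
  (Function.HasTemperateGrowth.id' (E := ℂ)).pow 3

theorem cs_ft_smooth (hb : BA) : ContDiff ℝ ∞ (ft cs_w) :=
  contDiff_ft (cs_w_smooth hb) fun z h => (cs_w_supp hb z h).2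

theorem cs_smooth (hb : BA) : ContDiff ℝ ∞ cs_g := (cs_ft_smooth hb).comp cs_temp.1

theorem cs_aux (m : ℕ) {r : ℝ} (hr : 0 ≤ r) :
    (1 + r ^ 3) ^ (-((m + 3 : ℕ) : ℝ)) * (1 + r) ^ m ≤ 2 ^ (m + 3) * (1 + r) ^ (-3 : ℝ) := by
  have h1 : 1 + r ≤ 2 * (1 + r ^ 3) := by
    nlinarith [mul_nonneg hr (sq_nonneg (r - 1)), sq_nonneg (r - 1), pow_nonneg hr 3,
      mul_nonneg hr (sq_nonneg (2 * r - 1))]
  have h2 : (1 + r) ^ (m + 3) ≤ 2 ^ (m + 3) * (1 + r ^ 3) ^ (m + 3) := by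
    rw [← mul_pow]
    gcongr
  rw [Real.rpow_neg (by positivity), Real.rpow_neg (by positivity), Real.rpow_natCast,
    show (3 : ℝ) = ((3 : ℕ) : ℝ) by norm_num, Real.rpow_natCast, inv_mul_eq_div,
    ← div_eq_mul_inv, div_le_div_iff₀ (by positivity) (by positivity), ← pow_add]
  exact h2

theorem cs_deriv (hb : BA) (j : ℕ) : ∃ K : ℝ, 0 ≤ K ∧
    ∀ z, ‖iteratedFDeriv ℝ j cs_g z‖ ≤ K * (1 + ‖z‖) ^ (-3 : ℝ) := by
  obtain ⟨k, C, hC, H⟩ := cs_temp.norm_iteratedFDeriv_le_uniform j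
  have hs := fun z h => (cs_w_supp hb z h).2
  obtain ⟨W, hW, hW'⟩ := exists_DB (cs_w_smooth hb) hs (k * j + 3)
  choose B hB hB' using ft_deriv_le (k * j + 3)
  have hS : 0 ≤ ∑ i ∈ Finset.range (j + 1), B i := Finset.sum_nonneg fun i _ => (hB i).le
  refine ⟨j.factorial * ((∑ i ∈ Finset.range (j + 1), B i) * W) * (C + 1) ^ j * 2 ^ (k * j + 3),
    by positivity, fun z => ?_⟩
  have h1 : (1 : ℝ) ≤ (1 + ‖z‖) ^ k := one_le_pow₀ (le_add_of_nonneg_right (norm_nonneg _))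
  have h2 : (1 : ℝ) ≤ (C + 1) * (1 + ‖z‖) ^ k :=
    one_le_mul_of_one_le_of_one_le (le_add_of_nonneg_left hC) h1
  have key := norm_iteratedFDeriv_comp_le (n := j) (N := ∞) (cs_ft_smooth hb) cs_temp.1
    (by exact_mod_cast le_top) z (C := (∑ i ∈ Finset.range (j + 1), B i) * W *
      (1 + ‖z‖ ^ 3) ^ (-((k * j + 3 : ℕ) : ℝ))) (D := (C + 1) * (1 + ‖z‖) ^ k)
    (fun i hi => by
      refine (hB' i _ W (cs_w_smooth hb) hs hW' _).trans ?_
      rw [norm_pow]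
      gcongr
      exact Finset.single_le_sum (fun i _ => (hB i).le) (Finset.mem_range.2 (by omega)))
    (fun i hi hij => by
      refine (H i hij z).trans (le_trans ?_ (le_self_pow₀ h2 (by omega)))
      gcongr
      exact le_add_of_nonneg_right zero_le_one)
  refine key.trans ?_
  rw [mul_pow, ← pow_mul]
  calc _ = j.factorial * ((∑ i ∈ Finset.range (j + 1), B i) * W) * (C + 1) ^ j *
        ((1 + ‖z‖ ^ 3) ^ (-((k * j + 3 : ℕ) : ℝ)) * (1 + ‖z‖) ^ (k * j)) := by ring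
    _ ≤ j.factorial * ((∑ i ∈ Finset.range (j + 1), B i) * W) * (C + 1) ^ j *
        (2 ^ (k * j + 3) * (1 + ‖z‖) ^ (-3 : ℝ)) :=
        mul_le_mul_of_nonneg_left (cs_aux (k * j) (norm_nonneg z)) (by positivity)
    _ = _ := by ring

theorem cs_g_le (hb : BA) : ∃ K : ℝ, 0 ≤ K ∧ ∀ z, ‖cs_g z‖ ≤ K * (1 + ‖z‖) ^ (-3 : ℝ) := by
  simpa only [norm_iteratedFDeriv_zero] using cs_deriv hb 0

theorem cs_ft_le (hb : BA) : ∃ K : ℝ, 0 ≤ K ∧ ∀ z, ‖ft cs_g z‖ ≤ K * (1 + ‖z‖) ^ (-3 : ℝ) := by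
  obtain ⟨C, hC, H⟩ := ft_decay 3
  have hn : ∀ j, 0 ≤ ∫ z, ‖iteratedFDeriv ℝ j cs_g z‖ := fun j =>
    integral_nonneg fun _ => norm_nonneg _
  refine ⟨C * ∑ j ∈ Finset.range 4, ∫ z, ‖iteratedFDeriv ℝ j cs_g z‖,
    mul_nonneg hC.le (Finset.sum_nonneg fun j _ => hn j), fun z => ?_⟩
  have := H cs_g _ (cs_smooth hb) (fun j _ => ?_) (fun j hj => Finset.single_le_sum
    (f := fun j => ∫ z, ‖iteratedFDeriv ℝ j cs_g z‖) (fun j _ => hn j)
    (Finset.mem_range.2 (Nat.lt_succ_of_le hj))) z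
  · simpa using this
  · obtain ⟨K, hK, HK⟩ := cs_deriv hb j
    refine ((integrable_decay (σ := 3) (by norm_num)).const_mul K).mono'
      ((cs_smooth hb).continuous_iteratedFDeriv
        (by exact_mod_cast le_top)).norm.aestronglyMeasurable (Eventually.of_forall fun z => ?_)
    rw [norm_norm]
    exact HK z

theorem cs_const : (2 / √3 : ℝ) * Real.pi * (1 / 3) *
    ((2 * Real.pi / √3) ^ (1 / 3 : ℝ) * Real.Gamma (1 / 3) / Real.Gamma (2 / 3))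
    = 27 * (9 : ℝ) ^ (-(1 / 3) : ℝ) * rho * kap ^ 2 := by
  have hp := Real.pi_pos
  have hG : 0 < Real.Gamma (2 / 3) := Real.Gamma_pos_of_pos (by norm_num)
  have h1 : Real.Gamma (1 / 3) = 2 * Real.pi / √3 / Real.Gamma (2 / 3) := by
    have h := Real.Gamma_mul_Gamma_one_sub (1 / 3)
    rw [show Real.pi * (1 / 3) = Real.pi / 3 by ring, Real.sin_pi_div_three,
      show (1 : ℝ) - 1 / 3 = 2 / 3 by norm_num] at h
    rw [eq_div_iff hG.ne', h]
    field_simp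
  obtain ⟨c, hc⟩ : ∃ c : ℝ, c = (3 : ℝ) ^ (1 / 6 : ℝ) := ⟨_, rfl⟩
  obtain ⟨t, ht⟩ : ∃ t : ℝ, t = (2 * Real.pi) ^ (1 / 3 : ℝ) := ⟨_, rfl⟩
  have hc0 : 0 < c := by rw [hc]; positivity
  have pc : ∀ n : ℕ, c ^ n = (3 : ℝ) ^ ((n : ℝ) / 6) := fun n => by
    rw [hc, ← Real.rpow_natCast, ← Real.rpow_mul (by norm_num)]
    congr 1
    ring
  have pt : ∀ n : ℕ, t ^ n = (2 * Real.pi) ^ ((n : ℝ) / 3) := fun n => by
    rw [ht, ← Real.rpow_natCast, ← Real.rpow_mul (by positivity)]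
    congr 1
    ring
  have e1 : √3 = c ^ 3 := by rw [pc, Real.sqrt_eq_rpow]; norm_num
  have e2 : (9 : ℝ) ^ (-(1 / 3) : ℝ) = (c ^ 4)⁻¹ := by
    rw [pc, show (9 : ℝ) = 3 ^ (2 : ℝ) by norm_num, ← Real.rpow_mul (by norm_num),
      ← Real.rpow_neg (by norm_num)]
    norm_num
  have e3 : (2 * Real.pi) ^ (2 / 3 : ℝ) = t ^ 2 := by rw [pt]; norm_num
  have e4 : (2 * Real.pi / √3) ^ (1 / 3 : ℝ) = t / c := by
    rw [Real.div_rpow (by positivity) (by positivity), ← ht, e1, ← Real.rpow_natCast,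
      ← Real.rpow_mul hc0.le]
    norm_num
  have e5 : Real.pi = t ^ 3 / 2 := by rw [pt]; norm_num
  have e6 : c ^ 6 = 3 := by rw [pc]; norm_num
  rw [h1, e4, rho, kap, e3, e2, e1, e5]
  field_simp
  ring

theorem cs_ft_zero (hb : BA) (h : TateW) :
    ft cs_g 0 = ((27 * (9 : ℝ) ^ (-(1 / 3) : ℝ) * rho * kap ^ 2 : ℝ) : ℂ) * mOm := by
  have h1 := h cs_w (1 / 3) (cs_w_smooth hb) (cs_w_supp hb) (by norm_num)
  have e1 := hb.polar fun y => hO 1 y * (y : ℂ) ^ ((1 / 3 : ℂ) - 1)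
  have e2 := hb.polar fun y => (Om (1 * Real.log y) : ℝ) * (y : ℂ) ^ (-(1 / 3 : ℂ))
  have e3 := hb.polar fun y => hO 1 (y ^ 3)
  have e4 : ∫ y in Set.Ioi (0 : ℝ), (Om (1 * Real.log y) : ℝ) * (y : ℂ) ^ (-(1 / 3 : ℂ)) = mOm := by
    rw [hb.polar_log, mOm, mo]
    refine integral_congr_ae (Eventually.of_forall fun v => ?_)
    beta_reduce
    rw [Real.log_exp, mul_assoc, show (-(1 / 3 : ℂ)) = ((-(1 / 3) : ℝ) : ℂ) by push_cast; rfl,
      ← Complex.ofReal_cpow (Real.exp_pos _).le, ← Complex.ofReal_mul, ← Real.exp_mul,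
      ← Real.exp_add]
    congr 3
    ring
  have e5 : 3 * ∫ y in Set.Ioi (0 : ℝ), hO 1 (y ^ 3)
      = ∫ y in Set.Ioi (0 : ℝ), hO 1 y * (y : ℂ) ^ ((1 / 3 : ℂ) - 1) := by
    rw [← integral_comp_rpow_Ioi_of_pos (p := 3) (by norm_num)
      (g := fun y => hO 1 y * (y : ℂ) ^ ((1 / 3 : ℂ) - 1)), ← integral_const_mul]
    refine setIntegral_congr_fun measurableSet_Ioi fun y (hy : 0 < y) => ?_
    beta_reduce
    have e6 : y ^ ((3 : ℝ) - 1) * (y ^ (3 : ℝ)) ^ (1 / 3 - 1 : ℝ) = 1 := by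
      rw [← Real.rpow_mul hy.le, ← Real.rpow_add hy]
      norm_num
    rw [show ((1 / 3 : ℂ) - 1) = ((1 / 3 - 1 : ℝ) : ℂ) by push_cast; rfl,
      ← Complex.ofReal_cpow (by positivity), Complex.real_smul, mul_comm (hO 1 _), ← mul_assoc,
      ← Complex.ofReal_mul, mul_assoc (3 : ℝ), e6, Real.rpow_ofNat]
    norm_num
  simp only [cs_rad] at h1
  simp only [cs_w] at h1
  rw [e1, e2, e4, ← e5] at h1
  have hp : (Real.pi : ℂ) ≠ 0 := ofReal_ne_zero.2 Real.pi_ne_zero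
  have e7 : ∫ y in Set.Ioi (0 : ℝ), hO 1 (y ^ 3) = 1 / 3 * (gam0 (1 / 3) * mOm) := by
    refine mul_left_cancel₀ hp ?_
    linear_combination (1 / 3) * h1
  have e8 : gam0 (1 / 3) = (((2 * Real.pi / √3) ^ (1 / 3 : ℝ) * Real.Gamma (1 / 3)
      / Real.Gamma (2 / 3) : ℝ) : ℂ) := by
    rw [Complex.ofReal_div, Complex.ofReal_mul, Complex.ofReal_cpow (by positivity),
      ← Complex.Gamma_ofReal, ← Complex.Gamma_ofReal, gam0]
    congr 3 <;> push_cast <;> norm_num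
  rw [ft]
  simp only [mul_zero, neg_zero, psi_zero, mul_one, cs_g_eq]
  rw [e3, e7, e8, ← cs_const]
  push_cast
  ring

theorem cs_small (hb : BA) : ∃ C : ℝ, 0 < C ∧ ∀ s : ℝ, 1 ≤ s →
    ‖∑' j : E, (if j = 0 then 0 else cs_g (toC j / s)) - ((s ^ 2 : ℝ) : ℂ) * ft cs_g 0‖ ≤ C := by
  obtain ⟨K1, hK1, H1⟩ := cs_g_le hb
  obtain ⟨K2, hK2, H2⟩ := cs_ft_le hb
  have hS := (summable_nm_rpow (σ := 3 / 2) (by norm_num)).mul_left K2
  have hS0 : 0 ≤ ∑' x : E, K2 * (nm x : ℝ) ^ (-(3 / 2) : ℝ) := tsum_nonneg fun _ => by positivity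
  refine ⟨‖cs_g 0‖ + 1 + ∑' x : E, K2 * (nm x : ℝ) ^ (-(3 / 2) : ℝ), by positivity,
    fun s hs1 => ?_⟩
  have hs0 : 0 < s := by positivity
  have hsc : (s : ℂ) ≠ 0 := ofReal_ne_zero.2 hs0.ne'
  have f1 : ∀ ξ, ft (fun z => cs_g (z / s)) ξ = ((s ^ 2 : ℝ) : ℂ) * ft cs_g (s * ξ) := by
    intro ξ
    rw [ft_scale cs_g hsc, Complex.norm_real, Real.norm_eq_abs, sq_abs]
  obtain ⟨M1, hM1, B1⟩ := dl_aff hK1 H1 (inv_ne_zero hsc) 1
  obtain ⟨M2, hM2, B2⟩ := dl_aff hK2 H2 hsc ((s ^ 2 : ℝ) : ℂ)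
  simp only [one_mul, inv_mul_eq_div] at B1
  have cg := (cs_smooth hb).continuous
  have key := pS1 1 (fun _ => 1) (fun z => cs_g (z / s)) (M1 + M2) one_ne_zero
    (fun _ _ _ => rfl) (by fun_prop)
    (fun z => (B1 z).trans (mul_le_mul_of_nonneg_right (le_add_of_nonneg_right hM2)
      (by positivity)))
    (fun z => by
      rw [f1]
      exact (B2 z).trans (mul_le_mul_of_nonneg_right (le_add_of_nonneg_left hM1) (by positivity)))
  simp only [one_mul, rsum_psf one_ne_zero, one_dvd, if_true, nm_one, Nat.cast_one, inv_one,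
    map_one, div_one, f1] at key
  rw [(dl_sum B1).tsum_eq_add_tsum_ite 0,
    (dl_sum (g := fun x => ((s ^ 2 : ℝ) : ℂ) * ft cs_g (s * x)) B2).tsum_eq_add_tsum_ite 0,
    map_zero, zero_div, mul_zero] at key
  have e2 : ∑' j : E, (if j = 0 then 0 else cs_g (toC j / s)) - ((s ^ 2 : ℝ) : ℂ) * ft cs_g 0
      = -cs_g 0 + ∑' x : E, if x = 0 then 0 else ((s ^ 2 : ℝ) : ℂ) * ft cs_g (s * toC x) := by
    linear_combination key
  rw [e2]
  refine (norm_add_le _ _).trans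
    (add_le_add (by simp) (tsum_of_norm_bounded hS.hasSum fun x => ?_))
  split_ifs with hx
  · rw [norm_zero]
    positivity
  have hr := one_le_norm hx
  rw [norm_mul, Complex.norm_real, Real.norm_of_nonneg (by positivity), nm_eq,
    ← Real.rpow_natCast ‖toC x‖, ← Real.rpow_mul (norm_nonneg _)]
  have h3 := H2 (s * toC x)
  rw [norm_mul, Complex.norm_real, Real.norm_of_nonneg hs0.le] at h3
  generalize ‖toC x‖ = r at hr h3 ⊢
  have h4 : (1 + s * r) ^ (-3 : ℝ) ≤ (s * r) ^ (-3 : ℝ) :=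
    Real.rpow_le_rpow_of_nonpos (by positivity) (by linarith) (by norm_num)
  have h5 : s ^ 2 * s ^ (-3 : ℝ) ≤ 1 := by
    rw [← Real.rpow_natCast, ← Real.rpow_add hs0]
    exact Real.rpow_le_one_of_one_le_of_nonpos hs1 (by norm_num)
  rw [Real.mul_rpow hs0.le (by positivity)] at h4
  calc _ ≤ s ^ 2 * (K2 * (s ^ (-3 : ℝ) * r ^ (-3 : ℝ))) := by
        gcongr
        exact h3.trans (by gcongr)
    _ = s ^ 2 * s ^ (-3 : ℝ) * (K2 * r ^ (-3 : ℝ)) := by ring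
    _ ≤ 1 * (K2 * r ^ (-3 : ℝ)) := by gcongr
    _ = _ := by norm_num

theorem cs_abs (hb : BA) : ∃ C : ℝ, 0 < C ∧ ∀ S : ℝ, 0 < S →
    Summable (fun j : E => if j = 0 then 0 else ‖cs_g (toC j / S)‖) ∧
      ∑' j : E, (if j = 0 then 0 else ‖cs_g (toC j / S)‖) ≤ C * S ^ 2 := by
  obtain ⟨K, hK, H⟩ := cs_g_le hb
  obtain ⟨C, hC, h⟩ := cnt_split (θ := 0) (σ := 3 / 2) (by norm_num) (by norm_num)
  refine ⟨(K + 1) * C, by positivity, fun S hS => ?_⟩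
  obtain ⟨s1, s2⟩ := h (S ^ 2) (by positivity)
    (fun x : E => if x = 0 then 0 else (1 + ‖toC x‖ / S) ^ (-3 : ℝ))
    (fun x => by split_ifs <;> positivity) (fun x hx _ => by
      rw [Real.rpow_zero, if_neg hx]
      exact Real.rpow_le_one_of_one_le_of_nonpos (le_add_of_nonneg_right (by positivity))
        (by norm_num)) (fun x hx => by
      have h0 := cnt_pos hS hx
      rw [cnt_scale x hS]
      split_ifs
      · positivity
      · rw [show (2 : ℝ) * -(3 / 2) = -3 by norm_num]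
        exact Real.rpow_le_rpow_of_nonpos h0 (by linarith) (by norm_num))
  rw [if_pos rfl, zero_add] at s2
  have b : ∀ j : E, (if j = 0 then 0 else ‖cs_g (toC j / S)‖)
      ≤ (K + 1) * if j = 0 then 0 else (1 + ‖toC j‖ / S) ^ (-3 : ℝ) := fun j => by
    split_ifs
    · simp
    · refine (H _).trans ?_
      rw [norm_div, Complex.norm_real, Real.norm_of_nonneg hS.le]
      gcongr
      linarith
  have s3 : Summable fun j : E => if j = 0 then 0 else ‖cs_g (toC j / S)‖ :=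
    (s1.mul_left _).of_nonneg_of_le (fun j => by split_ifs <;> positivity) b
  refine ⟨s3, (s3.tsum_le_tsum b (s1.mul_left _)).trans ?_⟩
  rw [tsum_mul_left, mul_assoc]
  gcongr

theorem cS (hb : BA) (h : TateW) : CS := by
  obtain ⟨C1, hC1, H1⟩ := cs_small hb
  obtain ⟨C2, hC2, H2⟩ := cs_abs hb
  have n0 := norm_nonneg (ft cs_g 0)
  refine ⟨C1 + C2 + ‖ft cs_g 0‖, by positivity, fun s hs => ?_⟩
  obtain ⟨S, hS⟩ : ∃ S : ℝ, S = s ^ (-(1 / 6) : ℝ) := ⟨_, rfl⟩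
  have hS0 : 0 < S := by rw [hS]; positivity
  have e1 : s ^ (-(1 / 3) : ℝ) = S ^ 2 := by
    rw [hS, ← Real.rpow_natCast, ← Real.rpow_mul hs.le]
    norm_num
  have e2 : ((S ^ 2) ^ 3)⁻¹ = s := by
    rw [← e1, ← Real.rpow_natCast, ← Real.rpow_mul hs.le, ← Real.rpow_neg hs.le]
    norm_num
  have e3 : ∀ j : E, hO 1 (s * (nm j : ℝ) ^ 3) = cs_g (toC j / S) := fun j => by
    rw [cs_g_eq, norm_div, Complex.norm_real, Real.norm_of_nonneg hS0.le, div_pow, div_pow,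
      ← nm_eq, div_eq_inv_mul, e2]
  have e4 : ((27 * (9 : ℝ) ^ (-(1 / 3) : ℝ) * rho * kap ^ 2 * S ^ 2 : ℝ) : ℂ) * mOm
      = ((S ^ 2 : ℝ) : ℂ) * ft cs_g 0 := by
    rw [cs_ft_zero hb h]
    push_cast
    ring
  obtain ⟨s1, s2⟩ := H2 S hS0
  simp only [e3, e1, ← hS, e4]
  refine ⟨s1, s2.trans (by gcongr; linarith), ?_⟩
  rcases le_total 1 S with h1 | h1
  · refine (H1 S h1).trans ?_
    nlinarith
  · have b : ‖∑' j : E, (if j = 0 then 0 else cs_g (toC j / S))‖ ≤ C2 * S ^ 2 :=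
      (tsum_of_norm_bounded s1.hasSum fun j => by split_ifs <;> simp).trans s2
    refine (norm_sub_le _ _).trans ?_
    rw [norm_mul, Complex.norm_real, Real.norm_of_nonneg (by positivity)]
    have h2 : S ^ 2 ≤ S := by nlinarith
    nlinarith [mul_le_mul_of_nonneg_left h2 hC2.le, mul_le_mul_of_nonneg_left h2 n0]

end Pat
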