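import Vale.Agent.P006.IfB
import Vale.Agent.P026.Sym

/-! Removing the condition that the primes are distinct. -/

noncomputable section
namespace Pat
open QRH Complex MeasureTheory Filter
open scoped ComplexConjugate Classical ContDiff Topology

/-- Full convolution of weights on primes. -/
def coIA : List (P → ℂ) → E → ℂ
  | [], m => if m = 1 then 1 else 0
  | u :: l, m => ∑ p ∈ fac m, u p * coIA l (dv m p.1)

/-- The twisted weight. -/
def coIU (w τ κ : ℝ) (s : ℂ) (i : ℤ) (p : P) : ℂ :=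
  conj (pu w τ κ i p) * ((nm p.1 / Real.exp (i / 2) : ℝ) : ℂ) ^ s

theorem coI_dv_pr {c : Finset P} {p : P} (hp : p ∈ c) : dv (pr c) p.1 = pr (c.erase p) := by
  conv_lhs => rw [← Finset.insert_erase hp, pr_insert (Finset.notMem_erase p c)]
  exact dv_mul p.2.1.ne_zero _

theorem coI_pr (us : List (P → ℂ)) (c : Finset P) : coIA us (pr c) = Cv us c := by
  induction us generalizing c with
  | nil =>
    simp only [coIA, Cv]
    have : pr c = 1 ↔ c = ∅ := by
      rw [← pr_empty]; exact pr_inj.eq_iff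
    simp only [this]
  | cons u l ih =>
    simp only [coIA, Cv, fac_pr]
    exact Finset.sum_congr rfl fun p hp => by rw [coI_dv_pr hp, ih]

theorem coI_Bl_nil : Bl [] = 1 := by simp [Bl]

theorem coI_Bl_cons (i : ℤ) (l : List ℤ) : Bl (i :: l) = Real.exp (i / 2) * Bl l := by
  simp only [Bl, List.sum_cons, ← Real.exp_add]
  congr 1; push_cast; ring

theorem coI_Bl_pos (l : List ℤ) : 0 < Bl l := Real.exp_pos _

theorem coI_nm_pos (p : P) : (0 : ℝ) < nm p.1 := zero_lt_one.trans_le (one_le_nmR p.2.1.ne_zero)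

theorem coI_Cv (w τ κ : ℝ) (s : ℂ) (l : List ℤ) (c : Finset P) :
    Cv (l.map (coIU w τ κ s)) c
      = conj (Cv (l.map (pu w τ κ)) c) * ((Ns c / Bl l : ℝ) : ℂ) ^ s := by
  induction l generalizing c with
  | nil =>
    simp only [List.map_nil, Cv]
    split_ifs with h
    · subst h; simp [Ns_empty, coI_Bl_nil]
    · simp
  | cons i l ih =>
    simp only [List.map_cons, Cv, map_sum, Finset.sum_mul]
    refine Finset.sum_congr rfl fun p hp => ?_
    have h1 : Ns c / Bl (i :: l) = (nm p.1 / Real.exp (i / 2)) * (Ns (c.erase p) / Bl l) := by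
      rw [coI_Bl_cons, Ns_eq_prod, Ns_eq_prod, ← Finset.mul_prod_erase c _ hp, div_mul_div_comm]
    rw [ih, h1, Complex.ofReal_mul, Complex.mul_cpow_ofReal_nonneg
      (div_nonneg (coI_nm_pos p).le (Real.exp_pos _).le)
      (div_nonneg (Ns_pos _).le (coI_Bl_pos l).le), coIU, map_mul]
    ring

theorem coI_pu_supp (hb : BA) {w τ κ : ℝ} {i : ℤ} {p : P} (h : pu w τ κ i p ≠ 0) :
    w < nm p.1 ∧ Real.exp (i / 2) ≤ nm p.1 ∧ (nm p.1 : ℝ) ≤ 3 * Real.exp (i / 2) := by
  unfold pu at h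
  split_ifs at h with hw
  · have h1 : bx (Real.log (nm p.1) - i / 2) ≠ 0 := fun h0 => h (by rw [h0]; simp)
    obtain ⟨h2, h3⟩ := hb.bx_supp _ h1
    have hp := coI_nm_pos p
    refine ⟨hw, ?_, ?_⟩
    · rw [← Real.exp_log hp]; exact Real.exp_le_exp.2 (by linarith)
    · rw [← Real.exp_log hp]
      calc Real.exp (Real.log (nm p.1)) ≤ Real.exp (1 + i / 2) := Real.exp_le_exp.2 (by linarith)
        _ = Real.exp 1 * Real.exp (i / 2) := Real.exp_add _ _
        _ ≤ 3 * Real.exp (i / 2) := by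
          have := Real.exp_one_lt_d9
          have h4 : Real.exp 1 ≤ 3 := by linarith
          exact mul_le_mul_of_nonneg_right h4 (Real.exp_pos _).le
  · exact absurd rfl h

theorem coI_U_supp (hb : BA) {w τ κ : ℝ} {s : ℂ} {i : ℤ} {p : P} (h : coIU w τ κ s i p ≠ 0) :
    w < nm p.1 ∧ Real.exp (i / 2) ≤ nm p.1 ∧ (nm p.1 : ℝ) ≤ 3 * Real.exp (i / 2) :=
  coI_pu_supp hb (τ := τ) (κ := κ) fun h0 => h (by rw [coIU, h0]; simp)

theorem coI_pu_le (hb : BA) (w τ : ℝ) {κ : ℝ} (hκ : |κ| ≤ 1) (i : ℤ) (p : P) :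
    ‖pu w τ κ i p‖ ≤ 2 := by
  unfold pu
  split_ifs with hw
  · rw [norm_mul, Complex.norm_real, Real.norm_eq_abs, abs_of_nonneg (hb.bx_nonneg _)]
    have h1 : ‖(1 : ℂ) - κ * ((nm p.1 : ℝ) : ℂ) ^ (τ * I)‖ ≤ 2 := by
      refine (norm_sub_le _ _).trans ?_
      rw [norm_one, norm_mul, Complex.norm_real, Real.norm_eq_abs,
        Complex.norm_cpow_eq_rpow_re_of_pos (coI_nm_pos p)]
      simp only [mul_re, ofReal_re, I_re, mul_zero, ofReal_im, I_im, mul_one, sub_self,
        Real.rpow_zero]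
      linarith
    calc _ ≤ 1 * 2 := mul_le_mul (hb.bx_le _) h1 (norm_nonneg _) zero_le_one
      _ = 2 := one_mul _
  · simp

theorem coI_U_le (hb : BA) (w τ : ℝ) {κ : ℝ} (hκ : |κ| ≤ 1) {s : ℂ} (hs : |s.re| ≤ 1) (i : ℤ)
    (p : P) : ‖coIU w τ κ s i p‖ ≤ 6 := by
  by_cases h : coIU w τ κ s i p = 0
  · rw [h]; simp
  obtain ⟨-, h1, h2⟩ := coI_U_supp hb h
  have he := Real.exp_pos ((i : ℝ) / 2)
  have h3 : 1 ≤ nm p.1 / Real.exp (i / 2) := (one_le_div he).2 h1
  have h4 : nm p.1 / Real.exp (i / 2) ≤ 3 := (div_le_iff₀ he).2 h2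
  rw [coIU, norm_mul, Complex.norm_conj,
    Complex.norm_cpow_eq_rpow_re_of_pos (zero_lt_one.trans_le h3)]
  have h5 : (nm p.1 / Real.exp (i / 2)) ^ s.re ≤ 3 := by
    calc _ ≤ (nm p.1 / Real.exp (i / 2)) ^ (1 : ℝ) :=
          Real.rpow_le_rpow_of_exponent_le h3 (abs_le.1 hs).2
      _ ≤ 3 := by rw [Real.rpow_one]; exact h4
  calc _ ≤ 2 * 3 := mul_le_mul (coI_pu_le hb w τ hκ i p) h5 (by positivity) (by norm_num)
    _ = 6 := by norm_num

theorem coI_fac_prime (p : P) : fac p.1 = {p} := by rw [← pr_singleton, fac_pr]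

theorem coI_dv_ne {m : E} (hm : m ≠ 0) {p : P} (hp : p ∈ fac m) : dv m p.1 ≠ 0 := fun h =>
  hm (by rw [← mul_dv ((mem_fac hm).1 hp), h, mul_zero])

theorem coI_supp (hb : BA) (w τ κ : ℝ) (s : ℂ) (l : List ℤ) (m : E) (hm : m ≠ 0)
    (h : coIA (l.map (coIU w τ κ s)) m ≠ 0) :
    (∀ p ∈ fac m, w < nm p.1) ∧ (fac m).card ≤ l.length := by
  induction l generalizing m with
  | nil =>
    simp only [List.map_nil, coIA] at h
    have h1 : m = 1 := by by_contra h1; exact h (if_neg h1)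
    subst h1
    simp [fac_unit isUnit_one]
  | cons i l ih =>
    simp only [List.map_cons, coIA] at h
    obtain ⟨p, hp, h1⟩ := Finset.exists_ne_zero_of_sum_ne_zero h
    have h2 := coI_dv_ne hm hp
    obtain ⟨h3, h4⟩ := ih _ h2 (right_ne_zero_of_mul h1)
    have h5 : fac m = insert p (fac (dv m p.1)) := by
      conv_lhs => rw [← mul_dv ((mem_fac hm).1 hp)]
      rw [fac_mul p.2.1.ne_zero h2, coI_fac_prime, Finset.insert_eq]
    rw [h5]
    refine ⟨fun q hq => ?_, (Finset.card_insert_le _ _).trans (by simpa using h4)⟩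
    rcases Finset.mem_insert.1 hq with rfl | hq
    · exact (coI_U_supp hb (left_ne_zero_of_mul h1)).1
    · exact h3 q hq

theorem coI_bound (hb : BA) (w τ : ℝ) {κ : ℝ} (hκ : |κ| ≤ 1) {s : ℂ} (hs : |s.re| ≤ 1)
    (l : List ℤ) (m : E) (hm : m ≠ 0) :
    ‖coIA (l.map (coIU w τ κ s)) m‖ ≤ 6 ^ l.length * l.length.factorial := by
  induction l generalizing m with
  | nil =>
    simp only [List.map_nil, coIA]
    split_ifs <;> simp
  | cons i l ih =>
    by_cases h : coIA ((i :: l).map (coIU w τ κ s)) m = 0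
    · rw [h, norm_zero]; positivity
    have h1 := (coI_supp hb w τ κ s _ m hm h).2
    simp only [List.map_cons, coIA]
    calc _ ≤ ∑ p ∈ fac m, ‖coIU w τ κ s i p * coIA (l.map (coIU w τ κ s)) (dv m p.1)‖ :=
          norm_sum_le _ _
      _ ≤ ∑ p ∈ fac m, (6 * (6 ^ l.length * l.length.factorial) : ℝ) := by
          refine Finset.sum_le_sum fun p hp => ?_
          rw [norm_mul]
          exact mul_le_mul (coI_U_le hb w τ hκ hs i p) (ih _ (coI_dv_ne hm hp)) (norm_nonneg _)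
            (by norm_num)
      _ = (fac m).card * (6 * (6 ^ l.length * l.length.factorial) : ℝ) := by
          rw [Finset.sum_const, nsmul_eq_mul]
      _ ≤ ((i :: l).length : ℝ) * (6 * (6 ^ l.length * l.length.factorial) : ℝ) :=
          mul_le_mul_of_nonneg_right (by exact_mod_cast h1) (by positivity)
      _ = _ := by
          simp only [List.length_cons, Nat.factorial_succ]
          push_cast; ring

theorem coI_prod (hb : BA) (w τ κ : ℝ) (s : ℂ) (ξ : E) (l : List ℤ) (L : ℝ)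
    (hL : 3 ^ l.length * Bl l ≤ L) :
    (l.map fun i => Ap w τ κ i s ξ).prod = Dn (coIA (l.map (coIU w τ κ s))) L ξ := by
  induction l generalizing L with
  | nil =>
    simp only [List.map_nil, List.prod_nil, Dn, coIA]
    rw [Finset.sum_eq_single 1]
    · simp [xv_unit isUnit_one]
    · intro b _ hb1; simp [hb1]
    · intro h1
      refine absurd ((hb.mem_pball _ _).2 ⟨by simp [Pm], ?_⟩) h1
      simpa [nm_one, coI_Bl_nil] using hL
  | cons i l ih =>
    simp only [List.map_cons, List.prod_cons]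
    set A := coIA (l.map (coIU w τ κ s)) with hA
    have h1 : Dn (coIA (coIU w τ κ s i :: l.map (coIU w τ κ s))) L ξ
        = ∑ m ∈ pball L, ∑ p ∈ prs (3 * Real.exp (i / 2)),
          if p.1 ∣ m then coIU w τ κ s i p * A (dv m p.1) * xv c3 m ξ else 0 := by
      refine Finset.sum_congr rfl fun m hm => ?_
      have hm0 : m ≠ 0 := primary_ne_zero ((hb.mem_pball _ _).1 hm).1
      simp only [coIA]
      rw [Finset.sum_mul, ← Finset.sum_filter]
      symm
      refine Finset.sum_subset (fun p hp => (mem_fac hm0).2 (Finset.mem_filter.1 hp).2)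
        fun p hp hp' => ?_
      have h2 : coIU w τ κ s i p = 0 := by
        by_contra h2
        exact hp' (Finset.mem_filter.2 ⟨(hb.mem_prs _ _).2 (coI_U_supp hb h2).2.2,
          (mem_fac hm0).1 hp⟩)
      rw [h2, zero_mul, zero_mul]
    rw [h1, Finset.sum_comm, Ap, Finset.sum_mul]
    refine Finset.sum_congr rfl fun p hp => ?_
    rw [hb.sum_dvd L p.1 (fun m => coIU w τ κ s i p * A (dv m p.1) * xv c3 m ξ) p.2.2]
    change coIU w τ κ s i p * c3 p ξ * _ = _
    by_cases h2 : coIU w τ κ s i p = 0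
    · simp [h2]
    have h3 := (coI_U_supp hb h2).2.2
    have h4 : 3 ^ l.length * Bl l ≤ L / nm p.1 := by
      rw [le_div_iff₀ (coI_nm_pos p)]
      refine le_trans ?_ hL
      rw [coI_Bl_cons, List.length_cons, pow_succ]
      have := coI_Bl_pos l
      calc _ ≤ 3 ^ l.length * Bl l * (3 * Real.exp (i / 2)) :=
            mul_le_mul_of_nonneg_left h3 (by positivity)
        _ = _ := by ring
    rw [ih _ h4, Dn, Finset.mul_sum]
    refine Finset.sum_congr rfl fun n hn => ?_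
    have hn0 : n ≠ 0 := primary_ne_zero ((hb.mem_pball _ _).1 hn).1
    rw [dv_mul p.2.1.ne_zero, xv_mul_left p.2.1.ne_zero hn0, xv_prime]
    ring

theorem coI_Nsf {w : ℝ} (hw : 1 ≤ w) {m : E} (hm : Pm m) (h : m ≠ pr (fac m))
    (hp : ∀ p ∈ fac m, w < nm p.1) : w ^ 2 ≤ Nsf m := by
  have hm0 : m ≠ 0 := primary_ne_zero hm
  obtain ⟨p, h1⟩ : ∃ p : P, 2 ≤ vp p.1 m := by
    by_contra h1
    push Not at h1
    exact h (eq_pr_of_vp_le hm fun p => Nat.lt_succ_iff.1 (h1 p))
  have h2 : p ∈ fac m := (mem_fac hm0).2 (by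
    by_contra h3
    rw [vp_of_not_dvd h3] at h1
    omega)
  have h3 : p ∈ (fac m).filter (fun p => 2 ≤ vp p.1 m) := Finset.mem_filter.2 ⟨h2, h1⟩
  rw [Nsf, ← Finset.mul_prod_erase _ _ h3]
  have h4 : (1 : ℝ) ≤ ∏ q ∈ ((fac m).filter (fun p => 2 ≤ vp p.1 m)).erase p,
      (nm q.1 : ℝ) ^ vp q.1 m :=
    Finset.prod_induction _ (fun x : ℝ => 1 ≤ x) (fun a b ha hb => one_le_mul_of_one_le_of_one_le ha hb)
      le_rfl fun q _ => one_le_pow₀ (one_le_nmR q.2.1.ne_zero)
  have h5 : w ^ 2 ≤ (nm p.1 : ℝ) ^ vp p.1 m :=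
    (pow_le_pow_left₀ (by linarith) (hp p h2).le 2).trans
      (pow_le_pow_right₀ (one_le_nmR p.2.1.ne_zero) h1)
  exact h5.trans (le_mul_of_one_le_right (by positivity) h4)

theorem coI (hb : BA) : CoI := by
  intro n
  refine ⟨6 ^ n * n.factorial, by positivity, fun w τ κ L l s hl hw hκ hs hL => ?_⟩
  set A := coIA (l.map (coIU w τ κ s)) with hA
  refine ⟨fun m => if Pm m ∧ m ≠ pr (fac m) then A m else 0, fun m => ?_, fun m hm => ?_,
    fun ξ => ?_⟩
  · beta_reduce
    split_ifs with h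
    · refine (coI_bound hb w τ hκ hs l m (primary_ne_zero h.1)).trans ?_
      exact mul_le_mul (pow_le_pow_right₀ (by norm_num) hl)
        (by exact_mod_cast Nat.factorial_le hl) (by positivity) (by positivity)
    · rw [norm_zero]; positivity
  · have h : Pm m ∧ m ≠ pr (fac m) := by by_contra h; exact hm (if_neg h)
    beta_reduce at hm
    rw [if_pos h] at hm
    exact coI_Nsf hw h.1 h.2 (coI_supp hb w τ κ s l m (primary_ne_zero h.1) hm).1
  · have hL' : 3 ^ l.length * Bl l ≤ L :=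
      (mul_le_mul_of_nonneg_right (pow_le_pow_right₀ (by norm_num) hl) (coI_Bl_pos l).le).trans hL
    rw [coI_prod hb w τ κ s ξ l L hL', ← hA]
    have h1 : ((2 ^ l.length * l.length.factorial : ℕ) : ℂ) * Ds (tw (nb w τ κ l) (Bl l) s) L ξ
        = Ds (fun c => A (pr c)) L ξ := by
      rw [Ds, Ds, Finset.mul_sum]
      refine Finset.sum_congr rfl fun c _ => ?_
      have h2 : ((2 ^ l.length * l.length.factorial : ℕ) : ℂ) ≠ 0 := by
        exact_mod_cast (by positivity : 2 ^ l.length * l.length.factorial ≠ 0)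
      rw [hA, coI_pr, coI_Cv, tw, nb, map_div₀, Complex.conj_natCast]
      field_simp
    rw [h1, ← hb.ex_Dn, Dn, Dn, Dn, ← Finset.sum_sub_distrib]
    refine Finset.sum_congr rfl fun m hm => ?_
    have hm1 := ((hb.mem_pball _ _).1 hm).1
    rw [ex]
    by_cases h : m = pr (fac m)
    · rw [if_pos h, if_neg (fun h' => h'.2 h), ← h]; ring
    · rw [if_neg h, if_pos ⟨hm1, h⟩]; ring

end Pat
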