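import Vale.Agent.P006.IfC
import Vale.Agent.P026.Eis2

/-! Facts on ordered convolutions of prime variables. -/

noncomputable section
namespace Pat
open QRH Complex MeasureTheory Filter
open scoped ComplexConjugate Classical ContDiff Topology

theorem cvF_nil (c : Finset P) : Cv [] c = if c = ∅ then 1 else 0 := rfl
theorem cvF_cons (u : P → ℂ) (l : List (P → ℂ)) (c : Finset P) :
    Cv (u :: l) c = ∑ p ∈ c, u p * Cv l (c.erase p) := rfl

theorem cvF_perm (l l' : List (P → ℂ)) (h : l.Perm l') : Cv l = Cv l' := by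
  induction h with
  | nil => rfl
  | cons x _ ih => funext c; simp only [cvF_cons, ih]
  | swap x y l =>
    funext c
    simp only [cvF_cons, Finset.mul_sum]
    rw [Finset.sum_comm' (t' := c) (s' := fun q => c.erase q)]
    · refine Finset.sum_congr rfl fun q _ => Finset.sum_congr rfl fun p _ => ?_
      rw [Finset.erase_right_comm]; ring
    · intro p q
      simp only [Finset.mem_erase]
      constructor
      · rintro ⟨h1, h2, h3⟩; exact ⟨⟨fun h => h2 h.symm, h1⟩, h3⟩
      · rintro ⟨⟨h1, h2⟩, h3⟩; exact ⟨h2, fun h => h1 h.symm, h3⟩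
  | trans _ _ ih1 ih2 => exact ih1.trans ih2

theorem cvF_append (l l' : List (P → ℂ)) (c : Finset P) :
    Cv (l ++ l') c = ∑ b ∈ c.powerset, Cv l (c \ b) * Cv l' b := by
  induction l generalizing c with
  | nil =>
    rw [Finset.sum_eq_single c]
    · simp [cvF_nil]
    · intro b hb hne
      have : c \ b ≠ ∅ := fun h =>
        hne (Finset.Subset.antisymm (Finset.mem_powerset.1 hb) (Finset.sdiff_eq_empty_iff_subset.1 h))
      simp [cvF_nil, this]
    · intro h; exact absurd (Finset.mem_powerset_self c) h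
  | cons u l ih =>
    simp only [List.cons_append, cvF_cons, ih, Finset.mul_sum, Finset.sum_mul]
    rw [Finset.sum_comm' (t' := c.powerset) (s' := fun b => c \ b)]
    · refine Finset.sum_congr rfl fun b _ => Finset.sum_congr rfl fun p _ => ?_
      rw [Finset.erase_sdiff_comm]; ring
    · intro p b
      simp only [Finset.mem_powerset, Finset.mem_sdiff, Finset.subset_erase]
      tauto

theorem cvF_card (l : List (P → ℂ)) (c : Finset P) (h : Cv l c ≠ 0) : c.card = l.length := by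
  induction l generalizing c with
  | nil =>
    by_cases hc : c = ∅
    · simp [hc]
    · simp [cvF_nil, hc] at h
  | cons u l ih =>
    rw [cvF_cons] at h
    obtain ⟨p, hp, h1⟩ := Finset.exists_ne_zero_of_sum_ne_zero h
    have := ih _ (right_ne_zero_of_mul h1)
    rw [List.length_cons, ← this, Finset.card_erase_add_one hp]

theorem cvF_pu (w τ κ : ℝ) (i : ℤ) (p : P) :
    pu w τ κ i p = pu w 0 0 i p * (1 - κ * ((nm p.1 : ℝ) : ℂ) ^ (τ * I)) := by
  unfold pu
  split_ifs <;> simp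

theorem cvF_twist (w τ κ : ℝ) (l : List ℤ) (c : Finset P) : Cv (l.map (pu w τ κ)) c
    = Cv (l.map (pu w 0 0)) c * ∏ p ∈ c, (1 - κ * ((nm p.1 : ℝ) : ℂ) ^ (τ * I)) := by
  induction l generalizing c with
  | nil =>
    by_cases hc : c = ∅
    · simp [cvF_nil, hc]
    · simp [cvF_nil, hc]
  | cons i l ih =>
    simp only [List.map_cons, cvF_cons, ih, Finset.sum_mul]
    refine Finset.sum_congr rfl fun p hp => ?_
    rw [← Finset.mul_prod_erase c _ hp, cvF_pu w τ κ]; ring

theorem cvF_nm_pos (p : P) : (0 : ℝ) < nm p.1 := zero_lt_one.trans_le (one_le_nmR p.2.1.ne_zero)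

theorem cvF_pu_le (hb : BA) (w τ κ : ℝ) (i : ℤ) (p : P) (hκ : |κ| ≤ 1) : ‖pu w τ κ i p‖ ≤ 2 := by
  unfold pu
  split_ifs
  · rw [norm_mul]
    have h1 : ‖((bx (Real.log (nm p.1) - i / 2) : ℝ) : ℂ)‖ ≤ 1 := by
      rw [Complex.norm_real, Real.norm_eq_abs, abs_of_nonneg (hb.bx_nonneg _)]; exact hb.bx_le _
    have h2 : ‖(1 - κ * ((nm p.1 : ℝ) : ℂ) ^ (τ * I) : ℂ)‖ ≤ 2 := by
      refine (norm_sub_le _ _).trans ?_
      rw [norm_mul, Complex.norm_cpow_eq_rpow_re_of_pos (cvF_nm_pos p), Complex.norm_real,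
        Real.norm_eq_abs]
      simp
      linarith
    nlinarith [norm_nonneg (1 - κ * ((nm p.1 : ℝ) : ℂ) ^ (τ * I) : ℂ),
      norm_nonneg ((bx (Real.log (nm p.1) - i / 2) : ℝ) : ℂ)]
  · simp

theorem cvF_norm_le (hb : BA) (w τ κ : ℝ) (l : List ℤ) (c : Finset P) (hκ : |κ| ≤ 1) :
    ‖Cv (l.map (pu w τ κ)) c‖ ≤ 2 ^ l.length * l.length.factorial := by
  induction l generalizing c with
  | nil =>
    by_cases hc : c = ∅
    · simp [cvF_nil, hc]
    · simp [cvF_nil, hc]
  | cons i l ih =>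
    by_cases h0 : Cv ((i :: l).map (pu w τ κ)) c = 0
    · rw [h0, norm_zero]; positivity
    have hc := cvF_card _ _ h0
    rw [List.length_map, List.length_cons] at hc
    rw [List.map_cons, cvF_cons]
    refine (norm_sum_le _ _).trans ?_
    have : ∀ p ∈ c, ‖pu w τ κ i p * Cv (l.map (pu w τ κ)) (c.erase p)‖
        ≤ 2 * (2 ^ l.length * l.length.factorial) := fun p _ => by
      rw [norm_mul]
      exact mul_le_mul (cvF_pu_le hb w τ κ i p hκ) (ih _) (norm_nonneg _) (by norm_num)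
    refine (Finset.sum_le_card_nsmul _ _ _ this).trans (le_of_eq ?_)
    rw [hc, List.length_cons, Nat.factorial_succ, nsmul_eq_mul]
    push_cast; ring

theorem cvF_bx_box (hb : BA) (i : ℤ) (p : P) (h : bx (Real.log (nm p.1) - i / 2) ≠ 0) :
    Real.exp (i / 2) < nm p.1 ∧ (nm p.1 : ℝ) < Real.exp (i / 2 + 1) := by
  obtain ⟨h1, h2⟩ := hb.bx_supp _ h
  constructor
  · rw [← Real.lt_log_iff_exp_lt (cvF_nm_pos p)]; linarith
  · rw [← Real.log_lt_iff_lt_exp (cvF_nm_pos p)]; linarith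

theorem cvF_pu_ne (hb : BA) (w τ κ : ℝ) (i : ℤ) (p : P) (h : pu w τ κ i p ≠ 0) :
    w < nm p.1 ∧ Real.exp (i / 2) < nm p.1 ∧ (nm p.1 : ℝ) < Real.exp (i / 2 + 1) := by
  unfold pu at h
  split_ifs at h with h1
  · refine ⟨h1, cvF_bx_box hb i p fun h2 => h ?_⟩
    rw [h2]; simp
  · exact absurd rfl h

theorem cvF_boxes (hb : BA) (w τ κ : ℝ) (l : List ℤ) (c : Finset P)
    (h : Cv (l.map (pu w τ κ)) c ≠ 0) :
    ∃ ps : List P, ps.Nodup ∧ ps.toFinset = c ∧ List.Forall₂ (fun (i : ℤ) (p : P) =>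
      w < nm p.1 ∧ Real.exp (i / 2) < nm p.1 ∧ (nm p.1 : ℝ) < Real.exp (i / 2 + 1)) l ps := by
  induction l generalizing c with
  | nil =>
    have hc := cvF_card _ _ h
    simp only [List.map_nil, List.length_nil, Finset.card_eq_zero] at hc
    exact ⟨[], List.nodup_nil, by simp [hc], List.Forall₂.nil⟩
  | cons i l ih =>
    rw [List.map_cons, cvF_cons] at h
    obtain ⟨p, hp, h1⟩ := Finset.exists_ne_zero_of_sum_ne_zero h
    obtain ⟨ps, h2, h3, h4⟩ := ih _ (right_ne_zero_of_mul h1)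
    refine ⟨p :: ps, List.nodup_cons.2 ⟨fun h5 => ?_, h2⟩, ?_,
      List.Forall₂.cons (cvF_pu_ne hb w τ κ i p (left_ne_zero_of_mul h1)) h4⟩
    · have : p ∈ c.erase p := h3 ▸ List.mem_toFinset.2 h5
      exact Finset.notMem_erase p c this
    · rw [List.toFinset_cons, h3, Finset.insert_erase hp]

theorem cvF_exp_one : Real.exp 1 ≤ 3 := by
  have := Real.exp_one_lt_d9
  linarith

theorem cvF_Bl_cons (i : ℤ) (l : List ℤ) : Bl (i :: l) = Real.exp (i / 2) * Bl l := by
  simp only [Bl, List.sum_cons, ← Real.exp_add]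
  push_cast; congr 1; ring

theorem cvF_Bl_pos (l : List ℤ) : 0 < Bl l := Real.exp_pos _

theorem cvF_supp (hb : BA) (w τ κ : ℝ) (l : List ℤ) (c : Finset P)
    (h : Cv (l.map (pu w τ κ)) c ≠ 0) :
    Bl l ≤ Ns c ∧ Ns c ≤ 3 ^ l.length * Bl l ∧ Rough w c := by
  induction l generalizing c with
  | nil =>
    have hc := cvF_card _ _ h
    simp only [List.map_nil, List.length_nil, Finset.card_eq_zero] at hc
    subst hc
    simp [Bl, Ns_empty, Rough]
  | cons i l ih =>
    rw [List.map_cons, cvF_cons] at h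
    obtain ⟨p, hp, h1⟩ := Finset.exists_ne_zero_of_sum_ne_zero h
    obtain ⟨h2, h3, h4⟩ := ih _ (right_ne_zero_of_mul h1)
    obtain ⟨h5, h6, h7⟩ := cvF_pu_ne hb w τ κ i p (left_ne_zero_of_mul h1)
    have hN : Ns c = nm p.1 * Ns (c.erase p) := by
      rw [Ns_eq_prod, Ns_eq_prod, Finset.mul_prod_erase c (fun p : P => (nm p.1 : ℝ)) hp]
    have hB := cvF_Bl_pos l
    have he := Real.exp_pos ((i : ℝ) / 2)
    refine ⟨?_, ?_, fun q hq => ?_⟩
    · rw [hN, cvF_Bl_cons]
      exact mul_le_mul h6.le h2 hB.le (cvF_nm_pos p).le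
    · rw [hN, cvF_Bl_cons, List.length_cons]
      have h8 : (nm p.1 : ℝ) ≤ 3 * Real.exp (i / 2) := by
        rw [Real.exp_add] at h7
        nlinarith [cvF_exp_one]
      calc (nm p.1 : ℝ) * Ns (c.erase p) ≤ (3 * Real.exp (i / 2)) * (3 ^ l.length * Bl l) :=
            mul_le_mul h8 h3 (Ns_pos _).le (by positivity)
        _ = _ := by ring
    · by_cases hqp : q = p
      · rw [hqp]; exact h5
      · exact h4 q (Finset.mem_erase.2 ⟨hqp, hq⟩)

theorem cvF_gb (hb : BA) (w τ κ : ℝ) (l : List ℤ) (n : ℕ) (hn : l.length ≤ n) (hκ : |κ| ≤ 1) :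
    GB (nb w τ κ l) (Bl l) (3 ^ n) w := by
  have h0 : ∀ b, nb w τ κ l b ≠ 0 → Cv (l.map (pu w τ κ)) b ≠ 0 := fun b h h1 => h (by
    rw [nb, h1, zero_div])
  refine ⟨fun b => ?_, fun b h => ?_, fun b h => (cvF_supp hb w τ κ l b (h0 b h)).2.2⟩
  · rw [nb, norm_div, Complex.norm_natCast, div_le_one (by positivity)]
    push_cast
    exact cvF_norm_le hb w τ κ l b hκ
  · obtain ⟨h1, h2, -⟩ := cvF_supp hb w τ κ l b (h0 b h)
    refine ⟨h1, h2.trans (mul_le_mul_of_nonneg_right ?_ (cvF_Bl_pos l).le)⟩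
    exact pow_le_pow_right₀ (by norm_num) hn

theorem cvF_nrm (hb : BA) (w τ κ : ℝ) (l : List ℤ) (hκ : |κ| ≤ 1) (S : Finset (Finset P)) :
    ∑ c ∈ S, ‖Cv (l.map (pu w τ κ)) c‖
      ≤ (l.map fun i : ℤ => 2 * ((prs (3 * Real.exp (i / 2))).card : ℝ)).prod := by
  induction l generalizing S with
  | nil =>
    simp only [List.map_nil, cvF_nil, List.prod_nil]
    have : ∀ c ∈ S, ‖(if c = ∅ then (1 : ℂ) else 0)‖ = if c = ∅ then (1 : ℝ) else 0 := fun c _ => by
      split_ifs <;> simp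
    rw [Finset.sum_congr rfl this, Finset.sum_ite_eq']
    split_ifs <;> norm_num
  | cons i l ih =>
    simp only [List.map_cons, List.prod_cons, cvF_cons]
    set T := prs (3 * Real.exp (i / 2)) with hT
    set M := (l.map fun i : ℤ => 2 * ((prs (3 * Real.exp (i / 2))).card : ℝ)).prod with hM
    have h1 : ∀ c ∈ S, ‖∑ p ∈ c, pu w τ κ i p * Cv (l.map (pu w τ κ)) (c.erase p)‖
        ≤ ∑ p ∈ T, if p ∈ c then 2 * ‖Cv (l.map (pu w τ κ)) (c.erase p)‖ else 0 := fun c _ => by
      rw [← Finset.sum_filter]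
      have h2 : ∑ p ∈ c, pu w τ κ i p * Cv (l.map (pu w τ κ)) (c.erase p)
          = ∑ p ∈ T.filter (· ∈ c), pu w τ κ i p * Cv (l.map (pu w τ κ)) (c.erase p) := by
        symm
        refine Finset.sum_subset (fun p hp => (Finset.mem_filter.1 hp).2) fun p hp hp' => ?_
        by_contra h3
        obtain ⟨-, -, h7⟩ := cvF_pu_ne hb w τ κ i p (left_ne_zero_of_mul h3)
        refine hp' (Finset.mem_filter.2 ⟨(hb.mem_prs _ _).2 ?_, hp⟩)
        rw [Real.exp_add] at h7
        nlinarith [cvF_exp_one, Real.exp_pos ((i : ℝ) / 2)]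
      rw [h2]
      refine (norm_sum_le _ _).trans (Finset.sum_le_sum fun p _ => ?_)
      rw [norm_mul]
      exact mul_le_mul_of_nonneg_right (cvF_pu_le hb w τ κ i p hκ) (norm_nonneg _)
    refine (Finset.sum_le_sum h1).trans ?_
    rw [Finset.sum_comm]
    have h3 : ∀ p ∈ T, ∑ c ∈ S, (if p ∈ c then 2 * ‖Cv (l.map (pu w τ κ)) (c.erase p)‖ else 0)
        ≤ 2 * M := fun p _ => by
      rw [← Finset.sum_filter, ← Finset.mul_sum]
      refine mul_le_mul_of_nonneg_left ?_ (by norm_num)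
      have h4 : Set.InjOn (fun c : Finset P => c.erase p) (S.filter fun c => p ∈ c) := by
        intro c hc c' hc' h
        have hc1 := (Finset.mem_filter.1 (Finset.mem_coe.1 hc)).2
        have hc2 := (Finset.mem_filter.1 (Finset.mem_coe.1 hc')).2
        rw [← Finset.insert_erase hc1, ← Finset.insert_erase hc2]
        exact congrArg _ h
      rw [← Finset.sum_image (f := fun c => ‖Cv (l.map (pu w τ κ)) c‖) h4]
      exact ih _
    refine (Finset.sum_le_card_nsmul _ _ _ h3).trans (le_of_eq ?_)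
    rw [nsmul_eq_mul]; ring

theorem cvF_sum_pi (J : Finset ℤ) (n : ℕ) (G : List ℤ → ℂ) :
    ∑ f ∈ Fintype.piFinset fun _ : Fin (n + 1) => J, G (List.ofFn f)
      = ∑ i ∈ J, ∑ g ∈ Fintype.piFinset fun _ : Fin n => J, G (i :: List.ofFn g) := by
  rw [← Finset.sum_product']
  symm
  refine Finset.sum_nbij' (fun x => Fin.cons x.1 x.2) (fun f => (f 0, Fin.tail f)) ?_ ?_ ?_ ?_ ?_
  · intro x hx
    obtain ⟨h1, h2⟩ := Finset.mem_product.1 hx
    rw [Fintype.mem_piFinset] at h2 ⊢
    intro j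
    refine Fin.cases ?_ (fun j => ?_) j
    · simpa using h1
    · simpa using h2 j
  · intro f hf
    rw [Fintype.mem_piFinset] at hf
    exact Finset.mem_product.2 ⟨hf 0, Fintype.mem_piFinset.2 fun j => hf _⟩
  · intro x _
    simp
  · intro f _
    simp
  · intro x _
    simp [List.ofFn_succ]

theorem cvF_sum_bx (hb : BA) (v : ℝ) (J : Finset ℤ) (h : ∀ i : ℤ, bx (v - i / 2) ≠ 0 → i ∈ J) :
    ∑ i ∈ J, bx (v - i / 2) = 1 := by
  rw [← hb.bx_sum v (J ∪ Finset.Icc (⌊2 * v⌋ - 2) ⌈2 * v⌉)]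
  · refine Finset.sum_subset Finset.subset_union_left fun i _ hi => ?_
    by_contra h1
    exact hi (h i h1)
  · intro i h1 h2
    refine Finset.mem_union_right _ (Finset.mem_Icc.2 ⟨?_, ?_⟩)
    · have := Int.floor_le (2 * v)
      have h3 : ((⌊2 * v⌋ - 2 : ℤ) : ℝ) ≤ i := by push_cast; linarith
      exact_mod_cast h3
    · have := Int.le_ceil (2 * v)
      have h3 : (i : ℝ) ≤ (⌈2 * v⌉ : ℤ) := by linarith
      exact_mod_cast h3

theorem cvF_total (hb : BA) (w : ℝ) (J : Finset ℤ) (n : ℕ) (c : Finset P) (hc : c.card = n)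
    (hr : Rough w c) (hJ : ∀ p ∈ c, ∀ i : ℤ, bx (Real.log (nm p.1) - i / 2) ≠ 0 → i ∈ J) :
    ∑ f ∈ Fintype.piFinset fun _ : Fin n => J, Cv ((List.ofFn f).map (pu w 0 0)) c
      = n.factorial := by
  induction n generalizing c with
  | zero =>
    rw [Finset.card_eq_zero] at hc
    simp [cvF_nil, hc]
  | succ n ih =>
    rw [cvF_sum_pi J n fun l => Cv (l.map (pu w 0 0)) c]
    simp only [List.map_cons, cvF_cons]
    have h1 : ∀ p ∈ c, ∑ i ∈ J, ∑ g ∈ Fintype.piFinset fun _ : Fin n => J,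
        pu w 0 0 i p * Cv ((List.ofFn g).map (pu w 0 0)) (c.erase p) = n.factorial := by
      intro p hp
      rw [← Finset.sum_mul_sum, ih (c.erase p) (by rw [Finset.card_erase_of_mem hp, hc]; rfl)
        (fun q hq => hr q (Finset.mem_of_mem_erase hq))
        fun q hq => hJ q (Finset.mem_of_mem_erase hq)]
      have h2 : ∑ i ∈ J, pu w 0 0 i p = 1 := by
        have h3 := cvF_sum_bx hb _ J (hJ p hp)
        have h4 : ∀ i ∈ J, pu w 0 0 i p = ((bx (Real.log (nm p.1) - i / 2) : ℝ) : ℂ) := by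
          intro i _
          simp [pu, hr p hp]
        rw [Finset.sum_congr rfl h4, ← Complex.ofReal_sum, h3, Complex.ofReal_one]
      rw [h2, one_mul]
    rw [Finset.sum_congr rfl fun i _ => Finset.sum_comm, Finset.sum_comm,
      Finset.sum_congr rfl h1, Finset.sum_const, hc, Nat.factorial_succ, nsmul_eq_mul]
    push_cast; ring

theorem cvF (hb : BA) : CvF where
  perm := cvF_perm
  append := cvF_append
  card := cvF_card
  twist := cvF_twist
  norm_le := cvF_norm_le hb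
  boxes := cvF_boxes hb
  supp := cvF_supp hb
  gb := cvF_gb hb
  nrm1_le := fun w τ κ _ l hκ => cvF_nrm hb w τ κ l hκ _
  total := cvF_total hb

theorem cvF_card_le {X : ℝ} (hX : (3 : ℝ) ^ 26 ≤ X) {c : Finset P} (hc : c ∈ sqf (3 * X))
    (hr : Rough (wX X) c) : c.card ≤ 51 := by
  by_contra h
  have h52 : 52 ≤ c.card := by omega
  have hX1 : (1 : ℝ) ≤ X := le_trans (by norm_num) hX
  have hX0 : (0 : ℝ) < X := by linarith
  have hw : 1 ≤ wX X := Real.one_le_rpow hX1 (by norm_num)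
  have h1 : wX X ^ c.card ≤ Ns c := by
    rw [Ns_eq_prod, ← Finset.prod_const]
    exact Finset.prod_le_prod (fun _ _ => by linarith) fun p hp => (hr p hp).le
  have h2 : wX X ^ 52 ≤ wX X ^ c.card := pow_le_pow_right₀ hw h52
  have h3 : wX X ^ 50 = X := by
    rw [wX, ← Real.rpow_natCast, ← Real.rpow_mul hX0.le]; norm_num
  have h4 := mem_sqf.1 hc
  have h5 : wX X ^ 2 ≤ 3 := by
    have : X * wX X ^ 2 ≤ X * 3 := by
      calc X * wX X ^ 2 = wX X ^ 50 * wX X ^ 2 := by rw [h3]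
        _ = wX X ^ 52 := by ring
        _ ≤ X * 3 := by linarith
    exact le_of_mul_le_mul_left this hX0
  have h6 : X ≤ 3 ^ 25 := by
    rw [← h3, show 50 = 2 * 25 from rfl, pow_mul]
    exact pow_le_pow_left₀ (by positivity) h5 25
  have : (3 : ℝ) ^ 25 < 3 ^ 26 := by norm_num
  linarith

theorem lPdec (hb : BA) (hc : CvF) : LPdec := by
  refine ⟨3 ^ 26, fun F X T Y φ hX => ?_⟩
  simp only [LP, Cfg, Finset.mul_sum]
  rw [Finset.sum_filter, Finset.sum_congr rfl fun n _ => Finset.sum_comm, Finset.sum_comm]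
  refine Finset.sum_congr rfl fun c hcs => ?_
  have h1 : ∀ n : ℕ, ∑ f ∈ Fintype.piFinset fun _ : Fin n => JX X, (n.factorial : ℂ)⁻¹ *
      (nu Y c * Cv ((List.ofFn f).map (pu (wX X) 0 0)) c * F c * lw φ T X (Ns c))
      = (n.factorial : ℂ)⁻¹ * (∑ f ∈ Fintype.piFinset fun _ : Fin n => JX X,
        Cv ((List.ofFn f).map (pu (wX X) 0 0)) c) * (nu Y c * F c * lw φ T X (Ns c)) := by
    intro n
    rw [mul_assoc, Finset.sum_mul, Finset.mul_sum]
    exact Finset.sum_congr rfl fun f _ => by ring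
  rw [Finset.sum_congr rfl fun n _ => h1 n]
  have h2 : ∀ n : ℕ, c.card ≠ n → ∑ f ∈ Fintype.piFinset fun _ : Fin n => JX X,
      Cv ((List.ofFn f).map (pu (wX X) 0 0)) c = 0 := fun n hn =>
    Finset.sum_eq_zero fun f _ => by
      by_contra h
      have := hc.card _ _ h
      rw [List.length_map, List.length_ofFn] at this
      exact hn this
  split_ifs with h
  · rw [Finset.sum_eq_single c.card]
    · rw [hc.total (wX X) (JX X) c.card c rfl h.2, inv_mul_cancel₀, one_mul]
      · exact_mod_cast (Nat.factorial_pos _).ne'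
      · intro p hp i hi
        obtain ⟨h3, h4⟩ := hb.bx_supp _ hi
        have h5 : 1 ≤ Real.log (nm p.1) := by
          have := hb.card_log {p}
          rwa [Finset.card_singleton, Nat.cast_one, Ns_eq_prod, Finset.prod_singleton] at this
        have h6 : Real.log (nm p.1) ≤ Real.log (3 * X) := by
          refine Real.log_le_log (cvF_nm_pos p) (le_trans ?_ (mem_sqf.1 hcs))
          have := Ns_mono (Finset.singleton_subset_iff.2 hp)
          rwa [Ns_eq_prod, Finset.prod_singleton] at this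
        refine Finset.mem_Icc.2 ⟨?_, ?_⟩
        · have h7 : (0 : ℝ) ≤ i := by linarith
          exact_mod_cast h7
        · have := Int.le_ceil (2 * Real.log (3 * X))
          have h7 : (i : ℝ) ≤ (⌈2 * Real.log (3 * X)⌉ : ℤ) := by linarith
          exact_mod_cast h7
    · intro n _ hn
      rw [h2 n hn.symm]; simp
    · intro hn
      exact absurd (Finset.mem_Icc.2 ⟨h.1, cvF_card_le hX hcs h.2⟩) hn
  · symm
    refine Finset.sum_eq_zero fun n hn => ?_
    by_cases h3 : c.card = n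
    · have h4 : ¬ Rough (wX X) c := fun h4 => h ⟨h3 ▸ (Finset.mem_Icc.1 hn).1, h4⟩
      rw [Finset.sum_eq_zero fun f _ => by
        by_contra h5
        exact h4 (hc.supp _ _ _ _ _ h5).2.2]
      simp
    · rw [h2 n h3]; simp

end Pat
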