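import Vale.Agent.P026.Stm2

/-! Definitions for P006 (first moment of cubic Gauss sums). -/

noncomputable section
namespace Pat
open QRH Complex MeasureTheory Filter
open scoped ComplexConjugate Classical ContDiff Topology

/-! ### Arithmetic -/

/-- Primary elements. -/
def Pm (c : E) : Prop := (3 : E) ∣ c - 1
/-- Primary elements of norm at most `R`. -/
def pball (R : ℝ) : Finset E := (ball R).filter Pm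
/-- Primary primes of norm at most `R`. -/
def prs (R : ℝ) : Finset P := (sqf R).biUnion id
/-- Normalised cubic Gauss sum (additive character `e (Tr (y / c))`). -/
def gn (s : Finset P) : ℂ :=
  rsum (pr s) (fun y => xs c3 s y * psf (lam * y) (pr s)) / ((√(Ns s) : ℝ) : ℂ)
def tt (s : Finset P) : ℂ := conj (gn s)
/-- Normalised theta coefficient of a primary element. -/
def th (c : E) : ℂ := xv c3 c lam * Tg c / ((√(nm c : ℝ) : ℝ) : ℂ)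
def kap : ℝ := (2 * Real.pi) ^ (2 / 3 : ℝ) / (3 * Real.Gamma (2 / 3))
/-- Density of the primary elements. -/
def rho : ℝ := 2 * Real.pi / (9 * √3)
def t0 (s : Finset P) : ℂ := ((kap * Ns s ^ (-(1 / 6) : ℝ) : ℝ) : ℂ)
def dl (s : Finset P) : ℂ := tt s - t0 s
def IsCube (z : E) : Prop := ∃ j : E, z = j ^ 3
def cf1 (z : E) : Finset P := (fac z).filter fun p => vp p.1 z % 3 = 1
def cf2 (z : E) : Finset P := (fac z).filter fun p => vp p.1 z % 3 = 2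
def Qc (z : E) : ℝ := Ns (cf1 z) * Ns (cf2 z) ^ 2
def Jc (z : E) : ℝ := ∏ p ∈ fac z, (nm p.1 : ℝ) ^ (vp p.1 z / 3)
/-- Cube-free representatives. -/
def cf0 (i k : ℕ) (s t : Finset P) : E := om ^ i * lam ^ k * pr s * pr t ^ 2
/-- Norm of the squarefull part. -/
def Nsf (n : E) : ℝ := ∏ p ∈ (fac n).filter (fun p => 2 ≤ vp p.1 n), (nm p.1 : ℝ) ^ vp p.1 n
/-- All primes of `s` have norm larger than `w`. -/
def Rough (w : ℝ) (s : Finset P) : Prop := ∀ p ∈ s, w < (nm p.1 : ℝ)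
/-- The character weight on primary elements. -/
def rho0 (c : E) : ℂ := if Pm c then xv c3 c lam else 0
/-- von Mangoldt function on primary elements. -/
def vm (n : E) : ℝ := if (fac n).card = 1 then Real.log (Ns (fac n)) else 0
/-- An injective rank function on primes, increasing in the norm. -/
def key (p : P) : ℕ := 2 * nm p.1 + if 0 < p.1.im then 1 else 0
/-- Smallest rank in `s`, capped at `2 * floor w + 2`. -/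
def kc (w : ℝ) (s : Finset P) : ℕ := s.fold min (2 * ⌊w⌋₊ + 2) key
/-- No prime of `s` has its conjugate in `s`. -/
def Prim (s : Finset P) : Prop := ∀ p ∈ s, ∀ q ∈ s, q.1 ≠ star p.1
/-- `s` is stable under conjugation. -/
def SelfC (s : Finset P) : Prop := ∀ p ∈ s, ∃ q ∈ s, q.1 = star p.1
def e1 (x : ℝ) : ℂ := Complex.exp (2 * Real.pi * I * x)

/-! ### Weights -/

/-- Smooth functions supported in `[0, 1]`. -/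
structure Bump (φ : ℝ → ℂ) : Prop where
  smooth : ContDiff ℝ ∞ φ
  supp : ∀ v, φ v ≠ 0 → 0 ≤ v ∧ v ≤ 1
/-- Smooth functions supported in `[-3, 3]` with derivatives up to order `n` bounded by `D`. -/
structure BD (n : ℕ) (φ : ℝ → ℂ) (D : ℝ) : Prop where
  smooth : ContDiff ℝ ∞ φ
  supp : ∀ v, φ v ≠ 0 → -3 ≤ v ∧ v ≤ 3
  bd : ∀ j ≤ n, ∀ v, ‖iteratedDeriv j φ v‖ ≤ D
/-- The weight `φ (T log (y / x))`. -/
def lw (φ : ℝ → ℂ) (T x y : ℝ) : ℂ := φ (T * Real.log (y / x))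
def mo (φ : ℝ → ℂ) (T σ : ℝ) : ℂ := ∫ v : ℝ, φ (T * v) * (Real.exp (σ * v) : ℝ)
/-- Partition of unity: the translates by half-integers sum to one. -/
def bx (v : ℝ) : ℝ := Real.smoothTransition (2 * v) - Real.smoothTransition (2 * v - 1)
/-- Equal to one for `v ≤ 0` and to zero for `v ≥ 1`. -/
def Vs (v : ℝ) : ℝ := Real.smoothTransition (1 - v)
def btB : ContDiffBump (1 / 8 : ℝ) := ⟨1 / 16, 1 / 8, by norm_num, by norm_num⟩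
def omB : ContDiffBump (3 / 8 : ℝ) := ⟨1 / 4, 3 / 8, by norm_num, by norm_num⟩
def bt (v : ℝ) : ℝ := btB v
def om0 (v : ℝ) : ℝ := omB v
/-- The majorant weight of the dispersion method. -/
def Om (u : ℝ) : ℝ := ∫ v : ℝ, bt v * om0 (u - v)
def h0 (T y : ℝ) : ℂ := ft (fun z => (om0 (T * Real.log (‖z‖ ^ 2)) : ℝ)) (√y : ℝ)
def hO (T y : ℝ) : ℂ := ft (fun z => (Om (T * Real.log (‖z‖ ^ 2)) : ℝ)) (√y : ℝ)
def GM (T y : ℝ) : ℝ := T⁻¹ * (1 + y) ^ (-(6 / 25) : ℝ) * (1 + y / T ^ 2) ^ (-2 : ℝ)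
/-- Tate's gamma factor for radial functions. -/
def gam0 (s : ℂ) : ℂ :=
  ((2 * Real.pi / √3 : ℝ) : ℂ) ^ (1 - 2 * s) * Complex.Gamma s / Complex.Gamma (1 - s)

/-! ### The radial Voronoi formula -/

/-- Radial weights of mean zero. -/
structure Rad (w : ℂ → ℂ) : Prop where
  smooth : ContDiff ℝ ∞ w
  supp : ∀ z, w z ≠ 0 → 1 ≤ ‖z‖ ∧ ‖z‖ ≤ 2
  rot : ∀ u z : ℂ, ‖u‖ = 1 → w (u * z) = w z
  zero : ft w 0 = 0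
def kkT (θ : ℝ) (c : ℂ) : ℂ :=
  ((4 / 3 : ℝ) : ℂ) * ∫ z : ℂ × ℂ, a0 z.1 * b0 z.2 * psi (-(z.2 ^ 3 / (θ * c * z.1)))
def FintT (θ : ℝ) (w : ℂ → ℂ) (c : ℂ) (z : ℂ × ℂ) : ℂ :=
  ((‖z.1‖ ^ 2 : ℝ) : ℂ)⁻¹ * a0 z.1 * ft w (-(c / z.1)) * ft b0 (z.2 / z.1)
    * psi (θ * z.2 ^ 3 / (27 * z.1 * c))
def IaT (θ : ℝ) (w : ℂ → ℂ) (c z ζ : ℂ) : ℂ := ft2 (FintT θ w c) (-(z / c)) (ζ / c)
def KaT (θ : ℝ) (w : ℂ → ℂ) (z : ℂ) : ℂ :=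
  ((4 / 3 : ℝ) : ℂ) * ∫ y : ℂ × ℂ,
    ((‖y.1‖ ^ 2 : ℝ) : ℂ)⁻¹ * psi (y.2 ^ 3 / (θ * y.1 * z)) * IaT θ w y.1 z y.2
structure VPr (a : ℕ) (ρ : E → ℂ) (q u η β : E) (w : ℂ → ℂ) (Y : ℝ) : Prop where
  ha : 1 ≤ a
  per : Per (Lam a) ρ
  supp : ∀ c, lam ∣ c → ρ c = 0
  mean : rsum (Lam a) ρ = 0
  bd : ∀ c, ‖ρ c‖ ≤ 1
  hq : ¬ lam ∣ q
  hη : q ∣ Lam a ^ 2 * u * η - 1
  hβ : Lam a ∣ β * q + 1
  rad : Rad w
  hY : 0 < Y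
def VLT (θ : ℝ) (f : E → ℂ) (w : ℂ → ℂ) (Y : ℝ) : ℂ :=
  ∑ c ∈ ball (4 * Y ^ 2), f c * (w (toC c / Y) * kkT θ (toC c / Y) * Tg c / (nm c : ℂ))
def SigT (θ : ℝ) (a : ℕ) (ρ : E → ℂ) (q u : E) (w : ℂ → ℂ) (Y X : ℝ) : ℂ :=
  ∑ c ∈ ball (4 * Y ^ 2), ρ c * psf (c * u) q * w (toC c / Y) *
    ∑' x : E × E, (if Lam a ∣ x.1 - 1 then phig c x.1 x.2 else 0) *
      (a0 (toC x.1 / ((θ * X ^ 3 / Y : ℝ) : ℂ)) * b0 (toC x.2 / X)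
        * psi (-(toC x.2 ^ 3 / (toC c * toC x.1))))
def G1T (θ : ℝ) (a : ℕ) (ρ : E → ℂ) (q u : E) (w : ℂ → ℂ) (Y X : ℝ) (d δ ξ : E) : ℂ :=
  if Lam a ∣ d - 1 then
    (nm d : ℂ)⁻¹ * a0 (toC d / ((θ * X ^ 3 / Y : ℝ) : ℂ)) * rh a ρ (-δ)
      * phig d δ (3 ^ (a - 1) * ξ)
      * ft w (-(Y * toC (Lam a * u * d + q * δ) / toC (Lam a * d * q)))
      * ft b0 (X * toC ξ / toC d)
  else 0
def G2T (θ : ℝ) (a : ℕ) (ρ : E → ℂ) (q β : E) (w : ℂ → ℂ) (Y X : ℝ) (δ C ζ : E) : ℂ :=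
  if Lam a ∣ C then 0 else
    H C q * rh a ρ (β * C) * Lt a q C δ ζ * phig C (Lam a ^ 3 * δ) ζ / (nm (up lam C) : ℂ)
      * IaT θ w (toC C / (toC (Lam a * q) * ((θ * X ^ 3 / Y ^ 2 : ℝ) : ℂ))) (zd a q Y δ)
          (toC ζ / (toC (Lam a ^ 2 * q) * ((X / Y : ℝ) : ℂ)))
/-- The value at zero of the complex Airy integral. -/
def C0 : ℂ := limUnder atTop fun M : ℝ => ∫ x : ℂ, psi (x ^ 3) * b0 (x / M)
/-- The explicit Voronoi transform. -/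
def Kx (w : ℂ → ℂ) (z : ℂ) : ℂ :=
  ((‖z‖ ^ (2 / 3 : ℝ) : ℝ) : ℂ) *
    ∫ y : ℂ, ((‖y‖ ^ (-(4 / 3) : ℝ) : ℝ) : ℂ) * ft w (-y) * psi (z / y)
def VLX (f : E → ℂ) (w : ℂ → ℂ) (Y : ℝ) : ℂ :=
  ∑ c ∈ ball (4 * Y ^ 2),
    f c * (w (toC c / Y) * ((‖toC c / Y‖ ^ (2 / 3 : ℝ) : ℝ) : ℂ) * Tg c / (nm c : ℂ))
/-- The weight `T φ'(T v) + 7/6 φ(T v)`. -/
def dphi (φ : ℝ → ℂ) (T v : ℝ) : ℂ := T * deriv φ (T * v) + 7 / 6 * φ (T * v)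
def wphi (φ : ℝ → ℂ) (T : ℝ) (z : ℂ) : ℂ :=
  ((‖z‖ ^ (1 / 3 : ℝ) : ℝ) : ℂ) * dphi φ T (Real.log (‖z‖ ^ 2))
/-- Theta sums over multiples of `r`, twisted by the conjugate character of `q`. -/
def Th0 (W : ℝ → ℂ) (r q : Finset P) (x : ℝ) : ℂ :=
  ∑ c ∈ pball (3 * x),
    (if pr r ∣ c then conj (xs c3 q c) * th c else 0) * W (Real.log (nm c / x))

/-! ### The value of the residue -/

def PK (w : ℕ) : ℝ := ∏ p ∈ fac (primorial w : E), (1 - (nm p.1 : ℝ)⁻¹)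
def PQ (w : ℕ) : ℝ := ∏ p ∈ (primorial w).primeFactors, (1 - (p : ℝ)⁻¹)
def KXi (φ : ℝ → ℂ) (w : ℕ) (H Y : ℝ) : ℂ :=
  ∑' h : ℤ, if h ≠ 0 ∧ Int.gcd h (primorial w) = 1 then
    (Real.exp (-(Real.pi * h ^ 2 / H ^ 2)) : ℝ) *
      ∑ γ ∈ pball (3 * Y), (if Disjoint (fac γ) (fac (primorial w : E)) then
        th γ * xv c3 γ (h : E) else 0) * lw φ 1 Y (nm γ)
  else 0
def KBs (φ : ℝ → ℂ) (m : ℤ) (Hp L : ℝ) (G : Finset P) (Pr : ℤ → Prop) : ℂ :=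
  ∑' n : ℤ, if Pr n then
    ∑ s ∈ sqf (3 * L), (if Prim s ∧ Disjoint s G then
      ((Hp / √(Ns s) * Real.exp (-(Real.pi * (n * Hp / Ns s) ^ 2)) : ℝ) : ℂ)
        * xs c3 s ((m * n ^ 2 : ℤ) : E) else 0) * lw φ 1 L (Ns s)
  else 0
/-- The rational squarefree integer attached to a conjugation-stable set. -/
def ell (s : Finset P) : ℕ := Nat.sqrt (nm (pr s))

/-! ### Character sums -/

def Ds (x : Finset P → ℂ) (L : ℝ) (ξ : E) : ℂ := ∑ c ∈ sqf L, x c * xs c3 c ξ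
def Dn (a : E → ℂ) (N : ℝ) (ξ : E) : ℂ := ∑ n ∈ pball N, a n * xv c3 n ξ
def nrm2 (x : Finset P → ℂ) (L : ℝ) : ℝ := ∑ c ∈ sqf L, ‖x c‖ ^ 2
def nrm1 (x : Finset P → ℂ) (L : ℝ) : ℝ := ∑ c ∈ sqf L, ‖x c‖
def nrmE (a : E → ℂ) (N : ℝ) : ℝ := ∑ n ∈ pball N, ‖a n‖ ^ 2
/-- Coefficients supported on norms in `[B, L]`. -/
def Sup (x : Finset P → ℂ) (B L : ℝ) : Prop := ∀ c, x c ≠ 0 → B ≤ Ns c ∧ Ns c ≤ L
/-- Twisted conjugate coefficients. -/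
def tw (β : Finset P → ℂ) (B : ℝ) (s : ℂ) (c : Finset P) : ℂ :=
  conj (β c) * ((Ns c / B : ℝ) : ℂ) ^ s
def S1 (x : Finset P → ℂ) (A B T : ℝ) : ℝ :=
  ∑ a ∈ pball (3 * A), Om (T * Real.log (nm a / A)) * ‖∑ b ∈ sqf (3 * B), x b * xs c3 b a‖ ^ 2
def MainM (x : Finset P → ℂ) (A B T : ℝ) (Pr : E → Prop) : ℂ :=
  ∑ c ∈ sqf (3 * B), ∑ c' ∈ sqf (3 * B), x c * conj (x c') * gn c * conj (gn c') *
    ((A / (9 * √(Ns c * Ns c')) : ℝ) : ℂ) *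
    ∑' ξ : E, if ξ ≠ 0 ∧ Pr ξ then
      psf ξ 3 * conj (xs c3 c ξ) * xs c3 c' ξ * hO T (nm ξ * A / (9 * (Ns c * Ns c'))) else 0
/-- Dual coefficients after Poisson summation. -/
def yd (x : Finset P → ℂ) (B T : ℝ) (d f e : Finset P) (τ : ℝ) (c : Finset P) : ℂ :=
  if e ⊆ c ∧ Disjoint c d then
    conj (x (d ∪ c) * gn c * xs c3 c (pr f)) * ((Ns c * Ns d / B : ℝ) : ℂ) ^ (1 / 2 + τ * T * I)
  else 0
def Xi (y : Finset P → ℂ) (L K T : ℝ) (Pr : E → Prop) : ℝ :=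
  ∑' ξ : E, if ξ ≠ 0 ∧ Pr ξ then GM T (nm ξ / K) * ‖Ds y L ξ‖ ^ 2 else 0
def Rest0 (x : Finset P → ℂ) (A B T : ℝ) (n : ℕ) (Pr : E → Prop) : ℝ :=
  A / B * ∫ τ : ℝ, (1 + |τ|) ^ (-(n : ℝ)) *
    Xi (yd x B T ∅ ∅ ∅ τ) (3 * B) (9 * B ^ 2 / A) T fun ξ => ¬ Pr ξ
def RestN (x : Finset P → ℂ) (A B T : ℝ) (n : ℕ) : ℝ :=
  ∑ d ∈ sqf (3 * B), ∑ f ∈ d.powerset, ∑ e ∈ sqf (3 * B) with d ∪ e ≠ ∅,
    A * Ns d / (Ns f * B) * ∫ τ : ℝ, (1 + |τ|) ^ (-(n : ℝ)) *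
      Xi (yd x B T d f e τ) (3 * B / Ns d) (9 * Ns f * B ^ 2 / (A * Ns d ^ 2)) T fun _ => True
/-- The dispersion. -/
def Dsp (β : Finset P → ℂ) (A B : ℝ) : ℝ :=
  ∑ a ∈ pball (3 * A), Om (Real.log (nm a / A)) *
    ‖∑ b ∈ sqf (3 * B), β b * tt b * xs c3 b a
      - conj (th a) * (((nm a : ℝ) ^ (-(1 / 6) : ℝ) : ℝ) : ℂ) * ∑ b ∈ sqf (3 * B), β b * t0 b‖ ^ 2
/-- The natural size of the dispersion. -/
def MM (A B : ℝ) : ℝ := A ^ (2 / 3 : ℝ) * B ^ (5 / 3 : ℝ)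
/-- Cancellation against characters of small conductor. -/
def Small (β : Finset P → ℂ) (B L Q ε : ℝ) : Prop :=
  ∀ z : E, z ≠ 0 → ¬ IsCube z → (nm z : ℝ) ≤ Q → ∀ s : ℂ, |s.re| ≤ 1 →
    ‖Ds (tw β B s) L z‖ ≤ ε * B * (1 + ‖s‖)
/-- Beating the cubic large sieve in the critical range. -/
def Crit (β : Finset P → ℂ) (B L δ1 δ2 : ℝ) (k : ℕ) (C : ℝ) : Prop :=
  ∀ s : ℂ, |s.re| ≤ 1 →
    ∑ ξ ∈ ball (B ^ (1 + δ1)) with B ^ (1 / 10 : ℝ) ≤ Qc ξ, ‖Ds (tw β B s) L ξ‖ ^ 2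
      ≤ C * B ^ (7 / 3 - δ2) * (1 + ‖s‖) ^ k
/-- Large values estimate for a family of characters. -/
def HAf (F : Finset E) (B δ ε C : ℝ) : Prop :=
  ∀ S ⊆ F, ∀ (N G : ℝ) (a : E → ℂ), 1 ≤ N → N ≤ B ^ 2 → 1 ≤ G → G ≤ B ^ (1 / 10 : ℝ) →
    (∀ n, ‖a n‖ ≤ 1) →
    ∑ ξ ∈ S, ‖Dn a N ξ‖ ^ 2
      ≤ C * B ^ ε * (G * (N + N ^ (1 / 3 : ℝ) * B ^ (1 + δ)) + S.card * B ^ (1 + δ) / G) * N
def Fam1 (B δ1 δ : ℝ) : Finset E :=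
  (ball (B ^ (1 + δ1))).filter fun ξ => Ns (cf2 ξ) * Jc ξ ≤ B ^ δ
def Fam2 (B δ1 δ : ℝ) : Finset E :=
  (ball (B ^ (1 + δ1))).filter fun ξ => Jc ξ ≤ B ^ δ ∧ B ^ (1 / 3 - 2 * δ) ≤ Ns (cf2 ξ)

/-! ### Bilinear forms and the decomposition of the sum over primes -/

/-- Bilinear form; `α` lives on norms at most `3 X / B`, `β` on norms at most `L`. -/
def Bil (F α β : Finset P → ℂ) (X B L T : ℝ) (φ : ℝ → ℂ) : ℂ :=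
  ∑ a ∈ sqf (3 * X / B), ∑ b ∈ sqf L,
    α a * β b * (if Disjoint a b then F (a ∪ b) else 0) * lw φ T X (Ns a * Ns b)
/-- Localised and twisted coefficients. -/
def xl (β : Finset P → ℂ) (B T τ : ℝ) (i : ℤ) (b : Finset P) : ℂ :=
  β b * (bx (T * Real.log (Ns b / B) - i / 2) : ℝ) * ((Ns b / B : ℝ) : ℂ) ^ (τ * T * I)
def Bi (B T : ℝ) (i : ℤ) : ℝ := B * Real.exp (i / (2 * T))
def Ji (Λ T : ℝ) : Finset ℤ := Finset.Icc (-2) ⌈2 * T * Real.log Λ⌉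
def nu (Y : ℝ) (c : Finset P) : ℂ := ∑ d ∈ c.powerset, mu d * (Vs (Real.log (Ns d / Y)) : ℝ)
def PS (F : Finset P → ℂ) (X T : ℝ) (φ : ℝ → ℂ) : ℂ :=
  ∑ c ∈ sqf (3 * X) with c.card = 1, F c * lw φ T X (Ns c)
def TI (F : Finset P → ℂ) (X T : ℝ) (φ : ℝ → ℂ) (Y : ℝ) : ℂ :=
  ∑ c ∈ sqf (3 * X), nu Y c * F c * lw φ T X (Ns c)
def LP (F : Finset P → ℂ) (X T : ℝ) (φ : ℝ → ℂ) (Y w : ℝ) : ℂ :=
  ∑ c ∈ sqf (3 * X) with 2 ≤ c.card ∧ Rough w c, nu Y c * F c * lw φ T X (Ns c)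
def BDs (F : Finset P → ℂ) (X T : ℝ) (φ : ℝ → ℂ) (Y w : ℝ) : ℂ :=
  ∑ c ∈ sqf (3 * X) with 2 ≤ c.card ∧ ¬ Rough w c, nu Y c * F c * lw φ T X (Ns c)
def Y1 (X T : ℝ) : ℝ := X ^ (43 / 100 : ℝ) * T ^ (-(4 / 3) : ℝ)
def Dd (X T : ℝ) : ℝ := (X ^ (1 / 6 + 1 / 250 : ℝ) / T) ^ (2 / 3 : ℝ)
def wX (X : ℝ) : ℝ := X ^ (1 / 50 : ℝ)
/-- Largest height. -/
def Tmax (X : ℝ) : ℝ := X ^ (1 / 6 + 1 / 1000 : ℝ)
def MS (Y D : ℝ) : ℂ :=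
  ∑ d ∈ sqf D, ∑ r ∈ sqf (3 * Y),
    mu d * mu r * ((Vs (Real.log (Ns r / Y)) * Ns (d ∩ r) / (Ns r * Ns d ^ 2) : ℝ) : ℂ)
/-- Ordered convolution of weights on primes. -/
def Cv : List (P → ℂ) → Finset P → ℂ
  | [], s => if s = ∅ then 1 else 0
  | u :: l, s => ∑ p ∈ s, u p * Cv l (s.erase p)
/-- A prime variable in the box number `i`. -/
def pu (w τ κ : ℝ) (i : ℤ) (p : P) : ℂ :=
  if w < (nm p.1 : ℝ) then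
    (bx (Real.log (nm p.1) - i / 2) : ℝ) * (1 - κ * ((nm p.1 : ℝ) : ℂ) ^ (τ * I)) else 0
/-- Normalised product of prime variables. -/
def nb (w τ κ : ℝ) (l : List ℤ) (s : Finset P) : ℂ :=
  Cv (l.map (pu w τ κ)) s / ((2 ^ l.length * l.length.factorial : ℕ) : ℂ)
def Bl (l : List ℤ) : ℝ := Real.exp ((l.sum : ℝ) / 2)
/-- Contribution of one configuration of boxes. -/
def Cfg (F : Finset P → ℂ) (X T : ℝ) (φ : ℝ → ℂ) (Y w : ℝ) (l : List ℤ) : ℂ :=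
  ∑ c ∈ sqf (3 * X), nu Y c * Cv (l.map (pu w 0 0)) c * F c * lw φ T X (Ns c)
def bR (w1 w θ τ B : ℝ) (b : Finset P) : ℂ :=
  if B ≤ Ns b ∧ Ns b < Real.exp 1 * B ∧ Rough w1 b then
    mu b * e1 (θ * kc w b) * ((Ns b : ℝ) : ℂ) ^ (τ * I) else 0
def bS (w1 w U θ τ B : ℝ) (b : Finset P) : ℂ :=
  if B ≤ Ns b ∧ Ns b < Real.exp 1 * B ∧ U < Ns (b.filter fun p => (nm p.1 : ℝ) ≤ w1) then
    mu b * e1 (θ * kc w b) * ((Ns b : ℝ) : ℂ) ^ (τ * I) else 0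

end Pat
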