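import Vale.Agent.P006.IfC
import Vale.Agent.P026.Eis2

/-! The sums over primes from the type I sums and the remaining terms. -/

noncomputable section
namespace Pat
open QRH Complex MeasureTheory Filter
open scoped ComplexConjugate Classical ContDiff Topology

theorem del_supp {φ : ℝ → ℂ} (hφ : Bump φ) {X T y : ℝ} (hX : 0 < X) (hT : 1 ≤ T) (hy : 0 < y)
    (h : lw φ T X y ≠ 0) : X ≤ y ∧ y ≤ X + 2 * X / T := by
  obtain ⟨h1, h2⟩ := hφ.supp _ h
  have hT0 : 0 < T := by linarith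
  have hq : 0 < y / X := div_pos hy hX
  have a1 : 0 ≤ Real.log (y / X) := nonneg_of_mul_nonneg_right h1 hT0
  have a2 : Real.log (y / X) ≤ 1 / T := by
    rw [le_div_iff₀ hT0]
    linarith
  rw [Real.log_nonneg_iff hq, one_le_div hX] at a1
  rw [Real.log_le_iff_le_exp hq, div_le_iff₀ hX] at a2
  have a3 : |1 / T| ≤ 1 := by
    rw [abs_of_pos (by positivity), div_le_one hT0]
    exact hT
  have a4 := (le_abs_self _).trans (Real.abs_exp_sub_one_le a3)
  rw [abs_of_pos (by positivity : 0 < 1 / T)] at a4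
  refine ⟨a1, a2.trans ?_⟩
  calc _ ≤ (1 + 2 * (1 / T)) * X := mul_le_mul_of_nonneg_right (by linarith) hX.le
    _ = _ := by ring

theorem del_nu (hb : BA) {Y : ℝ} (hY : 1 ≤ Y) {c : Finset P} (hc : c.card = 1)
    (h : 3 * Y ≤ Ns c) : nu Y c = 1 := by
  obtain ⟨p, rfl⟩ := Finset.card_eq_one.1 hc
  have hY0 : 0 < Y := by linarith
  have e : ({p} : Finset P).powerset = {∅, {p}} := by
    ext s
    simp [Finset.subset_singleton_iff]
  unfold nu
  rw [e, Finset.sum_pair (Finset.singleton_ne_empty p).symm, hb.Vs_one, hb.Vs_zero, mu_empty]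
  · simp
  · rw [Real.le_log_iff_exp_le (div_pos (Ns_pos _) hY0), le_div_iff₀ hY0]
    have := Real.exp_one_lt_d9
    nlinarith
  · rw [Ns_empty]
    exact Real.log_nonpos (by positivity) ((div_le_one hY0).2 hY)

theorem del_dec (hb : BA) (F : Finset P → ℂ) {φ : ℝ → ℂ} (hφ : Bump φ) {X T Y : ℝ} (w : ℝ)
    (hT : 1 ≤ T) (hY : 1 ≤ Y) (hX : 3 * Y ≤ X) :
    PS F X T φ = TI F X T φ Y - LP F X T φ Y w - BDs F X T φ Y w := by
  unfold PS TI LP BDs
  simp only [Finset.sum_filter]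
  rw [← Finset.sum_sub_distrib, ← Finset.sum_sub_distrib]
  refine Finset.sum_congr rfl fun c _ => ?_
  by_cases h0 : lw φ T X (Ns c) = 0
  · simp [h0]
  have h1 := (del_supp hφ (by linarith) hT (Ns_pos c) h0).1
  by_cases h2 : 2 ≤ c.card
  · rw [if_neg (by omega)]
    by_cases h3 : Rough w c <;> simp [h2, h3]
  · have h4 : c.card ≠ 0 := fun h => by
      rw [Finset.card_eq_zero.1 h, Ns_empty] at h1
      linarith
    have h5 : c.card = 1 := by omega
    rw [if_pos h5, if_neg fun h => h2 h.1, if_neg fun h => h2 h.1, del_nu hb hY h5 (hX.trans h1)]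
    ring

theorem del_TI (X T : ℝ) (φ : ℝ → ℂ) (Y : ℝ) : TI dl X T φ Y = TI tt X T φ Y - TI t0 X T φ Y := by
  unfold TI dl
  rw [← Finset.sum_sub_distrib]
  exact Finset.sum_congr rfl fun c _ => by ring

theorem del_PS (X T : ℝ) (φ : ℝ → ℂ) : PS dl X T φ = PS tt X T φ - PS t0 X T φ := by
  unfold PS dl
  rw [← Finset.sum_sub_distrib]
  exact Finset.sum_congr rfl fun c _ => by ring

theorem del_Y {X T : ℝ} (hX : 9 ≤ X) (hT : 1 ≤ T) (hT' : T ≤ Tmax X) :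
    1 ≤ Y1 X T ∧ 3 * Y1 X T ≤ X := by
  have hX1 : 1 ≤ X := by linarith
  have hX0 : 0 < X := by linarith
  have hT0 : 0 < T := by linarith
  unfold Y1
  constructor
  · have a1 : T ^ (4 / 3 : ℝ) ≤ X ^ (43 / 100 : ℝ) := by
      refine (Real.rpow_le_rpow hT0.le hT' (by norm_num)).trans ?_
      rw [Tmax, ← Real.rpow_mul hX0.le]
      exact Real.rpow_le_rpow_of_exponent_le hX1 (by norm_num)
    rw [Real.rpow_neg hT0.le, ← div_eq_mul_inv, one_le_div (by positivity)]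
    exact a1
  · have a1 : T ^ (-(4 / 3) : ℝ) ≤ 1 := Real.rpow_le_one_of_one_le_of_nonpos hT (by norm_num)
    have a2 : X ^ (43 / 100 : ℝ) ≤ X ^ (1 / 2 : ℝ) :=
      Real.rpow_le_rpow_of_exponent_le hX1 (by norm_num)
    rw [← Real.sqrt_eq_rpow] at a2
    have a3 : 3 ≤ √X := Real.le_sqrt_of_sq_le (by linarith)
    have a4 := Real.mul_self_sqrt hX0.le
    have a5 : X ^ (43 / 100 : ℝ) * T ^ (-(4 / 3) : ℝ) ≤ √X :=
      (mul_le_of_le_one_right (by positivity) a1).trans a2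
    nlinarith

theorem del_log (r : ℝ) {c : ℝ} (hc : 0 < c) :
    ∃ X0 : ℝ, ∀ X, X0 ≤ X → Real.log X ^ r ≤ X ^ c := by
  have h := (isLittleO_log_rpow_rpow_atTop r hc).bound one_pos
  obtain ⟨X0, h⟩ := eventually_atTop.1 h
  refine ⟨max X0 1, fun X hX => ?_⟩
  have h1 := h X ((le_max_left _ _).trans hX)
  have hX0 : 0 ≤ X := zero_le_one.trans ((le_max_right _ _).trans hX)
  rw [one_mul, Real.norm_of_nonneg (Real.rpow_nonneg hX0 _)] at h1
  exact (le_abs_self _).trans h1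

theorem del_one_le {X : ℝ} (hX : 9 ≤ X) : 1 ≤ Real.log X := by
  rw [Real.le_log_iff_exp_le (by linarith)]
  have := Real.exp_one_lt_d9
  linarith

theorem del_save {X c : ℝ} (hX : 9 ≤ X) (h : Real.log X ^ (3 / 2 : ℝ) ≤ X ^ c) :
    X ^ (5 / 6 - c) ≤ X ^ (5 / 6 : ℝ) * Real.log X ^ (-(3 / 2) : ℝ) := by
  have hX0 : 0 < X := by linarith
  have hL : 0 < Real.log X := one_pos.trans_le (del_one_le hX)
  rw [Real.rpow_sub hX0, Real.rpow_neg hL.le, ← div_eq_mul_inv]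
  gcongr

theorem delS (hb : BA) (h1 : TIt) (h2 : TI0) (h3 : LPS) (h4 : BDS) : DelS := by
  intro φ k0 hφ
  obtain ⟨c1, C1, hc1, hC1, h1⟩ := h1 φ hφ
  obtain ⟨c2, C2, X2, hc2, hC2, h2⟩ := h2 φ k0 hφ
  obtain ⟨C3, X3, hC3, h3⟩ := h3 φ k0 hφ
  obtain ⟨C4, X4, hC4, h4⟩ := h4 φ k0 hφ
  obtain ⟨X5, h5⟩ := del_log (3 / 2) hc1
  obtain ⟨X6, h6⟩ := del_log (3 / 2) hc2
  obtain ⟨X7, h7⟩ := del_log k0 (c := 1 / 6 + 1 / 1000) (by norm_num)
  refine ⟨C1 + C2 + C3 + C4, max (max (max X2 X3) (max X4 X5)) (max (max X6 X7) 9),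
    by positivity, fun X T hX hT hT' => ?_⟩
  simp only [max_le_iff] at hX
  obtain ⟨⟨⟨a2, a3⟩, a4, a5⟩, ⟨a6, a7⟩, a9⟩ := hX
  have hTm : T ≤ Tmax X := by
    refine hT'.trans ?_
    have := h7 X a7
    rwa [Real.rpow_natCast] at this
  obtain ⟨hY1, hY2⟩ := del_Y a9 hT hTm
  have b1 := h1 X T (by linarith) hT hTm
  have b2 := h2 X T a2 hT hT'
  have b3 := h3 X T a3 hT hT'
  have b4 := h4 X T a4 hT hT'
  have b5 := mul_le_mul_of_nonneg_left (del_save a9 (h5 X a5)) hC1.le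
  have b6 := mul_le_mul_of_nonneg_left (del_save a9 (h6 X a6)) hC2.le
  simp only at b3 b4 ⊢
  rw [del_dec hb dl hφ (wX X) hT hY1 hY2, del_TI]
  set m := ((rho * kap * X ^ (5 / 6 : ℝ) : ℝ) : ℂ) * mo φ T (5 / 6) * MS (Y1 X T) (Dd X T)
  rw [← sub_sub_sub_cancel_right (TI tt X T φ (Y1 X T)) _ m]
  have b7 := norm_sub_le (TI tt X T φ (Y1 X T) - m) (TI t0 X T φ (Y1 X T) - m)
  refine (norm_sub_le _ _).trans ((add_le_add_left (norm_sub_le _ _) _).trans ?_)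
  linarith

theorem del_t0 (hb : BA) {φ : ℝ → ℂ} (hφ : Bump φ) : ∃ C : ℝ, 0 < C ∧ ∀ X T : ℝ, 1 ≤ X → 1 ≤ T →
    ‖PS t0 X T φ‖ ≤ C * X ^ (5 / 6 : ℝ) * (T ^ (-1 : ℝ) + X ^ (-(1 / 2) : ℝ)) := by
  obtain ⟨D, hD, hbd⟩ := hb.bump_bd φ hφ 0
  obtain ⟨C, hC, hth⟩ := hb.thin_sqf
  refine ⟨2 * C * ((|kap| + 1) * D), by positivity, fun X T hX hT => ?_⟩
  have hX0 : 0 < X := by linarith
  have hT0 : 0 < T := by linarith
  set S := (sqf (3 * X)).filter fun c => X ≤ Ns c ∧ Ns c ≤ X + 2 * X / T with hS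
  have h1 := hth X (2 * X / T) S hX0.le (by positivity) fun s hs => (Finset.mem_filter.1 hs).2
  have h2 : ‖PS t0 X T φ‖ ≤ ∑ _c ∈ S, (|kap| + 1) * D * X ^ (-(1 / 6) : ℝ) := by
    unfold PS
    refine (norm_sum_le _ _).trans ?_
    rw [hS, Finset.sum_filter, Finset.sum_filter]
    refine Finset.sum_le_sum fun c _ => ?_
    by_cases h0 : lw φ T X (Ns c) = 0
    · simp only [h0, mul_zero, norm_zero, ite_self]
      split_ifs <;> positivity
    have h3 := del_supp hφ hX0 hT (Ns_pos c) h0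
    rw [if_pos h3]
    split_ifs
    · have a1 : ‖lw φ T X (Ns c)‖ ≤ D := hbd.bd 0 le_rfl _
      have a2 : Ns c ^ (-(1 / 6) : ℝ) ≤ X ^ (-(1 / 6) : ℝ) :=
        Real.rpow_le_rpow_of_nonpos hX0 h3.1 (by norm_num)
      have a3 := (Ns_pos c).le
      rw [norm_mul, t0, Complex.norm_real, norm_mul, Real.norm_eq_abs,
        Real.norm_of_nonneg (Real.rpow_nonneg a3 _)]
      calc _ ≤ (|kap| + 1) * X ^ (-(1 / 6) : ℝ) * D := by
            gcongr
            linarith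
        _ = _ := by ring
    · positivity
  rw [Finset.sum_const, nsmul_eq_mul] at h2
  have e1 : X ^ (5 / 6 : ℝ) = X * X ^ (-(1 / 6) : ℝ) := by
    rw [mul_comm, ← Real.rpow_add_one hX0.ne']
    norm_num
  have e2 : √X = X * X ^ (-(1 / 2) : ℝ) := by
    rw [mul_comm, ← Real.rpow_add_one hX0.ne', Real.sqrt_eq_rpow]
    norm_num
  have e3 : 1 ≤ √X := Real.one_le_sqrt.2 hX
  calc _ ≤ _ := h2
    _ ≤ C * (2 * X / T + √X + √X) * ((|kap| + 1) * D * X ^ (-(1 / 6) : ℝ)) := by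
        gcongr
        refine h1.trans ?_
        gcongr
    _ = _ := by
        rw [e1, e2, Real.rpow_neg_one]
        field_simp
        ring

theorem del_mono {X T c c' : ℝ} {k k' : ℕ} (hX : 9 ≤ X) (hT : 1 ≤ T) (hc : c ≤ c') (hk : k' ≤ k) :
    Real.log X ^ k' * T ^ (-c') ≤ Real.log X ^ k * T ^ (-c) ∧ X ^ (-c') ≤ X ^ (-c) := by
  have hL := del_one_le hX
  refine ⟨mul_le_mul (pow_le_pow_right₀ hL hk) (Real.rpow_le_rpow_of_exponent_le hT (by linarith))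
    (by positivity) (by positivity), Real.rpow_le_rpow_of_exponent_le (by linarith) (by linarith)⟩

theorem delH (hb : BA) (h1 : TIt) (h2 : MSb) (h3 : LPH) (h4 : BDH) : DelH := by
  intro φ hφ
  obtain ⟨c1, C1, hc1, hC1, h1⟩ := h1 φ hφ
  obtain ⟨C2, hC2, h2⟩ := h2
  obtain ⟨k3, c3, C3, X3, hc3, hC3, h3⟩ := h3 φ hφ
  obtain ⟨k4, c4, C4, X4, hc4, hC4, h4⟩ := h4 φ hφ
  obtain ⟨C5, hC5, h5⟩ := del_t0 hb hφ
  obtain ⟨C6, hC6, h6⟩ := hb.mo_le φ hφ
  set k := max (max k3 k4) 1 with hk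
  set c := min (min c1 (1 / 2)) (min c3 c4) with hc
  have hc0 : 0 < c := lt_min (lt_min hc1 (by norm_num)) (lt_min hc3 hc4)
  refine ⟨k, c, C1 + (|rho * kap| + 1) * C6 * (2 * C2) + C3 + C4 + C5, max (max X3 X4) 9, hc0,
    by positivity, fun X T hX hT hT' => ?_⟩
  simp only [max_le_iff] at hX
  obtain ⟨⟨a3, a4⟩, a9⟩ := hX
  have hX0 : 0 < X := by linarith
  have hT0 : 0 < T := by linarith
  have hL := del_one_le a9
  obtain ⟨hY1, hY2⟩ := del_Y a9 hT hT'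
  have b1 := h1 X T (by linarith) hT hT'
  have b2 := h2 (Y1 X T) (Dd X T) hY1
  have b3 := h3 X T a3 hT hT'
  have b4 := h4 X T a4 hT hT'
  have b5 := h5 X T (by linarith) hT
  have b6 := h6 T (5 / 6) hT (by rw [abs_of_pos] <;> norm_num)
  simp only at b3 b4 ⊢
  set G := Real.log X ^ k * T ^ (-c) + X ^ (-c) with hG
  have g1 : 0 ≤ Real.log X ^ k * T ^ (-c) := by positivity
  have g2 : 0 ≤ X ^ (-c) := by positivity
  have hZ : 0 ≤ X ^ (5 / 6 : ℝ) := by positivity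
  have m1 := del_mono (c := c) (c' := c1) (k := k) (k' := 0) a9 hT
    ((min_le_left _ _).trans (min_le_left _ _)) (Nat.zero_le _)
  have m2 := del_mono (c := c) (c' := 1 / 2) (k := k) (k' := 0) a9 hT
    ((min_le_left _ _).trans (min_le_right _ _)) (Nat.zero_le _)
  have c1' : c ≤ 1 := ((min_le_left _ _).trans (min_le_right _ _)).trans (by norm_num)
  have m3 := del_mono (c := c) (c' := c3) (k := k) (k' := k3) a9 hT
    ((min_le_right _ _).trans (min_le_left _ _)) ((le_max_left _ _).trans (le_max_left _ _))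
  have m4 := del_mono (c := c) (c' := c4) (k := k) (k' := k4) a9 hT
    ((min_le_right _ _).trans (min_le_right _ _)) ((le_max_right _ _).trans (le_max_left _ _))
  have m5 := del_mono (c := c) (c' := 1) (k := k) (k' := 0) a9 hT c1' (Nat.zero_le _)
  have m6 := del_mono (c := c) (c' := 1) (k := k) (k' := 1) a9 hT c1' (le_max_right _ _)
  rw [pow_zero, one_mul] at m5
  rw [pow_one] at m6
  have d1 : C1 * X ^ (5 / 6 - c1) ≤ C1 * X ^ (5 / 6 : ℝ) * G := by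
    rw [sub_eq_add_neg, Real.rpow_add hX0, mul_assoc]
    gcongr
    linarith [m1.2]
  have d3 : C3 * X ^ (5 / 6 : ℝ) * (Real.log X ^ k3 * T ^ (-c3) + X ^ (-c3))
      ≤ C3 * X ^ (5 / 6 : ℝ) * G :=
    mul_le_mul_of_nonneg_left (add_le_add m3.1 m3.2) (by positivity)
  have d4 : C4 * X ^ (5 / 6 : ℝ) * (Real.log X ^ k4 * T ^ (-c4) + X ^ (-c4))
      ≤ C4 * X ^ (5 / 6 : ℝ) * G :=
    mul_le_mul_of_nonneg_left (add_le_add m4.1 m4.2) (by positivity)
  have d5 : C5 * X ^ (5 / 6 : ℝ) * (T ^ (-1 : ℝ) + X ^ (-(1 / 2) : ℝ))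
      ≤ C5 * X ^ (5 / 6 : ℝ) * G :=
    mul_le_mul_of_nonneg_left (add_le_add m5.1 m2.2) (by positivity)
  set m := ((rho * kap * X ^ (5 / 6 : ℝ) : ℝ) : ℂ) * mo φ T (5 / 6) * MS (Y1 X T) (Dd X T) with hm
  have d2 : ‖m‖ ≤ (|rho * kap| + 1) * C6 * (2 * C2) * X ^ (5 / 6 : ℝ) * G := by
    have e1 : Real.log (Y1 X T) ≤ Real.log X := Real.log_le_log (by linarith) (by linarith)
    have e2 : 0 ≤ Real.log (Y1 X T) := Real.log_nonneg hY1
    rw [hm, norm_mul, norm_mul, Complex.norm_real, norm_mul, Real.norm_eq_abs,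
      Real.norm_of_nonneg hZ]
    calc _ ≤ (|rho * kap| + 1) * X ^ (5 / 6 : ℝ) * (C6 / T) * (C2 * (2 * Real.log X)) := by
          gcongr
          · linarith
          · refine b2.trans ?_
            gcongr
            linarith
      _ = (|rho * kap| + 1) * C6 * (2 * C2) * X ^ (5 / 6 : ℝ) * (Real.log X * T ^ (-1 : ℝ)) := by
          rw [Real.rpow_neg_one]
          field_simp
      _ ≤ _ := by
          gcongr
          linarith [m6.1]
  rw [del_PS, del_dec hb tt hφ (wX X) hT hY1 hY2]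
  have b7 : ‖TI tt X T φ (Y1 X T)‖ ≤ ‖TI tt X T φ (Y1 X T) - m‖ + ‖m‖ := norm_le_norm_sub_add _ _
  have b8 := norm_sub_le (TI tt X T φ (Y1 X T)) (LP tt X T φ (Y1 X T) (wX X))
  refine (norm_sub_le _ _).trans ((add_le_add_left (norm_sub_le _ _) _).trans ?_)
  linarith

end Pat
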