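import Vale.Agent.P006.IfC
import Vale.Agent.P026.Sym

noncomputable section
namespace Pat
open QRH Complex MeasureTheory Filter
open scoped ComplexConjugate Classical ContDiff Topology

theorem e1c_fou {h φ : ℝ → ℂ} (hi : Integrable h)
    (hφ : ∀ v : ℝ, φ v = ∫ τ : ℝ, h τ * Complex.exp (τ * v * I)) {ι κ : Type} (S : Finset ι)
    (S' : Finset κ) (c : ι → κ → ℂ) (v : ι → κ → ℝ) :
    ∑ a ∈ S, ∑ b ∈ S', c a b * φ (v a b)
      = ∫ τ : ℝ, h τ * ∑ a ∈ S, ∑ b ∈ S', c a b * Complex.exp (τ * v a b * I) := by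
  have h1 : ∀ a b, Integrable fun τ : ℝ => c a b * (h τ * Complex.exp (τ * v a b * I)) := by
    intro a b
    refine (hi.mul_bdd (c := 1) (by fun_prop) (Eventually.of_forall fun τ => ?_)).const_mul _
    rw [← ofReal_mul, norm_exp_ofReal_mul_I]
  have h2 : ∀ τ : ℝ, h τ * ∑ a ∈ S, ∑ b ∈ S', c a b * Complex.exp (τ * v a b * I)
      = ∑ a ∈ S, ∑ b ∈ S', c a b * (h τ * Complex.exp (τ * v a b * I)) := by
    intro τ
    simp only [Finset.mul_sum]
    exact Finset.sum_congr rfl fun a _ => Finset.sum_congr rfl fun b _ => by ring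
  simp only [h2]
  rw [integral_finsetSum _ fun a _ => integrable_finsetSum _ fun b _ => h1 a b]
  refine Finset.sum_congr rfl fun a _ => ?_
  rw [integral_finsetSum _ fun b _ => h1 a b]
  refine Finset.sum_congr rfl fun b _ => ?_
  rw [integral_const_mul, ← hφ]

/-- The bracket in the dispersion. -/
def e1cD (x : Finset P → ℂ) (B : ℝ) (a : E) : ℂ :=
  ∑ b ∈ sqf (3 * B), x b * tt b * xs c3 b a
    - conj (th a) * (((nm a : ℝ) ^ (-(1 / 6) : ℝ) : ℝ) : ℂ) * ∑ b ∈ sqf (3 * B), x b * t0 b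

theorem e1c_kap : 0 ≤ kap := by
  unfold kap
  have := Real.Gamma_pos_of_pos (show (0 : ℝ) < 2 / 3 by norm_num)
  positivity

theorem e1c_id (hb : BA) (x : Finset P → ℂ) (B : ℝ) (a : Finset P) :
    ∑ b ∈ sqf (3 * B), x b * (if Disjoint a b then dl (a ∪ b) else 0)
      = tt a * e1cD x B (pr a) + ((Ns a ^ (-(1 / 6) : ℝ) : ℝ) : ℂ)
        * ∑ b ∈ sqf (3 * B), if Disjoint a b then 0 else x b * t0 b := by
  have h1 : tt a * conj (th (pr a)) = 1 := by
    rw [hb.th_pr, mul_conj, normSq_eq_norm_sq, hb.norm_tt]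
    norm_num
  unfold e1cD
  rw [mul_sub, ← mul_assoc, ← mul_assoc, h1, one_mul, Finset.mul_sum, Finset.mul_sum,
    Finset.mul_sum, ← Finset.sum_sub_distrib, ← Finset.sum_add_distrib]
  refine Finset.sum_congr rfl fun b _ => ?_
  change _ = _ - ((Ns a ^ (-(1 / 6) : ℝ) : ℝ) : ℂ) * _ + _
  split_ifs with hd
  · have h2 : t0 (a ∪ b) = ((Ns a ^ (-(1 / 6) : ℝ) : ℝ) : ℂ) * t0 b := by
      unfold t0
      rw [Ns_union hd, Real.mul_rpow (Ns_pos a).le (Ns_pos b).le]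
      push_cast
      ring
    rw [dl, hb.tt_union a b hd, h2]
    ring
  · have h2 : xs c3 b (pr a) = 0 := by
      obtain ⟨p, hp, hp'⟩ := Finset.not_disjoint_iff.1 hd
      exact (xs_eq_zero_iff ch_c3).2 ⟨p, hp', dvd_pr_iff.2 hp⟩
    rw [h2]
    ring

theorem e1c_meet (hb : BA) {x : Finset P → ℂ} {B Λ w : ℝ} (hx : GB x B Λ w) (hB : 0 < B)
    (hw : 1 ≤ w) (a : Finset P) :
    ‖∑ b ∈ sqf (3 * B), if Disjoint a b then 0 else x b * t0 b‖
      ≤ 36 * kap * B ^ (5 / 6 : ℝ) * Real.log (Ns a) / w := by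
  have hk := e1c_kap
  have h1 : ∀ b ∈ sqf (3 * B), ‖if Disjoint a b then 0 else x b * t0 b‖
      ≤ ∑ p ∈ a with w < nm p.1, if {p} ⊆ b then kap * B ^ (-(1 / 6) : ℝ) else 0 := by
    intro b _
    have h0 : ∀ p ∈ a.filter fun p => w < nm p.1,
        0 ≤ if {p} ⊆ b then kap * B ^ (-(1 / 6) : ℝ) else 0 := fun p _ => by
      split_ifs <;> positivity
    split_ifs with hd
    · rw [norm_zero]
      exact Finset.sum_nonneg h0
    by_cases hxb : x b = 0
    · rw [hxb, zero_mul, norm_zero]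
      exact Finset.sum_nonneg h0
    obtain ⟨p, hp, hp'⟩ := Finset.not_disjoint_iff.1 hd
    refine le_trans ?_ (Finset.single_le_sum h0
      (Finset.mem_filter.2 ⟨hp, hx.rough b hxb p hp'⟩))
    rw [if_pos (Finset.singleton_subset_iff.2 hp'), norm_mul, t0, Complex.norm_real,
      Real.norm_of_nonneg (mul_nonneg hk (Real.rpow_nonneg (Ns_pos b).le _))]
    have h2 : Ns b ^ (-(1 / 6) : ℝ) ≤ B ^ (-(1 / 6) : ℝ) :=
      Real.rpow_le_rpow_of_nonpos hB (hx.sup b hxb).1 (by norm_num)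
    have h3 := hx.bd b
    have h4 : 0 ≤ Ns b ^ (-(1 / 6) : ℝ) := Real.rpow_nonneg (Ns_pos b).le _
    calc ‖x b‖ * (kap * Ns b ^ (-(1 / 6) : ℝ)) ≤ 1 * (kap * B ^ (-(1 / 6) : ℝ)) := by gcongr
      _ = _ := one_mul _
  refine (norm_sum_le _ _).trans ((Finset.sum_le_sum h1).trans ?_)
  rw [Finset.sum_comm]
  have h2 : ∀ p ∈ a.filter fun p => w < nm p.1,
      ∑ b ∈ sqf (3 * B), (if {p} ⊆ b then kap * B ^ (-(1 / 6) : ℝ) else 0)
        ≤ 36 * kap * B ^ (5 / 6 : ℝ) / w := by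
    intro p hp
    have h3 := hb.card_sup (3 * B) {p} (by positivity)
    have h4 : Ns {p} = nm p.1 := by simp [Ns_eq_prod]
    have h5 := (Finset.mem_filter.1 hp).2
    rw [← Finset.sum_filter, Finset.sum_const, nsmul_eq_mul]
    have h6 : B ^ (5 / 6 : ℝ) = B * B ^ (-(1 / 6) : ℝ) := by
      rw [← Real.rpow_one_add' hB.le (by norm_num)]
      norm_num
    rw [h4] at h3
    calc _ ≤ 12 * (3 * B) / w * (kap * B ^ (-(1 / 6) : ℝ)) := by
          gcongr
          exact h3.trans (by gcongr)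
      _ = _ := by rw [h6]; ring
  refine (Finset.sum_le_card_nsmul _ _ _ h2).trans ?_
  rw [nsmul_eq_mul]
  have h3 : ((a.filter fun p => w < nm p.1).card : ℝ) ≤ Real.log (Ns a) :=
    le_trans (by exact_mod_cast Finset.card_filter_le _ _) (hb.card_log a)
  calc _ ≤ Real.log (Ns a) * (36 * kap * B ^ (5 / 6 : ℝ) / w) := by gcongr
    _ = _ := by ring

theorem e1c_box (hb : BA) {c : ℝ} (hc : ∀ v, 3 / 8 ≤ v → v ≤ 5 / 8 → c ≤ Om v)
    (x : Finset P → ℂ) {B Y : ℝ} (hY : 0 < Y) (S : Finset (Finset P))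
    (hS : ∀ a ∈ S, -1 < Real.log (Ns a / Y) ∧ Real.log (Ns a / Y) < 1) :
    c * ∑ a ∈ S, ‖e1cD x B (pr a)‖ ^ 2
      ≤ ∑ j ∈ Finset.range 8, Dsp x (Y * Real.exp (-1 + j / 4 - 3 / 8)) B := by
  have h1 : ∀ a ∈ S, c * ‖e1cD x B (pr a)‖ ^ 2 ≤ ∑ j ∈ Finset.range 8,
      if Ns a ≤ 3 * (Y * Real.exp (-1 + j / 4 - 3 / 8)) then
        Om (Real.log (Ns a / (Y * Real.exp (-1 + j / 4 - 3 / 8)))) * ‖e1cD x B (pr a)‖ ^ 2
      else 0 := by
    intro a ha
    obtain ⟨l1, l2⟩ := hS a ha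
    have h0 : 0 ≤ 4 * (Real.log (Ns a / Y) + 1) := by linarith
    have j1 := Nat.floor_le h0
    have j2 := Nat.lt_floor_add_one (4 * (Real.log (Ns a / Y) + 1))
    have j3 : ⌊4 * (Real.log (Ns a / Y) + 1)⌋₊ ∈ Finset.range 8 :=
      Finset.mem_range.2 ((Nat.floor_lt h0).2 (by push_cast; linarith))
    generalize ⌊4 * (Real.log (Ns a / Y) + 1)⌋₊ = j at j1 j2 j3
    refine le_trans ?_ (Finset.single_le_sum (f := fun j : ℕ =>
      if Ns a ≤ 3 * (Y * Real.exp (-1 + j / 4 - 3 / 8)) then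
        Om (Real.log (Ns a / (Y * Real.exp (-1 + j / 4 - 3 / 8)))) * ‖e1cD x B (pr a)‖ ^ 2
      else 0) (fun j _ => by
        have := hb.Om_nonneg (Real.log (Ns a / (Y * Real.exp (-1 + j / 4 - 3 / 8))))
        split_ifs <;> positivity) j3)
    have hN := Ns_pos a
    have e1 : Real.log (Ns a / (Y * Real.exp (-1 + j / 4 - 3 / 8)))
        = Real.log (Ns a / Y) - (-1 + j / 4 - 3 / 8) := by
      rw [← div_div, Real.log_div (by positivity) (Real.exp_pos _).ne', Real.log_exp]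
    have e2 : Ns a ≤ 3 * (Y * Real.exp (-1 + j / 4 - 3 / 8)) := by
      rw [← div_le_iff₀ (by positivity), ← Real.log_le_log_iff (by positivity) (by norm_num), e1]
      have := Real.log_le_log (Real.exp_pos 1) (Real.exp_one_lt_d9.le.trans (by norm_num : _ ≤ (3 : ℝ)))
      rw [Real.log_exp] at this
      linarith
    rw [if_pos e2]
    gcongr
    rw [e1]
    exact hc _ (by linarith) (by linarith)
  rw [Finset.mul_sum]
  refine (Finset.sum_le_sum h1).trans ?_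
  rw [Finset.sum_comm]
  refine Finset.sum_le_sum fun j _ => ?_
  generalize Y * Real.exp (-1 + j / 4 - 3 / 8) = A
  rw [← Finset.sum_filter]
  change _ ≤ ∑ a ∈ pball (3 * A), Om (Real.log (nm a / A)) * ‖e1cD x B a‖ ^ 2
  refine (Finset.sum_image (g := pr) (f := fun a => Om (Real.log (nm a / A)) * ‖e1cD x B a‖ ^ 2)
    pr_inj.injOn).symm.trans_le ?_
  refine Finset.sum_le_sum_of_subset_of_nonneg (fun a ha => ?_) fun a _ _ => ?_
  · obtain ⟨s, hs, rfl⟩ := Finset.mem_image.1 ha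
    exact (hb.mem_pball _ _).2 ⟨pr_primary s, (Finset.mem_filter.1 hs).2⟩
  · have := hb.Om_nonneg (Real.log (nm a / A))
    positivity

theorem e1c_tau (hb : BA) {c : ℝ} (hc0 : 0 < c) (hc : ∀ v, 3 / 8 ≤ v → v ≤ 5 / 8 → c ≤ Om v)
    {x : Finset P → ℂ} {B Λ w Y M R : ℝ} (hx : GB x B Λ w) (hB : 0 < B) (hw : 1 ≤ w) (hY : 0 < Y)
    (hR : 1 ≤ R) (α e : Finset P → ℂ) (he : ∀ a, ‖e a‖ = 1) (S : Finset (Finset P))
    (hSR : S ⊆ sqf R) (hS : ∀ a ∈ S, -1 < Real.log (Ns a / Y) ∧ Real.log (Ns a / Y) < 1)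
    (hM : ∀ j ∈ Finset.range 8, Dsp x (Y * Real.exp (-1 + j / 4 - 3 / 8)) B ≤ M) :
    ‖∑ a ∈ S, α a * e a * ∑ b ∈ sqf (3 * B), x b * (if Disjoint a b then dl (a ∪ b) else 0)‖
      ≤ √(nrm2 α R) * √(8 / c * M) + nrm1 α R * ((Y / 3) ^ (-(1 / 6) : ℝ)
        * (36 * kap * B ^ (5 / 6 : ℝ) * Real.log R / w)) := by
  have hk := e1c_kap
  have hlR := Real.log_nonneg hR
  have h1 : ∀ a ∈ S,
      ‖α a * e a * ∑ b ∈ sqf (3 * B), x b * (if Disjoint a b then dl (a ∪ b) else 0)‖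
      ≤ ‖α a‖ * ‖e1cD x B (pr a)‖ + ‖α a‖ * ((Y / 3) ^ (-(1 / 6) : ℝ)
        * (36 * kap * B ^ (5 / 6 : ℝ) * Real.log R / w)) := by
    intro a ha
    have hN := Ns_pos a
    rw [norm_mul, norm_mul, he, mul_one, ← mul_add, e1c_id hb]
    refine mul_le_mul_of_nonneg_left ((norm_add_le _ _).trans ?_) (norm_nonneg _)
    rw [norm_mul, norm_mul, hb.norm_tt, one_mul, Complex.norm_real,
      Real.norm_of_nonneg (by positivity)]
    have h2 : Y / 3 ≤ Ns a := by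
      have h3 := (hS a ha).1
      rw [Real.lt_log_iff_exp_lt (by positivity), lt_div_iff₀ hY, Real.exp_neg] at h3
      have h4 : (3 : ℝ)⁻¹ ≤ (Real.exp 1)⁻¹ :=
        inv_anti₀ (Real.exp_pos 1) (Real.exp_one_lt_d9.le.trans (by norm_num))
      nlinarith
    have h3 : Ns a ^ (-(1 / 6) : ℝ) ≤ (Y / 3) ^ (-(1 / 6) : ℝ) :=
      Real.rpow_le_rpow_of_nonpos (by positivity) h2 (by norm_num)
    have h4 : Real.log (Ns a) ≤ Real.log R := Real.log_le_log hN (mem_sqf.1 (hSR ha))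
    have h5 := (e1c_meet hb hx hB hw a).trans
      (show _ ≤ 36 * kap * B ^ (5 / 6 : ℝ) * Real.log R / w by gcongr)
    gcongr
  refine (norm_sum_le _ _).trans ((Finset.sum_le_sum h1).trans ?_)
  rw [Finset.sum_add_distrib, ← Finset.sum_mul]
  refine add_le_add ((Real.sum_mul_le_sqrt_mul_sqrt _ _ _).trans ?_) ?_
  · have h2 : ∑ a ∈ S, ‖α a‖ ^ 2 ≤ nrm2 α R :=
      Finset.sum_le_sum_of_subset_of_nonneg hSR fun _ _ _ => by positivity
    have h3 := (e1c_box hb hc x (B := B) hY S hS).trans (Finset.sum_le_card_nsmul _ _ _ hM)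
    rw [Finset.card_range, nsmul_eq_mul] at h3
    have h4 : ∑ a ∈ S, ‖e1cD x B (pr a)‖ ^ 2 ≤ 8 / c * M := by
      rw [div_mul_eq_mul_div, le_div_iff₀ hc0, mul_comm]
      exact_mod_cast h3
    gcongr
  · have h2 : ∑ a ∈ S, ‖α a‖ ≤ nrm1 α R :=
      Finset.sum_le_sum_of_subset_of_nonneg hSR fun _ _ _ => norm_nonneg _
    gcongr

theorem e1c_sqrt {M0 M1 T τ : ℝ} (k : ℕ) (h0 : 0 ≤ M0) (h1 : 0 ≤ M1) (hT : 1 ≤ T) :
    √(M0 + M1 * (1 + |τ * T|) ^ (2 * k)) ≤ (√M0 + √M1 * T ^ k) * (1 + |τ|) ^ k := by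
  have a0 := abs_nonneg τ
  have a1 : 1 + |τ * T| ≤ T * (1 + |τ|) := by
    rw [abs_mul, abs_of_nonneg (by linarith : 0 ≤ T)]
    nlinarith
  have a2 : (1 : ℝ) ≤ (1 + |τ|) ^ k := one_le_pow₀ (by linarith)
  have a3 : (1 + |τ * T|) ^ k ≤ T ^ k * (1 + |τ|) ^ k := by
    rw [← mul_pow]
    gcongr
  have a4 : ∀ x y : ℝ, 0 ≤ x → 0 ≤ y → √(x + y) ≤ √x + √y := fun x y hx hy => by
    rw [Real.sqrt_le_left (by positivity), add_sq, Real.sq_sqrt hx, Real.sq_sqrt hy]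
    have : 0 ≤ 2 * √x * √y := by positivity
    linarith
  refine (a4 _ _ h0 (by positivity)).trans ?_
  rw [Real.sqrt_mul h1, mul_comm 2 k, pow_mul, Real.sqrt_sq (by positivity), add_mul, mul_assoc]
  exact add_le_add (le_mul_of_one_le_right (Real.sqrt_nonneg _) a2)
    (mul_le_mul_of_nonneg_left a3 (Real.sqrt_nonneg _))

theorem e1c_num {X B Bi Λ : ℝ} (hB : 1 ≤ B) (hX : B ≤ X) (hΛ : 1 ≤ Λ) (h0 : 0 < Bi)
    (h2 : Bi ≤ 2 * Λ * B) :
    (X / Bi / 3) ^ (-(1 / 6) : ℝ) * (Bi ^ (5 / 6 : ℝ) * Real.log (3 * X / B))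
      ≤ 24 * Λ ^ 2 * ((X / B) ^ (-(1 / 6) : ℝ) * B ^ (5 / 6 : ℝ) * (1 + Real.log X)) := by
  have hX0 : 0 < X := by linarith
  have hlX := Real.log_nonneg (hB.trans hX)
  have a1 : (X / Bi / 3) ^ (-(1 / 6) : ℝ) ≤ 6 * Λ * (X / B) ^ (-(1 / 6) : ℝ) := by
    have b1 : X / B / (6 * Λ) ≤ X / Bi / 3 := by
      rw [div_div, div_div]
      exact div_le_div_of_nonneg_left hX0.le (by positivity) (by linarith)
    refine (Real.rpow_le_rpow_of_nonpos (by positivity) b1 (by norm_num)).trans ?_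
    rw [Real.div_rpow (by positivity) (by positivity), Real.rpow_neg (by positivity : 0 ≤ 6 * Λ),
      div_inv_eq_mul, mul_comm]
    gcongr
    simpa using Real.rpow_le_rpow_of_exponent_le (show 1 ≤ 6 * Λ by linarith)
      (show (1 / 6 : ℝ) ≤ 1 by norm_num)
  have a2 : Bi ^ (5 / 6 : ℝ) ≤ 2 * Λ * B ^ (5 / 6 : ℝ) := by
    refine (Real.rpow_le_rpow h0.le h2 (by norm_num)).trans ?_
    rw [Real.mul_rpow (by positivity) (by positivity)]
    gcongr
    simpa using Real.rpow_le_rpow_of_exponent_le (show 1 ≤ 2 * Λ by linarith)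
      (show (5 / 6 : ℝ) ≤ 1 by norm_num)
  have a3 : Real.log (3 * X / B) ≤ 2 * (1 + Real.log X) := by
    have b1 : 3 * X / B ≤ 3 * X := div_le_self (by positivity) hB
    have b2 := Real.log_le_log (by positivity) b1
    rw [Real.log_mul (by norm_num) hX0.ne'] at b2
    have b3 := Real.log_le_sub_one_of_pos (show (0 : ℝ) < 3 by norm_num)
    linarith
  have a4 : 0 ≤ Real.log (3 * X / B) := Real.log_nonneg (by
    rw [le_div_iff₀ (by linarith)]
    linarith)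
  calc _ ≤ 6 * Λ * (X / B) ^ (-(1 / 6) : ℝ) * (2 * Λ * B ^ (5 / 6 : ℝ) * (2 * (1 + Real.log X))) := by
        gcongr
    _ = _ := by ring

theorem e1c_rw (hx : XlF) {β : Finset P → ℂ} {X B Λ T w : ℝ} (hβ : GB β B Λ w)
    (hB : 0 < B) (hX : 0 < X) (τ : ℝ) (i : ℤ) (α : Finset P → ℂ) (a : Finset P) :
    ∑ b ∈ sqf (Λ * B), α a * (β b * (bx (1 * Real.log (Ns b / B) - i / 2) : ℝ))
        * (if Disjoint a b then dl (a ∪ b) else 0)
        * Complex.exp (τ * (T * Real.log (Ns a * Ns b / X) : ℝ) * I)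
      = α a * Complex.exp ((τ * T * Real.log (Ns a * B / X) : ℝ) * I)
        * ∑ b ∈ sqf (3 * Bi B 1 i), xl β B 1 (τ * T) i b
          * (if Disjoint a b then dl (a ∪ b) else 0) := by
  have h1 : ∑ b ∈ sqf (3 * Bi B 1 i), xl β B 1 (τ * T) i b * (if Disjoint a b then dl (a ∪ b) else 0)
      = ∑ b ∈ sqf (Λ * B), xl β B 1 (τ * T) i b * (if Disjoint a b then dl (a ∪ b) else 0) := by
    have hg := hx.gb β B Λ w 1 (τ * T) i hβ hB le_rfl
    have hBi : 0 < Bi B 1 i := mul_pos hB (Real.exp_pos _)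
    refine Finset.sum_congr_of_eq_on_inter (fun b _ h2 => ?_) (fun b _ h2 => ?_) fun _ _ _ => rfl
    · have h3 : β b = 0 := by_contra fun h3 => h2 (mem_sqf.2 (hβ.sup b h3).2)
      rw [xl, h3, zero_mul, zero_mul, zero_mul]
    · have h3 : xl β B 1 (τ * T) i b = 0 := by_contra fun h3 => h2 (mem_sqf.2 ((hg.sup b h3).2.trans
        (mul_le_mul_of_nonneg_right (by
          rw [div_one]
          exact Real.exp_one_lt_d9.le.trans (by norm_num)) hBi.le)))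
      rw [h3, zero_mul]
  rw [h1, Finset.mul_sum]
  refine Finset.sum_congr rfl fun b _ => ?_
  have ha := Ns_pos a
  have hb' := Ns_pos b
  have h2 : Real.log (Ns a * Ns b / X) = Real.log (Ns a * B / X) + Real.log (Ns b / B) := by
    rw [← Real.log_mul (by positivity) (by positivity)]
    congr 1
    field_simp
  have h3 : Complex.exp (τ * (T * Real.log (Ns a * Ns b / X) : ℝ) * I)
      = Complex.exp ((τ * T * Real.log (Ns a * B / X) : ℝ) * I)
        * ((Ns b / B : ℝ) : ℂ) ^ (((τ * T : ℝ) : ℂ) * ((1 : ℝ) : ℂ) * I) := by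
    rw [cpow_def_of_ne_zero (ofReal_ne_zero.2 (by positivity)), ← ofReal_log (by positivity),
      ← Complex.exp_add, h2]
    congr 1
    push_cast
    ring
  rw [h3, xl]
  ring

theorem e1c_supp (hb : BA) {φ : ℝ → ℂ} (hφ : Bump φ) {X B T : ℝ} (hB : 0 < B) (hX : 0 < X)
    (hT : 1 ≤ T) (i : ℤ) {a b : Finset P} (h1 : bx (1 * Real.log (Ns b / B) - i / 2) ≠ 0)
    (h2 : φ (T * Real.log (Ns a * Ns b / X)) ≠ 0) :
    -1 < Real.log (Ns a / (X / Bi B 1 i)) ∧ Real.log (Ns a / (X / Bi B 1 i)) < 1 := by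
  obtain ⟨l1, l2⟩ := hb.bx_supp _ h1
  obtain ⟨l3, l4⟩ := hφ.supp _ h2
  have ha := Ns_pos a
  have hb' := Ns_pos b
  have e : Real.log (Ns a / (X / Bi B 1 i))
      = Real.log (Ns a * Ns b / X) - (Real.log (Ns b / B) - i / 2) := by
    have e1 : Ns a / (X / Bi B 1 i) = Ns a * Ns b / X / (Ns b / B) * Real.exp (i / 2) := by
      unfold Bi
      rw [mul_one]
      field_simp
    rw [e1, Real.log_mul (by positivity) (Real.exp_pos _).ne', Real.log_exp,
      Real.log_div (by positivity) (by positivity)]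
    ring
  have l5 : 0 ≤ Real.log (Ns a * Ns b / X) := by
    by_contra h
    nlinarith
  have l6 : Real.log (Ns a * Ns b / X) ≤ 1 := by nlinarith
  rw [e]
  constructor <;> linarith

theorem e1c (hb : BA) (hx : XlF) : E1c := by
  intro φ Λ k hφ hΛ
  obtain ⟨c, hc0, hc⟩ := hb.Om_low
  obtain ⟨Cf, hCf, hf⟩ := hb.fr (k + 2)
  obtain ⟨D, hD, hφD⟩ := hb.bump_bd φ hφ (k + 2)
  obtain ⟨h, -, hh, hi, he⟩ := hf φ D hφD
  have hk := e1c_kap
  have hI := hb.int_pow k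
  obtain ⟨I0, hI0⟩ : ∃ I0, I0 = ∫ τ : ℝ, (1 + |τ|) ^ (-((k : ℝ) + 2)) * (1 + |τ|) ^ k := ⟨_, rfl⟩
  have hI1 : 0 ≤ I0 := hI0 ▸ integral_nonneg fun τ => by positivity
  have hlΛ := Real.log_nonneg hΛ
  obtain ⟨K, hK⟩ : ∃ K, K = √(8 / c) + 36 * kap * (24 * Λ ^ 2) := ⟨_, rfl⟩
  have hK0 : 0 < K := by rw [hK]; positivity
  refine ⟨(2 * Real.log Λ + 4) * (Cf * D * K * (I0 + 1)), by positivity, ?_⟩
  intro α β X B T w M0 M1 hB hBX hT hw hM0 hM1 hβ hM
  have hB0 : 0 < B := by linarith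
  have hX : 0 < X := by linarith
  have hlX := Real.log_nonneg (hB.trans hBX)
  have hn1 : 0 ≤ nrm1 α (3 * X / B) := Finset.sum_nonneg fun _ _ => norm_nonneg _
  obtain ⟨Q1, hQ1⟩ : ∃ Q, Q = √(nrm2 α (3 * X / B)) * (√M0 + √M1 * T ^ k) := ⟨_, rfl⟩
  obtain ⟨Q2, hQ2⟩ : ∃ Q, Q = nrm1 α (3 * X / B) * (X / B) ^ (-(1 / 6) : ℝ) * B ^ (5 / 6 : ℝ)
    * (1 + Real.log X) / w := ⟨_, rfl⟩
  have hQ1' : 0 ≤ Q1 := by rw [hQ1]; positivity
  have hQ2' : 0 ≤ Q2 := by rw [hQ2]; positivity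
  rw [← hQ1, ← hQ2]
  have e1 : Bil dl α β X B (Λ * B) T φ = ∑ i ∈ Ji Λ 1, ∑ a ∈ sqf (3 * X / B), ∑ b ∈ sqf (Λ * B),
      α a * (β b * (bx (1 * Real.log (Ns b / B) - i / 2) : ℝ))
        * (if Disjoint a b then dl (a ∪ b) else 0) * φ (T * Real.log (Ns a * Ns b / X)) := by
    rw [Finset.sum_comm, Bil]
    refine Finset.sum_congr rfl fun a _ => ?_
    rw [Finset.sum_comm]
    refine Finset.sum_congr rfl fun b _ => ?_
    rw [← Finset.sum_mul, ← Finset.sum_mul, ← Finset.mul_sum, hx.sum_eq β B Λ 1 b hB0 le_rfl hβ.sup]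
    rfl
  have e2 : ∀ i ∈ Ji Λ 1, ‖∑ a ∈ sqf (3 * X / B), ∑ b ∈ sqf (Λ * B),
      α a * (β b * (bx (1 * Real.log (Ns b / B) - i / 2) : ℝ))
        * (if Disjoint a b then dl (a ∪ b) else 0) * φ (T * Real.log (Ns a * Ns b / X))‖
      ≤ Cf * D * K * (I0 + 1) * (Q1 + Q2) := by
    intro i hi'
    obtain ⟨b1, b2⟩ := hx.bi Λ B 1 i hΛ hB0 le_rfl hi'
    have hBi : 0 < Bi B 1 i := mul_pos hB0 (Real.exp_pos _)
    rw [← Finset.sum_filter_of_ne (p := fun a => -1 < Real.log (Ns a / (X / Bi B 1 i)) ∧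
      Real.log (Ns a / (X / Bi B 1 i)) < 1) (fun a _ h1 => by
        obtain ⟨b, -, h2⟩ := Finset.exists_ne_zero_of_sum_ne_zero h1
        exact e1c_supp hb hφ hB0 hX hT i (ofReal_ne_zero.1 (right_ne_zero_of_mul
          (right_ne_zero_of_mul (left_ne_zero_of_mul (left_ne_zero_of_mul h2)))))
          (right_ne_zero_of_mul h2)), e1c_fou hi he]
    refine (norm_integral_le_of_norm_le (hI.const_mul (Cf * D * K * (Q1 + Q2)))
      (Eventually.of_forall fun τ => ?_)).trans ?_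
    swap
    · rw [integral_const_mul, ← hI0]
      calc _ ≤ Cf * D * K * (Q1 + Q2) * (I0 + 1) := by gcongr; linarith
        _ = _ := by ring
    simp only [e1c_rw hx hβ hB0 hX]
    have t1 := e1c_tau hb hc0 hc (hx.gb β B Λ w 1 (τ * T) i hβ hB0 le_rfl) hBi hw
      (div_pos hX hBi) (R := 3 * X / B) (M := M0 + M1 * (1 + |τ * T|) ^ (2 * k))
      (by rw [le_div_iff₀ hB0]; linarith) α
      (fun a => Complex.exp ((τ * T * Real.log (Ns a * B / X) : ℝ) * I))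
      (fun a => norm_exp_ofReal_mul_I _) _ (Finset.filter_subset _ _)
      (fun a ha => (Finset.mem_filter.1 ha).2) (fun j hj => by
        have j0 : (0 : ℝ) ≤ j := Nat.cast_nonneg _
        have j1 : (j : ℝ) ≤ 7 := by exact_mod_cast Nat.lt_succ_iff.1 (Finset.mem_range.1 hj)
        have x1 : Real.exp (-1 + j / 4 - 3 / 8) ≤ 3 :=
          (Real.exp_le_exp.2 (by linarith)).trans (Real.exp_one_lt_d9.le.trans (by norm_num))
        have x2 : 1 / 9 ≤ Real.exp (-1 + j / 4 - 3 / 8) := by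
          refine le_trans ?_ (Real.exp_le_exp.2 (show -(1 + 1) ≤ _ by linarith))
          rw [Real.exp_neg, Real.exp_add, one_div]
          have := Real.exp_one_lt_d9
          have := Real.exp_pos 1
          exact inv_anti₀ (by positivity) (by nlinarith)
        have x3 : X / B / (2 * Λ) ≤ X / Bi B 1 i := by
          rw [div_div]
          gcongr
          linarith
        have x4 : X / Bi B 1 i ≤ 3 * (X / B) := by
          rw [show 3 * (X / B) = X / (B / 3) by field_simp]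
          gcongr
        have x5 : 0 < X / B := div_pos hX hB0
        refine hM i hi' _ _ ?_ ?_
        · calc X / B / (30 * Λ) ≤ X / B / (18 * Λ) := by gcongr; norm_num
            _ = X / B / (2 * Λ) * (1 / 9) := by field_simp; norm_num
            _ ≤ _ := by gcongr
        · calc _ ≤ 3 * (X / B) * 3 := by gcongr
            _ ≤ _ := by linarith)
    have t2 := e1c_sqrt (τ := τ) k hM0 hM1 hT
    have t3 := e1c_num hB hBX hΛ hBi b2
    have t4 : (1 : ℝ) ≤ (1 + |τ|) ^ k := one_le_pow₀ (by linarith [abs_nonneg τ])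
    have t5 : √(nrm2 α (3 * X / B)) * √(8 / c * (M0 + M1 * (1 + |τ * T|) ^ (2 * k)))
        ≤ K * Q1 * (1 + |τ|) ^ k := by
      rw [Real.sqrt_mul (by positivity), hQ1]
      have : √(8 / c) ≤ K := by rw [hK]; exact le_add_of_nonneg_right (by positivity)
      calc _ ≤ √(nrm2 α (3 * X / B)) * (K * ((√M0 + √M1 * T ^ k) * (1 + |τ|) ^ k)) := by gcongr
        _ = _ := by ring
    have t6 : nrm1 α (3 * X / B) * ((X / Bi B 1 i / 3) ^ (-(1 / 6) : ℝ)
        * (36 * kap * Bi B 1 i ^ (5 / 6 : ℝ) * Real.log (3 * X / B) / w))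
        ≤ K * Q2 * (1 + |τ|) ^ k := by
      have : 36 * kap * (24 * Λ ^ 2) ≤ K := by rw [hK]; exact le_add_of_nonneg_left (by positivity)
      calc _ = nrm1 α (3 * X / B) * (36 * kap) / w * ((X / Bi B 1 i / 3) ^ (-(1 / 6) : ℝ)
            * (Bi B 1 i ^ (5 / 6 : ℝ) * Real.log (3 * X / B))) := by ring
        _ ≤ nrm1 α (3 * X / B) * (36 * kap) / w * (24 * Λ ^ 2 * ((X / B) ^ (-(1 / 6) : ℝ)
            * B ^ (5 / 6 : ℝ) * (1 + Real.log X))) := by gcongr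
        _ = 36 * kap * (24 * Λ ^ 2) * Q2 * 1 := by rw [hQ2]; ring
        _ ≤ _ := by gcongr
    have t7 := t1.trans (add_le_add t5 t6)
    have t8 := hh τ
    push_cast at t8
    rw [norm_mul]
    calc _ ≤ Cf * D * (1 + |τ|) ^ (-((k : ℝ) + 2))
          * (K * Q1 * (1 + |τ|) ^ k + K * Q2 * (1 + |τ|) ^ k) := by gcongr
      _ = _ := by ring
  rw [e1]
  refine (norm_sum_le _ _).trans ((Finset.sum_le_card_nsmul _ _ _ e2).trans ?_)
  rw [nsmul_eq_mul, mul_assoc (2 * Real.log Λ + 4)]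
  have := hx.card Λ 1 hΛ le_rfl
  rw [mul_one] at this
  gcongr

end Pat
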