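import Vale.Agent.P006.E2cAux

/-! The statements `E2c` and `E3` (P006). -/

noncomputable section
namespace Pat
open QRH Complex MeasureTheory Filter
open scoped ComplexConjugate Classical ContDiff Topology

/-- The localisation in `a`. -/
def e2cI (X B T : ℝ) (i : ℤ) (a : Finset P) : Prop :=
  -1 < T * Real.log (Ns a * B / X) + i / 2 ∧ T * Real.log (Ns a * B / X) + i / 2 < 1

/-- The centres of the boxes. -/
def e2cA (X B T : ℝ) (j : ℕ) (i : ℤ) : ℝ := X / Bi B T i * Real.exp ((j / 4 - 11 / 8) / T)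

theorem e2c_split (hb : BA) (hx : XlF) {φ : ℝ → ℂ} (hφ : Bump φ) (α : Finset P → ℂ)
    {β : Finset P → ℂ} {X B T Λ : ℝ} (hX : 0 < X) (hB : 0 < B) (hT : 1 ≤ T)
    (hS : Sup β B (Λ * B)) :
    Bil tt α β X B (Λ * B) T φ = ∑ x ∈ (Ji Λ T ×ˢ sqf (3 * X / B)) ×ˢ sqf (Λ * B),
      ((if e2cI X B T x.1.1 x.1.2 then α x.1.2 * tt x.1.2 else 0) *
        (β x.2 * (bx (T * Real.log (Ns x.2 / B) - x.1.1 / 2) : ℝ) * tt x.2
          * xs c3 x.2 (pr x.1.2))) * φ (T * Real.log (Ns x.1.2 * Ns x.2 / X)) := by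
  rw [Finset.sum_product, Finset.sum_product, Finset.sum_comm, Bil]
  refine Finset.sum_congr rfl fun a _ => ?_
  rw [Finset.sum_comm]
  refine Finset.sum_congr rfl fun b _ => ?_
  rw [e2c_tt hb, lw]
  nth_rw 1 [← hx.sum_eq β B Λ T b hB hT hS]
  rw [Finset.mul_sum, Finset.sum_mul, Finset.sum_mul]
  refine Finset.sum_congr rfl fun i _ => ?_
  simp only
  split_ifs with h
  · ring
  by_cases h1 : φ (T * Real.log (Ns a * Ns b / X)) = 0
  · rw [h1, mul_zero, mul_zero]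
  by_cases h2 : bx (T * Real.log (Ns b / B) - i / 2) = 0
  · simp [h2]
  refine absurd ?_ h
  obtain ⟨a1, a2⟩ := hφ.supp _ h1
  obtain ⟨a3, a4⟩ := hb.bx_supp _ h2
  have e : Real.log (Ns a * Ns b / X) = Real.log (Ns a * B / X) + Real.log (Ns b / B) := by
    have := Ns_pos a
    have := Ns_pos b
    rw [← Real.log_mul (by positivity) (by positivity)]
    congr 1
    field_simp
  rw [e, mul_add] at a1 a2
  constructor <;> linarith

theorem e2c_range {x : Finset P → ℂ} {L L' : ℝ} (h : ∀ c, x c ≠ 0 → Ns c ≤ L ∧ Ns c ≤ L')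
    (ξ : E) : Ds x L ξ = Ds x L' ξ := by
  have key : ∀ M, min L L' ≤ M → Ds x (min L L') ξ = Ds x M ξ := by
    intro M hM
    refine Finset.sum_subset (fun c hc => mem_sqf.2 ((mem_sqf.1 hc).trans hM)) fun c _ hc => ?_
    by_cases h0 : x c = 0
    · rw [h0, zero_mul]
    · exact absurd (mem_sqf.2 (le_min (h c h0).1 (h c h0).2)) hc
  rw [← key L (min_le_left _ _), key L' (min_le_right _ _)]

theorem e2c_xl (hb : BA) {β : Finset P → ℂ} {B T Λ : ℝ} (hB : 0 < B) (hT : 1 ≤ T)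
    (hS : Sup β B (Λ * B)) (τ : ℝ) (i : ℤ) (c : Finset P) (h : xl β B T τ i c * tt c ≠ 0) :
    Ns c ≤ Λ * B ∧ Ns c ≤ 3 * Bi B T i := by
  have h1 := left_ne_zero_of_mul (left_ne_zero_of_mul h)
  refine ⟨(hS c (left_ne_zero_of_mul h1)).2, ?_⟩
  have h2 := (hb.bx_supp _ (Complex.ofReal_ne_zero.1 (right_ne_zero_of_mul h1))).2
  have h3 : 0 < Bi B T i := mul_pos hB (Real.exp_pos _)
  have := Ns_pos c
  refine (div_le_iff₀ h3).1 (e2c_log (by positivity) hT (le_trans (le_of_eq ?_) h2.le))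
  rw [Bi, ← div_div, Real.log_div (by positivity) (by positivity), Real.log_exp]
  field_simp

theorem e2c_A_mem (hx : XlF) {X B T Λ : ℝ} (hX : 0 < X) (hB : 0 < B) (hT : 1 ≤ T) (hΛ : 1 ≤ Λ)
    {j : ℕ} (hj : j < 8) (i : ℤ) (hi : i ∈ Ji Λ T) :
    X / B / (30 * Λ) ≤ e2cA X B T j i ∧ e2cA X B T j i ≤ 30 * (X / B) := by
  obtain ⟨h1, h2⟩ := hx.bi Λ B T i hΛ hB hT hi
  have j0 : (0 : ℝ) ≤ j := Nat.cast_nonneg j
  have j1 : (j : ℝ) ≤ 8 := by exact_mod_cast hj.le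
  have e3 : Real.exp 1 ≤ 3 := by linarith [Real.exp_one_lt_d9]
  have a1 : Real.exp ((j / 4 - 11 / 8) / T) ≤ 3 :=
    le_trans (Real.exp_le_exp.2 (by rw [div_le_one (by linarith)]; linarith)) e3
  have a2 : 1 / 9 ≤ Real.exp ((j / 4 - 11 / 8) / T) := by
    have b1 : -1 + -1 ≤ (j / 4 - 11 / 8) / T := by
      rw [le_div_iff₀ (by linarith)]
      linarith
    refine le_trans ?_ (Real.exp_le_exp.2 b1)
    rw [Real.exp_add, Real.exp_neg]
    have b2 : (3 : ℝ)⁻¹ ≤ (Real.exp 1)⁻¹ := inv_anti₀ (Real.exp_pos _) e3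
    nlinarith
  have h3 : 0 < Bi B T i := mul_pos hB (Real.exp_pos _)
  have q : 0 < X / B := div_pos hX hB
  constructor
  · calc X / B / (30 * Λ) ≤ X / B / (18 * Λ) := by
          gcongr
          norm_num
      _ = X / (2 * Λ * B) * (1 / 9) := by field_simp; ring
      _ ≤ _ := by rw [e2cA]; gcongr
  · calc e2cA X B T j i ≤ X / (B / 3) * 3 := by rw [e2cA]; gcongr
      _ = 9 * (X / B) := by field_simp; ring
      _ ≤ _ := by linarith

theorem e2c_A_log {X B T : ℝ} (hX : 0 < X) (hB : 0 < B) (hT : 1 ≤ T) (j : ℕ) (i : ℤ)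
    (a : Finset P) : T * Real.log (Ns a / e2cA X B T j i)
      = T * Real.log (Ns a * B / X) + i / 2 + 11 / 8 - j / 4 := by
  have := Ns_pos a
  have e : Ns a / e2cA X B T j i
      = Ns a * B / X * Real.exp (i / (2 * T)) / Real.exp ((j / 4 - 11 / 8) / T) := by
    rw [e2cA, Bi]
    field_simp
  rw [e, Real.log_div (by positivity) (by positivity), Real.log_mul (by positivity)
    (by positivity), Real.log_exp, Real.log_exp]
  field_simp
  ring

theorem e2c_D (hb : BA) {c : ℝ} (hc : ∀ v, 3 / 8 ≤ v → v ≤ 5 / 8 → c ≤ Om v)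
    (x : ℤ → Finset P → ℂ) {X B T : ℝ} (hX : 0 < X) (hB : 0 < B) (hT : 1 ≤ T) (J : Finset ℤ)
    (R : ℝ) :
    c * ∑ y ∈ J ×ˢ sqf R, ‖if e2cI X B T y.1 y.2 then Ds (x y.1) (3 * Bi B T y.1) (pr y.2)
        else 0‖ ^ 2
      ≤ ∑ j ∈ Finset.range 8, ∑ i ∈ J, S1 (x i) (e2cA X B T j i) (Bi B T i) T := by
  rw [Finset.sum_comm, Finset.sum_product, Finset.mul_sum]
  refine Finset.sum_le_sum fun i _ => ?_
  refine le_trans ?_ (Finset.sum_le_sum fun j _ => e2c_S1 hb (x i) R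
    (mul_pos (div_pos hX (mul_pos hB (Real.exp_pos _))) (Real.exp_pos _)) hT)
  rw [Finset.sum_comm, Finset.mul_sum]
  refine Finset.sum_le_sum fun a _ => ?_
  rw [← Finset.sum_mul]
  simp only
  split_ifs with h
  · refine mul_le_mul_of_nonneg_right ((e2c_cover hb hc h.1 h.2).trans_eq ?_) (sq_nonneg _)
    exact Finset.sum_congr rfl fun j _ => congrArg Om (e2c_A_log hX hB hT j i a).symm
  · rw [norm_zero, sq, mul_zero, mul_zero]
    exact mul_nonneg (Finset.sum_nonneg fun _ _ => hb.Om_nonneg _) (sq_nonneg _)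

theorem e2c_u (hb : BA) (α : Finset P → ℂ) (X B T τ : ℝ) (J : Finset ℤ) (R : ℝ) :
    ∑ y ∈ J ×ˢ sqf R, ‖(if e2cI X B T y.1 y.2 then α y.2 * tt y.2 else 0)
        * Complex.exp (τ * (T * Real.log (Ns y.2 * B / X) : ℝ) * I)‖ ^ 2 ≤ 4 * nrm2 α R := by
  rw [Finset.sum_product, Finset.sum_comm, nrm2, Finset.mul_sum]
  refine Finset.sum_le_sum fun a _ => ?_
  refine le_trans (le_of_eq ?_) (mul_le_mul_of_nonneg_right
    (e2c_count J (T * Real.log (Ns a * B / X))) (sq_nonneg ‖α a‖))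
  rw [← nsmul_eq_mul, ← Finset.sum_const, Finset.sum_filter]
  refine Finset.sum_congr rfl fun i _ => ?_
  rw [norm_mul, e2c_nexp2, mul_one]
  by_cases h : e2cI X B T i a
  · rw [if_pos h, if_pos (by exact h), norm_mul, hb.norm_tt, mul_one]
  · rw [if_neg h, if_neg (by exact h), norm_zero, sq, mul_zero]

theorem e2c (hb : BA) (hx : XlF) : E2c := by
  intro φ Λ k hφ hΛ
  obtain ⟨K, hK, H⟩ := e2c_fr hb hφ k
  obtain ⟨c, hc0, hc⟩ := hb.Om_low
  refine ⟨K ^ 2 * (32 / c), by positivity, fun α β X B T M hX hB hT hM hS h => ?_⟩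
  have n0 := e2c_nrm2 α (3 * X / B)
  rw [e2c_split hb hx hφ α hX hB hT hS]
  refine (pow_le_pow_left₀ (norm_nonneg _)
    (H _ _ _ _ (√(32 / c * nrm2 α (3 * X / B) * M)) fun τ => ?_) 2).trans_eq ?_
  swap
  · rw [mul_pow, Real.sq_sqrt (by positivity)]
    ring
  refine le_of_pow_le_pow_left₀ two_ne_zero (by positivity) ?_
  rw [Finset.sum_product, mul_pow, Real.sq_sqrt (by positivity)]
  have e : ∀ y ∈ Ji Λ T ×ˢ sqf (3 * X / B), ∑ b ∈ sqf (Λ * B),
      ((if e2cI X B T y.1 y.2 then α y.2 * tt y.2 else 0) *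
        (β b * (bx (T * Real.log (Ns b / B) - y.1 / 2) : ℝ) * tt b * xs c3 b (pr y.2)))
        * Complex.exp (τ * (T * Real.log (Ns y.2 * Ns b / X) : ℝ) * I)
      = ((if e2cI X B T y.1 y.2 then α y.2 * tt y.2 else 0)
        * Complex.exp (τ * (T * Real.log (Ns y.2 * B / X) : ℝ) * I)) *
        (if e2cI X B T y.1 y.2 then
          Ds (fun b => xl β B T τ y.1 b * tt b) (3 * Bi B T y.1) (pr y.2) else 0) := by
    intro y _
    split_ifs with hI
    · rw [← e2c_range (e2c_xl hb hB hT hS τ y.1), Ds, Finset.mul_sum]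
      refine Finset.sum_congr rfl fun b _ => ?_
      have := Ns_pos y.2
      have := Ns_pos b
      rw [e2c_exp (x := Ns y.2 * B / X) (y := Ns b / B) (by positivity) (by positivity)
        (by field_simp), xl]
      ring
    · simp
  rw [Finset.sum_congr rfl e]
  refine (e2c_cs _ _ _).trans ?_
  have a1 := e2c_D hb hc (fun i b => xl β B T τ i b * tt b) hX hB hT (Ji Λ T) (3 * X / B)
  have a2 := Finset.sum_le_card_nsmul (Finset.range 8) _ _ fun j hj =>
    h τ (e2cA X B T j) (e2c_A_mem hx hX hB hT hΛ (Finset.mem_range.1 hj))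
  rw [Finset.card_range, nsmul_eq_mul] at a2
  have a3 := (le_div_iff₀' hc0).2 (a1.trans a2)
  refine (mul_le_mul (e2c_u hb α X B T τ _ _) a3
    (Finset.sum_nonneg fun _ _ => sq_nonneg _) (by positivity)).trans_eq ?_
  push_cast
  ring

theorem e3 (hb : BA) (h : LSd 1) : E3 := by
  intro φ Λ ε hφ hΛ hε
  obtain ⟨K1, hK1, H1⟩ := e2c_tt_ls hb hφ
  obtain ⟨K2, hK2, H2⟩ := e2c_t0 hb hφ
  obtain ⟨C, hC, H⟩ := h (2 * ε) (by positivity)
  refine ⟨K1 * √(C * (3 * Λ) ^ (2 * ε) * (3 * Λ)) + K2 * √(432 * Λ), by positivity,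
    fun α β X B T hB hBX hT => ?_⟩
  have hX : 1 ≤ X := hB.trans hBX
  have q : 1 ≤ X / B := (one_le_div (by linarith)).2 hBX
  have q3 : 3 * X / B = 3 * (X / B) := by ring
  have n1 := e2c_nrm2 α (3 * X / B)
  have n2 := e2c_nrm2 β (Λ * B)
  have x1 : 1 ≤ X ^ ε := Real.one_le_rpow hX hε.le
  obtain ⟨W, hW⟩ : ∃ W, W = X / B + B + X ^ (2 / 3 : ℝ) := ⟨_, rfl⟩
  have x2 : 0 ≤ X ^ (2 / 3 : ℝ) := by positivity
  have w0 : 0 ≤ W := by rw [hW]; positivity
  rw [e2c_dl, ← hW, add_mul, add_mul]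
  refine (norm_sub_le _ _).trans (add_le_add ?_ ?_)
  · refine (H1 α β X B (Λ * B) T (C * (3 * Λ) ^ (2 * ε) * (3 * Λ) * (X ^ ε) ^ 2 * W)
      (by linarith) (by positivity) fun x => ?_).trans_eq ?_
    · refine (H _ _ x (by linarith) (one_le_mul_of_one_le_of_one_le hΛ hB)).trans
        (mul_le_mul_of_nonneg_right ?_ (e2c_nrm2 _ _))
      have e : 3 * X / B * (Λ * B) = 3 * Λ * X := by field_simp
      have e2 : X ^ (2 * ε) = (X ^ ε) ^ 2 := by
        rw [← Real.rpow_mul_natCast (by linarith), mul_comm]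
        norm_num
      have a1 : (3 * Λ) ^ (2 / 3 : ℝ) ≤ 3 * Λ :=
        Real.rpow_le_self_of_one_le (by linarith) (by norm_num)
      have a2 : Λ * B + 3 * X / B + (3 * Λ) ^ (2 / 3 : ℝ) * X ^ (2 / 3 : ℝ) ≤ 3 * Λ * W := by
        have := mul_le_mul_of_nonneg_right a1 x2
        rw [hW, q3]
        nlinarith
      rw [e, Real.rpow_one, Real.mul_rpow (x := 3 * Λ) (by positivity) (by positivity),
        Real.mul_rpow (x := 3 * Λ) (by positivity) (by positivity), e2]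
      calc _ ≤ C * ((3 * Λ) ^ (2 * ε) * (X ^ ε) ^ 2) * (3 * Λ * W) := by gcongr
        _ = _ := by ring
    · have e : nrm2 α (3 * X / B) * nrm2 β (Λ * B)
          * (C * (3 * Λ) ^ (2 * ε) * (3 * Λ) * (X ^ ε) ^ 2 * W)
          = C * (3 * Λ) ^ (2 * ε) * (3 * Λ) * ((X ^ ε) ^ 2
            * (nrm2 α (3 * X / B) * nrm2 β (Λ * B) * W)) := by ring
      rw [e, Real.sqrt_mul (by positivity), Real.sqrt_mul (sq_nonneg _),
        Real.sqrt_sq (by positivity)]
      ring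
  · refine (H2 α β X B (Λ * B) T (by linarith) (by linarith)).trans ?_
    have a1 : X ^ (-(1 / 6) : ℝ) * (nrm1 α (3 * X / B) * nrm1 β (Λ * B))
        ≤ √(432 * Λ * (nrm2 α (3 * X / B) * nrm2 β (Λ * B) * W)) := by
      refine Real.le_sqrt_of_sq_le ?_
      have b1 := e2c_nrm1 α (L := 3 * X / B) (by positivity)
      have b2 := e2c_nrm1 β (L := Λ * B) (by positivity)
      have b3 : (X ^ (-(1 / 6) : ℝ)) ^ 2 * X = X ^ (2 / 3 : ℝ) := by
        rw [← Real.rpow_mul_natCast (by linarith), ← Real.rpow_add_one (by linarith)]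
        norm_num
      have b4 : X ^ (2 / 3 : ℝ) ≤ W := by rw [hW]; linarith
      rw [mul_pow, mul_pow]
      calc _ ≤ (X ^ (-(1 / 6) : ℝ)) ^ 2 * ((12 * (3 * X / B) * nrm2 α (3 * X / B))
            * (12 * (Λ * B) * nrm2 β (Λ * B))) := by gcongr
        _ = 432 * Λ * (nrm2 α (3 * X / B) * nrm2 β (Λ * B) * ((X ^ (-(1 / 6) : ℝ)) ^ 2 * X)) := by
            field_simp
            ring
        _ ≤ _ := by rw [b3]; gcongr
    rw [Real.sqrt_mul (by positivity)] at a1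
    calc _ = K2 * 1 * (X ^ (-(1 / 6) : ℝ) * (nrm1 α (3 * X / B) * nrm1 β (Λ * B))) := by ring
      _ ≤ K2 * X ^ ε * (√(432 * Λ) * √(nrm2 α (3 * X / B) * nrm2 β (Λ * B) * W)) := by
          have : 0 ≤ nrm1 α (3 * X / B) := Finset.sum_nonneg fun _ _ => norm_nonneg _
          have : 0 ≤ nrm1 β (Λ * B) := Finset.sum_nonneg fun _ _ => norm_nonneg _
          gcongr
      _ = _ := by ring

end Pat
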