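import Vale.Agent.P006.IfC
import Vale.Agent.P026.Cnt
import Vale.Agent.P026.Sym

/-! Tools for the bilinear forms (P006). -/

noncomputable section
namespace Pat
open QRH Complex MeasureTheory Filter
open scoped ComplexConjugate Classical ContDiff Topology

theorem e2c_nexp (t : ℝ) : ‖Complex.exp (t * I)‖ = 1 := Complex.norm_exp_ofReal_mul_I t

theorem e2c_nexp2 (τ v : ℝ) : ‖Complex.exp (τ * v * I)‖ = 1 := by
  rw [← Complex.ofReal_mul, e2c_nexp]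

/-- Separation of variables by Fourier inversion. -/
theorem e2c_fr (hb : BA) {φ : ℝ → ℂ} (hφ : Bump φ) (k : ℕ) : ∃ K : ℝ, 0 < K ∧
    ∀ (ι : Type) (J : Finset ι) (c : ι → ℂ) (v : ι → ℝ) (W : ℝ),
      (∀ τ : ℝ, ‖∑ x ∈ J, c x * Complex.exp (τ * v x * I)‖ ≤ W * (1 + |τ|) ^ k) →
      ‖∑ x ∈ J, c x * φ (v x)‖ ≤ K * W := by
  obtain ⟨D, hD, hBD⟩ := hb.bump_bd φ hφ (k + 2)
  obtain ⟨C, hC, H⟩ := hb.fr (k + 2)
  obtain ⟨h, -, hle, hi, hφ'⟩ := H φ D hBD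
  have hint := hb.int_pow k
  obtain ⟨Q, hQ⟩ : ∃ Q, Q = ∫ τ : ℝ, (1 + |τ|) ^ (-((k : ℝ) + 2)) * (1 + |τ|) ^ k := ⟨_, rfl⟩
  refine ⟨C * D * (|Q| + 1), by positivity, fun ι J c v W hW => ?_⟩
  have W0 : 0 ≤ W := by simpa using (norm_nonneg _).trans (hW 0)
  have e : ∑ x ∈ J, c x * φ (v x)
      = ∫ τ : ℝ, h τ * ∑ x ∈ J, c x * Complex.exp (τ * v x * I) := by
    simp_rw [Finset.mul_sum]
    rw [integral_finsetSum]
    · refine Finset.sum_congr rfl fun x _ => ?_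
      rw [hφ', ← integral_const_mul]
      refine integral_congr_ae (Eventually.of_forall fun τ => ?_)
      simp only
      ring
    · intro x _
      refine hi.mul_bdd (c := ‖c x‖) (Continuous.aestronglyMeasurable (by fun_prop))
        (Eventually.of_forall fun τ => ?_)
      rw [norm_mul, e2c_nexp2, mul_one]
  rw [e]
  refine (norm_integral_le_of_norm_le (hint.const_mul (C * D * W))
    (Eventually.of_forall fun τ => ?_)).trans ?_
  · rw [norm_mul]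
    have a := hle τ
    push_cast at a
    calc _ ≤ (C * D * (1 + |τ|) ^ (-((k : ℝ) + 2))) * (W * (1 + |τ|) ^ k) :=
          mul_le_mul a (hW τ) (norm_nonneg _) (by positivity)
      _ = _ := by ring
  · rw [integral_const_mul, ← hQ]
    have : Q ≤ |Q| + 1 := by linarith [le_abs_self Q]
    calc C * D * W * Q ≤ C * D * W * (|Q| + 1) := by gcongr
      _ = _ := by ring

theorem e2c_cs {ι : Type*} (J : Finset ι) (u d : ι → ℂ) :
    ‖∑ x ∈ J, u x * d x‖ ^ 2 ≤ (∑ x ∈ J, ‖u x‖ ^ 2) * ∑ x ∈ J, ‖d x‖ ^ 2 := by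
  refine le_trans ?_ (Finset.sum_mul_sq_le_sq_mul_sq J _ _)
  refine pow_le_pow_left₀ (norm_nonneg _) ((norm_sum_le _ _).trans_eq ?_) 2
  simp only [norm_mul]

theorem e2c_tt (hb : BA) (a b : Finset P) :
    (if Disjoint a b then tt (a ∪ b) else 0) = tt a * tt b * xs c3 b (pr a) := by
  split_ifs with h
  · exact hb.tt_union a b h
  · obtain ⟨p, h1, h2⟩ := Finset.not_disjoint_iff.1 h
    rw [(xs_eq_zero_iff ch_c3).2 ⟨p, h2, dvd_pr_iff.2 h1⟩, mul_zero]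

theorem e2c_nrm2 (y : Finset P → ℂ) (L : ℝ) : 0 ≤ nrm2 y L :=
  Finset.sum_nonneg fun _ _ => sq_nonneg _

theorem e2c_nrm1 (y : Finset P → ℂ) {L : ℝ} (hL : 0 ≤ L) : nrm1 y L ^ 2 ≤ 12 * L * nrm2 y L :=
  sq_sum_le_card_mul_sum_sq.trans (mul_le_mul_of_nonneg_right (card_sqf_le hL) (e2c_nrm2 y L))

theorem e2c_exp {x y z : ℝ} (hx : 0 < x) (hy : 0 < y) (h : z = x * y) (τ T : ℝ) :
    Complex.exp (τ * (T * Real.log z : ℝ) * I)
      = Complex.exp (τ * (T * Real.log x : ℝ) * I) * (y : ℂ) ^ (τ * T * I) := by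
  rw [h, Real.log_mul hx.ne' hy.ne', Complex.cpow_def_of_ne_zero (by exact_mod_cast hy.ne'),
    ← Complex.ofReal_log hy.le, ← Complex.exp_add]
  congr 1
  push_cast
  ring

theorem e2c_ncpow {y : ℝ} (hy : 0 < y) (τ T : ℝ) : ‖(y : ℂ) ^ (τ * T * I)‖ = 1 := by
  rw [Complex.norm_cpow_eq_rpow_re_of_pos hy]
  simp

/-- The part with `tt` by the large sieve. -/
theorem e2c_tt_ls (hb : BA) {φ : ℝ → ℂ} (hφ : Bump φ) : ∃ K : ℝ, 0 < K ∧
    ∀ (α β : Finset P → ℂ) (X B L T M : ℝ), 0 < X → 0 ≤ M →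
      (∀ x : Finset P → ℂ, ∑ m ∈ sqf (3 * X / B), ‖Ds x L (pr m)‖ ^ 2 ≤ M * nrm2 x L) →
      ‖Bil tt α β X B L T φ‖ ≤ K * √(nrm2 α (3 * X / B) * nrm2 β L * M) := by
  obtain ⟨K, hK, H⟩ := e2c_fr hb hφ 0
  refine ⟨K, hK, fun α β X B L T M hX hM h => ?_⟩
  have key := H _ (sqf (3 * X / B) ×ˢ sqf L)
    (fun x => α x.1 * β x.2 * (tt x.1 * tt x.2 * xs c3 x.2 (pr x.1)))
    (fun x => T * Real.log (Ns x.1 * Ns x.2 / X)) (√(nrm2 α (3 * X / B) * nrm2 β L * M)) ?_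
  · rw [Finset.sum_product] at key
    simpa only [Bil, e2c_tt hb, lw] using key
  intro τ
  rw [pow_zero, mul_one, Finset.sum_product]
  refine Real.le_sqrt_of_sq_le ?_
  have e : ∀ a ∈ sqf (3 * X / B), ∑ b ∈ sqf L, α a * β b * (tt a * tt b * xs c3 b (pr a))
      * Complex.exp (τ * (T * Real.log (Ns a * Ns b / X) : ℝ) * I)
      = (α a * tt a * Complex.exp (τ * (T * Real.log (Ns a / X) : ℝ) * I))
        * Ds (fun b => β b * tt b * (Ns b : ℂ) ^ (τ * T * I)) L (pr a) := by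
    intro a _
    rw [Ds, Finset.mul_sum]
    refine Finset.sum_congr rfl fun b _ => ?_
    rw [e2c_exp (x := Ns a / X) (y := Ns b) (div_pos (Ns_pos a) hX) (Ns_pos b) (by ring)]
    ring
  rw [Finset.sum_congr rfl e]
  refine (e2c_cs _ _ _).trans ?_
  have e1 : ∑ a ∈ sqf (3 * X / B),
      ‖α a * tt a * Complex.exp (τ * (T * Real.log (Ns a / X) : ℝ) * I)‖ ^ 2
      = nrm2 α (3 * X / B) := by
    simp only [nrm2, norm_mul, hb.norm_tt, e2c_nexp2, mul_one]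
  have e2 : nrm2 (fun b => β b * tt b * (Ns b : ℂ) ^ (τ * T * I)) L = nrm2 β L := by
    simp only [nrm2, norm_mul, hb.norm_tt, e2c_ncpow (Ns_pos _), mul_one]
  rw [e1, mul_assoc (nrm2 α _)]
  refine mul_le_mul_of_nonneg_left ((h _).trans_eq ?_) (e2c_nrm2 _ _)
  rw [e2, mul_comm]

/-- The part with `t0`, trivially. -/
theorem e2c_t0 (hb : BA) {φ : ℝ → ℂ} (hφ : Bump φ) : ∃ K : ℝ, 0 < K ∧
    ∀ (α β : Finset P → ℂ) (X B L T : ℝ), 0 < X → 0 < T →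
      ‖Bil t0 α β X B L T φ‖ ≤ K * X ^ (-(1 / 6) : ℝ) * (nrm1 α (3 * X / B) * nrm1 β L) := by
  obtain ⟨D, hD, hBD⟩ := hb.bump_bd φ hφ 0
  refine ⟨(|kap| + 1) * D, by positivity, fun α β X B L T hX hT => ?_⟩
  rw [Bil, nrm1, nrm1, Finset.sum_mul_sum, Finset.mul_sum]
  refine (norm_sum_le _ _).trans (Finset.sum_le_sum fun a _ => ?_)
  rw [Finset.mul_sum]
  refine (norm_sum_le _ _).trans (Finset.sum_le_sum fun b _ => ?_)
  have h1 : ‖(if Disjoint a b then t0 (a ∪ b) else 0) * lw φ T X (Ns a * Ns b)‖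
      ≤ (|kap| + 1) * D * X ^ (-(1 / 6) : ℝ) := by
    by_cases h0 : lw φ T X (Ns a * Ns b) = 0
    · rw [h0, mul_zero, norm_zero]
      positivity
    split_ifs with hd
    · have a1 := (hφ.supp _ h0).1
      have a2 : 0 ≤ Real.log (Ns a * Ns b / X) := nonneg_of_mul_nonneg_right a1 hT
      have a3 : 0 < Ns a * Ns b / X := div_pos (mul_pos (Ns_pos a) (Ns_pos b)) hX
      have a4 : X ≤ Ns a * Ns b := by
        have := (Real.log_nonneg_iff a3).1 a2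
        rwa [one_le_div hX] at this
      have a5 : Ns (a ∪ b) ^ (-(1 / 6) : ℝ) ≤ X ^ (-(1 / 6) : ℝ) := by
        rw [Ns_union hd]
        exact Real.rpow_le_rpow_of_nonpos hX a4 (by norm_num)
      have a6 : ‖lw φ T X (Ns a * Ns b)‖ ≤ D := by simpa [lw] using hBD.bd 0 le_rfl _
      have a7 : 0 ≤ Ns (a ∪ b) ^ (-(1 / 6) : ℝ) := Real.rpow_nonneg (Ns_pos _).le _
      rw [norm_mul, t0, Complex.norm_real, Real.norm_eq_abs, abs_mul, abs_of_nonneg a7]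
      calc _ ≤ (|kap| + 1) * X ^ (-(1 / 6) : ℝ) * D := by
            gcongr
            linarith
        _ = _ := by ring
    · rw [zero_mul, norm_zero]
      positivity
  rw [mul_assoc (α a * β b), norm_mul, norm_mul, mul_comm]
  exact mul_le_mul_of_nonneg_right h1 (by positivity)

theorem e2c_dl (α β : Finset P → ℂ) (X B L T : ℝ) (φ : ℝ → ℂ) :
    Bil dl α β X B L T φ = Bil tt α β X B L T φ - Bil t0 α β X B L T φ := by
  simp only [Bil, ← Finset.sum_sub_distrib, dl]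
  refine Finset.sum_congr rfl fun a _ => Finset.sum_congr rfl fun b _ => ?_
  split_ifs <;> ring

theorem e2c_count (J : Finset ℤ) (t : ℝ) :
    ((J.filter fun i : ℤ => -1 < t + i / 2 ∧ t + i / 2 < 1).card : ℝ) ≤ 4 := by
  have h : (J.filter fun i : ℤ => -1 < t + i / 2 ∧ t + i / 2 < 1)
      ⊆ Finset.Icc (⌊-2 - 2 * t⌋ + 1) (⌊-2 - 2 * t⌋ + 4) := by
    intro i hi
    obtain ⟨-, h1, h2⟩ := Finset.mem_filter.1 hi
    have a1 := Int.floor_le (-2 - 2 * t)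
    have a2 := Int.lt_floor_add_one (-2 - 2 * t)
    have a3 : (⌊-2 - 2 * t⌋ : ℝ) < i := by linarith
    have a4 : (i : ℝ) < ⌊-2 - 2 * t⌋ + 5 := by linarith
    have a5 : ⌊-2 - 2 * t⌋ < i := by exact_mod_cast a3
    have a6 : i < ⌊-2 - 2 * t⌋ + 5 := by exact_mod_cast a4
    rw [Finset.mem_Icc]
    omega
  have h2 := Finset.card_le_card h
  rw [Int.card_Icc] at h2
  have h3 : (⌊-2 - 2 * t⌋ + 4 + 1 - (⌊-2 - 2 * t⌋ + 1)).toNat = 4 := by omega
  rw [h3] at h2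
  exact_mod_cast h2

theorem e2c_cover (hb : BA) {c : ℝ} (hc : ∀ v, 3 / 8 ≤ v → v ≤ 5 / 8 → c ≤ Om v) {v : ℝ}
    (h1 : -1 < v) (h2 : v < 1) : c ≤ ∑ j ∈ Finset.range 8, Om (v + 11 / 8 - j / 4) := by
  have a0 : 0 ≤ 4 * (v + 1) := by linarith
  have a1 := Nat.floor_le a0
  have a2 := Nat.lt_floor_add_one (4 * (v + 1))
  have a3 : ⌊4 * (v + 1)⌋₊ < 8 := (Nat.floor_lt a0).2 (by push_cast; linarith)
  refine le_trans (hc (v + 11 / 8 - (⌊4 * (v + 1)⌋₊ : ℝ) / 4) (by linarith) (by linarith)) ?_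
  exact Finset.single_le_sum (f := fun j : ℕ => Om (v + 11 / 8 - j / 4))
    (fun j _ => hb.Om_nonneg _) (Finset.mem_range.2 a3)

theorem e2c_log {y T : ℝ} (hy : 0 < y) (hT : 1 ≤ T) (h : T * Real.log y ≤ 1) : y ≤ 3 := by
  have a1 : Real.log y ≤ 1 := by
    rcases le_total (Real.log y) 0 with h0 | h0
    · linarith
    · nlinarith
  have a2 := (Real.log_le_iff_le_exp hy).1 a1
  linarith [Real.exp_one_lt_d9]

/-- Squarefree elements inside the sum `S1`. -/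
theorem e2c_S1 (hb : BA) (x : Finset P → ℂ) {A B T : ℝ} (R : ℝ) (hA : 0 < A) (hT : 1 ≤ T) :
    ∑ a ∈ sqf R, Om (T * Real.log (Ns a / A)) * ‖Ds x (3 * B) (pr a)‖ ^ 2 ≤ S1 x A B T := by
  have h1 : ∑ a ∈ sqf R, Om (T * Real.log (Ns a / A)) * ‖Ds x (3 * B) (pr a)‖ ^ 2
      = ∑ a ∈ (sqf R).image pr, Om (T * Real.log (nm a / A)) * ‖Ds x (3 * B) a‖ ^ 2 := by
    rw [Finset.sum_image fun _ _ _ _ h => pr_inj h]
    rfl
  rw [h1, ← Finset.sum_filter_ne_zero]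
  refine Finset.sum_le_sum_of_subset_of_nonneg ?_
    fun a _ _ => mul_nonneg (hb.Om_nonneg _) (sq_nonneg _)
  intro a ha
  obtain ⟨ha1, ha2⟩ := Finset.mem_filter.1 ha
  obtain ⟨s, -, rfl⟩ := Finset.mem_image.1 ha1
  rw [hb.mem_pball]
  refine ⟨pr_primary s, ?_⟩
  have h0 := left_ne_zero_of_mul ha2
  have h2 := (hb.Om_bump.supp _ (by exact_mod_cast h0)).2
  exact (div_le_iff₀ hA).1 (e2c_log (div_pos (Ns_pos s) hA) hT h2)

end Pat
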