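import Vale.Agent.P006.IfC
import Vale.Agent.P026.Dvs
import Vale.Agent.P026.Rearr

/-! P006: from smooth sums over primes to the sharp cut-off. -/

noncomputable section
namespace Pat
open QRH Complex MeasureTheory Filter
open scoped ComplexConjugate Classical ContDiff Topology

theorem finD_flip {φ : ℝ → ℂ} (h : Bump φ) : Bump fun v => φ (1 - v) :=
  ⟨h.smooth.comp (contDiff_const.sub contDiff_id), fun v hv => by
    obtain ⟨h1, h2⟩ := h.supp _ hv
    constructor <;> linarith⟩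

/-- The dyadic pieces near the end point. -/
def finDφ (v : ℝ) : ℂ := ((Real.smoothTransition (2 * v) - Real.smoothTransition v : ℝ) : ℂ)

theorem finD_bump : Bump finDφ := by
  refine ⟨Complex.ofRealCLM.contDiff.comp ((Real.smoothTransition.contDiff.comp
    (contDiff_const.mul contDiff_id)).sub Real.smoothTransition.contDiff), fun v hv => ?_⟩
  constructor
  · by_contra h
    apply hv
    rw [finDφ, Real.smoothTransition.zero_of_nonpos (by linarith),
      Real.smoothTransition.zero_of_nonpos (by linarith), sub_self, Complex.ofReal_zero]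
  · by_contra h
    apply hv
    rw [finDφ, Real.smoothTransition.one_of_one_le (by linarith),
      Real.smoothTransition.one_of_one_le (by linarith), sub_self, Complex.ofReal_zero]

theorem finD_exp {x : ℝ} (hx : x ≤ 1) : Real.exp x ≤ 3 :=
  (Real.exp_le_exp.2 hx).trans (by linarith [Real.exp_one_lt_d9])

theorem finD_PS (hb : BA) {φ : ℝ → ℂ} (h : Bump φ) {X T a : ℝ} (hX : 0 < X) (hT : 1 ≤ T)
    (ha : 0 ≤ a) : ∑ p ∈ prs X, dl {p} * φ (T * Real.log (X / nm p.1) - a)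
      = PS dl (X * Real.exp (-((a + 1) / T))) T fun v => φ (1 - v) := by
  have hT0 : 0 < T := by linarith
  have key : ∀ p : P, φ (T * Real.log (X / nm p.1) - a) ≠ 0 →
      (nm p.1 : ℝ) ≤ X * Real.exp (-(a / T)) := fun p hp => by
    have h1 := (h.supp _ hp).1
    have h2 : a / T ≤ Real.log (X / nm p.1) := by
      rw [div_le_iff₀' hT0]
      linarith
    have h3 := dvs_nmP_pos p
    rw [Real.le_log_iff_exp_le (by positivity), le_div_iff₀ h3] at h2
    rw [Real.exp_neg, ← div_eq_mul_inv, le_div_iff₀' (Real.exp_pos _)]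
    exact h2
  rw [PS, hb.sum_prs _ fun c => dl c * lw (fun v => φ (1 - v)) T _ (Ns c)]
  have e : ∀ p : P, dl {p} * lw (fun v => φ (1 - v)) T (X * Real.exp (-((a + 1) / T))) (Ns {p})
      = dl {p} * φ (T * Real.log (X / nm p.1) - a) := fun p => by
    have h3 := dvs_nmP_pos p
    rw [lw, Ns, pr_singleton, Real.log_div h3.ne' (by positivity),
      Real.log_mul hX.ne' (Real.exp_ne_zero _), Real.log_exp, Real.log_div hX.ne' h3.ne']
    congr 2
    field_simp
    ring
  simp only [e]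
  have h1 : X * Real.exp (-(a / T)) ≤ X :=
    mul_le_of_le_one_right hX.le (Real.exp_le_one_iff.2 (neg_nonpos.2 (by positivity)))
  have h2 : X * Real.exp (-(a / T)) ≤ 3 * (X * Real.exp (-((a + 1) / T))) := by
    have : Real.exp (-(a / T)) = Real.exp (1 / T) * Real.exp (-((a + 1) / T)) := by
      rw [← Real.exp_add]
      congr 1
      ring
    rw [this]
    have h3 := finD_exp ((div_le_one hT0).2 hT)
    have h4 := mul_pos hX (Real.exp_pos (-((a + 1) / T)))
    nlinarith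
  have h3 : ∀ R, X * Real.exp (-(a / T)) ≤ R →
      ∑ p ∈ prs (X * Real.exp (-(a / T))), dl {p} * φ (T * Real.log (X / nm p.1) - a)
        = ∑ p ∈ prs R, dl {p} * φ (T * Real.log (X / nm p.1) - a) := fun R hR =>
    Finset.sum_subset (fun p hp => (hb.mem_prs _ _).2 (((hb.mem_prs _ _).1 hp).trans hR))
      fun p _ hp => by
        by_contra hne
        exact hp ((hb.mem_prs _ _).2 (key p (right_ne_zero_of_mul hne)))
  rw [← h3 _ h1, h3 _ h2]

theorem finD_one (u : ℝ) (J I : ℕ) :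
    (1 : ℂ) = ((1 - Real.smoothTransition (2 ^ (J + 1) * u) : ℝ) : ℂ)
      + ∑ j ∈ Finset.range J, finDφ (2 ^ (j + 1) * u - 0)
      + ∑ i ∈ Finset.range I, (bx (1 * u - i / 2) : ℂ)
      + (Real.smoothTransition (2 * u - I) : ℝ) := by
  have h1 := Finset.sum_range_sub (fun j => Real.smoothTransition (2 ^ (j + 1) * u)) J
  have h2 := Finset.sum_range_sub' (fun i : ℕ => Real.smoothTransition (2 * u - i)) I
  have e1 : ∀ j : ℕ, finDφ (2 ^ (j + 1) * u - 0) = ((Real.smoothTransition (2 ^ (j + 1 + 1) * u)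
      - Real.smoothTransition (2 ^ (j + 1) * u) : ℝ) : ℂ) := fun j => by
    rw [finDφ, sub_zero, pow_succ' 2 (j + 1), mul_assoc]
  have e2 : ∀ i : ℕ, bx (1 * u - i / 2) = Real.smoothTransition (2 * u - i)
      - Real.smoothTransition (2 * u - (i + 1 : ℕ)) := fun i => by
    rw [bx]
    congr 2
    · ring
    · push_cast
      ring
  simp only [e1, e2, ← Complex.ofReal_sum, h1, h2]
  push_cast
  simp

theorem finD_dl (hb : BA) (s : Finset P) : ‖dl s‖ ≤ 1 + |kap| := by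
  refine (norm_sub_le _ _).trans ?_
  rw [hb.norm_tt, t0, Complex.norm_real, Real.norm_eq_abs, abs_mul,
    abs_of_nonneg (Real.rpow_nonneg (Ns_pos s).le _)]
  have := Real.rpow_le_one_of_one_le_of_nonpos (one_le_Ns s) (by norm_num : -(1 / 6 : ℝ) ≤ 0)
  nlinarith [abs_nonneg kap]

theorem finD_count (hb : BA) (X : ℝ) (f : P → ℝ) (hf : ∀ p, |f p| ≤ 1) :
    ‖∑ p ∈ prs X, dl {p} * (f p : ℂ)‖
      ≤ (1 + |kap|) * ((prs X).filter fun p => f p ≠ 0).card := by
  rw [← Finset.sum_filter_of_ne (p := fun p => f p ≠ 0)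
    fun p _ h => Complex.ofReal_ne_zero.1 (right_ne_zero_of_mul h)]
  refine (norm_sum_le_of_le (n := fun _ => 1 + |kap|) _ fun p _ => ?_).trans ?_
  · rw [norm_mul, Complex.norm_real, Real.norm_eq_abs]
    exact (mul_le_of_le_one_right (norm_nonneg _) (hf p)).trans (finD_dl hb _)
  · rw [Finset.sum_const, nsmul_eq_mul, mul_comm]

theorem finD_big (a : ℝ) : ∀ᶠ X : ℝ in atTop, a ≤ Real.log X / 2 :=
  (Real.tendsto_log_atTop.atTop_div_const two_pos).eventually_ge_atTop a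

theorem finD_ev {c : ℝ} (hc : 0 < c) :
    ∀ᶠ X : ℝ in atTop, (X / 3) ^ (-c) ≤ (Real.log X / 2) ^ (-3 : ℝ) := by
  have h1 := (isLittleO_log_rpow_rpow_atTop 3 hc).eventuallyLE
  have h2 := (tendsto_id.atTop_div_const (by norm_num : (0 : ℝ) < 3)).eventually h1
  filter_upwards [h2, finD_big 2, eventually_gt_atTop 0] with X h3 h4 h5
  have h6 : Real.log X / 2 ≤ Real.log (X / 3) := by
    rw [Real.log_div h5.ne' (by norm_num)]
    have := Real.log_le_sub_one_of_pos (by norm_num : (0 : ℝ) < 3)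
    linarith
  simp only [id] at h3
  rw [Real.norm_of_nonneg (Real.rpow_nonneg (by linarith) _),
    Real.norm_of_nonneg (by positivity)] at h3
  rw [Real.rpow_neg (by positivity), Real.rpow_neg (by linarith)]
  exact inv_anti₀ (Real.rpow_pos_of_pos (by linarith) _)
    ((Real.rpow_le_rpow (by linarith) h6 (by norm_num)).trans h3)

/-- The comparison function. -/
def finDG (X : ℝ) : ℝ := X ^ (5 / 6 : ℝ) * (Real.log X / 2) ^ (-(5 / 4) : ℝ)

theorem finD_A (hb : BA) (h1 : DelS) : ∃ C : ℝ, ∀ᶠ X : ℝ in atTop,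
    ‖∑ i ∈ Finset.range ⌈Real.log X / 2⌉₊, ∑ p ∈ prs X,
      dl {p} * (bx (1 * Real.log (X / nm p.1) - i / 2) : ℂ)‖ ≤ C * finDG X := by
  obtain ⟨C, X0, hC, h⟩ := h1 _ 0 (finD_flip hb.bx_bump)
  have hr0 := Real.exp_pos (-(5 / 12))
  have hr1 : Real.exp (-(5 / 12)) < 1 := Real.exp_lt_one_iff.2 (by norm_num)
  refine ⟨C * (1 - Real.exp (-(5 / 12)))⁻¹, ?_⟩
  filter_upwards [finD_big 2, finD_big X0, eventually_gt_atTop 0] with X h2 h3 hX
  have hG : 0 ≤ finDG X := by
    rw [finDG]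
    positivity
  refine (norm_sum_le_of_le (n := fun i => C * finDG X * Real.exp (-(5 / 12)) ^ i) _
    fun i hi => ?_).trans ?_
  · have hi' : (i : ℝ) < Real.log X / 2 := Nat.lt_ceil.1 (Finset.mem_range.1 hi)
    have hi0 : (0 : ℝ) ≤ i / 2 := by positivity
    rw [finD_PS hb hb.bx_bump hX le_rfl hi0]
    have hp : 0 < X * Real.exp (-((i / 2 + 1) / 1)) := by positivity
    have hl : Real.log X / 2 ≤ Real.log (X * Real.exp (-((i / 2 + 1) / 1))) := by
      rw [Real.log_mul hX.ne' (Real.exp_ne_zero _), Real.log_exp]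
      linarith
    have h4 : X0 ≤ X * Real.exp (-((i / 2 + 1) / 1)) := by
      have := Real.log_le_sub_one_of_pos hp
      linarith
    refine (h _ 1 h4 le_rfl (by simp)).trans ?_
    have h5 : Real.log (X * Real.exp (-((i / 2 + 1) / 1))) ^ (-(3 / 2) : ℝ)
        ≤ (Real.log X / 2) ^ (-(5 / 4) : ℝ) :=
      (Real.rpow_le_rpow_of_nonpos (by linarith) hl (by norm_num)).trans
        (Real.rpow_le_rpow_of_exponent_le (by linarith) (by norm_num))
    have h6 : Real.exp (-((i / 2 + 1) / 1)) ^ (5 / 6 : ℝ) ≤ Real.exp (-(5 / 12)) ^ i := by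
      rw [← Real.exp_mul, ← Real.exp_nat_mul, Real.exp_le_exp]
      linarith
    rw [Real.mul_rpow hX.le (Real.exp_pos _).le, finDG]
    calc _ ≤ C * (X ^ (5 / 6 : ℝ) * Real.exp (-(5 / 12)) ^ i) *
          (Real.log X / 2) ^ (-(5 / 4) : ℝ) := by
          gcongr
          exact Real.rpow_nonneg (by linarith) _
      _ = _ := by ring
  · rw [← Finset.mul_sum]
    calc _ ≤ C * finDG X * (1 - Real.exp (-(5 / 12)))⁻¹ :=
          mul_le_mul_of_nonneg_left (dvs_geom hr0.le hr1 _) (by positivity)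
      _ = _ := by ring

theorem finD_B1 (hb : BA) (h1 : DelS) (h2 : DelH) : ∃ η c C : ℝ, 0 < η ∧ 0 < c ∧ 0 < C ∧
    ∀ᶠ X : ℝ in atTop, ∀ T : ℝ, 1 ≤ T → T ≤ Tmax (X / 3) →
      ‖∑ p ∈ prs X, dl {p} * finDφ (T * Real.log (X / nm p.1) - 0)‖
        ≤ C * (finDG X * T ^ (-η) + X ^ (5 / 6 : ℝ) * (X / 3) ^ (-c)) := by
  obtain ⟨k, c, C2, X2, hc, hC2, h2⟩ := h2 _ (finD_flip finD_bump)
  obtain ⟨k0, hk0⟩ := exists_nat_ge (2 * (k + 2) / c)
  have hk1 : (0 : ℝ) < k0 := lt_of_lt_of_le (by positivity) hk0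
  obtain ⟨C1, X1, hC1, h1⟩ := h1 _ k0 (finD_flip finD_bump)
  refine ⟨min (1 / (4 * k0)) (c / 2), c, C1 + C2 * 2 ^ k, by positivity, hc, by positivity, ?_⟩
  filter_upwards [finD_big 2, eventually_ge_atTop (3 * X1), eventually_ge_atTop (3 * X2),
    eventually_gt_atTop 0] with X hh hX1 hX2 hX T hT hT'
  have hT0 : 0 < T := by linarith
  rw [finD_PS hb finD_bump hX hT le_rfl, zero_add]
  set η := min (1 / (4 * (k0 : ℝ))) (c / 2) with hη
  set h := Real.log X / 2 with hh'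
  have hi0 : 0 < 1 / T := by positivity
  have hi1 : 1 / T ≤ 1 := (div_le_one hT0).2 hT
  have hY1 : X / 3 ≤ X * Real.exp (-(1 / T)) := by
    rw [Real.exp_neg, ← div_eq_mul_inv]
    exact div_le_div_of_nonneg_left hX.le (Real.exp_pos _) (finD_exp hi1)
  have hY2 : X * Real.exp (-(1 / T)) ≤ X :=
    mul_le_of_le_one_right hX.le (Real.exp_le_one_iff.2 (by linarith))
  have hl : h ≤ Real.log (X * Real.exp (-(1 / T))) ∧
      Real.log (X * Real.exp (-(1 / T))) ≤ 2 * h := by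
    rw [Real.log_mul hX.ne' (Real.exp_ne_zero _), Real.log_exp]
    constructor <;> linarith
  set Y := X * Real.exp (-(1 / T)) with hY
  have hY0 : 0 < Y := by positivity
  have hp : Y ^ (5 / 6 : ℝ) ≤ X ^ (5 / 6 : ℝ) := Real.rpow_le_rpow hY0.le hY2 (by norm_num)
  have hh0 : 0 < h := by linarith
  have h2k : (1 : ℝ) ≤ 2 ^ k := one_le_pow₀ (by norm_num)
  have hA : 0 ≤ X ^ (5 / 6 : ℝ) * h ^ (-(5 / 4) : ℝ) * T ^ (-η) := by positivity
  have hB : 0 ≤ X ^ (5 / 6 : ℝ) * (X / 3) ^ (-c) := by positivity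
  rw [finDG, ← hh']
  by_cases hc1 : T ≤ h ^ k0
  · refine (h1 Y T (by linarith) hT (hc1.trans (pow_le_pow_left₀ hh0.le hl.1 _))).trans ?_
    have h3 : h ^ (-(1 / 4) : ℝ) ≤ T ^ (-η) := by
      calc h ^ (-(1 / 4) : ℝ) = (h ^ k0) ^ (-(1 / (4 * k0)) : ℝ) := by
            rw [← Real.rpow_natCast, ← Real.rpow_mul hh0.le]
            congr 1
            field_simp
        _ ≤ T ^ (-(1 / (4 * k0)) : ℝ) :=
            Real.rpow_le_rpow_of_nonpos hT0 hc1 (neg_nonpos.2 (by positivity))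
        _ ≤ T ^ (-η) := Real.rpow_le_rpow_of_exponent_le hT (neg_le_neg (min_le_left _ _))
    have h4 : Real.log Y ^ (-(3 / 2) : ℝ) ≤ h ^ (-(5 / 4) : ℝ) * T ^ (-η) := by
      calc _ ≤ h ^ (-(3 / 2) : ℝ) := Real.rpow_le_rpow_of_nonpos hh0 hl.1 (by norm_num)
        _ = h ^ (-(5 / 4) : ℝ) * h ^ (-(1 / 4) : ℝ) := by
          rw [← Real.rpow_add hh0]
          norm_num
        _ ≤ _ := by gcongr
    calc _ ≤ C1 * X ^ (5 / 6 : ℝ) * (h ^ (-(5 / 4) : ℝ) * T ^ (-η)) := by
          gcongr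
          exact Real.rpow_nonneg (by linarith) _
      _ = C1 * (X ^ (5 / 6 : ℝ) * h ^ (-(5 / 4) : ℝ) * T ^ (-η)) := by ring
      _ ≤ _ := by
          gcongr
          · linarith [mul_pos hC2 (zero_lt_one.trans_le h2k)]
          · linarith
  · have hTm : T ≤ Tmax Y := hT'.trans (Real.rpow_le_rpow (by positivity) hY1 (by norm_num))
    refine (h2 Y T (by linarith) hT hTm).trans ?_
    have h3 : T ^ (-(c / 2)) ≤ h ^ (-(k + 2) : ℝ) := by
      calc _ ≤ (h ^ k0) ^ (-(c / 2)) :=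
            Real.rpow_le_rpow_of_nonpos (by positivity) (not_le.1 hc1).le (by linarith)
        _ = h ^ (-(k0 * (c / 2))) := by
            rw [← Real.rpow_natCast, ← Real.rpow_mul hh0.le, mul_neg]
        _ ≤ _ := by
            refine Real.rpow_le_rpow_of_exponent_le (by linarith) ?_
            rw [div_le_iff₀ hc] at hk0
            linarith
    have h4 : T ^ (-(c / 2)) ≤ T ^ (-η) :=
      Real.rpow_le_rpow_of_exponent_le hT (neg_le_neg (min_le_right _ _))
    have h5 : Real.log Y ^ k * T ^ (-c) ≤ 2 ^ k * (h ^ (-(5 / 4) : ℝ) * T ^ (-η)) := by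
      have e1 : T ^ (-c) = T ^ (-(c / 2)) * T ^ (-(c / 2)) := by
        rw [← Real.rpow_add hT0]
        congr 1
        ring
      have e2 : h ^ k * h ^ (-(k + 2) : ℝ) ≤ h ^ (-(5 / 4) : ℝ) := by
        rw [← Real.rpow_natCast, ← Real.rpow_add hh0]
        exact Real.rpow_le_rpow_of_exponent_le (by linarith) (by linarith)
      calc _ ≤ (2 * h) ^ k * (h ^ (-(k + 2) : ℝ) * T ^ (-η)) := by
            rw [e1]
            gcongr
            · linarith
            · exact hl.2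
        _ = 2 ^ k * (h ^ k * h ^ (-(k + 2) : ℝ) * T ^ (-η)) := by
            rw [mul_pow, mul_assoc, mul_assoc]
        _ ≤ _ := by gcongr
    have h6 : Y ^ (-c) ≤ 2 ^ k * (X / 3) ^ (-c) :=
      (Real.rpow_le_rpow_of_nonpos (by positivity) hY1 (by linarith)).trans
        (le_mul_of_one_le_left (by positivity) h2k)
    calc _ ≤ C2 * X ^ (5 / 6 : ℝ) *
          (2 ^ k * (h ^ (-(5 / 4) : ℝ) * T ^ (-η)) + 2 ^ k * (X / 3) ^ (-c)) := by
          gcongr
          have := pow_nonneg (hh0.le.trans hl.1) k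
          positivity
      _ = C2 * 2 ^ k * (X ^ (5 / 6 : ℝ) * h ^ (-(5 / 4) : ℝ) * T ^ (-η)
          + X ^ (5 / 6 : ℝ) * (X / 3) ^ (-c)) := by ring
      _ ≤ _ := by
          gcongr
          linarith

theorem finD_B (hb : BA) (h1 : DelS) (h2 : DelH) : ∃ C : ℝ, ∀ᶠ X : ℝ in atTop, ∀ J : ℕ,
    (2 : ℝ) ^ J ≤ Tmax (X / 3) →
    ‖∑ j ∈ Finset.range J, ∑ p ∈ prs X,
      dl {p} * finDφ (2 ^ (j + 1) * Real.log (X / nm p.1) - 0)‖ ≤ C * finDG X := by
  obtain ⟨η, c, C, hη, hc, hC, h⟩ := finD_B1 hb h1 h2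
  have hr0 : (0 : ℝ) < 2 ^ (-η) := by positivity
  have hr1 : (2 : ℝ) ^ (-η) < 1 := Real.rpow_lt_one_of_one_lt_of_neg (by norm_num) (by linarith)
  refine ⟨C * ((1 - 2 ^ (-η))⁻¹ + 4), ?_⟩
  filter_upwards [h, finD_ev hc, finD_big 2, eventually_ge_atTop 3] with X h3 h4 h5 hX J hJ
  have hG : 0 ≤ finDG X := by
    rw [finDG]
    positivity
  set h := Real.log X / 2 with hh
  have hh0 : 0 < h := by linarith
  refine (norm_sum_le_of_le (n := fun j => C * (finDG X * (2 ^ (-η)) ^ j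
    + X ^ (5 / 6 : ℝ) * h ^ (-3 : ℝ))) _ fun j hj => ?_).trans ?_
  · have h6 : (2 : ℝ) ^ (j + 1) ≤ 2 ^ J :=
      pow_le_pow_right₀ (by norm_num) (Finset.mem_range.1 hj)
    refine (h3 _ (one_le_pow₀ (by norm_num)) (h6.trans hJ)).trans ?_
    have h7 : ((2 : ℝ) ^ (j + 1)) ^ (-η) ≤ (2 ^ (-η)) ^ j := by
      rw [← Real.rpow_pow_comm (by norm_num)]
      exact pow_le_pow_of_le_one hr0.le hr1.le (Nat.le_succ j)
    gcongr
  · have h6 : (J : ℝ) ≤ 4 * h := by
      have h7 : (2 : ℝ) ^ J ≤ X := hJ.trans ((Real.rpow_le_self_of_one_le (by linarith)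
        (by norm_num)).trans (by linarith))
      have h8 := Real.log_le_log (by positivity) h7
      rw [Real.log_pow] at h8
      have h9 := Real.log_two_gt_d9
      have : (0 : ℝ) ≤ J := Nat.cast_nonneg J
      nlinarith
    have h7 : h * h ^ (-3 : ℝ) ≤ h ^ (-(5 / 4) : ℝ) := by
      rw [mul_comm, ← Real.rpow_add_one hh0.ne']
      exact Real.rpow_le_rpow_of_exponent_le (by linarith) (by norm_num)
    rw [← Finset.mul_sum, Finset.sum_add_distrib, ← Finset.mul_sum, Finset.sum_const,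
      Finset.card_range, nsmul_eq_mul, mul_assoc]
    refine mul_le_mul_of_nonneg_left ?_ hC.le
    have h8 := mul_le_mul_of_nonneg_left (dvs_geom hr0.le hr1 J) hG
    have h9 : J * (X ^ (5 / 6 : ℝ) * h ^ (-3 : ℝ)) ≤ 4 * finDG X := by
      calc _ ≤ 4 * h * (X ^ (5 / 6 : ℝ) * h ^ (-3 : ℝ)) := by gcongr
        _ = 4 * (X ^ (5 / 6 : ℝ) * (h * h ^ (-3 : ℝ))) := by ring
        _ ≤ _ := by
          rw [finDG]
          gcongr
    linarith

theorem finD_pow : ∀ᶠ X : ℝ in atTop, X ^ (3 / 4 : ℝ) ≤ finDG X ∧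
    X / Tmax (X / 3) ≤ 3 * finDG X := by
  filter_upwards [finD_ev (by norm_num : (0 : ℝ) < 1 / 1000), finD_big 2, eventually_ge_atTop 3]
    with X h1 h2 hX
  have hX0 : 0 < X := by linarith
  have h3 : (X / 3) ^ (-(1 / 1000) : ℝ) ≤ (Real.log X / 2) ^ (-(5 / 4) : ℝ) :=
    h1.trans (Real.rpow_le_rpow_of_exponent_le (by linarith) (by norm_num))
  have h4 : X ^ (5 / 6 : ℝ) * (X / 3) ^ (-(1 / 1000) : ℝ) ≤ finDG X := by
    rw [finDG]
    gcongr
  constructor
  · refine le_trans ?_ h4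
    calc X ^ (3 / 4 : ℝ) ≤ X ^ (5 / 6 + -(1 / 1000) : ℝ) :=
          Real.rpow_le_rpow_of_exponent_le (by linarith) (by norm_num)
      _ = X ^ (5 / 6 : ℝ) * X ^ (-(1 / 1000) : ℝ) := Real.rpow_add hX0 _ _
      _ ≤ _ := mul_le_mul_of_nonneg_left
          (Real.rpow_le_rpow_of_nonpos (by positivity) (by linarith) (by norm_num)) (by positivity)
  · have e : X / Tmax (X / 3) = 3 * ((X / 3) ^ (5 / 6 : ℝ) * (X / 3) ^ (-(1 / 1000) : ℝ)) := by
      have h5 : 0 < X / 3 := by positivity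
      rw [Tmax, ← Real.rpow_add h5, div_eq_iff (by positivity), mul_assoc, ← Real.rpow_add h5]
      norm_num
      ring
    rw [e]
    refine mul_le_mul_of_nonneg_left (le_trans ?_ h4) (by norm_num)
    gcongr
    linarith

theorem finD_C (hb : BA) : ∃ C : ℝ, ∀ᶠ X : ℝ in atTop, ∀ J : ℕ, Tmax (X / 3) < 2 ^ (J + 1) →
    ‖∑ p ∈ prs X, dl {p} *
      ((1 - Real.smoothTransition (2 ^ (J + 1) * Real.log (X / nm p.1)) : ℝ) : ℂ)‖
      ≤ C * finDG X := by
  obtain ⟨C, hC, h⟩ := hb.thin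
  refine ⟨(1 + |kap|) * (C * 5), ?_⟩
  filter_upwards [finD_pow, eventually_ge_atTop 3] with X h1 hX J hJ
  have hX0 : 0 < X := by linarith
  refine (finD_count hb X _ fun p => ?_).trans ?_
  · have := Real.smoothTransition.nonneg (2 ^ (J + 1) * Real.log (X / nm p.1))
    have := Real.smoothTransition.le_one (2 ^ (J + 1) * Real.log (X / nm p.1))
    rw [abs_le]
    constructor <;> linarith
  rw [mul_assoc]
  refine mul_le_mul_of_nonneg_left ?_ (by positivity)
  have hT : 0 < Tmax (X / 3) := Real.rpow_pos_of_pos (by positivity) _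
  have h2 : (1 : ℝ) ≤ 2 ^ (J + 1) := one_le_pow₀ (by norm_num)
  have h3 : X / 2 ^ (J + 1) ≤ X := div_le_self hX0.le h2
  rw [← Finset.card_image_of_injective _ Subtype.val_injective]
  refine (h (X - X / 2 ^ (J + 1)) (X / 2 ^ (J + 1)) _ (by linarith) (by positivity)
    fun x hx => ?_).trans ?_
  · obtain ⟨p, hp, rfl⟩ := Finset.mem_image.1 hx
    obtain ⟨h4, h5⟩ := Finset.mem_filter.1 hp
    have h6 := dvs_nmP_pos p
    refine ⟨?_, by simpa using (hb.mem_prs _ _).1 h4⟩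
    have h7 : 2 ^ (J + 1) * Real.log (X / nm p.1) < 1 := by
      by_contra h7
      exact h5 (by rw [Real.smoothTransition.one_of_one_le (not_lt.1 h7), sub_self])
    have h8 := Real.one_sub_inv_le_log_of_pos (div_pos hX0 h6)
    rw [inv_div] at h8
    rw [← lt_div_iff₀' (by positivity)] at h7
    have h9 : X * (1 - nm p.1 / X) ≤ X * (1 / 2 ^ (J + 1)) :=
      mul_le_mul_of_nonneg_left (by linarith) hX0.le
    rw [mul_sub, mul_one, mul_div_cancel₀ _ hX0.ne', mul_one_div] at h9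
    linarith
  · rw [mul_assoc]
    refine mul_le_mul_of_nonneg_left ?_ hC.le
    have h4 : X / 2 ^ (J + 1) ≤ X / Tmax (X / 3) := div_le_div_of_nonneg_left hX0.le hT hJ.le
    have h5 : √(X - X / 2 ^ (J + 1)) ≤ X ^ (3 / 4 : ℝ) := by
      calc _ ≤ √X := Real.sqrt_le_sqrt (sub_le_self _ (by positivity))
        _ = X ^ (1 / 2 : ℝ) := Real.sqrt_eq_rpow X
        _ ≤ _ := Real.rpow_le_rpow_of_exponent_le (by linarith) (by norm_num)
    have h6 : 1 ≤ X ^ (3 / 4 : ℝ) := Real.one_le_rpow (by linarith) (by norm_num)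
    linarith [h1.1, h1.2]

theorem finD_D (hb : BA) : ∃ C : ℝ, ∀ᶠ X : ℝ in atTop,
    ‖∑ p ∈ prs X, dl {p} *
      (Real.smoothTransition (2 * Real.log (X / nm p.1) - ⌈Real.log X / 2⌉₊) : ℝ)‖
      ≤ C * finDG X := by
  refine ⟨(1 + |kap|) * 12, ?_⟩
  filter_upwards [finD_pow, eventually_gt_atTop 0] with X h1 hX
  refine (finD_count hb X _ fun p => ?_).trans ?_
  · rw [abs_of_nonneg (Real.smoothTransition.nonneg _)]
    exact Real.smoothTransition.le_one _
  rw [mul_assoc]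
  refine mul_le_mul_of_nonneg_left ?_ (by positivity)
  rw [← Finset.card_image_of_injective _ Subtype.val_injective]
  refine le_trans ?_ ((card_ball_le (R := X ^ (3 / 4 : ℝ)) (by positivity)).trans
    (by linarith [h1.1]))
  refine Nat.cast_le.2 (Finset.card_le_card fun x hx => ?_)
  obtain ⟨p, hp, rfl⟩ := Finset.mem_image.1 hx
  have h2 := (Finset.mem_filter.1 hp).2
  have h3 := dvs_nmP_pos p
  refine mem_ball.2 ⟨P.ne_zero p, ?_⟩
  have h4 : 0 < 2 * Real.log (X / nm p.1) - ⌈Real.log X / 2⌉₊ := by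
    by_contra h4
    exact h2 (Real.smoothTransition.zero_of_nonpos (not_lt.1 h4))
  have h5 := Nat.le_ceil (Real.log X / 2)
  rw [Real.log_div hX.ne' h3.ne'] at h4
  rw [Real.le_rpow_iff_log_le h3 hX]
  linarith

theorem finD_o : finDG =o[atTop] fun X : ℝ => X ^ (5 / 6 : ℝ) / Real.log X := by
  refine Asymptotics.isLittleO_iff.2 fun ε hε => ?_
  have h1 : Tendsto (fun X : ℝ => (Real.log X / 2) ^ (-(1 / 4) : ℝ)) atTop (𝓝 0) :=
    (tendsto_rpow_neg_atTop (by norm_num)).comp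
      (Real.tendsto_log_atTop.atTop_div_const two_pos)
  filter_upwards [h1.eventually_le_const (half_pos hε), finD_big 1, eventually_gt_atTop 0]
    with X h2 h3 hX
  have h4 : 0 < Real.log X / 2 := by linarith
  have h5 : 0 < Real.log X := by linarith
  have e : finDG X = 2 * (Real.log X / 2) ^ (-(1 / 4) : ℝ) * (X ^ (5 / 6 : ℝ) / Real.log X) := by
    have : (Real.log X / 2) ^ (-(5 / 4) : ℝ)
        = (Real.log X / 2) ^ (-(1 / 4) : ℝ) / (Real.log X / 2) := by
      rw [← Real.rpow_sub_one h4.ne']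
      norm_num
    rw [finDG, this]
    field_simp
  rw [e, Real.norm_of_nonneg (by positivity), Real.norm_of_nonneg (by positivity)]
  exact mul_le_mul_of_nonneg_right (by linarith) (by positivity)

theorem finD (hb : BA) (h1 : DelS) (h2 : DelH) : FinD := by
  obtain ⟨CA, hA⟩ := finD_A hb h1
  obtain ⟨CB, hB⟩ := finD_B hb h1 h2
  obtain ⟨CC, hC⟩ := finD_C hb
  obtain ⟨CD, hD⟩ := finD_D hb
  refine Asymptotics.IsBigO.trans_isLittleO
    (Asymptotics.IsBigO.of_bound (CC + CB + CA + CD) ?_) finD_o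
  filter_upwards [hA, hB, hC, hD, finD_big 1, eventually_ge_atTop 3] with X a b c d h3 hX
  obtain ⟨J, hJ1, hJ2⟩ := exists_dyadic (R := Tmax (X / 3))
    (Real.one_le_rpow (by linarith) (by norm_num))
  have e : ∑ p ∈ prs X, dl {p} = ∑ p ∈ prs X, dl {p} *
        ((1 - Real.smoothTransition (2 ^ (J + 1) * Real.log (X / nm p.1)) : ℝ) : ℂ)
      + ∑ j ∈ Finset.range J, ∑ p ∈ prs X,
        dl {p} * finDφ (2 ^ (j + 1) * Real.log (X / nm p.1) - 0)
      + ∑ i ∈ Finset.range ⌈Real.log X / 2⌉₊, ∑ p ∈ prs X,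
        dl {p} * (bx (1 * Real.log (X / nm p.1) - i / 2) : ℂ)
      + ∑ p ∈ prs X, dl {p} *
        (Real.smoothTransition (2 * Real.log (X / nm p.1) - ⌈Real.log X / 2⌉₊) : ℝ) := by
    rw [Finset.sum_comm, Finset.sum_comm (s := Finset.range ⌈Real.log X / 2⌉₊),
      ← Finset.sum_add_distrib, ← Finset.sum_add_distrib, ← Finset.sum_add_distrib]
    refine Finset.sum_congr rfl fun p _ => ?_
    rw [← Finset.mul_sum, ← Finset.mul_sum, ← mul_add, ← mul_add, ← mul_add, ← finD_one, mul_one]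
  have hG : 0 ≤ finDG X := by
    rw [finDG]
    positivity
  rw [e, Real.norm_of_nonneg hG]
  have b' := b J hJ1
  have c' := c J hJ2
  refine (norm_add_le_of_le (norm_add_le_of_le (norm_add_le_of_le c' b') a) d).trans_eq ?_
  ring

end Pat
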