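import Vale.Agent.P006.IfB
import Vale.Agent.P026.Sym
import Vale.Agent.P026.Cnt

noncomputable section
namespace Pat
open QRH Complex MeasureTheory Filter
open scoped ComplexConjugate Classical ContDiff Topology

theorem hA12_cls {κ : Type} [Nonempty κ] (S : Finset E) (T : Finset κ) (f : E → ℝ)
    (Rl : E → κ → Prop) (hT : ∀ ξ ∈ S, ∃ c ∈ T, Rl ξ c) {U W : ℝ}
    (h : ∀ c ∈ T, ∀ S' ⊆ S, (∀ ξ ∈ S', Rl ξ c) → ∑ ξ ∈ S', f ξ ≤ U + W * S'.card) :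
    ∑ ξ ∈ S, f ξ ≤ T.card * U + W * S.card := by
  choose! cl h1 h2 using hT
  rw [← Finset.sum_fiberwise_of_maps_to h1, Finset.card_eq_sum_card_fiberwise h1, Nat.cast_sum,
    Finset.mul_sum, ← nsmul_eq_mul, ← Finset.sum_const, ← Finset.sum_add_distrib]
  refine Finset.sum_le_sum fun c hc => h c hc _ (Finset.filter_subset _ _) fun ξ hξ => ?_
  obtain ⟨a, b⟩ := Finset.mem_filter.1 hξ
  exact b ▸ h2 ξ a

theorem hA12_log {ε : ℝ} (hε : 0 < ε) : ∃ C : ℝ, 0 < C ∧ ∀ Z : ℝ, 1 ≤ Z →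
    ∃ V : ℕ, (V : ℝ) ≤ C * Z ^ ε ∧ ∀ v : ℕ, (2 : ℝ) ^ v ≤ Z → v < V := by
  obtain ⟨C, hC, h⟩ := log_le_rpow hε
  refine ⟨C, hC, fun Z hZ => ?_⟩
  obtain ⟨n, h1, h2⟩ := exists_nat_pow_near hZ one_lt_two
  refine ⟨n + 1, by exact_mod_cast h Z n hZ h1, fun v hv => ?_⟩
  exact (pow_lt_pow_iff_right₀ one_lt_two).1 (hv.trans_lt h2)

theorem hA12_Dn (a : E → ℂ) (N : ℝ) (m g : E) :
    Dn a N (m * g) = Dn (fun n => a n * xv c3 n g) N m :=
  Finset.sum_congr rfl fun n _ => by rw [xv_mul ch_c3]; ring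

theorem hA12_nrm {a : E → ℂ} (ha : ∀ n, ‖a n‖ ≤ 1) {N : ℝ} (hN : 0 ≤ N) (g : E) :
    nrmE (fun n => a n * xv c3 n g) N ≤ 12 * N := by
  refine (Finset.sum_le_card_nsmul _ _ 1 fun n _ => ?_).trans ?_
  · refine pow_le_one₀ (norm_nonneg _) ?_
    rw [norm_mul]
    exact mul_le_one₀ (ha n) (norm_nonneg _) (norm_xv_le ch_c3 _ _)
  · rw [nsmul_eq_mul, mul_one]
    refine le_trans ?_ (card_ball_le hN)
    exact_mod_cast Finset.card_le_card (Finset.filter_subset _ _)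

theorem hA12_J (hb : BA) (z : E) : 1 ≤ Jc z := by
  rw [← hb.nm_jc]
  exact one_le_nmR (primary_ne_zero (hb.jc_pm z))

theorem hA12_sz (hb : BA) {z : E} (hz : z ≠ 0) :
    (2 : ℝ) ^ vp lam z ≤ nm z ∧ Ns (cf1 z) * Ns (cf2 z) ^ 2 * Jc z ^ 3 ≤ nm z := by
  have h1 := one_le_Ns (cf1 z)
  have h2 := one_le_Ns (cf2 z)
  have h3 := hA12_J hb z
  have h4 : 1 ≤ Ns (cf1 z) * Ns (cf2 z) ^ 2 * Jc z ^ 3 :=
    one_le_mul_of_one_le_of_one_le (one_le_mul_of_one_le_of_one_le h1 (one_le_pow₀ h2))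
      (one_le_pow₀ h3)
  have h5 : (2 : ℝ) ^ vp lam z ≤ 3 ^ vp lam z := pow_le_pow_left₀ zero_le_two (by norm_num) _
  have h6 : (1 : ℝ) ≤ 3 ^ vp lam z := one_le_pow₀ (by norm_num)
  rw [hb.nm_eq z hz, Qc, mul_assoc]
  exact ⟨h5.trans (le_mul_of_one_le_right (by positivity) h4),
    le_mul_of_one_le_left (by positivity) h6⟩

theorem hA12_pairs (hb : BA) : ∃ C : ℝ, 0 < C ∧ ∀ D : ℝ, 1 ≤ D →
    (((sqf D).sigma fun t => ball (D / Ns t)).card : ℝ) ≤ C * D * D ^ (1 / 4 : ℝ) := by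
  obtain ⟨C, hC, h⟩ := hb.pow_card 1
  refine ⟨60 * C, by positivity, fun D hD => ?_⟩
  have h1 := (h D hD).2
  simp only [Nat.cast_one, one_pow, pow_one] at h1
  have h2 := Real.log_le_rpow_div (x := D) (ε := 1 / 4) (by linarith) (by norm_num)
  have h3 : 1 ≤ D ^ (1 / 4 : ℝ) := Real.one_le_rpow hD (by norm_num)
  rw [Finset.card_sigma, Nat.cast_sum]
  calc _ ≤ ∑ t ∈ sqf D, 12 * D * (1 / Ns t) := Finset.sum_le_sum fun t _ =>
        (card_ball_le (div_nonneg (by linarith) (Ns_pos t).le)).trans (le_of_eq (by ring))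
    _ = 12 * D * ∑ t ∈ sqf D, 1 / Ns t := by rw [Finset.mul_sum]
    _ ≤ 12 * D * (C * (5 * D ^ (1 / 4 : ℝ))) := by
        gcongr
        refine h1.trans ?_
        gcongr
        linarith
    _ = _ := by ring

theorem hA12_one (hb : BA) (h2 : HM2) {δ1 δ : ℝ} (a1 : 0 < δ1) (a2 : δ1 ≤ δ) (a3 : δ ≤ 1 / 100) :
    ∃ C : ℝ, 0 < C ∧ ∀ B : ℝ, 1 ≤ B → HAf (Fam1 B δ1 δ) B δ1 (2 * δ) C := by
  have hδ : 0 < δ := by linarith
  obtain ⟨C, hC, h⟩ := h2 (δ / 4) (by positivity)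
  obtain ⟨Cv, hCv, hv⟩ := hA12_log (ε := δ / 8) (by positivity)
  obtain ⟨Cp, hCp, hp⟩ := hA12_pairs hb
  refine ⟨12 * C * (6 * Cv * Cp + 1), by positivity, fun B hB S hS N G a hN hN2 hG _ ha => ?_⟩
  have hB0 : 0 < B := by linarith
  have hZ : 1 ≤ B ^ 2 := one_le_pow₀ hB
  have hK : 1 ≤ B ^ (1 + δ1) := Real.one_le_rpow hB (by linarith)
  have hKZ : B ^ (1 + δ1) ≤ B ^ 2 := by
    rw [← Real.rpow_natCast]
    exact Real.rpow_le_rpow_of_exponent_le hB (by push_cast; linarith)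
  have hD : 1 ≤ B ^ δ := Real.one_le_rpow hB hδ.le
  obtain ⟨V, hV, hV'⟩ := hv _ hZ
  obtain ⟨Y, hY⟩ : ∃ Y : ℝ, Y = G * (N + N ^ (1 / 3 : ℝ) * B ^ (1 + δ1)) := ⟨_, rfl⟩
  have hY0 : 0 ≤ Y := by rw [hY]; positivity
  have key := hA12_cls S (Finset.range 3 ×ˢ ({1, -1} : Finset E) ×ˢ Finset.range V ×ˢ
      (sqf (B ^ δ)).sigma fun t => ball (B ^ δ / Ns t)) (fun ξ => ‖Dn a N ξ‖ ^ 2)
    (fun ξ c => ξ = pr (cf1 ξ) * (om ^ c.1 * lam ^ (c.2.2.1 % 3) * pr c.2.2.2.1 ^ 2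
      * (c.2.1 * lam ^ (c.2.2.1 / 3) * c.2.2.2.2) ^ 3))
    (U := C * (B ^ 2) ^ (δ / 4) * Y * (12 * N))
    (W := C * (B ^ 2) ^ (δ / 4) * (B ^ (1 + δ1) / G) * (12 * N)) (fun ξ hξ => by
      obtain ⟨b1, b2⟩ := Finset.mem_filter.1 (hS hξ)
      obtain ⟨b0, b1⟩ := mem_ball.1 b1
      obtain ⟨i, hi, u, hu, e⟩ := hb.cube_dec ξ b0
      refine ⟨(i, u, vp lam ξ, ⟨cf2 ξ, jc ξ⟩), ?_, e.trans (by simp only [cf0]; ring)⟩
      simp only [Finset.mem_product, Finset.mem_range, Finset.mem_insert, Finset.mem_singleton,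
        Finset.mem_sigma, mem_sqf, mem_ball]
      refine ⟨hi, hu, hV' _ ((hA12_sz hb b0).1.trans (b1.trans hKZ)), ?_,
        primary_ne_zero (hb.jc_pm ξ), ?_⟩
      · exact (le_mul_of_one_le_right (Ns_pos _).le (hA12_J hb ξ)).trans b2
      · rw [hb.nm_jc, le_div_iff₀ (Ns_pos _), mul_comm]
        exact b2) (fun c _ S' hS' hc => by
      obtain ⟨g, hg⟩ : ∃ g : E, ∀ ξ ∈ S', ξ = pr (cf1 ξ) * g := ⟨_, hc⟩
      have hi : Set.InjOn cf1 S' := fun x hx y hy e => by rw [hg x hx, hg y hy, e]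
      have b := h (S'.image cf1) (fun n => a n * xv c3 n g) _ N G _ hK hKZ hN hN2 hG (by
        intro s hs
        obtain ⟨ξ, hξ, rfl⟩ := Finset.mem_image.1 hs
        obtain ⟨b0, b1⟩ := mem_ball.1 (Finset.mem_filter.1 (hS (hS' hξ))).1
        exact mem_sqf.2 (((Ns_mono (Finset.filter_subset _ _)).trans (Ns_fac_le b0)).trans b1))
      rw [Finset.sum_image hi, Finset.card_image_of_injOn hi, ← hY] at b
      calc _ = _ := Finset.sum_congr rfl fun ξ hξ => by rw [← hA12_Dn, ← hg ξ hξ]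
        _ ≤ _ := b
        _ ≤ C * (B ^ 2) ^ (δ / 4) * (Y + S'.card * B ^ (1 + δ1) / G) * (12 * N) := by
          gcongr
          exact hA12_nrm ha (by linarith) g
        _ = _ := by ring)
  have e1 : ∀ x : ℝ, (B ^ 2) ^ x = B ^ (2 * x) := fun x => by
    rw [← Real.rpow_natCast, ← Real.rpow_mul hB0.le]
    norm_num
  have e2 : B ^ (2 * (δ / 8)) * (B ^ δ * (B ^ δ) ^ (1 / 4 : ℝ)) * B ^ (2 * (δ / 4))
      = B ^ (2 * δ) := by
    rw [← Real.rpow_mul hB0.le, ← Real.rpow_add hB0, ← Real.rpow_add hB0, ← Real.rpow_add hB0]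
    congr 1
    ring
  have e3 : B ^ (2 * (δ / 4)) ≤ B ^ (2 * δ) := Real.rpow_le_rpow_of_exponent_le hB (by linarith)
  have e4 : ((({1, -1} : Finset E)).card : ℝ) ≤ 2 := by exact_mod_cast Finset.card_le_two
  have e5 := hp _ hD
  rw [Finset.card_product, Finset.card_product, Finset.card_product, Finset.card_range,
    Finset.card_range, e1] at key
  rw [e1] at hV
  push_cast at key
  rw [← hY]
  refine key.trans ?_
  calc _ ≤ 3 * (2 * (Cv * B ^ (2 * (δ / 8)) * (Cp * B ^ δ * (B ^ δ) ^ (1 / 4 : ℝ))))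
        * (C * B ^ (2 * (δ / 4)) * Y * (12 * N))
        + C * B ^ (2 * δ) * (B ^ (1 + δ1) / G) * (12 * N) * S.card := by gcongr
    _ = 12 * C * (6 * Cv * Cp) * B ^ (2 * δ) * Y * N
        + 12 * C * 1 * B ^ (2 * δ) * (S.card * B ^ (1 + δ1) / G) * N := by rw [← e2]; ring
    _ ≤ 12 * C * (6 * Cv * Cp + 1) * B ^ (2 * δ) * Y * N
        + 12 * C * (6 * Cv * Cp + 1) * B ^ (2 * δ) * (S.card * B ^ (1 + δ1) / G) * N := by
        gcongr
        · linarith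
        · exact le_add_of_nonneg_left (by positivity)
    _ = _ := by ring

theorem hA12_two (hb : BA) (h1 : HM1g) {δ1 δ : ℝ} (a1 : 0 < δ1) (a2 : δ1 ≤ δ) (a3 : δ ≤ 1 / 100) :
    ∃ C : ℝ, 0 < C ∧ ∀ B : ℝ, 1 ≤ B → HAf (Fam2 B δ1 δ) B δ1 (2 * δ) C := by
  have hδ : 0 < δ := by linarith
  obtain ⟨C, hC, h⟩ := h1 (δ / 4) (by positivity)
  obtain ⟨Cv, hCv, hv⟩ := hA12_log (ε := δ / 4) (by positivity)
  refine ⟨12 * C * (24 * Cv + 1), by positivity, fun B hB S hS N G a hN hN2 hG hG2 ha => ?_⟩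
  have hB0 : 0 < B := by linarith
  have hZ : 1 ≤ B ^ 2 := one_le_pow₀ hB
  have hK : 1 ≤ B ^ (2 / 3 + 3 * δ) := Real.one_le_rpow hB (by linarith)
  have hKZ : B ^ (1 + δ1) ≤ B ^ 2 := by
    rw [← Real.rpow_natCast]
    exact Real.rpow_le_rpow_of_exponent_le hB (by push_cast; linarith)
  have e1 : ∀ x : ℝ, (B ^ 2) ^ x = B ^ (2 * x) := fun x => by
    rw [← Real.rpow_natCast, ← Real.rpow_mul hB0.le]
    norm_num
  have hNe : N ^ (δ / 4) ≤ B ^ (2 * (δ / 4)) := by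
    rw [← e1]
    exact Real.rpow_le_rpow (by linarith) hN2 (by positivity)
  have hKe : (B ^ (2 / 3 + 3 * δ)) ^ (1 + δ / 4) ≤ B ^ (1 + δ1) / G := by
    rw [le_div_iff₀ (by linarith), ← Real.rpow_mul hB0.le]
    refine (mul_le_mul_of_nonneg_left hG2 (by positivity)).trans ?_
    rw [← Real.rpow_add hB0]
    exact Real.rpow_le_rpow_of_exponent_le hB (by nlinarith)
  obtain ⟨V, hV, hV'⟩ := hv _ hZ
  have key := hA12_cls S (({1, -1} : Finset E) ×ˢ Finset.range V ×ˢ ball (B ^ δ))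
    (fun ξ => ‖Dn a N ξ‖ ^ 2)
    (fun ξ c => ∃ i < 3, ∃ k < 3,
      ξ = cf0 i k (cf1 ξ) (cf2 ξ) * (c.1 * lam ^ c.2.1 * c.2.2) ^ 3)
    (U := C * B ^ (2 * (δ / 4)) * N * (12 * N))
    (W := C * B ^ (2 * (δ / 4)) * (B ^ (1 + δ1) / G) * (12 * N)) (fun ξ hξ => by
      obtain ⟨b1, b2, -⟩ := Finset.mem_filter.1 (hS hξ)
      obtain ⟨b0, b1⟩ := mem_ball.1 b1
      obtain ⟨i, hi, u, hu, e⟩ := hb.cube_dec ξ b0
      refine ⟨(u, vp lam ξ / 3, jc ξ), ?_, i, hi, _, Nat.mod_lt _ (by norm_num), e⟩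
      simp only [Finset.mem_product, Finset.mem_range, Finset.mem_insert, Finset.mem_singleton,
        mem_ball]
      exact ⟨hu, (Nat.div_le_self _ _).trans_lt
        (hV' _ ((hA12_sz hb b0).1.trans (b1.trans hKZ))), primary_ne_zero (hb.jc_pm ξ),
        (hb.nm_jc ξ).trans_le b2⟩) (fun c _ S' hS' hc => by
      choose! i hi k hk hg using hc
      generalize (c.1 * lam ^ c.2.1 * c.2.2) ^ 3 = g at hg
      have hi' : Set.InjOn (fun ξ => cf0 (i ξ) (k ξ) (cf1 ξ) (cf2 ξ)) S' := fun x hx y hy e =>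
        (hg x hx).trans ((congrArg (· * g) e).trans (hg y hy).symm)
      have b := h (S'.image fun ξ => cf0 (i ξ) (k ξ) (cf1 ξ) (cf2 ξ)) _ N
        (fun n => a n * xv c3 n g) hK hN (by
          intro z hz
          obtain ⟨ξ, hξ, rfl⟩ := Finset.mem_image.1 hz
          obtain ⟨b1, -, b2⟩ := Finset.mem_filter.1 (hS (hS' hξ))
          obtain ⟨b0, b1⟩ := mem_ball.1 b1
          refine ⟨left_ne_zero_of_mul (hg ξ hξ ▸ b0), ?_⟩
          rw [hb.fac_cf0]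
          refine (Ns_union_le _ _).trans (le_of_mul_le_mul_right ?_
            (Real.rpow_pos_of_pos hB0 (1 / 3 - 2 * δ)))
          have b3 := (hA12_sz hb b0).2
          have b4 : 1 ≤ Jc ξ ^ 3 := one_le_pow₀ (hA12_J hb ξ)
          have b5 := Ns_pos (cf1 ξ)
          have b6 := Ns_pos (cf2 ξ)
          rw [← Real.rpow_add hB0]
          calc _ ≤ Ns (cf1 ξ) * Ns (cf2 ξ) * Ns (cf2 ξ) := by gcongr
            _ = Ns (cf1 ξ) * Ns (cf2 ξ) ^ 2 * 1 := by ring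
            _ ≤ Ns (cf1 ξ) * Ns (cf2 ξ) ^ 2 * Jc ξ ^ 3 := by gcongr
            _ ≤ B ^ (1 + δ1) := b3.trans b1
            _ ≤ _ := Real.rpow_le_rpow_of_exponent_le hB (by linarith)) (by
          intro z hz z' hz' hne hcu
          obtain ⟨ξ, hξ, rfl⟩ := Finset.mem_image.1 hz
          obtain ⟨ξ', hξ', rfl⟩ := Finset.mem_image.1 hz'
          obtain ⟨c1, c2, c3, c4⟩ := hb.cube_ratio _ _ _ _ _ _ _ _ (hi ξ hξ) (hk ξ hξ) (hi ξ' hξ')
            (hk ξ' hξ') (hb.cf_disj ξ) (hb.cf_disj ξ') hcu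
          exact hne (by rw [c1, c2, c3, c4]))
      rw [Finset.sum_image hi', Finset.card_image_of_injOn hi'] at b
      calc _ = _ := Finset.sum_congr rfl fun ξ hξ => by rw [← hA12_Dn, ← hg ξ hξ]
        _ ≤ _ := b
        _ ≤ C * B ^ (2 * (δ / 4)) * (N + S'.card * (B ^ (1 + δ1) / G)) * (12 * N) := by
          gcongr
          · exact Finset.sum_nonneg fun _ _ => by positivity
          · exact hA12_nrm ha (by linarith) g
        _ = _ := by ring)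
  have e2 : B ^ (2 * (δ / 4)) * B ^ δ * B ^ (2 * (δ / 4)) = B ^ (2 * δ) := by
    rw [← Real.rpow_add hB0, ← Real.rpow_add hB0]
    congr 1
    ring
  have e3 : B ^ (2 * (δ / 4)) ≤ B ^ (2 * δ) := Real.rpow_le_rpow_of_exponent_le hB (by linarith)
  have e4 : ((({1, -1} : Finset E)).card : ℝ) ≤ 2 := by exact_mod_cast Finset.card_le_two
  have e5 := card_ball_le (R := B ^ δ) (by positivity)
  have e6 : N ≤ G * (N + N ^ (1 / 3 : ℝ) * B ^ (1 + δ1)) :=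
    (le_add_of_nonneg_right (by positivity)).trans (le_mul_of_one_le_left (by positivity) hG)
  rw [Finset.card_product, Finset.card_product, Finset.card_range] at key
  rw [e1] at hV
  push_cast at key
  refine key.trans ?_
  calc _ ≤ 2 * (Cv * B ^ (2 * (δ / 4)) * (12 * B ^ δ)) * (C * B ^ (2 * (δ / 4)) * N * (12 * N))
        + C * B ^ (2 * δ) * (B ^ (1 + δ1) / G) * (12 * N) * S.card := by gcongr
    _ = 12 * C * (24 * Cv) * B ^ (2 * δ) * N * N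
        + 12 * C * 1 * B ^ (2 * δ) * (S.card * B ^ (1 + δ1) / G) * N := by rw [← e2]; ring
    _ ≤ 12 * C * (24 * Cv + 1) * B ^ (2 * δ) * (G * (N + N ^ (1 / 3 : ℝ) * B ^ (1 + δ1))) * N
        + 12 * C * (24 * Cv + 1) * B ^ (2 * δ) * (S.card * B ^ (1 + δ1) / G) * N := by
        gcongr
        · linarith
        · exact le_add_of_nonneg_left (by positivity)
    _ = _ := by ring

theorem hA12_mono {F : Finset E} {B δ ε C C' : ℝ} (hB : 1 ≤ B) (h : HAf F B δ ε C)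
    (hC : C ≤ C') : HAf F B δ ε C' := by
  intro S hS N G a hN hN2 hG hG2 ha
  refine (h S hS N G a hN hN2 hG hG2 ha).trans ?_
  gcongr

theorem hA12 (hb : BA) (h1 : HM1g) (h2 : HM2) : HA12 := by
  intro δ1 δ a1 a2 a3
  obtain ⟨C, hC, h⟩ := hA12_one hb h2 a1 a2 a3
  obtain ⟨D, hD, h'⟩ := hA12_two hb h1 a1 a2 a3
  exact ⟨C + D, by positivity, fun B hB =>
    ⟨hA12_mono hB (h B hB) (by linarith), hA12_mono hB (h' B hB) (by linarith)⟩⟩

theorem hA12_cube {x W P : ℝ} (hW : 0 ≤ W) (hP : 0 < P) (h : x ^ 3 * P ≤ W ^ 3 * P) : x ≤ W :=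
  le_of_pow_le_pow_left₀ (n := 3) (by norm_num) hW (le_of_mul_le_mul_right h hP)

theorem hA12_num {X Y J L R W P Q : ℝ} (hX : 1 ≤ X) (hY : 1 ≤ Y) (hJ : 1 ≤ J) (hL : 0 ≤ L)
    (hW : 0 ≤ W) (hP : 0 < P) (hQ : 0 < Q) (hR : X * Y ^ 2 * J ^ 3 ≤ R) (h1 : R ≤ W)
    (h2 : L ^ 2 * R ^ 2 ≤ W ^ 3 * P) (hP' : P < Y * J) (h3 : L ^ 3 * R ≤ W ^ 3 * Q)
    (hQ' : Q ≤ X * Y ^ 2) (h4 : P < J ∨ J * Y * L ≤ W) :
    2 * J * min (2 * Y * (L + (2 * X) ^ (1 : ℝ) + (2 * X * L) ^ (2 / 3 : ℝ)))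
      (L + (2 * X * (2 * Y)) ^ 2) ≤ 50 * W := by
  have hX0 : 0 < X := by linarith
  have hY0 : 0 < Y := by linarith
  have hJ0 : 0 < J := by linarith
  obtain ⟨t, ht⟩ : ∃ t, t = (2 * X * L) ^ (2 / 3 : ℝ) := ⟨_, rfl⟩
  have ht0 : 0 ≤ t := by rw [ht]; positivity
  have ht3 : t ^ 3 = (2 * X * L) ^ 2 := by
    rw [ht, ← Real.rpow_natCast, ← Real.rpow_mul (by positivity), ← Real.rpow_natCast]
    norm_num
  have hJ2 : 1 ≤ J ^ 2 := one_le_pow₀ hJ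
  have hR2 : L ^ 2 * (X * Y ^ 2 * J ^ 3) ^ 2 ≤ W ^ 3 * P := le_trans (by gcongr) h2
  have b1 : J * Y * X ≤ W := by
    refine le_trans ?_ (hR.trans h1)
    calc J * Y * X = J * Y * X * 1 * 1 := by ring
      _ ≤ J * Y * X * Y * J ^ 2 := by gcongr
      _ = _ := by ring
  have b2 : J * Y * t ≤ 2 * W := by
    refine hA12_cube (by positivity) hP ?_
    calc _ = 4 * (J ^ 3 * Y ^ 3 * X ^ 2 * L ^ 2 * P * 1) := by
          rw [mul_pow, ht3]; ring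
      _ ≤ 8 * (J ^ 3 * Y ^ 3 * X ^ 2 * L ^ 2 * (Y * J) * J ^ 2) := by
          gcongr
          norm_num
      _ = 8 * (L ^ 2 * (X * Y ^ 2 * J ^ 3) ^ 2) := by ring
      _ ≤ 8 * (W ^ 3 * P) := by gcongr
      _ = _ := by ring
  have b3 : J * L ≤ W := by
    refine hA12_cube hW hQ (le_trans ?_ h3)
    calc _ ≤ (J * L) ^ 3 * (X * Y ^ 2) := by gcongr
      _ = L ^ 3 * (X * Y ^ 2 * J ^ 3) := by ring
      _ ≤ _ := by gcongr
  obtain ⟨m, hm⟩ : ∃ m, m = min (Y * L) ((X * Y) ^ 2) := ⟨_, rfl⟩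
  have m0 : 0 ≤ m := by rw [hm]; positivity
  have m1 : m ≤ Y * L := hm ▸ min_le_left _ _
  have m2 : m ≤ (X * Y) ^ 2 := hm ▸ min_le_right _ _
  have b4 : J * m ≤ W := by
    rcases h4 with h4 | h4
    · refine hA12_cube hW hP (le_trans ?_ hR2)
      calc _ = J ^ 3 * m ^ 2 * m * P * 1 := by ring
        _ ≤ J ^ 3 * (Y * L) ^ 2 * (X * Y) ^ 2 * J * J ^ 2 := by gcongr
        _ = _ := by ring
    · refine le_trans ?_ h4
      rw [mul_assoc]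
      gcongr
  have b5 : min (2 * Y * (L + 2 * X + t)) (L + (2 * X * (2 * Y)) ^ 2)
      ≤ 4 * (Y * X) + 2 * (Y * t) + L + 16 * m := by
    have p1 : 0 ≤ Y * X := by positivity
    have p2 : 0 ≤ Y * t := by positivity
    rcases min_choice (Y * L) ((X * Y) ^ 2) with e | e
    · rw [← hm] at e
      refine (min_le_left _ _).trans ?_
      nlinarith
    · rw [← hm] at e
      refine (min_le_right _ _).trans ?_
      nlinarith
  rw [← ht, Real.rpow_one]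
  calc _ ≤ 2 * J * (4 * (Y * X) + 2 * (Y * t) + L + 16 * m) := by gcongr
    _ = 8 * (J * Y * X) + 4 * (J * Y * t) + 2 * (J * L) + 32 * (J * m) := by ring
    _ ≤ _ := by linarith

theorem rS (hb : BA) (h : Box 1) : RS := by
  intro δ1 δ Λ a1 a2 a3 hΛ
  have hδ : 0 < δ := by linarith
  obtain ⟨C, hC, h⟩ := h (δ / 24) (by positivity)
  obtain ⟨Cv, hCv, hv⟩ := hA12_log (ε := δ / 72) (by positivity)
  refine ⟨Cv ^ 3 * (C * (2 * Λ) ^ (δ / 24) * (50 * Λ)), by positivity, fun B L y hB hL => ?_⟩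
  have hB0 : 0 < B := by linarith
  rcases lt_or_ge L 1 with hL1 | hL1
  · simp [Ds, nrm2, sqf_eq_empty hL1]
  have hn : 0 ≤ nrm2 y L := Finset.sum_nonneg fun _ _ => by positivity
  have hZ : 1 ≤ B ^ 2 := one_le_pow₀ hB
  have hm : ∀ {x z : ℝ}, x ≤ z → B ^ x ≤ B ^ z := fun hx =>
    Real.rpow_le_rpow_of_exponent_le hB hx
  have hKZ : B ^ (1 + δ1) ≤ B ^ 2 := by
    rw [← Real.rpow_natCast]
    exact hm (by push_cast; linarith)
  have hp : ∀ (x : ℝ) (n : ℕ), (B ^ x) ^ n = B ^ (x * n) := fun x n =>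
    (Real.rpow_mul_natCast hB0.le x n).symm
  have hB1 : B = B ^ (1 : ℝ) := (Real.rpow_one B).symm
  have e1 : ∀ x : ℝ, (B ^ 2) ^ x = B ^ (2 * x) := fun x => by
    rw [← Real.rpow_natCast, ← Real.rpow_mul hB0.le]
    norm_num
  obtain ⟨W, hW⟩ : ∃ W, W = Λ * B ^ (4 / 3 - 4 * δ / 15) := ⟨_, rfl⟩
  have hW0 : 0 ≤ W := by rw [hW]; positivity
  have hL' : L ≤ Λ * B ^ (1 : ℝ) := by rwa [Real.rpow_one]
  have w1 : B ^ (1 + δ1) ≤ W := by
    rw [hW]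
    exact (hm (by linarith)).trans (le_mul_of_one_le_left (by positivity) hΛ)
  have w2 : L ^ 2 * (B ^ (1 + δ1)) ^ 2 ≤ W ^ 3 * B ^ δ := by
    calc _ ≤ (Λ * B ^ (1 : ℝ)) ^ 2 * (B ^ (1 + δ1)) ^ 2 := by gcongr
      _ ≤ _ := by
        rw [hW, mul_pow, mul_pow, hp, hp, hp, mul_assoc, mul_assoc, ← Real.rpow_add hB0,
          ← Real.rpow_add hB0]
        exact mul_le_mul (pow_le_pow_right₀ hΛ (by norm_num)) (hm (by push_cast; linarith))
          (by positivity) (by positivity)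
  have w3 : L ^ 3 * B ^ (1 + δ1) ≤ W ^ 3 * B ^ (1 / 10 : ℝ) := by
    calc _ ≤ (Λ * B ^ (1 : ℝ)) ^ 3 * B ^ (1 + δ1) := by gcongr
      _ ≤ _ := by
        rw [hW, mul_pow, mul_pow, hp, hp, mul_assoc, mul_assoc, ← Real.rpow_add hB0,
          ← Real.rpow_add hB0]
        exact mul_le_mul_of_nonneg_left (hm (by push_cast; linarith)) (by positivity)
  have w4 : B ^ δ * B ^ (1 / 3 - 2 * δ) * (Λ * B ^ (1 : ℝ)) ≤ W := by
    rw [hW, mul_left_comm, ← Real.rpow_add hB0, ← Real.rpow_add hB0]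
    exact mul_le_mul_of_nonneg_left (hm (by linarith)) (by positivity)
  have hZ2 : 2 * B ^ 2 ≤ 2 * Λ * B ^ 2 := by nlinarith
  obtain ⟨V, hV, hV'⟩ := hv _ hZ
  have sz : ∀ ξ ∈ ball (B ^ (1 + δ1)), Ns (cf1 ξ) ≤ B ^ 2 ∧ Ns (cf2 ξ) ≤ B ^ 2 ∧ Jc ξ ≤ B ^ 2 := by
    intro ξ hξ
    obtain ⟨b0, b1⟩ := mem_ball.1 hξ
    have b2 := (hA12_sz hb b0).2.trans (b1.trans hKZ)
    have c1 := one_le_Ns (cf1 ξ)
    have c2 := one_le_Ns (cf2 ξ)
    have c3 := hA12_J hb ξ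
    have d2 : Ns (cf2 ξ) ≤ Ns (cf2 ξ) ^ 2 := le_self_pow₀ c2 (by norm_num)
    have d3 : Jc ξ ≤ Jc ξ ^ 3 := le_self_pow₀ c3 (by norm_num)
    refine ⟨le_trans ?_ b2, le_trans ?_ b2, le_trans ?_ b2⟩
    · calc _ = Ns (cf1 ξ) * 1 * 1 := by ring
        _ ≤ _ := by gcongr <;> linarith
    · calc _ = 1 * Ns (cf2 ξ) * 1 := by ring
        _ ≤ _ := by gcongr; linarith
    · calc _ = 1 * 1 * Jc ξ := by ring
        _ ≤ _ := by gcongr; linarith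
  refine (hA12_cls _ (Finset.range V ×ˢ Finset.range V ×ˢ Finset.range V)
    (fun ξ => ‖Ds y L ξ‖ ^ 2)
    (fun ξ c => (2 ^ c.1 ≤ Ns (cf1 ξ) ∧ Ns (cf1 ξ) < 2 ^ (c.1 + 1)) ∧
      (2 ^ c.2.1 ≤ Ns (cf2 ξ) ∧ Ns (cf2 ξ) < 2 ^ (c.2.1 + 1)) ∧
      (2 ^ c.2.2 ≤ Jc ξ ∧ Jc ξ < 2 ^ (c.2.2 + 1))) (fun ξ hξ => ?_)
    (U := C * (2 * Λ * B ^ 2) ^ (δ / 24) * (50 * W) * nrm2 y L) (W := 0)
    (fun c _ S' hS' hc => ?_)).trans ?_
  · obtain ⟨c1, c2, c3⟩ := sz ξ (Finset.mem_filter.1 hξ).1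
    obtain ⟨i, hi⟩ := exists_nat_pow_near (one_le_Ns (cf1 ξ)) one_lt_two
    obtain ⟨j, hj⟩ := exists_nat_pow_near (one_le_Ns (cf2 ξ)) one_lt_two
    obtain ⟨k, hk⟩ := exists_nat_pow_near (hA12_J hb ξ) one_lt_two
    refine ⟨(i, j, k), ?_, hi, hj, hk⟩
    simp only [Finset.mem_product, Finset.mem_range]
    exact ⟨hV' _ (hi.1.trans c1), hV' _ (hj.1.trans c2), hV' _ (hk.1.trans c3)⟩
  · rw [zero_mul, add_zero]
    rcases S'.eq_empty_or_nonempty with rfl | ⟨ξ, hξ⟩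
    · rw [Finset.sum_empty]
      positivity
    obtain ⟨b1, b2, b3, b4⟩ := Finset.mem_filter.1 (hS' hξ)
    obtain ⟨c1, c2, -⟩ := sz ξ b1
    have d1 := one_le_Ns (cf1 ξ)
    have d2 := one_le_Ns (cf2 ξ)
    have d3 := hA12_J hb ξ
    have b := h y L (2 * Ns (cf1 ξ)) (2 * Ns (cf2 ξ)) (2 * Jc ξ) (2 * Λ * B ^ 2) S'
      (by linarith) (by nlinarith) (by linarith) (by linarith) (by linarith) (by linarith)
      (by linarith) (fun η hη => by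
        obtain ⟨f0, f1⟩ := mem_ball.1 (Finset.mem_filter.1 (hS' hη)).1
        obtain ⟨⟨-, g1⟩, ⟨-, g2⟩, -, g3⟩ := hc η hη
        obtain ⟨⟨k1, -⟩, ⟨k2, -⟩, k3, -⟩ := hc ξ hξ
        rw [pow_succ] at g1 g2 g3
        exact ⟨f0, by linarith, by linarith, by linarith, by linarith⟩)
    have n := hA12_num d1 d2 d3 (by linarith) hW0 (Real.rpow_pos_of_pos hB0 δ)
      (Real.rpow_pos_of_pos hB0 (1 / 10)) ((hA12_sz hb (mem_ball.1 b1).1).2.trans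
        (mem_ball.1 b1).2) w1 w2 (lt_of_not_ge fun hh => b3 (Finset.mem_filter.2 ⟨b1, hh⟩)) w3 b2
      (by
        by_cases hJ : Jc ξ ≤ B ^ δ
        · have hY : Ns (cf2 ξ) ≤ B ^ (1 / 3 - 2 * δ) :=
            le_of_not_ge fun hh => b4 (Finset.mem_filter.2 ⟨b1, hJ, hh⟩)
          exact Or.inr (le_trans (by gcongr) w4)
        · exact Or.inl (lt_of_not_ge hJ))
    refine b.trans ?_
    rw [mul_assoc (C * _)]
    gcongr
  · rw [zero_mul, add_zero, Finset.card_product, Finset.card_product, Finset.card_range,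
      Real.mul_rpow (by positivity) (by positivity), e1, hW]
    rw [e1] at hV
    have e2 : (B ^ (2 * (δ / 72))) ^ 3 * B ^ (2 * (δ / 24)) * B ^ (4 / 3 - 4 * δ / 15)
        = B ^ (4 / 3 - δ / 10) := by
      rw [hp, ← Real.rpow_add hB0, ← Real.rpow_add hB0]
      congr 1
      push_cast
      ring
    push_cast
    calc _ ≤ Cv * B ^ (2 * (δ / 72)) * (Cv * B ^ (2 * (δ / 72)) * (Cv * B ^ (2 * (δ / 72)))) *
          (C * ((2 * Λ) ^ (δ / 24) * B ^ (2 * (δ / 24))) * (50 * (Λ * B ^ (4 / 3 - 4 * δ / 15)))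
            * nrm2 y L) := by gcongr
      _ = _ := by rw [← e2]; ring

end Pat
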