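import Vale.Agent.P006.IfB
import Vale.Agent.P006.BasA

/-! P006: the identity of Heath-Brown. -/

noncomputable section
namespace Pat
open QRH Complex MeasureTheory Filter
open scoped ComplexConjugate Classical ContDiff Topology

theorem hBI_fac (p : P) {j : ℕ} (hj : j ≠ 0) : fac (p.1 ^ j) = {p} := by
  rw [fac_pow p.ne_zero hj, ← pr_singleton, fac_pr]

theorem hBI_vp (p : P) (j : ℕ) : vp p.1 (p.1 ^ j) = j := by
  rw [vp_pow p.2.1 p.ne_zero, ← pr_singleton, pr_singleton]
  have := vp_pr p {p}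
  rw [pr_singleton, if_pos (Finset.mem_singleton_self p)] at this
  rw [this, mul_one]

theorem hBI_log {N : ℝ} {c : E} (hc : c ∈ pball N) :
    ∑ n ∈ pball N, (if n ∣ c then vm n else 0) = Real.log (nm c) := by
  obtain ⟨h1, h2⟩ := (basA_pball N c).1 hc
  have h0 := primary_ne_zero h1
  have e1 : ∑ n ∈ pball N, (if n ∣ c then vm n else 0)
      = ∑ n ∈ pball N with n ∣ c ∧ (fac n).card = 1, Real.log (Ns (fac n)) := by
    rw [Finset.sum_filter]
    refine Finset.sum_congr rfl fun n _ => ?_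
    by_cases a : n ∣ c <;> by_cases b : (fac n).card = 1 <;> simp [vm, a, b]
  have e2 : ∑ x ∈ (fac c).sigma (fun p => Finset.Icc 1 (vp p.1 c)), Real.log (nm x.1.1)
      = ∑ n ∈ pball N with n ∣ c ∧ (fac n).card = 1, Real.log (Ns (fac n)) := by
    refine Finset.sum_bij (fun x _ => x.1.1 ^ x.2) (fun x hx => ?_) (fun x hx y hy h => ?_)
      (fun n hn => ?_) fun x hx => ?_
    · obtain ⟨-, a⟩ := Finset.mem_sigma.1 hx
      rw [Finset.mem_Icc] at a
      have d : x.1.1 ^ x.2 ∣ c := (pow_dvd_iff x.1.2.1 h0 _).2 a.2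
      refine Finset.mem_filter.2 ⟨(basA_pball _ _).2 ⟨primary_pow x.1.2.2 _,
        (basA_nm_le h0 d).trans h2⟩, d, ?_⟩
      rw [hBI_fac _ (by omega), Finset.card_singleton]
    · obtain ⟨p, i⟩ := x
      obtain ⟨q, j⟩ := y
      have a := (Finset.mem_Icc.1 (Finset.mem_sigma.1 hx).2).1
      have b := (Finset.mem_Icc.1 (Finset.mem_sigma.1 hy).2).1
      simp only at h a b
      have e := congrArg fac h
      rw [hBI_fac _ (by omega), hBI_fac _ (by omega), Finset.singleton_inj] at e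
      subst e
      have e' := congrArg (vp p.1) h
      rw [hBI_vp, hBI_vp] at e'
      subst e'
      rfl
    · obtain ⟨a, d, b⟩ := Finset.mem_filter.1 hn
      have a1 := ((basA_pball _ _).1 a).1
      have a0 := primary_ne_zero a1
      obtain ⟨p, hp⟩ := Finset.card_eq_one.1 b
      have e := primary_factor a1
      rw [hp, Finset.prod_singleton] at e
      have hpn : p.1 ∣ n := (mem_fac a0).1 (hp ▸ Finset.mem_singleton_self p)
      refine ⟨⟨p, vp p.1 n⟩, Finset.mem_sigma.2 ⟨(mem_fac h0).2 (hpn.trans d),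
        Finset.mem_Icc.2 ⟨Nat.one_le_iff_ne_zero.2 ((dvd_iff_vp p.2.1 a0).1 hpn), ?_⟩⟩, e.symm⟩
      exact (pow_dvd_iff p.2.1 h0 _).1 (e ▸ d)
    · have a := (Finset.mem_Icc.1 (Finset.mem_sigma.1 hx).2).1
      rw [hBI_fac _ (by omega), basA_Ns1]
  rw [e1, ← e2, Finset.sum_sigma]
  conv_rhs => rw [primary_factor h1, nm_prod]
  rw [Nat.cast_prod, Real.log_prod (fun p _ => by
    rw [nm_pow]
    exact Nat.cast_ne_zero.2 (pow_ne_zero _ (nm_eq_zero.not.2 p.ne_zero)))]
  refine Finset.sum_congr rfl fun p _ => ?_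
  simp [nm_pow]

/-- vanishing beyond the norm `N` -/
def hBI_Z (N : ℝ) (F : E → ℂ) : Prop := ∀ n : E, N < nm n → F n = 0

theorem hBI_big {N : ℝ} {n a : E} (hn : N < nm n) (ha : a ≠ 0) : N < nm (a * n) := by
  have := one_le_nmR ha
  rw [nm_mul, Nat.cast_mul]
  exact hn.trans_le (le_mul_of_one_le_left (Nat.cast_nonneg _) this)

theorem hBI_ne {N : ℝ} {k : E} (hk : k ∈ pball N) : k ≠ 0 :=
  primary_ne_zero ((basA_pball N k).1 hk).1

theorem hBI_Z.mul {N : ℝ} {F : E → ℂ} (h : hBI_Z N F) {a : E} (ha : a ≠ 0) :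
    hBI_Z N fun n => F (a * n) := fun _ hn => h _ (hBI_big hn ha)

theorem hBI_lam {N : ℝ} {F : E → ℂ} (h : hBI_Z N F) :
    ∑ k ∈ pball N, ∑ n ∈ pball N, (vm n : ℂ) * F (k * n)
      = ∑ c ∈ pball N, (Real.log (nm c) : ℝ) * F c := by
  rw [Finset.sum_comm]
  have h1 : ∀ n ∈ pball N, ∑ k ∈ pball N, (vm n : ℂ) * F (k * n)
      = ∑ c ∈ pball N, ((if n ∣ c then vm n else 0 : ℝ) : ℂ) * F c := fun n hn => by
    simp only [mul_comm _ n]
    rw [← Finset.mul_sum, basA_sum_mul N F ((basA_pball N n).1 hn).1 h, Finset.mul_sum]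
    exact Finset.sum_congr rfl fun c _ => by split_ifs <;> simp
  rw [Finset.sum_congr rfl h1, Finset.sum_comm]
  refine Finset.sum_congr rfl fun c hc => ?_
  rw [← Finset.sum_mul, ← Complex.ofReal_sum, hBI_log hc]

theorem hBI_mu {N R : ℝ} {F : E → ℂ} (h : hBI_Z N F) (hR : N ≤ R) (h1 : 1 ≤ R) :
    ∑ d ∈ sqf R, ∑ n ∈ pball N, mu d * F (pr d * n) = F 1 := by
  have e := basA_free R F (fun c hc => h c (hR.trans_lt hc)) one_ne_zero
  have e1 : (pball R).filter (fun c => ∀ p : P, vp p.1 c < 1) = {1} := by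
    ext c
    rw [Finset.mem_filter, Finset.mem_singleton, basA_pball]
    constructor
    · rintro ⟨⟨a, -⟩, b⟩
      refine primary_ext a (by simp) fun p => ?_
      rw [vp_of_not_dvd (p.not_dvd_unit isUnit_one)]
      have := b p
      omega
    · rintro rfl
      refine ⟨⟨by simp [Pm], by rw [nm_one]; exact_mod_cast h1⟩, fun p => ?_⟩
      rw [vp_of_not_dvd (p.not_dvd_unit isUnit_one)]
      exact one_pos
  rw [e1, Finset.sum_singleton] at e
  rw [← e]
  refine Finset.sum_congr rfl fun d _ => ?_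
  simp only [pow_one]
  refine Finset.sum_subset (fun n hn => ?_) fun n hn hn' => ?_
  · obtain ⟨a, b⟩ := (basA_pball N n).1 hn
    exact (basA_pball R n).2 ⟨a, b.trans hR⟩
  · have a := ((basA_pball R n).1 hn).1
    have b : N < nm n := lt_of_not_ge fun c => hn' ((basA_pball N n).2 ⟨a, c⟩)
    rw [h _ (hBI_big b (pr_ne_zero d)), mul_zero]

/-- the truncated Moebius functional -/
def hBI_W (z N : ℝ) (F : E → ℂ) : ℂ := ∑ m ∈ sqf z, ∑ k ∈ pball N, mu m * F (pr m * k)

theorem hBI_zero {z N : ℝ} {F : E → ℂ} (hz : 1 ≤ z) (h : hBI_Z N F)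
    (h0 : ∀ n : E, z < nm n → F n = 0) : F 1 - hBI_W z N F = 0 := by
  rw [← hBI_mu h (le_max_left N z) (hz.trans (le_max_right N z)), hBI_W, sub_eq_zero]
  refine (Finset.sum_subset (sqf_mono (le_max_right N z)) fun m _ hm => ?_).symm
  refine Finset.sum_eq_zero fun k hk => ?_
  rw [mem_sqf, not_le] at hm
  rw [mul_comm (pr m), h0 _ (hBI_big hm (hBI_ne hk)), mul_zero]

theorem hBI (_hb : BA) : HBI := by
  intro z N g hz hN hg
  obtain ⟨Φ, hΦ⟩ : ∃ Φ : E → ℂ, Φ = fun a => ∑ n ∈ pball N, (vm n : ℂ) * g (a * n) := ⟨_, rfl⟩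
  have zΦ : hBI_Z N Φ := fun a ha => by
    rw [hΦ]
    refine Finset.sum_eq_zero fun n hn => ?_
    rw [mul_comm a, hg _ (hBI_big ha (hBI_ne hn)), mul_zero]
  have hW : ∀ a : E, a ≠ 0 → hBI_W z N (fun n => Φ (a * n))
      = ∑ m ∈ sqf z, ∑ c ∈ pball N, mu m * (Real.log (nm c) : ℝ) * g (a * pr m * c) := by
    intro a ha
    refine Finset.sum_congr rfl fun m _ => ?_
    have e := hBI_lam (hBI_Z.mul hg (mul_ne_zero ha (pr_ne_zero m)))
    simp only [mul_assoc (mu m)]
    rw [← Finset.mul_sum, ← Finset.mul_sum, ← e, hΦ]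
    simp only [mul_assoc]
  have key := hBI_zero (F := fun a => Φ a - hBI_W z N (fun n => Φ (a * n))) (N := N) hz
    (fun a ha => by
      have e : ∀ n : E, n ≠ 0 → Φ (a * n) = 0 := fun n hn => by
        rw [mul_comm]
        exact zΦ _ (hBI_big ha hn)
      change Φ a - hBI_W z N (fun n => Φ (a * n)) = 0
      rw [zΦ a ha, zero_sub, neg_eq_zero]
      refine Finset.sum_eq_zero fun m _ => Finset.sum_eq_zero fun k hk => ?_
      exact mul_eq_zero_of_right _ (e _ (mul_ne_zero (pr_ne_zero m) (hBI_ne hk))))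
    (fun a ha => by
      have a0 : a ≠ 0 := by
        rintro rfl
        rw [nm_zero, Nat.cast_zero] at ha
        linarith
      have e := hBI_zero hz (zΦ.mul a0) (fun n hn => zΦ _ (by
        rw [nm_mul, Nat.cast_mul]
        nlinarith))
      simpa only [mul_one] using e)
  have e1 : hBI_W z N (fun a => Φ a - hBI_W z N (fun n => Φ (a * n)))
      = hBI_W z N (fun n => Φ (1 * n)) - ∑ m ∈ sqf z, ∑ m' ∈ sqf z, ∑ k ∈ pball N, ∑ k' ∈ pball N,
          mu m * mu m' * (Real.log (nm k') : ℝ) * g (pr m * pr m' * k * k') := by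
    rw [hBI_W, hBI_W, ← Finset.sum_sub_distrib]
    refine Finset.sum_congr rfl fun m _ => ?_
    rw [Finset.sum_comm (s := sqf z), ← Finset.sum_sub_distrib]
    refine Finset.sum_congr rfl fun k hk => ?_
    rw [mul_sub, one_mul, hW _ (mul_ne_zero (pr_ne_zero m) (hBI_ne hk)), Finset.mul_sum]
    congr 1
    refine Finset.sum_congr rfl fun m' _ => ?_
    rw [Finset.mul_sum]
    refine Finset.sum_congr rfl fun c _ => ?_
    rw [mul_right_comm (pr m) k]
    ring
  rw [e1, hW 1 one_ne_zero] at key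
  simp only [hΦ, one_mul] at key
  linear_combination key

end Pat
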