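import Vale.Agent.P006.HKAux

/-! P006, HK: bounds for the transforms of thin annuli and separation of variables. -/

noncomputable section
namespace Pat
open QRH Complex MeasureTheory Filter
open scoped ComplexConjugate Classical ContDiff Topology

/-- The weight on the thin annulus. -/
def hkf (T : ℝ) (z : ℂ) : ℂ := (om0 (T * Real.log (‖z‖ ^ 2)) : ℝ)

theorem hk_om0_le (v : ℝ) : ‖((om0 v : ℝ) : ℂ)‖ ≤ 1 := by
  rw [Complex.norm_real, Real.norm_eq_abs, om0, abs_of_nonneg omB.nonneg]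
  exact omB.le_one

theorem hk_bt_le (v : ℝ) : ‖((bt v : ℝ) : ℂ)‖ ≤ 1 := by
  rw [Complex.norm_real, Real.norm_eq_abs, bt, abs_of_nonneg btB.nonneg]
  exact btB.le_one

theorem hk_om0_bump (hb : BA) : Bump fun v => (om0 v : ℂ) :=
  ⟨Complex.ofRealCLM.contDiff.comp hb.om0_smooth, fun v hv => by
    have := hb.om0_supp v (by simpa using hv)
    constructor <;> linarith [this.1, this.2]⟩

theorem hk_bt_bump (hb : BA) : Bump fun v => (bt v : ℂ) :=
  ⟨Complex.ofRealCLM.contDiff.comp hb.bt_smooth, fun v hv => by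
    have := hb.bt_supp v (by simpa using hv)
    constructor <;> linarith [this.1, this.2]⟩

theorem hk_zero {φ : ℝ → ℂ} (hφ : Bump φ) : φ 0 = 0 := by
  have h : ∀ᶠ v in 𝓝[<] (0 : ℝ), φ v = 0 := by
    filter_upwards [self_mem_nhdsWithin] with v hv
    by_contra h
    exact absurd (hφ.supp v h).1 (not_le.2 hv)
  exact tendsto_nhds_unique ((hφ.smooth.continuous.tendsto 0).mono_left nhdsWithin_le_nhds)
    (tendsto_const_nhds.congr' (h.mono fun _ h => h.symm))

theorem hk_out {φ : ℝ → ℂ} (hφ : Bump φ) {T : ℝ} (hT : 1 ≤ T) {z : ℂ} (hz : z ∉ hkAn T) :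
    φ (T * Real.log (‖z‖ ^ 2)) = 0 := by
  by_cases h0 : z = 0
  · simp [h0, hk_zero hφ]
  · by_contra h
    exact hz (hk_An_mem hT (hφ.supp _ h).1 (hφ.supp _ h).2 h0)

theorem hk_smooth (hb : BA) {φ : ℝ → ℂ} (hφ : Bump φ) {T : ℝ} (hT : 1 ≤ T) :
    ContDiff ℝ ∞ fun z : ℂ => φ (T * Real.log (‖z‖ ^ 2)) := by
  have h := hb.rad_smooth (fun v => φ (T * v)) 0 (hφ.smooth.comp (contDiff_const.mul contDiff_id))
    (HasCompactSupport.intro (isCompact_Icc (a := 0) (b := 1)) fun v hv => by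
      by_contra h
      obtain ⟨h1, h2⟩ := hφ.supp _ h
      have h3 : 0 ≤ v := by
        by_contra h3
        have : T * v < 0 := mul_neg_of_pos_of_neg (by linarith) (not_le.1 h3)
        linarith
      exact hv ⟨h3, by nlinarith⟩)
  have e : (fun z : ℂ => φ (T * Real.log (‖z‖ ^ 2))) =
      fun z : ℂ => if z = 0 then 0 else φ (T * (Real.log (‖z‖ ^ 2) + 0)) := by
    funext z
    by_cases h0 : z = 0
    · simp [h0, hk_zero hφ]
    · rw [if_neg h0, add_zero]
  rw [e]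
  exact h

theorem hk_cs {g : ℂ → ℂ} {T : ℝ} (h : ∀ z, z ∉ hkAn T → g z = 0) : HasCompactSupport g :=
  HasCompactSupport.intro (isCompact_closedBall 0 _) fun z hz => h z fun h' => hz h'.1

theorem hk_f_int (hb : BA) {T : ℝ} (hT : 1 ≤ T) : Integrable (hkf T) :=
  (hk_smooth hb (hk_om0_bump hb) hT).continuous.integrable_of_hasCompactSupport
    (hk_cs fun _ hz => hk_out (hk_om0_bump hb) hT hz)

theorem hk_log_smooth : ContDiffOn ℝ ∞ (fun z : ℂ => Real.log (‖z‖ ^ 2)) {0}ᶜ :=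
  (contDiff_norm_sq ℝ).contDiffOn.log fun z hz => pow_ne_zero _ (norm_ne_zero_iff.2 hz)

theorem hk_log_bd (n : ℕ) : ∃ D : ℝ, 1 ≤ D ∧ ∀ i ≤ n, ∀ z : ℂ, 1 ≤ ‖z‖ → ‖z‖ ≤ 2 →
    ‖iteratedFDerivWithin ℝ i (fun z : ℂ => Real.log (‖z‖ ^ 2)) {0}ᶜ z‖ ≤ D := by
  have hK : IsCompact (Metric.closedBall (0 : ℂ) 2 \ Metric.ball 0 1) :=
    (isCompact_closedBall 0 2).diff Metric.isOpen_ball
  have hs : Metric.closedBall (0 : ℂ) 2 \ Metric.ball 0 1 ⊆ {0}ᶜ := fun z hz h0 =>
    hz.2 (by rw [Set.mem_singleton_iff.1 h0]; simp)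
  have h : ∀ i : ℕ, ∃ B : ℝ, ∀ z ∈ Metric.closedBall (0 : ℂ) 2 \ Metric.ball 0 1,
      ‖iteratedFDerivWithin ℝ i (fun z : ℂ => Real.log (‖z‖ ^ 2)) {0}ᶜ z‖ ≤ B := fun i =>
    hK.exists_bound_of_continuousOn ((hk_log_smooth.continuousOn_iteratedFDerivWithin
      (by exact_mod_cast le_top) isOpen_compl_singleton.uniqueDiffOn).mono hs)
  choose B hB using h
  have h0 : 0 ≤ ∑ j ∈ Finset.range (n + 1), |B j| := Finset.sum_nonneg fun j _ => abs_nonneg _
  refine ⟨1 + ∑ j ∈ Finset.range (n + 1), |B j|, by linarith, fun i hi z h1 h2 => ?_⟩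
  have h3 := Finset.single_le_sum (f := fun j => |B j|) (fun j _ => abs_nonneg _)
    (Finset.mem_range.2 (Nat.lt_succ_of_le hi))
  have h4 := hB i z ⟨by simpa using h2, by simpa using h1⟩
  linarith [le_abs_self (B i)]

theorem hk_der (hb : BA) (n : ℕ) : ∃ C : ℝ, 0 < C ∧ ∀ T : ℝ, 1 ≤ T → ∀ j ≤ n, ∀ z ∈ hkAn T,
    ‖iteratedFDeriv ℝ j (hkf T) z‖ ≤ C * T ^ n := by
  obtain ⟨D, hD, h1⟩ := hk_log_bd n
  obtain ⟨C, hC, h2⟩ := hb.bump_bd _ (hk_om0_bump hb) n
  refine ⟨n.factorial * C * D ^ n, by positivity, fun T hT j hj z hz => ?_⟩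
  obtain ⟨h3, h4⟩ := hk_An_norm hT hz
  have hz0 : z ∈ ({0}ᶜ : Set ℂ) := fun h0 => by
    rw [Set.mem_singleton_iff.1 h0, norm_zero] at h3
    linarith
  have hu : UniqueDiffOn ℝ ({0}ᶜ : Set ℂ) := isOpen_compl_singleton.uniqueDiffOn
  have hTD : 1 ≤ T * D := one_le_mul_of_one_le_of_one_le hT hD
  have h := norm_iteratedFDerivWithin_comp_le (𝕜 := ℝ) (g := fun v => (om0 v : ℂ))
    (f := T • fun z : ℂ => Real.log (‖z‖ ^ 2)) (n := j) (s := {0}ᶜ) (t := Set.univ) (x := z)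
    (N := ∞) h2.smooth.contDiffOn (hk_log_smooth.const_smul T) (by exact_mod_cast le_top)
    uniqueDiffOn_univ hu (Set.mapsTo_univ _ _) hz0 (C := C) (D := T * D)
    (fun i hi => by
      rw [iteratedFDerivWithin_univ, norm_iteratedFDeriv_eq_norm_iteratedDeriv]
      exact h2.bd i (hi.trans hj) _)
    (fun i hi1 hi => by
      rw [iteratedFDerivWithin_const_smul_apply
        ((hk_log_smooth z hz0).of_le (by exact_mod_cast le_top)) hu hz0, norm_smul,
        Real.norm_of_nonneg (by linarith)]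
      calc _ ≤ T * D := by gcongr; exact h1 i (hi.trans hj) z h3 h4
        _ ≤ _ := le_self_pow₀ hTD (by omega))
  rw [iteratedFDerivWithin_of_isOpen j isOpen_compl_singleton hz0] at h
  calc _ ≤ _ := h
    _ ≤ n.factorial * C * (T * D) ^ n := by gcongr
    _ = _ := by ring

theorem hk_fast (hb : BA) (n : ℕ) : ∃ C : ℝ, 0 < C ∧ ∀ T : ℝ, 1 ≤ T → ∀ ξ : ℝ, 0 ≤ ξ →
    ‖ft (hkf T) ξ‖ ≤ C * (T ^ n / T) * ((1 + ξ) ^ n)⁻¹ := by
  obtain ⟨C1, hC1, h1⟩ := hk_der hb n
  obtain ⟨C2, hC2, h2⟩ := ft_decay n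
  refine ⟨C2 * (7 * C1), by positivity, fun T hT ξ hξ => ?_⟩
  have hs : ContDiff ℝ ∞ (hkf T) := hk_smooth hb (hk_om0_bump hb) hT
  have hz : ∀ j z, z ∉ hkAn T → iteratedFDeriv ℝ j (hkf T) z = 0 := fun j z hz => by
    by_contra h
    refine hz ((closure_minimal (fun w hw => ?_) (hk_An_closed T))
      (support_iteratedFDeriv_subset j h))
    by_contra h'
    exact hw (hk_out (hk_om0_bump hb) hT h')
  have h := h2 (hkf T) (7 * (C1 * T ^ n) / T) hs (fun j _ =>
    (hs.continuous_iteratedFDeriv (by exact_mod_cast le_top)).norm.integrable_of_hasCompactSupport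
      (HasCompactSupport.intro (isCompact_closedBall 0 _) fun z h => by
        rw [hz j z fun h' => h h'.1, norm_zero]))
    (fun j hj => (le_abs_self _).trans (hk_An_int hT (M := C1 * T ^ n) (by positivity)
      (g := fun z => ‖iteratedFDeriv ℝ j (hkf T) z‖)
      (fun z h => by simp only [hz j z h, norm_zero]) fun z h => by
        rw [norm_norm]; exact h1 T hT j hj z h)) ξ
  rw [Complex.norm_real, Real.norm_of_nonneg hξ, Real.rpow_neg (by linarith),
    Real.rpow_natCast] at h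
  refine h.trans (le_of_eq ?_)
  ring

theorem hk_slow (hb : BA) {T : ℝ} (hT : 1 ≤ T) {ξ : ℝ} (hξ : 0 ≤ ξ) :
    ‖ft (hkf T) ξ‖ ≤ 100 * T⁻¹ * (√(1 + ξ))⁻¹ :=
  hk_half hT (hk_f_int hb hT) (fun u z hu => by simp only [hkf, norm_mul, hu, one_mul])
    (fun _ hz => hk_out (hk_om0_bump hb) hT hz) (fun _ => hk_om0_le _) hξ

/-- Interpolation between the two bounds. -/
theorem hk_interp {X C T y : ℝ} (hC : 0 < C) (hT : 1 ≤ T) (hy : 0 ≤ y) (hX : 0 ≤ X)
    (h1 : X ≤ 100 * T⁻¹ * (√(1 + √y))⁻¹) (h2 : X ≤ C * (T ^ 100 / T) * ((1 + √y) ^ 100)⁻¹) :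
    X ≤ 4 * (100 + C) * GM T y := by
  obtain ⟨t, ht⟩ : ∃ t : ℝ, t = (1 + y) ^ (1 / 100 : ℝ) := ⟨_, rfl⟩
  have ht1 : 1 ≤ t := ht ▸ Real.one_le_rpow (by linarith) (by norm_num)
  have hp : ∀ k : ℕ, t ^ k = (1 + y) ^ (k / 100 : ℝ) := fun k => by
    rw [ht, ← Real.rpow_natCast, ← Real.rpow_mul (by linarith)]
    congr 1
    ring
  have e100 : t ^ 100 = 1 + y := by rw [hp]; norm_num
  have e24 : (1 + y) ^ (-(6 / 25) : ℝ) = (t ^ 24)⁻¹ := by
    rw [hp, Real.rpow_neg (by linarith)]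
    norm_num
  have h50 : t ^ 50 ≤ 1 + √y := by
    refine le_of_pow_le_pow_left₀ (n := 2) (by norm_num) (by positivity) ?_
    rw [← pow_mul, e100]
    nlinarith [Real.sq_sqrt hy, Real.sqrt_nonneg y]
  have h25 : t ^ 25 ≤ √(1 + √y) := Real.le_sqrt_of_sq_le (by rw [← pow_mul]; exact h50)
  have ha : X ≤ (100 + C) * T⁻¹ * (t ^ 25)⁻¹ := h1.trans (by gcongr; linarith)
  have hb : X ≤ (100 + C) * (T ^ 100 / T) * ((t ^ 50) ^ 100)⁻¹ := h2.trans (by gcongr; linarith)
  have eG : GM T y = T⁻¹ * (t ^ 24)⁻¹ * ((1 + y / T ^ 2) ^ 2)⁻¹ := by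
    rw [GM, e24, Real.rpow_neg (by positivity), Real.rpow_two]
  rw [eG]
  rcases le_total y (T ^ 2) with h | h
  · have h3 : y / T ^ 2 ≤ 1 := (div_le_one (by positivity)).2 h
    have h4 : (2 ^ 2)⁻¹ ≤ ((1 + y / T ^ 2) ^ 2)⁻¹ := by gcongr; linarith
    have h5 : (t ^ 25)⁻¹ ≤ (t ^ 24)⁻¹ := by gcongr <;> norm_num [ht1]
    calc X ≤ _ := ha
      _ ≤ (100 + C) * T⁻¹ * (t ^ 24)⁻¹ := by gcongr
      _ = 4 * (100 + C) * (T⁻¹ * (t ^ 24)⁻¹ * (2 ^ 2)⁻¹) := by ring
      _ ≤ _ := by gcongr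
  · have h3 : X ≤ (100 + C) * T ^ 3 * (t ^ 224)⁻¹ := by
      refine le_of_pow_le_pow_left₀ (n := 25) (by norm_num) (by positivity) ?_
      calc X ^ 25 = X ^ 24 * X := pow_succ X 24
        _ ≤ ((100 + C) * T⁻¹ * (t ^ 25)⁻¹) ^ 24
          * ((100 + C) * (T ^ 100 / T) * ((t ^ 50) ^ 100)⁻¹) := by gcongr
        _ = _ := by
          generalize 100 + C = K
          field_simp
    have h4 : 1 + y / T ^ 2 ≤ 2 * t ^ 100 / T ^ 2 := by
      rw [e100, le_div_iff₀ (by positivity), add_mul, div_mul_cancel₀ _ (by positivity)]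
      linarith
    calc X ≤ _ := h3
      _ = 4 * (100 + C) * (T⁻¹ * (t ^ 24)⁻¹ * ((2 * t ^ 100 / T ^ 2) ^ 2)⁻¹) := by
        field_simp
        norm_num
      _ ≤ _ := by gcongr

theorem hk_pow_le {c x p : ℝ} (hc : 0 < c) (hc1 : c ≤ 1) (hx : 0 ≤ x) (hp : 0 ≤ p) :
    (1 + x * c) ^ (-p) ≤ c ^ (-p) * (1 + x) ^ (-p) := by
  rw [← Real.mul_rpow hc.le (by linarith)]
  exact Real.rpow_le_rpow_of_nonpos (by positivity) (by nlinarith) (by linarith)

theorem hk_GM_shift (hb : BA) : ∃ C : ℝ, 0 < C ∧ ∀ T y v : ℝ, 1 ≤ T → 0 ≤ y → |v| ≤ 3 →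
    GM T (y * Real.exp (v / T)) ≤ C * GM T y := by
  have hc := Real.exp_pos (-3)
  have hc1 : Real.exp (-3) ≤ 1 := Real.exp_le_one_iff.2 (by norm_num)
  refine ⟨Real.exp (-3) ^ (-(6 / 25) : ℝ) * Real.exp (-3) ^ (-2 : ℝ), by positivity,
    fun T y v hT hy hv => ?_⟩
  have h1 : -3 ≤ v / T := by
    rw [le_div_iff₀ (by linarith)]
    linarith [(abs_le.1 hv).1]
  refine (hb.GM_anti T (y * Real.exp (-3)) _ (by linarith) (by positivity) (by gcongr)).trans ?_
  have h2 := hk_pow_le hc hc1 hy (p := 6 / 25) (by norm_num)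
  have h3 := hk_pow_le hc hc1 (x := y / T ^ 2) (by positivity) (p := 2) (by norm_num)
  unfold GM
  rw [mul_div_right_comm]
  calc _ ≤ T⁻¹ * (Real.exp (-3) ^ (-(6 / 25) : ℝ) * (1 + y) ^ (-(6 / 25) : ℝ))
      * (Real.exp (-3) ^ (-2 : ℝ) * (1 + y / T ^ 2) ^ (-2 : ℝ)) := by gcongr
    _ = _ := by ring

theorem hK (hb : BA) : HK := by
  obtain ⟨C1, hC1, h1⟩ := hk_fast hb 100
  obtain ⟨C2, hC2, h2⟩ := hk_GM_shift hb
  refine ⟨4 * (100 + C1) * C2 + 14, by positivity, fun T hT => ⟨fun y v hy hv => ?_, ?_⟩⟩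
  · have hy' : 0 ≤ y * Real.exp (v / T) := by positivity
    have h3 := hk_interp hC1 hT hy' (norm_nonneg _) (hk_slow hb hT (Real.sqrt_nonneg _))
      (h1 T hT _ (Real.sqrt_nonneg _))
    have h4 := h2 T y v hT hy hv
    have h5 := hb.GM_pos T y (by linarith) hy
    calc _ ≤ _ := h3
      _ ≤ 4 * (100 + C1) * (C2 * GM T y) := by gcongr
      _ ≤ _ := by nlinarith
  · have h3 := hk_An_int hT zero_le_one
      (g := fun z : ℂ => ((Om (T * Real.log (‖z‖ ^ 2)) : ℝ) : ℂ) * psi (-(z * (√0 : ℝ))))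
      (fun z hz => by
        have := hk_out hb.Om_bump hT hz
        simp only [this, zero_mul])
      (fun z _ => by
        rw [norm_mul, norm_psi, mul_one, Complex.norm_real, Real.norm_of_nonneg (hb.Om_nonneg _)]
        exact hb.Om_le _)
    rw [hO, ft, norm_mul]
    calc _ ≤ 2 * (7 * 1 / T) := mul_le_mul hk_two h3 (norm_nonneg _) zero_le_two
      _ = 14 / T := by ring
      _ ≤ _ := by gcongr; linarith [show 0 ≤ 4 * (100 + C1) * C2 by positivity]

/-- The transform of `Om` as an average of transforms of `om0`. -/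
theorem hk_avg (hb : BA) {T : ℝ} (hT : 1 ≤ T) {y : ℝ} (hy : 0 ≤ y) :
    hO T y = ∫ v : ℝ, (bt v : ℂ) * ((Real.exp (v / T) : ℝ) * h0 T (y * Real.exp (v / T))) := by
  have hbt := hb.bt_smooth.continuous
  have hom := hb.om0_smooth.continuous
  have hps := continuous_psi
  have hI : Integrable (Function.uncurry fun (z : ℂ) (v : ℝ) =>
      ((bt v * om0 (T * Real.log (‖z‖ ^ 2) - v) : ℝ) : ℂ) * psi (-(z * (√y : ℝ))))
      (volume.prod volume) := by
    have h1 : Integrable ((hkAn T).indicator fun _ => (1 : ℝ)) :=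
      (integrableOn_const ((measure_mono Set.sdiff_subset).trans_lt
        measure_closedBall_lt_top).ne).integrable_indicator (hk_An_closed T).measurableSet
    have h2 : Integrable ((Set.Icc (0 : ℝ) 1).indicator fun _ => (1 : ℝ)) :=
      (integrableOn_const measure_Icc_lt_top.ne).integrable_indicator measurableSet_Icc
    refine (h1.mul_prod h2).mono' (Measurable.aestronglyMeasurable ?_)
      (Eventually.of_forall fun p => ?_)
    · unfold Function.uncurry
      fun_prop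
    · simp only [Function.uncurry]
      by_cases h : bt p.2 * om0 (T * Real.log (‖p.1‖ ^ 2) - p.2) = 0
      · rw [h, Complex.ofReal_zero, zero_mul, norm_zero]
        exact mul_nonneg (Set.indicator_nonneg (fun _ _ => zero_le_one) _)
          (Set.indicator_nonneg (fun _ _ => zero_le_one) _)
      · obtain ⟨h3, h4⟩ := hb.bt_supp _ (left_ne_zero_of_mul h)
        obtain ⟨h5, h6⟩ := hb.om0_supp _ (right_ne_zero_of_mul h)
        have h7 : p.1 ≠ 0 := fun h0 => by
          simp only [h0, norm_zero, Real.log_pow, Real.log_zero, mul_zero] at h5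
          linarith
        rw [Set.indicator_of_mem (hk_An_mem hT (by linarith) (by linarith) h7),
          Set.indicator_of_mem (show p.2 ∈ Set.Icc (0 : ℝ) 1 from ⟨h3.le, by linarith⟩), norm_mul,
          norm_psi, Complex.ofReal_mul, norm_mul]
        gcongr
        exact mul_le_one₀ (hk_bt_le _) (norm_nonneg _) (hk_om0_le _)
  have e1 : ∀ z : ℂ, ((Om (T * Real.log (‖z‖ ^ 2)) : ℝ) : ℂ) * psi (-(z * (√y : ℝ))) =
      ∫ v : ℝ, ((bt v * om0 (T * Real.log (‖z‖ ^ 2) - v) : ℝ) : ℂ) * psi (-(z * (√y : ℝ))) :=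
    fun z => by rw [integral_mul_const, integral_complex_ofReal, Om]
  rw [hO, ft]
  simp only [e1]
  rw [integral_integral_swap hI, ← integral_const_mul]
  refine integral_congr_ae (Eventually.of_forall fun v => ?_)
  have ha := Real.exp_pos (v / (2 * T))
  have e2 : Real.exp (v / (2 * T)) ^ 2 = Real.exp (v / T) := by
    rw [← Real.exp_nat_mul]
    congr 1
    push_cast
    field_simp
  have h3 := ft_scale (hkf T) (a := (Real.exp (v / (2 * T)) : ℝ)) (by exact_mod_cast ha.ne')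
    (√y : ℝ)
  have e3 : √(y * Real.exp (v / T)) = Real.exp (v / (2 * T)) * √y := by
    rw [Real.sqrt_mul hy, ← e2, Real.sqrt_sq ha.le, mul_comm]
  rw [Complex.norm_real, Real.norm_of_nonneg ha.le, e2, ← Complex.ofReal_mul, ← e3] at h3
  have e4 : ∀ z : ℂ, ((bt v * om0 (T * Real.log (‖z‖ ^ 2) - v) : ℝ) : ℂ) * psi (-(z * (√y : ℝ)))
      = (bt v : ℂ) * (hkf T (z / (Real.exp (v / (2 * T)) : ℝ)) * psi (-(z * (√y : ℝ)))) := by
    intro z
    rw [← mul_assoc, hkf, ← Complex.ofReal_mul]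
    congr 2
    by_cases h0 : z = 0
    · have h5 : om0 0 = 0 := by simpa using hk_zero (hk_om0_bump hb)
      simp only [h0, zero_div, norm_zero, Real.log_pow, Real.log_zero, mul_zero, h5]
      by_contra h
      linarith [(hb.bt_supp _ (left_ne_zero_of_mul h)).1,
        (hb.om0_supp _ (right_ne_zero_of_mul h)).1]
    · rw [norm_div, Complex.norm_real, Real.norm_of_nonneg ha.le, div_pow, e2,
        Real.log_div (by simpa using h0) (Real.exp_pos _).ne', Real.log_exp, mul_sub,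
        mul_div_cancel₀ _ (by linarith)]
  simp only [e4]
  rw [integral_const_mul, mul_left_comm]
  congr 1

theorem hSep (hb : BA) (h : HK) : HSep := by
  intro n
  obtain ⟨C1, hC1, h1⟩ := h
  obtain ⟨C2, hC2, h2⟩ := hb.fr n
  obtain ⟨D, hD, h3⟩ := hb.bump_bd _ (hk_bt_bump hb) n
  obtain ⟨b, hbc, hbb, hbi, hbr⟩ := h2 _ D h3
  refine ⟨C2 * D * (3 * C1 * 3), by positivity, fun T y hT hy => ?_⟩
  have hG0 := hb.GM_pos T y (by linarith) hy
  obtain ⟨G, hG⟩ : ∃ G : ℝ → ℂ,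
    G = fun v => (Real.exp (v / T) : ℝ) * h0 T (y * Real.exp (v / T)) := ⟨_, rfl⟩
  have hGc : Continuous G := by
    have h4 := continuous_ft (hk_f_int hb hT)
    have h5 : Continuous (h0 T) := h4.comp (by fun_prop : Continuous fun y : ℝ => ((√y : ℝ) : ℂ))
    rw [hG]
    fun_prop
  have hGb : ∀ v ∈ Set.uIoc (-2 : ℝ) 1, ‖G v‖ ≤ 3 * C1 * GM T y := fun v hv => by
    rw [Set.uIoc_of_le (by norm_num)] at hv
    have h4 := (h1 T hT).1 y v hy (abs_le.2 ⟨by linarith [hv.1], by linarith [hv.2]⟩)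
    have h5 : Real.exp (v / T) ≤ 3 := by
      have : v / T ≤ 1 := by
        rw [div_le_one (by linarith)]
        linarith [hv.2]
      exact (Real.exp_le_exp.2 this).trans (by linarith [Real.exp_one_lt_d9])
    rw [hG, norm_mul, Complex.norm_real, Real.norm_of_nonneg (Real.exp_pos _).le, mul_assoc]
    gcongr
  have hΦc : Continuous fun τ : ℝ => ∫ v in (-2 : ℝ)..1, Complex.exp (τ * v * I) * G v :=
    intervalIntegral.continuous_parametric_intervalIntegral_of_continuous' (by fun_prop) _ _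
  have hne : ∀ τ v : ℝ, ‖Complex.exp (τ * v * I)‖ = 1 := fun τ v => by
    rw [← Complex.ofReal_mul, Complex.norm_exp_ofReal_mul_I]
  have hΦb : ∀ τ : ℝ, ‖∫ v in (-2 : ℝ)..1, Complex.exp (τ * v * I) * G v‖
      ≤ 3 * C1 * GM T y * 3 := fun τ => by
    have h4 := intervalIntegral.norm_integral_le_of_norm_le_const (a := -2) (b := 1)
      (f := fun v : ℝ => Complex.exp (τ * v * I) * G v) (C := 3 * C1 * GM T y) fun v hv => by
        rw [norm_mul, hne, one_mul]
        exact hGb v hv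
    exact h4.trans (le_of_eq (by norm_num))
  refine ⟨fun τ => b τ * ∫ v in (-2 : ℝ)..1, Complex.exp (τ * v * I) * G v, hbc.mul hΦc,
    fun τ => ?_, hbi.mul_bdd hΦc.aestronglyMeasurable (Eventually.of_forall hΦb),
    fun u hu1 hu2 => ?_⟩
  · rw [norm_mul]
    refine (mul_le_mul (hbb τ) (hΦb τ) (norm_nonneg _) (by positivity)).trans (le_of_eq ?_)
    ring
  have hu0 : 0 < u := by linarith
  obtain ⟨l, hl⟩ : ∃ l : ℝ, l = T * Real.log u := ⟨_, rfl⟩
  have hl0 : 0 ≤ l := hl ▸ mul_nonneg (by linarith) (Real.log_nonneg hu1)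
  have hl2 : l ≤ 2 := by
    have := (Real.log_le_iff_le_exp hu0).2 hu2
    rw [le_div_iff₀ (by linarith)] at this
    linarith
  have e1 : ∀ v, Real.exp ((v + l) / T) = Real.exp (v / T) * u := fun v => by
    rw [add_div, Real.exp_add, hl, mul_div_cancel_left₀ _ (by linarith), Real.exp_log hu0]
  have e2 : hO T (y / u) = ∫ v : ℝ, (bt (v + l) : ℂ) * (u * G v) := by
    rw [hk_avg hb hT (by positivity), ← integral_add_right_eq_self _ l]
    refine integral_congr_ae (Eventually.of_forall fun v => ?_)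
    simp only [e1, hG]
    rw [show y / u * (Real.exp (v / T) * u) = y * Real.exp (v / T) by field_simp]
    push_cast
    ring
  have e3 : ∫ v : ℝ, (bt (v + l) : ℂ) * (u * G v)
      = ∫ v in (-2 : ℝ)..1, (bt (v + l) : ℂ) * (u * G v) := by
    rw [intervalIntegral.integral_of_le (by norm_num)]
    refine (setIntegral_eq_integral_of_forall_compl_eq_zero fun v hv => ?_).symm
    have : bt (v + l) = 0 := by
      by_contra h
      obtain ⟨h4, h5⟩ := hb.bt_supp _ h
      exact hv ⟨by linarith, by linarith⟩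
    rw [this, Complex.ofReal_zero, zero_mul]
  have hI : Integrable (Function.uncurry fun (v τ : ℝ) =>
      b τ * Complex.exp (τ * (v + l : ℝ) * I) * (u * G v))
      ((volume.restrict (Set.uIoc (-2 : ℝ) 1)).prod volume) := by
    have h4 : Integrable (fun v => u * G v) (volume.restrict (Set.uIoc (-2 : ℝ) 1)) :=
      intervalIntegrable_iff.1 ((continuous_const.mul hGc).intervalIntegrable _ _)
    have h5 := (h4.mul_prod hbi).mul_bdd (c := 1)
      (g := fun p : ℝ × ℝ => Complex.exp (p.2 * (p.1 + l : ℝ) * I))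
      (Continuous.aestronglyMeasurable (by fun_prop))
      (Eventually.of_forall fun p => (hne _ _).le)
    refine h5.congr (Eventually.of_forall fun p => ?_)
    simp only [Function.uncurry]
    ring
  have e4 : ∀ v : ℝ, (bt (v + l) : ℂ) * (u * G v)
      = ∫ τ : ℝ, b τ * Complex.exp (τ * (v + l : ℝ) * I) * (u * G v) := fun v => by
    rw [integral_mul_const, ← hbr]
  rw [e2, e3]
  simp only [e4]
  rw [intervalIntegral_integral_swap hI]
  refine integral_congr_ae (Eventually.of_forall fun τ => ?_)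
  have e5 : (u : ℂ) ^ (1 + τ * T * I) = u * Complex.exp (τ * l * I) := by
    rw [Complex.cpow_add _ _ (by exact_mod_cast hu0.ne'), Complex.cpow_one,
      Complex.cpow_def_of_ne_zero (by exact_mod_cast hu0.ne'), ← Complex.ofReal_log hu0.le, hl]
    congr 2
    push_cast
    ring
  simp only [e5]
  rw [← intervalIntegral.integral_const_mul, ← intervalIntegral.integral_mul_const]
  congr 1
  funext v
  push_cast
  rw [mul_add, add_mul, Complex.exp_add]
  ring

end Pat
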