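import Vale.Agent.P006.IfB
import Vale.Agent.P026.FtD

/-! P006, HK: decay of Bessel integrals and of transforms of radial functions. -/

noncomputable section
namespace Pat
open QRH Complex MeasureTheory Filter
open scoped ComplexConjugate Classical ContDiff Topology

theorem hk_deriv {F F' : ℝ → ℝ → ℝ} (hF : ∀ x, Continuous (F x)) (hF' : ∀ x, Continuous (F' x))
    (hb : ∀ x t, |F' x t| ≤ 1) (hd : ∀ x t, HasDerivAt (fun x => F x t) (F' x t) x) (x : ℝ) :
    HasDerivAt (fun x => ∫ t in (-Real.pi)..Real.pi, F x t)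
      (∫ t in (-Real.pi)..Real.pi, F' x t) x :=
  (intervalIntegral.hasDerivAt_integral_of_dominated_loc_of_deriv_le (s := Set.univ)
    (bound := fun _ => 1) univ_mem
    (Eventually.of_forall fun x => (hF x).aestronglyMeasurable) ((hF x).intervalIntegrable _ _)
    (hF' x).aestronglyMeasurable (Eventually.of_forall fun t _ y _ => hb y t)
    intervalIntegrable_const (Eventually.of_forall fun t _ y _ => hd y t)).2

theorem hk_int_le {F : ℝ → ℝ} (hb : ∀ t, |F t| ≤ 1) :
    |∫ t in (-Real.pi)..Real.pi, F t| ≤ 7 := by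
  have h := intervalIntegral.norm_integral_le_of_norm_le_const (a := -Real.pi) (b := Real.pi)
    (f := F) (C := 1) fun t _ => hb t
  have h1 := Real.pi_lt_d2
  have h2 := Real.pi_pos
  rw [Real.norm_eq_abs, one_mul, abs_of_pos (show 0 < Real.pi - -Real.pi by linarith)] at h
  linarith

/-- Bessel integrals. -/
def hkA (a b x : ℝ) : ℝ := ∫ t in (-Real.pi)..Real.pi, Real.cos (x * Real.sin (t + a) + b)
def hkB (a b x : ℝ) : ℝ :=
  ∫ t in (-Real.pi)..Real.pi, -(Real.sin (t + a) * Real.sin (x * Real.sin (t + a) + b))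
def hkC (a b x : ℝ) : ℝ :=
  ∫ t in (-Real.pi)..Real.pi, -(Real.sin (t + a) ^ 2 * Real.cos (x * Real.sin (t + a) + b))

theorem hk_abs_mul {u v : ℝ} (hu : |u| ≤ 1) (hv : |v| ≤ 1) : |-(u * v)| ≤ 1 := by
  rw [abs_neg, abs_mul]
  exact mul_le_one₀ hu (abs_nonneg _) hv

theorem hk_dA (a b x : ℝ) : HasDerivAt (hkA a b) (hkB a b x) x := by
  refine hk_deriv (F := fun x t => Real.cos (x * Real.sin (t + a) + b))
    (F' := fun x t => -(Real.sin (t + a) * Real.sin (x * Real.sin (t + a) + b)))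
    (fun x => by fun_prop) (fun x => by fun_prop)
    (fun x t => hk_abs_mul (Real.abs_sin_le_one _) (Real.abs_sin_le_one _)) (fun x t => ?_) x
  refine ((((hasDerivAt_id x).mul_const (Real.sin (t + a))).add_const b).cos).congr_deriv ?_
  simp only [id]
  ring

theorem hk_dB (a b x : ℝ) : HasDerivAt (hkB a b) (hkC a b x) x := by
  refine hk_deriv
    (F := fun x t => -(Real.sin (t + a) * Real.sin (x * Real.sin (t + a) + b)))
    (F' := fun x t => -(Real.sin (t + a) ^ 2 * Real.cos (x * Real.sin (t + a) + b)))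
    (fun x => by fun_prop) (fun x => by fun_prop)
    (fun x t => hk_abs_mul (by
      rw [abs_pow]; exact pow_le_one₀ (abs_nonneg _) (Real.abs_sin_le_one _))
      (Real.abs_cos_le_one _)) (fun x t => ?_) x
  refine ((((((hasDerivAt_id x).mul_const (Real.sin (t + a))).add_const b).sin).const_mul
    (Real.sin (t + a))).neg).congr_deriv ?_
  simp only [id]
  ring

theorem hk_ode (a b x : ℝ) : hkB a b x + x * (hkA a b x + hkC a b x) = 0 := by
  have h := intervalIntegral.integral_eq_sub_of_hasDerivAt (a := -Real.pi) (b := Real.pi)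
    (f := fun t => Real.cos (t + a) * Real.sin (x * Real.sin (t + a) + b))
    (f' := fun t => -(Real.sin (t + a) * Real.sin (x * Real.sin (t + a) + b))
      + x * (Real.cos (x * Real.sin (t + a) + b)
        + -(Real.sin (t + a) ^ 2 * Real.cos (x * Real.sin (t + a) + b))))
    (fun t _ => by
      have h1 := (hasDerivAt_id t).add_const a
      refine (h1.cos.mul (((h1.sin.const_mul x).add_const b).sin)).congr_deriv ?_
      simp only [id]
      linear_combination (x * Real.cos (x * Real.sin (t + a) + b)) * Real.cos_sq_add_sin_sq (t + a))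
    (Continuous.intervalIntegrable (by fun_prop) _ _)
  rw [intervalIntegral.integral_add (Continuous.intervalIntegrable (by fun_prop) _ _)
    (Continuous.intervalIntegrable (by fun_prop) _ _), intervalIntegral.integral_const_mul,
    intervalIntegral.integral_add (Continuous.intervalIntegrable (by fun_prop) _ _)
    (Continuous.intervalIntegrable (by fun_prop) _ _)] at h
  have e : Real.pi + a = (-Real.pi + a) + 2 * Real.pi := by ring
  rw [e, Real.cos_add_two_pi, Real.sin_add_two_pi, sub_self] at h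
  exact h

theorem hk_A_le (a b x : ℝ) : |hkA a b x| ≤ 7 := hk_int_le fun _ => Real.abs_cos_le_one _

theorem hk_B_le (a b x : ℝ) : |hkB a b x| ≤ 7 :=
  hk_int_le fun _ => hk_abs_mul (Real.abs_sin_le_one _) (Real.abs_sin_le_one _)

/-- The energy of the Bessel equation. -/
def hkE (a b x : ℝ) : ℝ :=
  x * (hkA a b x ^ 2 + hkB a b x ^ 2) + hkA a b x * hkB a b x + hkA a b x ^ 2 * (2 * x)⁻¹

theorem hk_dE (a b : ℝ) {x : ℝ} (hx : 0 < x) :
    HasDerivAt (hkE a b) (-(hkA a b x ^ 2 / (2 * x ^ 2))) x := by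
  have hA := hk_dA a b x
  have hB := hk_dB a b x
  have h1 := ((hasDerivAt_id x).const_mul 2).inv (by simpa using hx.ne')
  have h := (((hasDerivAt_id x).mul ((hA.pow 2).add (hB.pow 2))).add (hA.mul hB)).add
    ((hA.pow 2).mul h1)
  refine h.congr_deriv ?_
  have e : hkC a b x = -hkA a b x - hkB a b x / x := by
    have := hk_ode a b x
    field_simp
    linarith
  simp only [id, Pi.pow_apply, Pi.add_apply, Pi.inv_apply, e]
  field_simp
  ring

theorem hk_A_sq (a b : ℝ) {x : ℝ} (hx : 0 ≤ x) : (1 + x) * hkA a b x ^ 2 ≤ 400 := by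
  have hA : ∀ y, hkA a b y ^ 2 ≤ 49 := fun y => by
    have := hk_A_le a b y
    rw [← sq_abs]
    nlinarith [abs_nonneg (hkA a b y)]
  rcases le_total x 1 with h | h
  · nlinarith [hA x, sq_nonneg (hkA a b x)]
  have hanti : AntitoneOn (hkE a b) (Set.Ici 1) := by
    refine antitoneOn_of_hasDerivWithinAt_nonpos (convex_Ici 1)
      (f' := fun x => -(hkA a b x ^ 2 / (2 * x ^ 2)))
      (fun y hy => (hk_dE a b (lt_of_lt_of_le one_pos hy)).continuousAt.continuousWithinAt)
      (fun y hy => (hk_dE a b (lt_of_lt_of_le one_pos (interior_subset hy))).hasDerivWithinAt)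
      fun y _ => neg_nonpos.2 (by positivity)
  have h1 := hanti (Set.mem_Ici.2 le_rfl) (Set.mem_Ici.2 h) h
  have hB : hkB a b 1 ^ 2 ≤ 49 := by
    have := hk_B_le a b 1
    rw [← sq_abs]
    nlinarith [abs_nonneg (hkB a b 1)]
  have h2 : hkE a b 1 ≤ 200 := by
    unfold hkE
    nlinarith [hA 1, sq_nonneg (hkA a b 1 - hkB a b 1)]
  have h3 : x * hkA a b x ^ 2 ≤ hkE a b x := by
    have e : hkE a b x - x * hkA a b x ^ 2 =
        x * (hkB a b x + hkA a b x / (2 * x)) ^ 2 + hkA a b x ^ 2 / (4 * x) := by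
      unfold hkE
      field_simp
      ring
    have : 0 ≤ x * (hkB a b x + hkA a b x / (2 * x)) ^ 2 + hkA a b x ^ 2 / (4 * x) := by positivity
    linarith
  nlinarith [sq_nonneg (hkA a b x)]

theorem hk_A_dec (a b : ℝ) {x : ℝ} (hx : 0 ≤ x) : |hkA a b x| ≤ 20 * (√(1 + x))⁻¹ := by
  have h := hk_A_sq a b hx
  have h1 : 0 < √(1 + x) := by positivity
  rw [← div_eq_mul_inv, le_div_iff₀ h1]
  refine abs_le_of_sq_le_sq' ?_ (by norm_num) |>.2
  rw [mul_pow, sq_abs, Real.sq_sqrt (by linarith)]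
  linarith

/-- The average of the additive character over a circle. -/
theorem hk_circle (z : ℂ) {ξ : ℝ} (hz : 1 ≤ ‖z‖) (hξ : 0 ≤ ξ) :
    ‖∫ t in (-Real.pi)..Real.pi, psi (-(z * (Complex.exp (t * I) * ξ)))‖
      ≤ 40 * (√(1 + ξ))⁻¹ := by
  set x : ℝ := 4 * Real.pi / √3 * ‖z‖ * ξ with hx
  have h3 : √3 ≤ 2 := by
    rw [Real.sqrt_le_left (by norm_num)]
    norm_num
  have h4 : 1 ≤ 4 * Real.pi / √3 := by
    rw [le_div_iff₀ (by positivity)]
    linarith [Real.pi_gt_three]
  have hξx : ξ ≤ x := by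
    rw [hx]
    exact le_mul_of_one_le_left hξ (one_le_mul_of_one_le_of_one_le h4 hz)
  have e : ∀ t : ℝ, psi (-(z * (Complex.exp (t * I) * ξ))) =
      (Real.cos (x * Real.sin (t + arg z) + 0) : ℝ)
        + (Real.cos (x * Real.sin (t + arg z) + Real.pi / 2) : ℝ) * I := fun t => by
    have h1 : z * (Complex.exp (t * I) * ξ) =
        ((‖z‖ * ξ : ℝ) : ℂ) * Complex.exp ((t + arg z : ℝ) * I) := by
      conv_lhs => rw [← Complex.norm_mul_exp_arg_mul_I z]
      push_cast
      rw [add_mul, Complex.exp_add]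
      ring
    have h2 : 2 * Real.pi * I * ((2 * (-(z * (Complex.exp (t * I) * ξ))).im / √3 : ℝ) : ℂ)
        = ((-(x * Real.sin (t + arg z)) : ℝ) : ℂ) * I := by
      rw [h1, Complex.neg_im, Complex.im_ofReal_mul, Complex.exp_ofReal_mul_I_im, hx]
      push_cast
      ring
    rw [psi, h2, Complex.exp_ofReal_mul_I, add_zero, Real.cos_add_pi_div_two, Real.cos_neg,
      Real.sin_neg]
  simp only [e]
  rw [intervalIntegral.integral_add (Continuous.intervalIntegrable (by fun_prop) _ _)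
    (Continuous.intervalIntegrable (by fun_prop) _ _), intervalIntegral.integral_mul_const,
    intervalIntegral.integral_ofReal, intervalIntegral.integral_ofReal]
  refine (norm_add_le _ _).trans ?_
  rw [norm_mul, Complex.norm_I, mul_one, Complex.norm_real, Complex.norm_real, Real.norm_eq_abs,
    Real.norm_eq_abs]
  have h5 := hk_A_dec (arg z) 0 (hξ.trans hξx)
  have h6 := hk_A_dec (arg z) (Real.pi / 2) (hξ.trans hξx)
  have h7 : (√(1 + x))⁻¹ ≤ (√(1 + ξ))⁻¹ := by gcongr
  unfold hkA at h5 h6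
  linarith

/-- The thin annulus. -/
def hkAn (T : ℝ) : Set ℂ := Metric.closedBall 0 (Real.exp (1 / (2 * T))) \ Metric.ball 0 1

theorem hk_An_closed (T : ℝ) : IsClosed (hkAn T) :=
  Metric.isClosed_closedBall.sdiff Metric.isOpen_ball

theorem hk_An_mem {T : ℝ} (hT : 1 ≤ T) {z : ℂ} (h0 : 0 ≤ T * Real.log (‖z‖ ^ 2))
    (h1 : T * Real.log (‖z‖ ^ 2) ≤ 1) (hz : z ≠ 0) : z ∈ hkAn T := by
  have hn : 0 < ‖z‖ := norm_pos_iff.2 hz
  rw [Real.log_pow] at h0 h1
  push_cast at h0 h1
  have h2 : 0 ≤ Real.log ‖z‖ := by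
    by_contra h
    have : T * (2 * Real.log ‖z‖) < 0 := mul_neg_of_pos_of_neg (by linarith) (by linarith)
    linarith
  refine ⟨?_, ?_⟩
  · rw [mem_closedBall_zero_iff, ← Real.log_le_iff_le_exp hn, le_div_iff₀ (by linarith)]
    linarith
  · rw [mem_ball_zero_iff, not_lt]
    exact (Real.log_nonneg_iff hn).1 h2

theorem hk_An_norm {T : ℝ} (hT : 1 ≤ T) {z : ℂ} (hz : z ∈ hkAn T) : 1 ≤ ‖z‖ ∧ ‖z‖ ≤ 2 := by
  refine ⟨by simpa using hz.2, (mem_closedBall_zero_iff.1 hz.1).trans ?_⟩
  have h1 : 1 / (2 * T) ≤ 1 / 2 := by gcongr; linarith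
  have h0 : 0 ≤ 1 / (2 * T) := by positivity
  have h2 := Real.abs_exp_sub_one_le (x := 1 / (2 * T)) (by rw [abs_of_nonneg h0]; linarith)
  rw [abs_of_nonneg h0] at h2
  linarith [(abs_le.1 h2).2]

theorem hk_An_vol {T : ℝ} (hT : 1 ≤ T) : volume.real (hkAn T) ≤ 7 / T := by
  have h0 : 0 ≤ 1 / T := by positivity
  have h1 : 1 / T ≤ 1 := by rw [div_le_one (by linarith)]; exact hT
  have h2 := Real.abs_exp_sub_one_le (x := 1 / T) (by rw [abs_of_nonneg h0]; exact h1)
  rw [abs_of_nonneg h0] at h2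
  have e : Real.exp (1 / (2 * T)) ^ 2 = Real.exp (1 / T) := by
    rw [← Real.exp_nat_mul]
    congr 1
    field_simp
    norm_num
  rw [hkAn, measureReal_sdiff (Metric.ball_subset_closedBall.trans
    (Metric.closedBall_subset_closedBall (Real.one_le_exp (by positivity)))) measurableSet_ball
    measure_closedBall_lt_top.ne]
  simp only [Measure.real, Complex.volume_closedBall, Complex.volume_ball, ENNReal.toReal_mul,
    ENNReal.toReal_pow, ENNReal.toReal_ofReal (Real.exp_pos _).le, ENNReal.ofReal_one,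
    ENNReal.toReal_one, ENNReal.coe_toReal, NNReal.coe_real_pi, e]
  have h3 := (abs_le.1 h2).2
  have h4 := Real.pi_lt_d2
  have h5 : 7 / T = 7 * (1 / T) := by ring
  rw [h5]
  nlinarith [Real.pi_pos]

theorem hk_An_int {F : Type} [NormedAddCommGroup F] [NormedSpace ℝ F] {T M : ℝ} (hT : 1 ≤ T)
    (hM : 0 ≤ M) {g : ℂ → F} (h0 : ∀ z, z ∉ hkAn T → g z = 0) (h1 : ∀ z ∈ hkAn T, ‖g z‖ ≤ M) :
    ‖∫ z, g z‖ ≤ 7 * M / T := by
  have hfin : volume (hkAn T) ≠ ⊤ :=
    ((measure_mono Set.sdiff_subset).trans_lt measure_closedBall_lt_top).ne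
  have hm := (hk_An_closed T).measurableSet
  have h := norm_integral_le_of_norm_le (f := g) (g := (hkAn T).indicator fun _ => M)
    ((integrableOn_const hfin).integrable_indicator hm) (Eventually.of_forall fun z => by
      by_cases hz : z ∈ hkAn T
      · rw [Set.indicator_of_mem hz]; exact h1 z hz
      · rw [Set.indicator_of_notMem hz, h0 z hz, norm_zero])
  rw [integral_indicator_const _ hm, smul_eq_mul] at h
  calc _ ≤ _ := h
    _ ≤ 7 / T * M := by gcongr; exact hk_An_vol hT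
    _ = _ := by ring

theorem hk_two : ‖((2 / √3 : ℝ) : ℂ)‖ ≤ 2 := by
  rw [Complex.norm_real, Real.norm_of_nonneg (by positivity)]
  exact div_le_self (by norm_num) (Real.one_le_sqrt.2 (by norm_num))

/-- Decay of order one half for radial functions on the annulus. -/
theorem hk_half {T : ℝ} (hT : 1 ≤ T) {f : ℂ → ℂ} (hi : Integrable f)
    (hr : ∀ u z : ℂ, ‖u‖ = 1 → f (u * z) = f z) (h0 : ∀ z, z ∉ hkAn T → f z = 0)
    (h1 : ∀ z, ‖f z‖ ≤ 1) {ξ : ℝ} (hξ : 0 ≤ ξ) : ‖ft f ξ‖ ≤ 100 * T⁻¹ * (√(1 + ξ))⁻¹ := by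
  have e1 : ∀ t : ℝ, ft f (Complex.exp (t * I) * ξ) = ft f ξ := fun t => by
    have := ft_rot (f := f) (k := 1) (Complex.norm_exp_ofReal_mul_I t)
      (fun z => by rw [hr _ _ (Complex.norm_exp_ofReal_mul_I t), one_mul]) ξ
    rwa [one_mul] at this
  have hI : Integrable (Function.uncurry fun (t : ℝ) (z : ℂ) =>
      f z * psi (-(z * (Complex.exp (t * I) * ξ))))
      ((volume.restrict (Set.uIoc (-Real.pi) Real.pi)).prod volume) := by
    have h2 : Integrable (fun _ : ℝ => (1 : ℂ)) (volume.restrict (Set.uIoc (-Real.pi) Real.pi)) :=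
      integrableOn_const (by simp [Set.uIoc])
    have h3 := (h2.mul_prod hi).mul_bdd (c := 1)
      (g := fun p : ℝ × ℂ => psi (-(p.2 * (Complex.exp (p.1 * I) * ξ))))
      (continuous_psi.comp (by fun_prop)).aestronglyMeasurable
      (Eventually.of_forall fun p => (norm_psi _).le)
    refine h3.congr (Eventually.of_forall fun p => ?_)
    simp only [Function.uncurry, one_mul]
  have h2 : ((2 * Real.pi : ℝ) : ℂ) * ft f ξ = ((2 / √3 : ℝ) : ℂ) *
      ∫ z, f z * ∫ t in (-Real.pi)..Real.pi, psi (-(z * (Complex.exp (t * I) * ξ))) := by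
    simp only [← intervalIntegral.integral_const_mul]
    rw [← intervalIntegral_integral_swap hI, ← intervalIntegral.integral_const_mul]
    have e2 : ∀ t : ℝ, ((2 / √3 : ℝ) : ℂ) * ∫ z, f z * psi (-(z * (Complex.exp (t * I) * ξ)))
      = ft f ξ := e1
    simp only [e2]
    rw [intervalIntegral.integral_const, Complex.real_smul]
    push_cast
    ring
  have h3 := hk_An_int hT (M := 40 * (√(1 + ξ))⁻¹) (by positivity)
    (g := fun z => f z * ∫ t in (-Real.pi)..Real.pi, psi (-(z * (Complex.exp (t * I) * ξ))))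
    (fun z hz => by simp only [h0 z hz, zero_mul]) (fun z hz => by
      rw [norm_mul]
      exact (mul_le_mul (h1 z) (hk_circle z (hk_An_norm hT hz).1 hξ) (norm_nonneg _)
        zero_le_one).trans (one_mul _).le)
  have h4 := congrArg norm h2
  rw [norm_mul, norm_mul, Complex.norm_real, Real.norm_of_nonneg (by positivity)] at h4
  have h5 := mul_le_mul hk_two h3 (norm_nonneg _) zero_le_two
  rw [← h4] at h5
  have h6 : 6 * ‖ft f ξ‖ ≤ 2 * Real.pi * ‖ft f ξ‖ := by gcongr; linarith [Real.pi_gt_three]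
  have h7 : 2 * (7 * (40 * (√(1 + ξ))⁻¹) / T) = 560 * (T⁻¹ * (√(1 + ξ))⁻¹) := by ring
  have h8 : 0 ≤ T⁻¹ * (√(1 + ξ))⁻¹ := by positivity
  rw [mul_assoc]
  linarith

end Pat
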