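import Vale.Agent.P006.IfB
import Vale.Agent.P026.Rearr
import Vale.Agent.P026.Sym

/-! P006: large sieve for families with non-cube ratios. -/

noncomputable section
namespace Pat
open QRH Complex MeasureTheory Filter
open scoped ComplexConjugate Classical ContDiff Topology

theorem hM1_bump (n : ℕ) : ∃ (φ : ℝ → ℝ) (D : ℝ), 0 < D ∧ BD n (fun v => (φ v : ℂ)) D ∧
    (∀ v, 0 ≤ φ v) ∧ (∀ v, φ v ≤ 1) ∧ ∀ v, -2 ≤ v → v ≤ 2 → φ v = 1 := by
  let b : ContDiffBump (0 : ℝ) := ⟨2, 3, by norm_num, by norm_num⟩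
  have h1 : ContDiff ℝ ∞ fun v => (b v : ℂ) := ofRealCLM.contDiff.comp b.contDiff
  have h2 : HasCompactSupport fun v => (b v : ℂ) :=
    b.hasCompactSupport.comp_left (g := fun x : ℝ => (x : ℂ)) ofReal_zero
  have h3 : ∀ j : ℕ, ∃ D : ℝ, ∀ v, ‖iteratedDeriv j (fun v => (b v : ℂ)) v‖ ≤ D := fun j => by
    obtain ⟨D, hD⟩ := (h2.iteratedFDeriv (𝕜 := ℝ) j).exists_bound_of_continuous
      (h1.continuous_iteratedFDeriv (by exact_mod_cast le_top))
    exact ⟨D, fun v => by rw [← norm_iteratedFDeriv_eq_norm_iteratedDeriv]; exact hD v⟩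
  choose D hD using h3
  refine ⟨b, 1 + ∑ j ∈ Finset.range (n + 1), |D j|, by positivity, ⟨h1, fun v hv => ?_,
    fun j hj v => ?_⟩, fun v => b.nonneg, fun v => b.le_one, fun v h h' => ?_⟩
  · have h4 : v ∈ Function.support b := fun h => hv (by rw [h, ofReal_zero])
    rw [b.support_eq, Metric.mem_ball, Real.dist_eq, sub_zero, abs_lt] at h4
    exact ⟨h4.1.le, h4.2.le⟩
  · have h4 := Finset.single_le_sum (f := fun j => |D j|) (fun j _ => abs_nonneg _)
      (Finset.mem_range.2 (Nat.lt_succ_of_le hj))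
    linarith [hD j v, le_abs_self (D j)]
  · refine b.one_of_mem_closedBall ?_
    rw [Metric.mem_closedBall, Real.dist_eq, sub_zero, abs_le]
    exact ⟨h, h'⟩

theorem hM1_expand (hb : BA) (T Z : Finset E) (w : E → ℝ) (x : E → ℂ) :
    ((∑ n ∈ T, w n * ‖∑ z ∈ Z, x z * xv c3 n z‖ ^ 2 : ℝ) : ℂ) =
      ∑ z ∈ Z, ∑ z' ∈ Z, x z * conj (x z') * ∑ n ∈ T, xv c3 n (z * z' ^ 2) * w n := by
  simp_rw [Finset.mul_sum]
  rw [Finset.sum_congr rfl fun z _ => Finset.sum_comm, Finset.sum_comm]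
  push_cast
  refine Finset.sum_congr rfl fun n _ => ?_
  rw [← Complex.mul_conj', map_sum, Finset.sum_mul_sum, Finset.mul_sum]
  refine Finset.sum_congr rfl fun z _ => ?_
  rw [Finset.mul_sum]
  refine Finset.sum_congr rfl fun z' _ => ?_
  rw [xv_mul ch_c3, ← hb.conj_xv, map_mul]
  ring

theorem hM1_quad (Z : Finset E) (x : E → ℂ) (F : E → E → ℂ) {A M : ℝ} (hM : 0 ≤ M)
    (h1 : ∀ z ∈ Z, ‖F z z‖ ≤ A) (h2 : ∀ z ∈ Z, ∀ z' ∈ Z, z ≠ z' → ‖F z z'‖ ≤ M) :
    ‖∑ z ∈ Z, ∑ z' ∈ Z, x z * conj (x z') * F z z'‖ ≤ (A + Z.card * M) * ∑ z ∈ Z, ‖x z‖ ^ 2 := by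
  have h3 : ∀ z ∈ Z, ‖∑ z' ∈ Z, x z * conj (x z') * F z z'‖ ≤
      A * ‖x z‖ ^ 2 + M * (‖x z‖ * ∑ z' ∈ Z, ‖x z'‖) := fun z hz => by
    refine (norm_sum_le _ _).trans ?_
    have h4 : ∀ z' ∈ Z, ‖x z * conj (x z') * F z z'‖ ≤
        (if z = z' then A * ‖x z‖ ^ 2 else 0) + M * (‖x z‖ * ‖x z'‖) := fun z' hz' => by
      rw [norm_mul, norm_mul, Complex.norm_conj]
      have h5 : 0 ≤ ‖x z‖ * ‖x z'‖ := by positivity
      split_ifs with h
      · subst h
        have := mul_le_mul_of_nonneg_left (h1 z hz) h5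
        have := mul_nonneg hM h5
        nlinarith
      · have := mul_le_mul_of_nonneg_left (h2 z hz z' hz' h) h5
        linarith
    refine (Finset.sum_le_sum h4).trans_eq ?_
    rw [Finset.sum_add_distrib, Finset.sum_ite_eq, if_pos hz, ← Finset.mul_sum, ← Finset.mul_sum]
  refine (norm_sum_le _ _).trans ((Finset.sum_le_sum h3).trans ?_)
  rw [Finset.sum_add_distrib, ← Finset.mul_sum, ← Finset.mul_sum, ← Finset.sum_mul, ← sq, add_mul]
  have h4 := mul_le_mul_of_nonneg_left (sq_sum_le_card_mul_sum_sq (s := Z) (f := fun z => ‖x z‖)) hM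
  linarith

theorem hM1_ne {c : E} {R : ℝ} (h : c ∈ pball R) : c ≠ 0 :=
  (mem_ball.1 (Finset.mem_filter.1 h).1).1

theorem hM1 (hb : BA) (h : PVu1) : HM1 := by
  intro ε hε
  obtain ⟨n, C, hC, h⟩ := h
  obtain ⟨φ, D, hD, hφ, hφ0, hφ1, hφ2⟩ := hM1_bump n
  obtain ⟨C2, hC2, h2⟩ := pow_card_le (A := 2) zero_le_two (half_pos hε)
  have he := Real.exp_pos 3
  refine ⟨12 * Real.exp 3 + C * D * C2, by positivity, fun Z K N a hK hN ha hZ hZ' => ?_⟩
  have hK0 : 0 < K := by linarith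
  have hKε : 0 < K ^ (1 + ε) := by positivity
  set I := (pball N).filter fun n : E => N / 3 ≤ nm n with hI
  have h3 : ∀ z, Dn a N z = ∑ n ∈ I, a n * xv c3 n z := fun z => by
    rw [Dn, hI, Finset.sum_filter]
    refine Finset.sum_congr rfl fun n _ => ?_
    split_ifs with h4
    · rfl
    · rw [not_not.1 fun h5 => h4 (ha n h5), zero_mul]
  simp_rw [h3]
  have h4 := duality I Z (fun n z => xv c3 n z)
    (K := 12 * (N * Real.exp 3) + Z.card * (C * D * C2 * K ^ (1 + ε))) (by positivity) ?_ a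
  · refine h4.trans (mul_le_mul ?_ (Finset.sum_le_sum_of_subset_of_nonneg
      (Finset.filter_subset _ _) fun _ _ _ => by positivity) (by positivity) (by positivity))
    have h5 : 0 ≤ C * D * C2 * N := by positivity
    have h6 : 0 ≤ 12 * Real.exp 3 * (Z.card * K ^ (1 + ε)) := by positivity
    nlinarith
  intro x
  have h5 : ∑ n ∈ I, ‖∑ z ∈ Z, x z * xv c3 n z‖ ^ 2 ≤ ∑ n ∈ pball (N * Real.exp 3),
      φ (Real.log (nm n / N)) * ‖∑ z ∈ Z, x z * xv c3 n z‖ ^ 2 := by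
    refine le_trans (Finset.sum_le_sum fun n hn => ?_) (Finset.sum_le_sum_of_subset_of_nonneg
      (s := I) (fun n hn => ?_) fun n _ _ => mul_nonneg (hφ0 _) (sq_nonneg _))
    · obtain ⟨h6, h7⟩ := Finset.mem_filter.1 hn
      have h8 := ((hb.mem_pball N n).1 h6).2
      have h9 : (0 : ℝ) < nm n / N := div_pos (by linarith) hN
      rw [hφ2 _ ?_ ?_, one_mul]
      · rw [Real.le_log_iff_exp_le h9, le_div_iff₀ hN, Real.exp_neg]
        have h10 : 3 ≤ Real.exp 2 := by linarith [Real.add_one_le_exp 2]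
        have h11 := inv_anti₀ (by norm_num) h10
        nlinarith
      · exact (Real.log_nonpos h9.le ((div_le_one hN).2 h8)).trans zero_le_two
    · obtain ⟨h6, h7⟩ := (hb.mem_pball N n).1 (Finset.mem_filter.1 hn).1
      refine (hb.mem_pball _ n).2 ⟨h6, h7.trans (le_mul_of_one_le_right hN.le ?_)⟩
      exact Real.one_le_exp (by norm_num)
  refine h5.trans ((le_abs_self _).trans ?_)
  rw [← Real.norm_eq_abs, ← Complex.norm_real, hM1_expand hb]
  refine hM1_quad Z x _ (by positivity) (fun z _ => ?_) fun z hz z' hz' hne => ?_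
  · refine (norm_sum_le _ _).trans ((Finset.sum_le_card_nsmul _ _ 1 fun n _ => ?_).trans ?_)
    · rw [norm_mul, Complex.norm_real, Real.norm_of_nonneg (hφ0 _)]
      exact mul_le_one₀ (norm_xv_le ch_c3 _ _) (hφ0 _) (hφ1 _)
    · rw [nsmul_eq_mul, mul_one]
      refine le_trans ?_ (card_ball_le (by positivity))
      exact_mod_cast Finset.card_filter_le _ _
  · obtain ⟨hz1, hz2⟩ := hZ z hz
    obtain ⟨hz1', hz2'⟩ := hZ z' hz'
    have h6 := h _ D N (N * Real.exp 3) ∅ (z * z' ^ 2) hφ hN (fun v hv =>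
      mul_le_mul_of_nonneg_left (Real.exp_le_exp.2 (hφ.supp v hv).2) hN.le)
      (mul_ne_zero hz1 (pow_ne_zero 2 hz1')) (hZ' z hz z' hz' hne)
    simp only [Finset.disjoint_empty_right, if_true, Finset.empty_union] at h6
    refine h6.trans ?_
    have h7 : Ns (fac (z * z' ^ 2)) ≤ K ^ 2 := by
      rw [fac_mul hz1 (pow_ne_zero 2 hz1'), fac_pow hz1' two_ne_zero, sq]
      exact (Ns_union_le _ _).trans (mul_le_mul hz2 hz2' (Ns_pos _).le hK0.le)
    have h8 : √(Ns (fac (z * z' ^ 2))) ≤ K := Real.sqrt_le_iff.2 ⟨hK0.le, h7⟩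
    have h9 : Ns (fac (z * z' ^ 2)) ^ (ε / 2) ≤ K ^ ε := by
      refine (Real.rpow_le_rpow (Ns_pos _).le h7 (half_pos hε).le).trans_eq ?_
      rw [← Real.rpow_two, ← Real.rpow_mul hK0.le]
      ring_nf
    have h10 := (h2 (fac (z * z' ^ 2))).trans (mul_le_mul_of_nonneg_left h9 hC2.le)
    rw [Real.rpow_add hK0, Real.rpow_one]
    calc _ ≤ C * D * (C2 * K ^ ε) * K := by gcongr
      _ = _ := by ring

theorem hM1_piece {M : Type} [AddCommMonoid M] (hb : BA) (N A B : ℝ) (F : E → M) :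
    ∑ n ∈ pball N with A ≤ (nm n : ℝ) ∧ (nm n : ℝ) < B, F n =
      ∑ n ∈ pball (min N B), if A ≤ (nm n : ℝ) ∧ (nm n : ℝ) < B then F n else 0 := by
  rw [← Finset.sum_filter]
  refine Finset.sum_congr ?_ fun _ _ => rfl
  ext n
  simp only [Finset.mem_filter, hb.mem_pball, le_min_iff]
  exact ⟨fun h => ⟨⟨h.1.1, h.1.2, h.2.2.le⟩, h.2⟩, fun h => ⟨⟨h.1.1, h.1.2.1⟩, h.2⟩⟩

theorem hM1g (hb : BA) (h : HM1) : HM1g := by
  intro ε hε
  obtain ⟨C, hC, h⟩ := h ε hε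
  obtain ⟨C2, hC2, h2⟩ := log_le_rpow hε
  refine ⟨C2 * C, by positivity, fun Z K N a hK hN hZ hZ' => ?_⟩
  obtain ⟨J, hJ1, hJ2⟩ := exists_dyadic hN
  have hK0 : 0 < K := by linarith
  have h3 : ∀ n ∈ pball N, (1 : ℝ) ≤ nm n ∧ (nm n : ℝ) < 2 ^ (J + 1) := fun n hn =>
    ⟨one_le_nmR (hM1_ne hn), ((hb.mem_pball N n).1 hn).2.trans_lt hJ2⟩
  let b : ℕ → E → ℂ := fun j n =>
    if (2 : ℝ) ^ j ≤ nm n ∧ (nm n : ℝ) < 2 ^ (j + 1) then a n else 0
  have h4 : ∀ z, Dn a N z = ∑ j ∈ Finset.range (J + 1), Dn (b j) (min N (2 ^ (j + 1))) z :=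
    fun z => by
      rw [Dn, sum_dyadic _ (fun n : E => (nm n : ℝ)) _ h3]
      refine Finset.sum_congr rfl fun j _ => ?_
      rw [hM1_piece hb, Dn]
      exact Finset.sum_congr rfl fun n _ => by simp only [b, ite_mul, zero_mul]
  have h5 : nrmE a N = ∑ j ∈ Finset.range (J + 1), nrmE (b j) (min N (2 ^ (j + 1))) := by
    rw [nrmE, sum_dyadic _ (fun n : E => (nm n : ℝ)) _ h3]
    refine Finset.sum_congr rfl fun j _ => ?_
    rw [hM1_piece hb, nrmE]
    refine Finset.sum_congr rfl fun n _ => ?_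
    simp only [b]
    split_ifs <;> simp
  have h6 : ∀ j ∈ Finset.range (J + 1), ∑ z ∈ Z, ‖Dn (b j) (min N (2 ^ (j + 1))) z‖ ^ 2 ≤
      C * (N + Z.card * K ^ (1 + ε)) * nrmE (b j) (min N (2 ^ (j + 1))) := fun j _ => by
    refine (h Z K _ (b j) hK (lt_min (by linarith) (by positivity)) (fun n hn => ?_) hZ hZ').trans ?_
    · have h7 : (2 : ℝ) ^ j ≤ nm n := by
        by_contra h8
        exact hn (if_neg fun h9 => h8 h9.1)
      have h8 := min_le_right N (2 ^ (j + 1))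
      have h9 : (0 : ℝ) < 2 ^ j := by positivity
      rw [pow_succ] at h8 ⊢
      linarith
    · have h7 : 0 ≤ nrmE (b j) (min N (2 ^ (j + 1))) := Finset.sum_nonneg fun _ _ => sq_nonneg _
      have h8 := min_le_left N (2 ^ (j + 1))
      gcongr
  have h7 : 0 ≤ nrmE a N := Finset.sum_nonneg fun _ _ => sq_nonneg _
  simp_rw [h4]
  refine (Finset.sum_le_sum fun z _ => norm_sum_sq_le _ _).trans ?_
  rw [← Finset.mul_sum, Finset.sum_comm, Finset.card_range]
  refine (mul_le_mul_of_nonneg_left (Finset.sum_le_sum h6) (by positivity)).trans ?_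
  rw [← Finset.mul_sum, ← h5]
  push_cast
  calc _ ≤ C2 * N ^ ε * (C * (N + Z.card * K ^ (1 + ε)) * nrmE a N) :=
        mul_le_mul_of_nonneg_right (h2 N J hN hJ1) (by positivity)
    _ = _ := by ring

end Pat
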