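import Vale.Agent.P006.HM2Aux

/-! Restricted large sieve. -/

noncomputable section
namespace Pat
open QRH Complex MeasureTheory Filter
open scoped ComplexConjugate Classical ContDiff Topology

theorem HM2_S1 (hb : BA) (h1 : PoiU) (h2 : NS) {ε : ℝ} (hε : 0 < ε) (hε1 : ε ≤ 1) :
    ∃ C : ℝ, 0 < C ∧ ∀ (x : Finset P → ℂ) (A B N K G Z V : ℝ) (S : Finset (Finset P)),
      1 / 2 ≤ A → A ≤ N → 1 ≤ N → 1 ≤ B → B ≤ K → K ≤ Z → 1 ≤ G → Sup x B (B * Real.exp (1 / 1)) →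
      (∀ c, x c ≠ 0 → c ∈ S) → (S.card : ℝ) ≤ V →
      S1 x A B 1 ≤ C * (Z ^ ε) ^ 3 * (G * (N + N ^ (1 / 3 : ℝ) * K) + V * K / G)
        * nrm2 x (3 * B) := by
  obtain ⟨C1, hC1, h1⟩ := h1 2 le_rfl
  obtain ⟨C2, hC2, h2⟩ := HM2_term hb h2 hε hε1
  obtain ⟨C3, hC3, h3⟩ := pow_card_le (A := 4) (by norm_num) hε
  refine ⟨C1 * (1 + C2 + C2 * (C3 * 3)), by positivity,
    fun x A B N K G Z V S hA hAN hN hB hBK hKZ hG hsup hS hV => ?_⟩
  have hA0 : 0 < A := by linarith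
  have hB0 : 0 < B := by linarith
  have hG0 : 0 < G := by linarith
  have hK0 : 0 < K := by linarith
  have hN0 : 0 < N := by linarith
  have hBZ : B ≤ Z := hBK.trans hKZ
  have hZ : 1 ≤ Z := hB.trans hBZ
  have hZ0 : 0 < Z := by linarith
  have hV0 : 0 ≤ V := (Nat.cast_nonneg _).trans hV
  have hz : 1 ≤ Z ^ ε := Real.one_le_rpow hZ hε.le
  have hn := HM2_nrm2_nonneg x (3 * B)
  have key := h1 x A B 1 (fun _ => False) hA0 hB0 le_rfl hsup
  have hM : MainM x A B 1 (fun _ => False) = 0 := by simp [MainM]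
  rw [hM, sub_zero, Complex.norm_real] at key
  have h4 : ∀ n ∈ sqf (3 * B), (4 : ℝ) ^ n.card ≤ C3 * 3 * Z ^ ε := by
    intro n hn
    refine (h3 n).trans ?_
    rw [mul_assoc]
    refine mul_le_mul_of_nonneg_left ?_ hC3.le
    have b1 : Ns n ^ ε ≤ (3 * Z) ^ ε :=
      Real.rpow_le_rpow (Ns_pos n).le ((mem_sqf.1 hn).trans (by linarith)) hε.le
    rw [Real.mul_rpow (by norm_num) hZ0.le] at b1
    refine b1.trans (mul_le_mul_of_nonneg_right ?_ (by positivity))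
    simpa using Real.rpow_le_rpow_of_exponent_le (show (1 : ℝ) ≤ 3 by norm_num) hε1
  have hT := fun d f e Pr hfd => h2 x A B N K G Z V S d f e Pr hA hAN hN hB hBK hKZ hG hfd hS hV
  obtain ⟨Φ, hΦ⟩ : ∃ Φ, Φ = G * (N + N ^ (1 / 3 : ℝ) * K) + V * K / G := ⟨_, rfl⟩
  rw [← hΦ] at hT ⊢
  have hAΦ : A ≤ Φ := by
    have b1 : 0 ≤ N ^ (1 / 3 : ℝ) * K := by positivity
    have b2 : 0 ≤ V * K / G := by positivity
    have b3 : N + N ^ (1 / 3 : ℝ) * K ≤ G * (N + N ^ (1 / 3 : ℝ) * K) :=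
      le_mul_of_one_le_left (by positivity) hG
    linarith
  have hΦ0 : 0 ≤ Φ := by linarith
  generalize Z ^ ε = z at *
  have z0 : 0 ≤ z := by linarith
  have z2 : z ^ 2 ≤ z ^ 3 := pow_le_pow_right₀ hz (by norm_num)
  have z3 : 1 ≤ z ^ 3 := one_le_pow₀ hz
  have t1 : A / 1 * nrm2 x (3 * B) ≤ z ^ 3 * Φ * nrm2 x (3 * B) := by
    rw [div_one]
    exact mul_le_mul_of_nonneg_right (hAΦ.trans (le_mul_of_one_le_left hΦ0 z3)) hn
  have t2 : Rest0 x A B 1 2 (fun _ => False) ≤ C2 * (z ^ 3 * Φ * nrm2 x (3 * B)) := by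
    have b1 := hT ∅ ∅ ∅ (fun _ => ¬ False) (Finset.Subset.refl _)
    simp only [Ns_empty, mul_one, one_mul, div_one, one_pow, Finset.empty_subset,
      Finset.disjoint_empty_right, and_self, if_true, Finset.empty_union] at b1
    refine le_trans b1 ?_
    rw [← mul_assoc, ← mul_assoc]
    exact mul_le_mul_of_nonneg_right (mul_le_mul_of_nonneg_right
      (mul_le_mul_of_nonneg_left z2 hC2.le) hΦ0) hn
  have t3 : RestN x A B 1 2 ≤ C2 * (C3 * 3) * (z ^ 3 * Φ * nrm2 x (3 * B)) := by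
    have b1 := HM2_cnt (3 * B) (fun n => ‖x n‖ ^ 2) (fun n => by positivity)
      (fun d e => d ∪ e ≠ ∅)
    have b2 : ∑ n ∈ sqf (3 * B), (4 : ℝ) ^ n.card * ‖x n‖ ^ 2 ≤ C3 * 3 * z * nrm2 x (3 * B) := by
      rw [nrm2, Finset.mul_sum]
      exact Finset.sum_le_sum fun n hn => mul_le_mul_of_nonneg_right (h4 n hn) (by positivity)
    have b3 := mul_le_mul_of_nonneg_left (b1.trans b2) (show 0 ≤ C2 * z ^ 2 * Φ by positivity)
    refine le_trans ?_ (b3.trans (le_of_eq (by ring)))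
    rw [RestN, Finset.mul_sum]
    refine Finset.sum_le_sum fun d _ => ?_
    rw [Finset.mul_sum]
    refine Finset.sum_le_sum fun f hf => ?_
    rw [Finset.mul_sum]
    convert Finset.sum_le_sum fun e _ => hT d f e (fun _ => True) (Finset.mem_powerset.1 hf)
  refine (le_abs_self _).trans (key.trans ?_)
  rw [show C1 * (1 + C2 + C2 * (C3 * 3)) * z ^ 3 * Φ * nrm2 x (3 * B)
    = C1 * (z ^ 3 * Φ * nrm2 x (3 * B) + C2 * (z ^ 3 * Φ * nrm2 x (3 * B))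
      + C2 * (C3 * 3) * (z ^ 3 * Φ * nrm2 x (3 * B))) by ring]
  exact mul_le_mul_of_nonneg_left (by linarith) hC1.le

theorem HM2_cover (hb : BA) : ∃ c : ℝ, 0 < c ∧ ∀ (N M : ℝ) (F : E → ℝ), 1 ≤ N → 0 ≤ M →
    (∀ n, 0 ≤ F n) → (∀ A : ℝ, 1 / 2 ≤ A → A ≤ N →
      ∑ a ∈ pball (3 * A), Om (1 * Real.log (nm a / A)) * F a ≤ M) →
    ∑ n ∈ pball N, F n ≤ c * (4 * Real.log N + 1) * M := by
  obtain ⟨c, hc, hO⟩ := hb.Om_low
  refine ⟨c⁻¹, by positivity, fun N M F hN hM hF h => ?_⟩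
  have hlN : 0 ≤ Real.log N := Real.log_nonneg hN
  have hmap : ∀ n ∈ pball N, ⌊4 * Real.log (nm n)⌋₊ ∈ Finset.range (⌊4 * Real.log N⌋₊ + 1) := by
    intro n hn
    obtain ⟨h1, h2⟩ := (hb.mem_pball _ _).1 hn
    have h3 := one_le_nmR (primary_ne_zero h1)
    refine Finset.mem_range.2 (Nat.lt_succ_of_le (Nat.floor_mono ?_))
    have := Real.log_le_log (by linarith) h2
    linarith
  rw [← Finset.sum_fiberwise_of_maps_to hmap]
  have hi : ∀ i ∈ Finset.range (⌊4 * Real.log N⌋₊ + 1),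
      ∑ n ∈ pball N with ⌊4 * Real.log (nm n)⌋₊ = i, F n ≤ c⁻¹ * M := by
    intro i hi
    have hi1 : (i : ℝ) ≤ 4 * Real.log N :=
      (Nat.le_floor_iff (by linarith)).1 (Nat.lt_succ_iff.1 (Finset.mem_range.1 hi))
    have hi0 : (0 : ℝ) ≤ i := Nat.cast_nonneg i
    obtain ⟨A, hA⟩ : ∃ A, A = Real.exp (i / 4 - 3 / 8) := ⟨_, rfl⟩
    have hA0 : 0 < A := by rw [hA]; exact Real.exp_pos _
    have hlA : Real.log A = i / 4 - 3 / 8 := by rw [hA, Real.log_exp]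
    have hA1 : 1 / 2 ≤ A := by
      have := Real.add_one_le_exp ((i : ℝ) / 4 - 3 / 8)
      rw [hA]; linarith
    have hA2 : A ≤ N := by
      rw [← Real.log_le_log_iff hA0 (by linarith)]; linarith
    rw [le_inv_mul_iff₀ hc, Finset.mul_sum]
    have hv : ∀ n ∈ (pball N).filter fun n => ⌊4 * Real.log (nm n)⌋₊ = i,
        3 / 8 ≤ Real.log (nm n / A) ∧ Real.log (nm n / A) ≤ 5 / 8 := by
      intro n hn
      obtain ⟨h1, h2⟩ := Finset.mem_filter.1 hn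
      have h3 := one_le_nmR (primary_ne_zero ((hb.mem_pball _ _).1 h1).1)
      have h4 := Real.log_nonneg h3
      obtain ⟨h5, h6⟩ := (Nat.floor_eq_iff (by linarith)).1 h2
      rw [Real.log_div (by linarith) hA0.ne', hlA]
      constructor <;> linarith
    refine le_trans (Finset.sum_le_sum fun n hn => ?_)
      ((Finset.sum_le_sum_of_subset_of_nonneg ?_ fun n _ _ =>
        mul_nonneg (hb.Om_nonneg _) (hF n)).trans (h A hA1 hA2))
    · rw [one_mul]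
      exact mul_le_mul_of_nonneg_right (hO _ (hv n hn).1 (hv n hn).2) (hF n)
    · intro n hn
      have h1 := ((hb.mem_pball _ _).1 (Finset.mem_filter.1 hn).1).1
      have h3 := one_le_nmR (primary_ne_zero h1)
      refine (hb.mem_pball _ _).2 ⟨h1, ?_⟩
      rw [← div_le_iff₀ hA0]
      have h4 : (nm n : ℝ) / A ≤ Real.exp 1 := by
        rw [← Real.log_le_iff_le_exp (by positivity)]
        linarith [(hv n hn).2]
      linarith [Real.exp_one_lt_d9]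
  refine (Finset.sum_le_sum hi).trans ?_
  rw [Finset.sum_const, Finset.card_range, nsmul_eq_mul, mul_comm c⁻¹ (_ + 1), mul_assoc]
  refine mul_le_mul_of_nonneg_right ?_ (by positivity)
  push_cast
  linarith [Nat.floor_le (show 0 ≤ 4 * Real.log N by linarith)]

theorem hM2 (hb : BA) (h1 : PoiU) (h2 : NS) : HM2 := by
  intro ε hε
  obtain ⟨δ, hδ, hδ1, hδε⟩ : ∃ δ : ℝ, 0 < δ ∧ δ ≤ 1 ∧ δ * 5 ≤ ε :=
    ⟨min 1 (ε / 5), lt_min one_pos (by linarith), min_le_left _ _, by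
      have := min_le_right 1 (ε / 5); linarith⟩
  obtain ⟨C1, hC1, h1⟩ := HM2_S1 hb h1 h2 hδ hδ1
  obtain ⟨C2, hC2, h2⟩ := HM2_cover hb
  obtain ⟨C3, hC3, h3⟩ := log_le_rpow hδ
  refine ⟨C3 * (C2 * (4 / δ + 1)) * C1, by positivity, fun S a K N G Z hK hKZ hN hNZ hG hS => ?_⟩
  have hZ : 1 ≤ Z := hK.trans hKZ
  have hZ0 : 0 < Z := by linarith
  have hG0 : 0 < G := by linarith
  have hK0 : 0 < K := by linarith
  have hN0 : 0 < N := by linarith
  have hz : 1 ≤ Z ^ δ := Real.one_le_rpow hZ hδ.le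
  have hz5 : (Z ^ δ) ^ 5 ≤ Z ^ ε := by
    rw [← Real.rpow_natCast, ← Real.rpow_mul hZ0.le]
    exact Real.rpow_le_rpow_of_exponent_le hZ (by exact_mod_cast hδε)
  have hl : 4 * Real.log N + 1 ≤ (4 / δ + 1) * Z ^ δ := by
    have b1 := Real.log_le_log hN0 hNZ
    have b2 := Real.log_le_rpow_div hZ0.le hδ
    rw [add_mul, show 4 / δ * Z ^ δ = 4 * (Z ^ δ / δ) by ring]
    linarith
  obtain ⟨J, hJ1, hJ2⟩ := exists_dyadic hK
  have hJ := h3 Z J hZ (hJ1.trans hKZ)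
  have h4 := fun x A B hA hAN hB hBK hsup hx =>
    h1 x A B N K G Z S.card S hA hAN hN hB hBK hKZ hG hsup hx le_rfl
  obtain ⟨Φ, hΦ⟩ : ∃ Φ, Φ = G * (N + N ^ (1 / 3 : ℝ) * K) + S.card * K / G := ⟨_, rfl⟩
  have hΦ0 : 0 ≤ Φ := by rw [hΦ]; positivity
  rw [← hΦ] at h4 ⊢
  have hD : ∀ s, Dn a N (pr s) = ∑ n ∈ pball N, a n * xs c3 s n := fun s =>
    Finset.sum_congr rfl fun n hn => by rw [hb.recip1 n s ((hb.mem_pball _ _).1 hn).1]
  simp only [hD]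
  refine duality (pball N) S (fun n s => xs c3 s n) (by positivity) (fun x => ?_) a
  have hdy : ∀ s ∈ S, 1 ≤ Ns s ∧ Ns s < 2 ^ (J + 1) := fun s hs =>
    ⟨one_le_Ns s, (mem_sqf.1 (hS hs)).trans_lt hJ2⟩
  obtain ⟨X, hX⟩ : ∃ X : ℕ → Finset P → ℂ, X = fun j s =>
    if s ∈ S.filter fun s => 2 ^ j ≤ Ns s ∧ Ns s < 2 ^ (j + 1) then x s else 0 := ⟨_, rfl⟩
  have hsub : ∀ j : ℕ, sqf (3 * 2 ^ j) ∩ (S.filter fun s => 2 ^ j ≤ Ns s ∧ Ns s < 2 ^ (j + 1))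
      = S.filter fun s => 2 ^ j ≤ Ns s ∧ Ns s < 2 ^ (j + 1) := fun j => by
    refine Finset.inter_eq_right.2 fun s hs => mem_sqf.2 ?_
    have := (Finset.mem_filter.1 hs).2.2
    have h0 : (0 : ℝ) < 2 ^ j := by positivity
    rw [pow_succ] at this
    linarith
  have e1 : ∀ n, ∑ s ∈ S, x s * xs c3 s n
      = ∑ j ∈ Finset.range (J + 1), ∑ b ∈ sqf (3 * 2 ^ j), X j b * xs c3 b n := by
    intro n
    rw [sum_dyadic S Ns _ hdy]
    refine Finset.sum_congr rfl fun j _ => ?_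
    simp only [hX, ite_mul, zero_mul]
    rw [Finset.sum_ite_mem, hsub]
  have e2 : ∑ s ∈ S, ‖x s‖ ^ 2 = ∑ j ∈ Finset.range (J + 1), nrm2 (X j) (3 * 2 ^ j) := by
    rw [sum_dyadic S Ns _ hdy]
    refine Finset.sum_congr rfl fun j _ => ?_
    simp only [hX, nrm2, apply_ite (fun z : ℂ => ‖z‖ ^ 2), norm_zero, ne_eq, OfNat.ofNat_ne_zero,
      not_false_eq_true, zero_pow]
    rw [Finset.sum_ite_mem, hsub]
  have e3 : ∀ j ∈ Finset.range (J + 1),
      ∑ n ∈ pball N, ‖∑ b ∈ sqf (3 * 2 ^ j), X j b * xs c3 b n‖ ^ 2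
        ≤ C2 * ((4 / δ + 1) * Z ^ δ) * (C1 * (Z ^ δ) ^ 3 * Φ * nrm2 (X j) (3 * 2 ^ j)) := by
    intro j hj
    have hn := HM2_nrm2_nonneg (X j) (3 * 2 ^ j)
    have hj1 : (1 : ℝ) ≤ 2 ^ j := one_le_pow₀ (by norm_num)
    have hj2 : (2 : ℝ) ^ j ≤ K :=
      (pow_le_pow_right₀ (by norm_num) (Nat.lt_succ_iff.1 (Finset.mem_range.1 hj))).trans hJ1
    have hx : ∀ c, X j c ≠ 0 → c ∈ S.filter fun s => 2 ^ j ≤ Ns s ∧ Ns s < 2 ^ (j + 1) := by
      intro c hc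
      by_contra h0
      exact hc (by rw [hX]; exact if_neg h0)
    refine (h2 N _ _ hN (by positivity) (fun n => by positivity) fun A hA hAN =>
      h4 (X j) A (2 ^ j) hA hAN hj1 hj2 (fun c hc => ?_)
        fun c hc => (Finset.mem_filter.1 (hx c hc)).1).trans ?_
    · obtain ⟨b1, b2⟩ := (Finset.mem_filter.1 (hx c hc)).2
      refine ⟨b1, b2.le.trans ?_⟩
      rw [pow_succ]
      refine mul_le_mul_of_nonneg_left ?_ (by positivity)
      linarith [Real.add_one_le_exp (1 / 1 : ℝ)]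
    · exact mul_le_mul_of_nonneg_right (mul_le_mul_of_nonneg_left hl hC2.le) (by positivity)
  have hn0 : 0 ≤ ∑ s ∈ S, ‖x s‖ ^ 2 := Finset.sum_nonneg fun _ _ => by positivity
  calc ∑ n ∈ pball N, ‖∑ s ∈ S, x s * xs c3 s n‖ ^ 2
      ≤ ∑ n ∈ pball N, (J + 1 : ℝ) * ∑ j ∈ Finset.range (J + 1),
          ‖∑ b ∈ sqf (3 * 2 ^ j), X j b * xs c3 b n‖ ^ 2 := by
        refine Finset.sum_le_sum fun n _ => ?_
        rw [e1]
        simpa using norm_sum_sq_le (Finset.range (J + 1))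
          fun j => ∑ b ∈ sqf (3 * 2 ^ j), X j b * xs c3 b n
    _ ≤ (C3 * Z ^ δ) * ∑ j ∈ Finset.range (J + 1),
          C2 * ((4 / δ + 1) * Z ^ δ) * (C1 * (Z ^ δ) ^ 3 * Φ * nrm2 (X j) (3 * 2 ^ j)) := by
        rw [← Finset.mul_sum, Finset.sum_comm]
        exact mul_le_mul hJ (Finset.sum_le_sum e3) (Finset.sum_nonneg fun _ _ =>
          Finset.sum_nonneg fun _ _ => by positivity) (by positivity)
    _ = C3 * (C2 * (4 / δ + 1)) * C1 * (Z ^ δ) ^ 5 * Φ * ∑ s ∈ S, ‖x s‖ ^ 2 := by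
        rw [← Finset.mul_sum, ← Finset.mul_sum, ← e2]; ring
    _ ≤ _ := by
        refine mul_le_mul_of_nonneg_right (mul_le_mul_of_nonneg_right
          (mul_le_mul_of_nonneg_left hz5 (by positivity)) hΦ0) hn0

end Pat
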