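import Vale.Agent.P006.IfB
import Vale.Agent.P026.Sym
import Vale.Agent.P026.Rearr

/-! Restricted large sieve: the terms after Poisson summation. -/

noncomputable section
namespace Pat
open QRH Complex MeasureTheory Filter
open scoped ComplexConjugate Classical ContDiff Topology

theorem HM2_nrm2_nonneg (y : Finset P → ℂ) (L : ℝ) : 0 ≤ nrm2 y L :=
  Finset.sum_nonneg fun _ _ => by positivity

theorem HM2_mono {R K L G V m : ℝ} (hR : 0 < R) (hK : 0 < K) (hL : 0 ≤ L) (hG : 1 ≤ G)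
    (hV : 0 ≤ V) (hm : 1 ≤ m) (h : R ≤ K * m) :
    G * (R + L + (R * L) ^ (2 / 3 : ℝ)) + V * R / G
      ≤ m * (G * (K + L + (K * L) ^ (2 / 3 : ℝ)) + V * K / G) := by
  have hG0 : 0 < G := by linarith
  have hm0 : 0 < m := by linarith
  have a1 : L ≤ m * L := le_mul_of_one_le_left hL hm
  have a2 : (R * L) ^ (2 / 3 : ℝ) ≤ m * (K * L) ^ (2 / 3 : ℝ) := by
    have b1 : (R * L) ^ (2 / 3 : ℝ) ≤ (m * (K * L)) ^ (2 / 3 : ℝ) := by
      refine Real.rpow_le_rpow (by positivity) ?_ (by norm_num)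
      rw [show m * (K * L) = K * m * L by ring]
      exact mul_le_mul_of_nonneg_right h hL
    rw [Real.mul_rpow hm0.le (by positivity)] at b1
    have b2 : m ^ (2 / 3 : ℝ) ≤ m := by
      simpa using Real.rpow_le_rpow_of_exponent_le hm (show (2 / 3 : ℝ) ≤ 1 by norm_num)
    exact b1.trans (mul_le_mul_of_nonneg_right b2 (by positivity))
  have a3 : V * R / G ≤ m * (V * K / G) := by
    rw [show m * (V * K / G) = V * (K * m) / G by ring]
    exact div_le_div_of_nonneg_right (mul_le_mul_of_nonneg_left h hV) hG0.le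
  have a4 : R + L + (R * L) ^ (2 / 3 : ℝ) ≤ m * (K + L + (K * L) ^ (2 / 3 : ℝ)) := by
    rw [mul_add, mul_add, mul_comm m K]; linarith
  have a5 := mul_le_mul_of_nonneg_left a4 hG0.le
  rw [mul_add m, mul_left_comm m G]
  linarith

theorem HM2_Xi (hb : BA) (h2 : NS) {ε : ℝ} (hε : 0 < ε) (hε1 : ε ≤ 1) : ∃ C : ℝ, 0 < C ∧
    ∀ (y : Finset P → ℂ) (L K G Z V : ℝ) (S : Finset (Finset P)) (Pr : E → Prop),
      1 ≤ Z → 0 ≤ L → L ≤ Z → 0 < K → K ≤ Z → 1 ≤ G → (∀ c, y c ≠ 0 → c ∈ S) →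
      (S.card : ℝ) ≤ V → Xi y L K 1 Pr
        ≤ C * Z ^ ε * (G * (K + L + (K * L) ^ (2 / 3 : ℝ)) + V * K / G) * nrm2 y L := by
  obtain ⟨C, hC, h⟩ := h2 ε hε
  obtain ⟨D, hD, hd⟩ := hb.Xi_dyadic (1 + ε) (2 * (1 + ε)) (by linarith) (by linarith)
    (by linarith) (by linarith)
  obtain ⟨hs, hd⟩ := hd 1 le_rfl
  rw [Real.one_rpow, mul_one] at hd
  refine ⟨C * D, by positivity, fun y L K G Z V S Pr hZ hL hLZ hK hKZ hG hS hV => ?_⟩
  have hV0 : 0 ≤ V := (Nat.cast_nonneg _).trans hV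
  have hn := HM2_nrm2_nonneg y L
  have hG0 : 0 < G := by linarith
  have hZ0 : 0 < Z := by linarith
  obtain ⟨F, hF⟩ : ∃ F, F = C * Z ^ ε * (G * (K + L + (K * L) ^ (2 / 3 : ℝ)) + V * K / G)
    * nrm2 y L := ⟨_, rfl⟩
  have hF0 : 0 ≤ F := by rw [hF]; positivity
  have hj : ∀ j : ℕ, max 1 (2 ^ (j + 1) * K / K) = (2 : ℝ) ^ (j + 1) := fun j => by
    rw [mul_div_cancel_right₀ _ hK.ne', max_eq_right (one_le_pow₀ (by norm_num))]
  have key := hb.Xi_split y L K 1 Pr (fun R => F * max 1 (R / K) ^ (1 + ε)) hK le_rfl ?_ ?_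
  · simp only [hj] at key
    rw [div_self hK.ne', max_self, Real.one_rpow, mul_one] at key
    have e1 : ∑' j : ℕ, GM 1 (2 ^ j) * (F * ((2 : ℝ) ^ (j + 1)) ^ (1 + ε))
        = F * ∑' j : ℕ, GM 1 (2 ^ j) * ((2 : ℝ) ^ (j + 1)) ^ (1 + ε) := by
      rw [← tsum_mul_left]
      exact tsum_congr fun j => by ring
    rw [e1, mul_comm _ F, ← mul_add] at key
    refine key.trans ((mul_le_mul_of_nonneg_left hd hF0).trans (le_of_eq ?_))
    rw [hF]; ring
  · intro R hR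
    obtain ⟨m, hm⟩ : ∃ m, m = max 1 (R / K) := ⟨_, rfl⟩
    have m1 : 1 ≤ m := by rw [hm]; exact le_max_left _ _
    have m0 : 0 < m := by linarith
    have m2 : R ≤ K * m := by
      rw [← div_le_iff₀' hK, hm]; exact le_max_right _ _
    have m3 : Z ≤ Z * m := le_mul_of_one_le_right hZ0.le m1
    have a1 := h y L R G (Z * m) V S (hZ.trans m3) (hLZ.trans m3) hR
      (m2.trans (mul_le_mul_of_nonneg_right hKZ m0.le)) hG hS hV
    have a2 := HM2_mono hR hK hL hG hV0 m1 m2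
    simp only [← hm]
    refine (Finset.sum_le_sum_of_subset_of_nonneg (Finset.filter_subset _ _)
      fun _ _ _ => by positivity).trans (a1.trans ?_)
    refine (mul_le_mul_of_nonneg_right (mul_le_mul_of_nonneg_left a2 (by positivity)) hn).trans
      (le_of_eq ?_)
    rw [hF, Real.mul_rpow hZ0.le m0.le, Real.rpow_add m0, Real.rpow_one]
    ring
  · simp only [hj]
    refine (hs.mul_left F).congr fun j => by ring

theorem HM2_nrm (hb : BA) (x : Finset P → ℂ) {B : ℝ} (hB : 0 < B) (d f e : Finset P) (τ : ℝ) :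
    nrm2 (yd x B 1 d f e τ) (3 * B / Ns d)
      ≤ 3 * ∑ c ∈ sqf (3 * B / Ns d), if e ⊆ c ∧ Disjoint c d then ‖x (d ∪ c)‖ ^ 2 else 0 := by
  rw [nrm2, Finset.mul_sum]
  refine Finset.sum_le_sum fun c hc => ?_
  unfold yd
  split_ifs with h
  swap
  · simp
  have p1 := Ns_pos c
  have p2 := Ns_pos d
  have hr : 0 < Ns c * Ns d / B := by positivity
  have hr3 : Ns c * Ns d / B ≤ 3 := by
    rw [div_le_iff₀ hB, ← le_div_iff₀ p2]
    exact mem_sqf.1 hc
  have e1 : (1 / 2 + (τ : ℂ) * ((1 : ℝ) : ℂ) * I).re = 1 / 2 := by simp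
  rw [norm_mul, Complex.norm_cpow_eq_rpow_re_of_pos hr, e1, RCLike.norm_conj, norm_mul, norm_mul,
    hb.norm_gn, mul_one, mul_pow, ← Real.sqrt_eq_rpow, Real.sq_sqrt hr.le, mul_comm]
  refine mul_le_mul hr3 ?_ (by positivity) (by norm_num)
  refine pow_le_pow_left₀ (by positivity) ?_ 2
  exact mul_le_of_le_one_right (norm_nonneg _) (norm_xs_le ch_c3 _ _)

theorem HM2_cnt (R : ℝ) (g : Finset P → ℝ) (hg : ∀ n, 0 ≤ g n) (Q : Finset P → Finset P → Prop) :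
    ∑ d ∈ sqf R, ∑ _f ∈ d.powerset, ∑ e ∈ sqf R with Q d e,
      ∑ c ∈ sqf (R / Ns d), (if e ⊆ c ∧ Disjoint c d then g (d ∪ c) else 0)
      ≤ ∑ n ∈ sqf R, 4 ^ n.card * g n := by
  have a1 : ∀ d ∈ sqf R, ∑ _f ∈ d.powerset, ∑ e ∈ sqf R with Q d e,
      ∑ c ∈ sqf (R / Ns d), (if e ⊆ c ∧ Disjoint c d then g (d ∪ c) else 0)
      ≤ ∑ n ∈ sqf R, if d ⊆ n then 2 ^ n.card * g n else 0 := by
    intro d _
    rw [Finset.sum_const, Finset.card_powerset, nsmul_eq_mul, Finset.sum_comm, Finset.mul_sum]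
    have b1 : ∀ c ∈ sqf (R / Ns d), ((2 ^ d.card : ℕ) : ℝ) * ∑ e ∈ sqf R with Q d e,
        (if e ⊆ c ∧ Disjoint c d then g (d ∪ c) else 0)
        ≤ if Disjoint c d then 2 ^ (d ∪ c).card * g (d ∪ c) else 0 := by
      intro c _
      by_cases h : Disjoint c d
      swap
      · simp [h]
      rw [if_pos h, Finset.card_union_of_disjoint h.symm, pow_add, mul_assoc]
      push_cast
      refine mul_le_mul_of_nonneg_left ?_ (by positivity)
      rw [← Finset.sum_filter, Finset.sum_const, nsmul_eq_mul]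
      refine mul_le_mul_of_nonneg_right ?_ (hg _)
      have : (((sqf R).filter fun e => Q d e).filter fun e => e ⊆ c ∧ Disjoint c d).card
          ≤ c.powerset.card :=
        Finset.card_le_card fun e he => Finset.mem_powerset.2 (Finset.mem_filter.1 he).2.1
      rw [Finset.card_powerset] at this
      exact_mod_cast this
    refine (Finset.sum_le_sum b1).trans ?_
    rw [← Finset.sum_filter, ← Finset.sum_filter]
    rw [← Finset.sum_image (s := (sqf (R / Ns d)).filter fun c => Disjoint c d)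
      (g := fun c => d ∪ c) (f := fun n => 2 ^ n.card * g n)]
    · refine Finset.sum_le_sum_of_subset_of_nonneg ?_ fun n _ _ => mul_nonneg (by positivity) (hg n)
      intro n hn
      obtain ⟨c, hc, rfl⟩ := Finset.mem_image.1 hn
      obtain ⟨h1, h2⟩ := Finset.mem_filter.1 hc
      refine Finset.mem_filter.2 ⟨mem_sqf.2 ?_, Finset.subset_union_left⟩
      rw [Ns_union h2.symm, ← le_div_iff₀' (Ns_pos d)]
      exact mem_sqf.1 h1
    · intro c hc c' hc' h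
      have h1 := (Finset.mem_filter.1 hc).2
      have h2 := (Finset.mem_filter.1 hc').2
      have h3 : (d ∪ c) \ d = (d ∪ c') \ d := congrArg (· \ d) h
      rwa [Finset.union_sdiff_cancel_left h1.symm, Finset.union_sdiff_cancel_left h2.symm] at h3
  refine (Finset.sum_le_sum a1).trans ?_
  rw [Finset.sum_comm]
  refine Finset.sum_le_sum fun n _ => ?_
  rw [← Finset.sum_filter, Finset.sum_const, nsmul_eq_mul, show (4 : ℝ) = 2 * 2 by norm_num,
    mul_pow, mul_assoc]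
  refine mul_le_mul_of_nonneg_right ?_ (mul_nonneg (by positivity) (hg n))
  have : ((sqf R).filter fun d => d ⊆ n).card ≤ n.powerset.card :=
    Finset.card_le_card fun e he => Finset.mem_powerset.2 (Finset.mem_filter.1 he).2
  rw [Finset.card_powerset] at this
  exact_mod_cast this

theorem HM2_wt {A B N K G V a b : ℝ} (hA : 0 < A) (hAN : A ≤ N) (hN : 1 ≤ N) (hB : 0 < B)
    (hBK : B ≤ K) (hG : 1 ≤ G) (hV : 0 ≤ V) (ha : 1 ≤ a) (hb : 1 ≤ b) :
    A * a / (b * B) * (G * (9 * b * B ^ 2 / (A * a ^ 2) + 3 * B / a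
        + (9 * b * B ^ 2 / (A * a ^ 2) * (3 * B / a)) ^ (2 / 3 : ℝ))
        + V * (9 * b * B ^ 2 / (A * a ^ 2)) / G)
      ≤ 18 * (G * (N + N ^ (1 / 3 : ℝ) * K) + V * K / G) := by
  have ha0 : 0 < a := by linarith
  have hb0 : 0 < b := by linarith
  have hG0 : 0 < G := by linarith
  have hK0 : 0 < K := by linarith
  have hN0 : 0 < N := by linarith
  obtain ⟨s, hs0, hs⟩ : ∃ s : ℝ, 0 < s ∧ A = s ^ 3 :=
    ⟨A ^ (((3 : ℕ) : ℝ)⁻¹), by positivity, (Real.rpow_inv_natCast_pow hA.le (by norm_num)).symm⟩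
  obtain ⟨t, ht0, ht⟩ : ∃ t : ℝ, 0 < t ∧ b = t ^ 3 :=
    ⟨b ^ (((3 : ℕ) : ℝ)⁻¹), by positivity, (Real.rpow_inv_natCast_pow hb0.le (by norm_num)).symm⟩
  have ht1 : 1 ≤ t := by
    by_contra hc
    have := pow_lt_one₀ ht0.le (not_le.1 hc) (show 3 ≠ 0 by norm_num)
    linarith
  have hsN : s ≤ N ^ (1 / 3 : ℝ) := by
    have : (s ^ 3) ^ (1 / 3 : ℝ) = s := by
      rw [← Real.rpow_natCast, ← Real.rpow_mul hs0.le]; norm_num
    rw [← this, ← hs]
    exact Real.rpow_le_rpow hA.le hAN (by norm_num)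
  have hN3 : 1 ≤ N ^ (1 / 3 : ℝ) := Real.one_le_rpow hN (by norm_num)
  have e1 : (9 * b * B ^ 2 / (A * a ^ 2) * (3 * B / a)) ^ (2 / 3 : ℝ)
      = (3 * t * B / (s * a)) ^ 2 := by
    rw [show 9 * b * B ^ 2 / (A * a ^ 2) * (3 * B / a) = (3 * t * B / (s * a)) ^ 3 by
      rw [hs, ht]; field_simp; norm_num, ← Real.rpow_natCast, ← Real.rpow_mul (by positivity),
      ← Real.rpow_natCast]
    norm_num
  have e2 : A * a / (b * B) * (G * (9 * b * B ^ 2 / (A * a ^ 2) + 3 * B / a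
        + (3 * t * B / (s * a)) ^ 2) + V * (9 * b * B ^ 2 / (A * a ^ 2)) / G)
      = G * (9 * (B / a) + 3 * (A / b) + 9 * (s * (B / (t * a)))) + 9 * (V * (B / a) / G) := by
    rw [hs, ht]; field_simp; ring
  rw [e1, e2]
  have a1 : B / a ≤ K := (div_le_self hB.le ha).trans hBK
  have a2 : A / b ≤ N := (div_le_self hA.le hb).trans hAN
  have a3 : B / (t * a) ≤ K := (div_le_self hB.le (one_le_mul_of_one_le_of_one_le ht1 ha)).trans hBK
  have a4 : s * (B / (t * a)) ≤ N ^ (1 / 3 : ℝ) * K :=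
    mul_le_mul hsN a3 (by positivity) (by positivity)
  have a5 : K ≤ N ^ (1 / 3 : ℝ) * K := le_mul_of_one_le_left hK0.le hN3
  have a6 : V * (B / a) / G ≤ V * K / G :=
    div_le_div_of_nonneg_right (mul_le_mul_of_nonneg_left a1 hV) hG0.le
  have a7 : 0 ≤ V * K / G := by positivity
  have a8 : 9 * (B / a) + 3 * (A / b) + 9 * (s * (B / (t * a)))
      ≤ 18 * (N + N ^ (1 / 3 : ℝ) * K) := by linarith
  have a9 := mul_le_mul_of_nonneg_left a8 hG0.le
  rw [mul_left_comm G] at a9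
  linarith

theorem HM2_term (hb : BA) (h2 : NS) {ε : ℝ} (hε : 0 < ε) (hε1 : ε ≤ 1) : ∃ C : ℝ, 0 < C ∧
    ∀ (x : Finset P → ℂ) (A B N K G Z V : ℝ) (S : Finset (Finset P)) (d f e : Finset P)
      (Pr : E → Prop), 1 / 2 ≤ A → A ≤ N → 1 ≤ N → 1 ≤ B → B ≤ K → K ≤ Z → 1 ≤ G → f ⊆ d →
      (∀ c, x c ≠ 0 → c ∈ S) → (S.card : ℝ) ≤ V →
      A * Ns d / (Ns f * B) * ∫ τ : ℝ, (1 + |τ|) ^ (-((2 : ℕ) : ℝ)) *
        Xi (yd x B 1 d f e τ) (3 * B / Ns d) (9 * Ns f * B ^ 2 / (A * Ns d ^ 2)) 1 Pr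
      ≤ C * (Z ^ ε) ^ 2 * (G * (N + N ^ (1 / 3 : ℝ) * K) + V * K / G) *
        ∑ c ∈ sqf (3 * B / Ns d), if e ⊆ c ∧ Disjoint c d then ‖x (d ∪ c)‖ ^ 2 else 0 := by
  obtain ⟨C, hC, h⟩ := HM2_Xi hb h2 hε hε1
  have hI : Integrable fun τ : ℝ => (1 + |τ|) ^ (-((2 : ℕ) : ℝ)) := by
    have := hb.int_pow 0
    simpa using this
  obtain ⟨c0, hc0⟩ : ∃ c0, c0 = ∫ τ : ℝ, (1 + |τ|) ^ (-((2 : ℕ) : ℝ)) := ⟨_, rfl⟩
  have hc00 : 0 ≤ c0 := by
    rw [hc0]; exact integral_nonneg fun τ => by positivity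
  refine ⟨(c0 + 1) * C * 18 * 18 * 3, by positivity,
    fun x A B N K G Z V S d f e Pr hA hAN hN hB hBK hKZ hG hfd hS hV => ?_⟩
  have hA0 : 0 < A := by linarith
  have hB0 : 0 < B := by linarith
  have hG0 : 0 < G := by linarith
  have hBZ : B ≤ Z := hBK.trans hKZ
  have hZ : 1 ≤ Z := hB.trans hBZ
  have hZ0 : 0 < Z := by linarith
  have hV0 : 0 ≤ V := (Nat.cast_nonneg _).trans hV
  have d1 := one_le_Ns d
  have f1 := one_le_Ns f
  have d0 := Ns_pos d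
  have f0 := Ns_pos f
  have hZZ : Z ≤ Z ^ 2 := by nlinarith
  obtain ⟨W, hW⟩ : ∃ W, W = ∑ c ∈ sqf (3 * B / Ns d),
    if e ⊆ c ∧ Disjoint c d then ‖x (d ∪ c)‖ ^ 2 else 0 := ⟨_, rfl⟩
  have hW0 : 0 ≤ W := by
    rw [hW]; exact Finset.sum_nonneg fun c _ => by split_ifs <;> positivity
  have hwt := HM2_wt hA0 hAN hN hB0 hBK hG hV0 d1 f1
  have hL : 3 * B / Ns d ≤ 18 * Z ^ 2 := (div_le_self (by positivity) d1).trans (by linarith)
  have hK1 : 9 * Ns f * B ^ 2 / (A * Ns d ^ 2) ≤ 18 * Z ^ 2 := by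
    rw [div_le_iff₀ (by positivity)]
    have b1 : Ns f ≤ Ns d ^ 2 := (Ns_mono hfd).trans (by nlinarith)
    have b2 : B ^ 2 ≤ Z ^ 2 := pow_le_pow_left₀ hB0.le hBZ 2
    have b3 : Ns f * B ^ 2 ≤ Ns d ^ 2 * Z ^ 2 := mul_le_mul b1 b2 (by positivity) (by positivity)
    have b4 : Ns d ^ 2 * Z ^ 2 * (1 / 2) ≤ Ns d ^ 2 * Z ^ 2 * A :=
      mul_le_mul_of_nonneg_left hA (by positivity)
    linarith
  have hK0 : 0 < 9 * Ns f * B ^ 2 / (A * Ns d ^ 2) := by positivity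
  have hL0 : 0 ≤ 3 * B / Ns d := by positivity
  have hZe : (18 * Z ^ 2) ^ ε ≤ 18 * (Z ^ ε) ^ 2 := by
    rw [Real.mul_rpow (by norm_num) (by positivity), ← Real.rpow_natCast, ← Real.rpow_natCast,
      ← Real.rpow_mul hZ0.le, ← Real.rpow_mul hZ0.le, mul_comm ε]
    refine mul_le_mul_of_nonneg_right ?_ (by positivity)
    simpa using Real.rpow_le_rpow_of_exponent_le (show (1 : ℝ) ≤ 18 by norm_num) hε1
  rw [← hW]
  generalize 9 * Ns f * B ^ 2 / (A * Ns d ^ 2) = K1 at *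
  obtain ⟨F, hF⟩ : ∃ F, F = G * (K1 + 3 * B / Ns d + (K1 * (3 * B / Ns d)) ^ (2 / 3 : ℝ))
    + V * K1 / G := ⟨_, rfl⟩
  have hF0 : 0 ≤ F := by rw [hF]; positivity
  rw [← hF] at hwt
  have hX : ∀ τ : ℝ, Xi (yd x B 1 d f e τ) (3 * B / Ns d) K1 1 Pr
      ≤ C * (18 * (Z ^ ε) ^ 2) * F * (3 * W) := by
    intro τ
    have b1 := h (yd x B 1 d f e τ) (3 * B / Ns d) K1 G (18 * Z ^ 2) V (S.image (· \ d)) Pr
      (by linarith) hL0 hL hK0 hK1 hG ?_ ?_
    · rw [← hF] at b1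
      have b2 := HM2_nrm hb x hB0 d f e τ
      rw [← hW] at b2
      refine b1.trans (mul_le_mul (mul_le_mul_of_nonneg_right
        (mul_le_mul_of_nonneg_left hZe hC.le) hF0) b2 (HM2_nrm2_nonneg _ _) (by positivity))
    · intro c hc
      unfold yd at hc
      split_ifs at hc with h1
      · refine Finset.mem_image.2 ⟨d ∪ c, hS _ fun h0 => hc ?_,
          Finset.union_sdiff_cancel_left h1.2.symm⟩
        rw [h0]; simp
      · exact absurd rfl hc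
    · exact (Nat.cast_le.2 Finset.card_image_le).trans hV
  obtain ⟨M, hM⟩ : ∃ M, M = C * (18 * (Z ^ ε) ^ 2) * F * (3 * W) := ⟨_, rfl⟩
  have hM0 : 0 ≤ M := by rw [hM]; positivity
  rw [← hM] at hX
  have hint : ∫ τ : ℝ, (1 + |τ|) ^ (-((2 : ℕ) : ℝ)) *
      Xi (yd x B 1 d f e τ) (3 * B / Ns d) K1 1 Pr ≤ (c0 + 1) * M := by
    have b1 : ∫ τ : ℝ, (1 + |τ|) ^ (-((2 : ℕ) : ℝ)) *
        Xi (yd x B 1 d f e τ) (3 * B / Ns d) K1 1 Pr
        ≤ ∫ τ : ℝ, (1 + |τ|) ^ (-((2 : ℕ) : ℝ)) * M := by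
      refine integral_mono_of_nonneg (Eventually.of_forall fun τ => ?_) (hI.mul_const M)
        (Eventually.of_forall fun τ => ?_)
      · exact mul_nonneg (by positivity) (hb.Xi_nonneg _ _ _ _ _ hK0 one_pos)
      · exact mul_le_mul_of_nonneg_left (hX τ) (by positivity)
    rw [integral_mul_const, ← hc0] at b1
    refine b1.trans (mul_le_mul_of_nonneg_right (by linarith) hM0)
  refine (mul_le_mul_of_nonneg_left hint (by positivity)).trans ?_
  rw [hM, show A * Ns d / (Ns f * B) * ((c0 + 1) * (C * (18 * (Z ^ ε) ^ 2) * F * (3 * W)))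
    = (c0 + 1) * C * 18 * 3 * (Z ^ ε) ^ 2 * W * (A * Ns d / (Ns f * B) * F) by ring]
  refine (mul_le_mul_of_nonneg_left hwt (by positivity)).trans (le_of_eq ?_)
  ring

end Pat
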