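import Vale.Agent.P006.Defs

/-! Interface A for P006: basic facts, the radial Voronoi formula, theta sums, the residue. -/

noncomputable section
namespace Pat
open QRH Complex MeasureTheory Filter
open scoped ComplexConjugate Classical ContDiff Topology

/-- Extension by zero of coefficients on squarefree elements. -/
def ex (y : Finset P → ℂ) (n : E) : ℂ := if n = pr (fac n) then y (fac n) else 0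
/-- Squarefull part. -/
def sfp (n : E) : E := ∏ p ∈ (fac n).filter (fun p => 2 ≤ vp p.1 n), p.1 ^ vp p.1 n
/-- The primes that divide exactly once. -/
def sq1 (n : E) : Finset P := (fac n).filter fun p => vp p.1 n = 1
/-- Squarefull primary elements. -/
def Sqf (m : E) : Prop := Pm m ∧ ∀ p ∈ fac m, 2 ≤ vp p.1 m
/-- Primary cube part. -/
def jc (z : E) : E := ∏ p ∈ fac z, p.1 ^ (vp p.1 z / 3)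

/-- Algebraic facts, part A. -/
structure BasA : Prop where
  mem_pball : ∀ R c, c ∈ pball R ↔ Pm c ∧ (nm c : ℝ) ≤ R
  mem_prs : ∀ R p, p ∈ prs R ↔ (nm p.1 : ℝ) ≤ R
  sum_prs : ∀ (R : ℝ) (F : Finset P → ℂ),
    ∑ c ∈ sqf R with c.card = 1, F c = ∑ p ∈ prs R, F {p}
  norm_gn : ∀ s, ‖gn s‖ = 1
  norm_tt : ∀ s, ‖tt s‖ = 1
  tt_gn : ∀ s, tt s * gn s = 1
  recip : ∀ a b, Pm a → Pm b → xv c3 a b = xv c3 b a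
  recip1 : ∀ (c : E) (b : Finset P), Pm c → xv c3 c (pr b) = xs c3 b c
  recip2 : ∀ a b : Finset P, xs c3 a (pr b) = xs c3 b (pr a)
  conj_xv : ∀ c z, conj (xv c3 c z) = xv c3 c (z ^ 2)
  conj_xs : ∀ s z, conj (xs c3 s z) = xs c3 s (z ^ 2)
  xv_cube : ∀ c j, c ≠ 0 → j ≠ 0 → xv c3 c (j ^ 3) = if Disjoint (fac c) (fac j) then 1 else 0
  xs_cube : ∀ s j, j ≠ 0 → xs c3 s (j ^ 3) = if Disjoint s (fac j) then 1 else 0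
  tt_union : ∀ a b, Disjoint a b → tt (a ∪ b) = tt a * tt b * xs c3 b (pr a)
  th_pr : ∀ s, th (pr s) = tt s
  th_cube : ∀ c d, Pm c → Pm d → th (c * d ^ 3) = (√(nm d : ℝ) : ℝ) * th c
  th_mul : ∀ a b, Pm a → Disjoint b (fac a) → th (pr b * a) = tt b * th a * xs c3 b a
  th_zero : ∀ (c : E) (p : P), c ≠ 0 → vp p.1 c % 3 = 2 → th c = 0
  th_dec : ∀ c, Pm c → th c ≠ 0 → ∃ s d, Pm d ∧ c = pr s * d ^ 3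
  /-- Sums of theta coefficients as sums over pairs. -/
  th_sum : ∀ (R : ℝ) (g : E → ℂ), (∀ c : E, R < nm c → g c = 0) →
    ∑ c ∈ pball R, th c * g c
      = ∑ d ∈ pball R, ∑ s ∈ sqf R, (√(nm d : ℝ) : ℝ) * tt s * g (pr s * d ^ 3)
  th_sum_sq : ∀ (R : ℝ) (g : E → ℝ), (∀ c : E, R < nm c → g c = 0) →
    ∑ c ∈ pball R, ‖th c‖ ^ 2 * g c = ∑ d ∈ pball R, ∑ s ∈ sqf R, nm d * g (pr s * d ^ 3)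
  th_sum_abs : ∀ (R : ℝ) (g : E → ℝ), (∀ c : E, R < nm c → g c = 0) →
    ∑ c ∈ pball R, ‖th c‖ * g c = ∑ d ∈ pball R, ∑ s ∈ sqf R, √(nm d : ℝ) * g (pr s * d ^ 3)
  /-- Removing the cube part. -/
  th_inv : ∀ (R : ℝ) (g : E → ℂ), (∀ c : E, R < nm c → g c = 0) →
    ∑ s ∈ sqf R, tt s * g (pr s)
      = ∑ d ∈ sqf R, ∑ n ∈ pball R, mu d * (√(Ns d) : ℝ) * th n * g (pr d ^ 3 * n)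
  /-- Detecting squarefree elements. -/
  sqf_sum : ∀ (R : ℝ) (g : E → ℂ), (∀ c : E, R < nm c → g c = 0) →
    ∑ s ∈ sqf R, g (pr s) = ∑ d ∈ sqf R, ∑ n ∈ pball R, mu d * g (pr d ^ 2 * n)
  /-- Multiples of a primary element. -/
  sum_dvd : ∀ (R : ℝ) (m : E) (g : E → ℂ), Pm m →
    ∑ c ∈ pball R, (if m ∣ c then g c else 0) = ∑ n ∈ pball (R / nm m), g (m * n)
  gauss_pair : ∀ (c c' : Finset P) (ξ : E), Disjoint c c' →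
    rsum (3 * pr c * pr c') (fun y => (if Pm y then xs c3 c y * conj (xs c3 c' y) else 0)
        * psf (y * ξ) (3 * pr c * pr c'))
      = psf ξ 3 * conj (xs c3 c ξ) * xs c3 c' ξ * gn c * conj (gn c') * (√(Ns c * Ns c') : ℝ)
/-- Algebraic facts, part B. -/
structure BasB : Prop where
  cf_disj : ∀ z, Disjoint (cf1 z) (cf2 z)
  cube_dec : ∀ z, z ≠ 0 → ∃ i < 3, ∃ u : E, (u = 1 ∨ u = -1) ∧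
    z = cf0 i (vp lam z % 3) (cf1 z) (cf2 z) * (u * lam ^ (vp lam z / 3) * jc z) ^ 3
  jc_pm : ∀ z, Pm (jc z)
  nm_jc : ∀ z, (nm (jc z) : ℝ) = Jc z
  nm_eq : ∀ z, z ≠ 0 → (nm z : ℝ) = 3 ^ vp lam z * Qc z * Jc z ^ 3
  nm_cf0 : ∀ i k s t, (nm (cf0 i k s t) : ℝ) = 3 ^ k * Ns s * Ns t ^ 2
  fac_cf0 : ∀ i k s t, fac (cf0 i k s t) = s ∪ t
  cf_eq : ∀ i k s t j, Disjoint s t → j ≠ 0 →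
    cf1 (cf0 i k s t * j ^ 3) = s ∧ cf2 (cf0 i k s t * j ^ 3) = t
  cube_ratio : ∀ i k s t i' k' s' t', i < 3 → k < 3 → i' < 3 → k' < 3 → Disjoint s t →
    Disjoint s' t' → IsCube (cf0 i k s t * cf0 i' k' s' t' ^ 2) →
    i = i' ∧ k = k' ∧ s = s' ∧ t = t'
  cube_mul : ∀ z j, j ≠ 0 → (IsCube (z * j ^ 3) ↔ IsCube z)
  cube_Qc : ∀ z, z ≠ 0 → IsCube z → Qc z = 1
  cube_fibre : ∀ (z : E) (T : Finset E), (∀ j ∈ T, j ^ 3 = z) → T.card ≤ 3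
  tsum_cube : ∀ F : E → ℂ, Summable (fun j : E => if j = 0 then 0 else F (j ^ 3)) →
    ∑' j : E, (if j = 0 then 0 else F (j ^ 3))
      = 3 * ∑' ξ : E, if ξ ≠ 0 ∧ IsCube ξ then F ξ else 0
  psf_cube : ∀ j : E, psf (j ^ 3) 3 = 1
  char_per : ∀ z, z ≠ 0 → Per (9 * pr (fac z)) fun c => if Pm c then xv c3 c z else 0
  char_nt : ∀ z, z ≠ 0 → ¬ IsCube z → ∃ c, Pm c ∧ xv c3 c z ≠ 0 ∧ xv c3 c z ≠ 1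
  /-- The character attached to `z` on primary elements. -/
  char_dec : ∀ z, z ≠ 0 → ∃ i < 3, ∀ c, Pm c → xv c3 c z =
    if Disjoint (fac c) (fac z) then xv c3 c om ^ i * xv c3 c lam ^ vp lam z
      * xs c3 (cf1 z) c * conj (xs c3 (cf2 z) c) else 0
  rho0_per : Per (Lam 1) rho0
  rho0_mean : rsum (Lam 1) rho0 = 0
/-- Algebraic facts, part C. -/
structure BasC : Prop where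
  sq_dec : ∀ z, z ≠ 0 → ∃ u, IsUnit u ∧ z = u * lam ^ vp lam z * sfp z * pr (sq1 z)
  sq_dec1 : ∀ n, Pm n → n = sfp n * pr (sq1 n)
  sfp_sqf : ∀ z, Sqf (sfp z)
  sfp_disj : ∀ z, Disjoint (fac (sfp z)) (sq1 z)
  nm_sfp : ∀ z, (nm (sfp z) : ℝ) = Nsf z
  sfp_eq : ∀ m r, Sqf m → Disjoint (fac m) r → sfp (m * pr r) = m ∧ sq1 (m * pr r) = r
  ex_Dn : ∀ y L ξ, Dn (ex y) L ξ = Ds y L ξ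
  ex_nrm : ∀ y L, nrmE (ex y) L = nrm2 y L
  key_inj : Function.Injective key
  key_lt : ∀ p q : P, nm p.1 < nm q.1 → key p < key q
  key_le : ∀ p q : P, key p ≤ key q → nm p.1 ≤ nm q.1
  card_nm : ∀ (n : ℕ) (T : Finset P), (∀ p ∈ T, nm p.1 = n) → T.card ≤ 2
  kc_lt : ∀ (w : ℝ) (s : Finset P) (p : P), (nm p.1 : ℝ) ≤ w →
    (key p < kc w s ↔ ∀ q ∈ s, key p < key q)
  kc_le : ∀ w s, kc w s ≤ 2 * ⌊w⌋₊ + 2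
  kc_insert : ∀ (w : ℝ) (s : Finset P) (q : P), (w < nm q.1 ∨ ∃ p ∈ s, key p ≤ key q) →
    kc w (insert q s) = kc w s

structure Bas : Prop extends BasA, BasB, BasC

/-- Counting facts. -/
structure Bas2a : Prop where
  circle : ∃ C : ℝ, 0 < C ∧ ∀ (b : ℂ) (R : ℝ) (T : Finset E), 0 ≤ R →
    (∀ x, x ∈ T ↔ ‖toC x + b‖ ^ 2 ≤ R) → |(T.card : ℝ) - 2 * Real.pi / √3 * R| ≤ C * (√R + 1)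
  thin : ∃ C : ℝ, 0 < C ∧ ∀ (y h : ℝ) (T : Finset E), 0 ≤ y → 0 ≤ h →
    (∀ x ∈ T, y ≤ nm x ∧ (nm x : ℝ) ≤ y + h) → (T.card : ℝ) ≤ C * (h + √y + 1)
  thin_sqf : ∃ C : ℝ, 0 < C ∧ ∀ (y h : ℝ) (T : Finset (Finset P)), 0 ≤ y → 0 ≤ h →
    (∀ s ∈ T, y ≤ Ns s ∧ Ns s ≤ y + h) → (T.card : ℝ) ≤ C * (h + √y + 1)
  harm : ∃ C : ℝ, 0 < C ∧ ∀ R : ℝ, 1 ≤ R →
    ∑ x ∈ ball R, (nm x : ℝ)⁻¹ ≤ C * (1 + Real.log R)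
  pow_card : ∀ k : ℕ, ∃ C : ℝ, 0 < C ∧ ∀ R : ℝ, 1 ≤ R →
    ∑ s ∈ sqf R, ((k : ℝ) + 1) ^ s.card ≤ C * R * (1 + Real.log R) ^ k ∧
    ∑ s ∈ sqf R, (k : ℝ) ^ s.card / Ns s ≤ C * (1 + Real.log R) ^ k
  card_sup : ∀ (R : ℝ) (d : Finset P), 0 ≤ R →
    (((sqf R).filter fun s => d ⊆ s).card : ℝ) ≤ 12 * R / Ns d
  card_log : ∀ s : Finset P, (s.card : ℝ) ≤ Real.log (Ns s)
  /-- Tails over primes and over nonempty rough sets. -/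
  tail_P : ∀ σ : ℝ, 1 < σ → ∃ C : ℝ, 0 < C ∧ ∀ (w : ℝ) (T : Finset P), 1 ≤ w →
    (∀ p ∈ T, w < nm p.1) → ∑ p ∈ T, (nm p.1 : ℝ) ^ (-σ) ≤ C * w ^ (1 - σ)
  tail_rough : ∀ A σ σ' : ℝ, 0 ≤ A → 1 < σ' → σ' ≤ σ → ∃ C : ℝ, 0 < C ∧
    ∀ (w : ℝ) (T : Finset (Finset P)), 1 ≤ w → (∀ s ∈ T, s ≠ ∅ ∧ Rough w s) →
      ∑ s ∈ T, A ^ s.card * Ns s ^ (-σ) ≤ C * w ^ (σ' - σ)
structure Bas2b : Prop where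
  cheb : ∃ C : ℝ, 0 < C ∧ ∀ y : ℝ, 1 ≤ y → ((prs y).card : ℝ) ≤ C * y / (1 + Real.log y)
  sqfull_card : ∃ C : ℝ, 0 < C ∧ ∀ (M : ℝ) (T : Finset E), 0 ≤ M →
    (∀ m ∈ T, Sqf m ∧ (nm m : ℝ) ≤ M) → (T.card : ℝ) ≤ C * √M
  sqfull_tail : ∀ σ : ℝ, 1 / 2 < σ → ∃ C : ℝ, 0 < C ∧ ∀ (M : ℝ) (T : Finset E), 0 < M →
    (∀ m ∈ T, Sqf m ∧ M ≤ nm m) → ∑ m ∈ T, (nm m : ℝ) ^ (-σ) ≤ C * M ^ (1 / 2 - σ)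
  sqfull_half : ∃ C : ℝ, 0 < C ∧ ∀ (M : ℝ) (T : Finset E), 1 ≤ M →
    (∀ m ∈ T, Sqf m ∧ (nm m : ℝ) ≤ M) →
      ∑ m ∈ T, (nm m : ℝ) ^ (-(1 / 2) : ℝ) ≤ C * (1 + Real.log M)
  /-- Rankin's trick. -/
  rankin : ∀ (k : ℕ) (δ : ℝ), 0 < δ → ∃ c C : ℝ, 0 < c ∧ 0 < C ∧ ∀ X R : ℝ, 3 ≤ X → 0 ≤ R →
    (((sqf R).filter fun b =>
      X ^ δ < Ns (b.filter fun p => (nm p.1 : ℝ) ≤ Real.log X ^ k)).card : ℝ) ≤ C * R * X ^ (-c)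

structure Bas2 : Prop extends Bas2a, Bas2b

/-- Facts on weights. -/
structure Bas3a : Prop where
  bx_nonneg : ∀ v, 0 ≤ bx v
  bx_le : ∀ v, bx v ≤ 1
  bx_supp : ∀ v, bx v ≠ 0 → 0 < v ∧ v < 1
  bx_bump : Bump fun v => (bx v : ℂ)
  bx_sum : ∀ (v : ℝ) (J : Finset ℤ), (∀ i : ℤ, 0 < v - i / 2 → v - i / 2 < 1 → i ∈ J) →
    ∑ i ∈ J, bx (v - i / 2) = 1
  bx_sum_le : ∀ (v : ℝ) (J : Finset ℤ), ∑ i ∈ J, bx (v - i / 2) ≤ 1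
  Vs_one : ∀ v, v ≤ 0 → Vs v = 1
  Vs_zero : ∀ v, 1 ≤ v → Vs v = 0
  Vs_mem : ∀ v, 0 ≤ Vs v ∧ Vs v ≤ 1
  bt_smooth : ContDiff ℝ ∞ bt
  bt_supp : ∀ v, bt v ≠ 0 → 0 < v ∧ v < 1 / 4
  om0_smooth : ContDiff ℝ ∞ om0
  om0_supp : ∀ v, om0 v ≠ 0 → 0 < v ∧ v < 3 / 4
  Om_nonneg : ∀ v, 0 ≤ Om v
  Om_le : ∀ v, Om v ≤ 1
  Om_bump : Bump fun v => (Om v : ℂ)
  Om_low : ∃ c : ℝ, 0 < c ∧ ∀ v, 3 / 8 ≤ v → v ≤ 5 / 8 → c ≤ Om v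
  /-- The radial functions built from a bump are smooth. -/
  rad_smooth : ∀ (φ : ℝ → ℂ) (a : ℝ), ContDiff ℝ ∞ φ → HasCompactSupport φ →
    ContDiff ℝ ∞ fun z : ℂ => if z = 0 then 0 else φ (Real.log (‖z‖ ^ 2) + a)
  polar : ∀ f : ℝ → ℂ, ∫ z : ℂ, f (‖z‖ ^ 2) = Real.pi * ∫ y in Set.Ioi (0 : ℝ), f y
  polar_int : ∀ f : ℝ → ℂ, Integrable (fun z : ℂ => f (‖z‖ ^ 2)) ↔ IntegrableOn f (Set.Ioi 0)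
  polar_log : ∀ f : ℝ → ℂ,
    ∫ y in Set.Ioi (0 : ℝ), f y = ∫ v : ℝ, f (Real.exp v) * (Real.exp v : ℝ)
  bump_bd : ∀ φ, Bump φ → ∀ n, ∃ D : ℝ, 0 < D ∧ BD n φ D
  mo_le : ∀ φ, Bump φ → ∃ C : ℝ, 0 < C ∧ ∀ T σ : ℝ, 1 ≤ T → |σ| ≤ 2 → ‖mo φ T σ‖ ≤ C / T
  /-- Derivatives of rescaled and twisted weights. -/
  der : ∀ n : ℕ, ∃ C : ℝ, 0 < C ∧ ∀ (φ : ℝ → ℂ) (D T : ℝ) (s : ℂ), BD n φ D → 1 ≤ T →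
    |s.re| ≤ 3 → BD n (fun v => φ (T * v) * Complex.exp (s * v)) (C * D * T ^ n * (1 + ‖s‖) ^ n)
  der_mul : ∀ n : ℕ, ∃ C : ℝ, 0 < C ∧ ∀ (φ g : ℝ → ℂ) (D D' : ℝ), BD n φ D → ContDiff ℝ ∞ g →
    (∀ j ≤ n, ∀ v, -3 ≤ v → v ≤ 3 → ‖iteratedDeriv j g v‖ ≤ D') →
    BD n (fun v => φ v * g v) (C * D * D')
structure Bas3b : Prop where
  /-- Fourier representation. -/
  fr : ∀ k : ℕ, ∃ C : ℝ, 0 < C ∧ ∀ (φ : ℝ → ℂ) (D : ℝ), BD k φ D →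
    ∃ h : ℝ → ℂ, Continuous h ∧ (∀ τ, ‖h τ‖ ≤ C * D * (1 + |τ|) ^ (-(k : ℝ))) ∧
      Integrable h ∧ ∀ v : ℝ, φ v = ∫ τ : ℝ, h τ * Complex.exp (τ * v * I)
  vr : ∀ k : ℕ, ∃ C : ℝ, 0 < C ∧ ∀ L : ℝ, 0 ≤ L →
    ∃ h : ℝ → ℂ, Continuous h ∧ (∀ τ, ‖h τ‖ ≤ C * (1 + L) * (1 + |τ|) ^ (-(k : ℝ))) ∧
      Integrable h ∧ ∀ v : ℝ, -L ≤ v → (Vs v : ℂ) = ∫ τ : ℝ, h τ * Complex.exp (τ * v * I)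
  sepK : ∃ C : ℝ, 0 < C ∧ ∀ M : ℕ, ∃ K : ℝ → ℂ, Continuous K ∧
    ∫ θ in (0 : ℝ)..1, ‖K θ‖ ≤ C * (1 + Real.log (M + 1)) ∧
    ∀ x y : ℕ, x ≤ M → y ≤ M →
      (if x < y then (1 : ℂ) else 0) = ∫ θ in (0 : ℝ)..1, K θ * e1 (θ * y) * e1 (-(θ * x))
  int_pow : ∀ k : ℕ, Integrable fun τ : ℝ => (1 + |τ|) ^ (-((k : ℝ) + 2)) * (1 + |τ|) ^ k
structure Bas3c : Prop where
  GM_pos : ∀ T y, 0 < T → 0 ≤ y → 0 < GM T y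
  GM_le : ∀ T y, 1 ≤ T → 0 ≤ y → GM T y ≤ 1
  GM_anti : ∀ T y y', 0 < T → 0 ≤ y → y ≤ y' → GM T y' ≤ GM T y
  Xi_summable : ∀ (y : Finset P → ℂ) (L K T : ℝ) (Pr : E → Prop), 0 < K → 0 < T →
    Summable fun ξ : E => if ξ ≠ 0 ∧ Pr ξ then GM T (nm ξ / K) * ‖Ds y L ξ‖ ^ 2 else 0
  Xi_nonneg : ∀ y L K T Pr, 0 < K → 0 < T → 0 ≤ Xi y L K T Pr
  Xi_le : ∀ (y : Finset P → ℂ) (L K T : ℝ) (Pr Q R : E → Prop), 0 < K → 0 < T →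
    (∀ ξ, ξ ≠ 0 → Pr ξ → Q ξ ∨ R ξ) → Xi y L K T Pr ≤ Xi y L K T Q + Xi y L K T R
  /-- Dyadic summation against the weight `GM`. -/
  Xi_dyadic : ∀ γ γ' : ℝ, 0 ≤ γ → γ ≤ 2.2 → 0 ≤ γ' → 2 * γ - 12 / 25 < γ' → ∃ C : ℝ, 0 < C ∧
    ∀ T : ℝ, 1 ≤ T → Summable (fun j : ℕ => GM T (2 ^ j) * ((2 : ℝ) ^ (j + 1)) ^ γ) ∧
      T⁻¹ + ∑' j : ℕ, GM T (2 ^ j) * ((2 : ℝ) ^ (j + 1)) ^ γ ≤ C * T ^ (γ' - 1)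
  Xi_split : ∀ (y : Finset P → ℂ) (L K T : ℝ) (Pr : E → Prop) (f : ℝ → ℝ), 0 < K → 1 ≤ T →
    (∀ R, 0 < R → ∑ ξ ∈ ball R with Pr ξ, ‖Ds y L ξ‖ ^ 2 ≤ f R) →
    Summable (fun j : ℕ => GM T (2 ^ j) * f (2 ^ (j + 1) * K)) →
    Xi y L K T Pr ≤ T⁻¹ * f K + ∑' j : ℕ, GM T (2 ^ j) * f (2 ^ (j + 1) * K)

structure Bas3 : Prop extends Bas3a, Bas3b, Bas3c
/-- All basic facts. -/
structure BA : Prop extends Bas, Bas2, Bas3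

/-! ### The radial Voronoi formula -/

structure ArchT : Prop where
  smooth : ∀ θ w c, Rad w → ContDiff ℝ ∞ (FintT θ w c)
  bound : ∀ w, Rad w → ∃ M : ℝ, 0 < M ∧ ∀ θ (c : ℂ) (z : ℂ × ℂ),
    ‖FintT θ w c z‖ ≤ M * (1 + ‖z.1‖) ^ (-3 : ℝ) * (1 + ‖z.2‖) ^ (-3 : ℝ)
  cont : ∀ θ w, Rad w →
    ContinuousOn (fun y : ℂ × ℂ × ℂ => IaT θ w y.1 y.2.1 y.2.2) {y | y.1 ≠ 0}
  cont_theta : ∀ w c z ζ, Rad w → Continuous fun θ : ℝ => IaT θ w c z ζ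
def IBdT : Prop := ∀ (w : ℂ → ℂ) (A : ℕ), Rad w → ∃ C : ℝ, 0 < C ∧
  ∀ θ : ℝ, 0 ≤ θ → θ ≤ 1 → ∀ c z : ℂ, c ≠ 0 →
    (∀ ζ, ‖IaT θ w c z ζ‖
      ≤ C * ‖c‖ * (1 + ‖c‖) ^ (-A : ℝ) * (1 + ‖z‖) ^ (-A : ℝ) * (1 + ‖ζ‖) ^ (-A : ℝ)) ∧
    ContDiff ℝ 1 (IaT θ w c z) ∧
    ∀ ζ, ‖fderiv ℝ (IaT θ w c z) ζ‖
      ≤ C * (1 + ‖c‖) ^ (-A : ℝ) * (1 + ‖z‖) ^ (-A : ℝ) * (1 + ‖ζ‖) ^ (-A : ℝ)
def VorAT : Prop := ∀ θ a ρ q u η β w Y, 0 < θ → θ ≤ 1 → VPr a ρ q u η β w Y →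
  Tendsto (fun X : ℝ => SigT θ a ρ q u w Y X / (((θ * X ^ 3 / Y) ^ 2 * X ^ 2 : ℝ) : ℂ)) atTop
    (𝓝 (VLT θ (fun c => ρ c * psf (c * u) q) w Y / (nm (Lam a) : ℂ)))
def VorBT : Prop := ∀ θ a ρ q u η β w Y, 0 < θ → θ ≤ 1 → VPr a ρ q u η β w Y →
  ∀ X : ℝ, 0 < X →
  Summable (fun x : E × E × E => G1T θ a ρ q u w Y X x.1 x.2.1 x.2.2) ∧
  SigT θ a ρ q u w Y X = ((X ^ 2 * Y ^ 2 : ℝ) : ℂ) / (nm (Lam a) : ℂ)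
    * ∑' x : E × E × E, G1T θ a ρ q u w Y X x.1 x.2.1 x.2.2
def VorCT : Prop := ∀ θ a ρ q u η β w Y, 0 < θ → θ ≤ 1 → VPr a ρ q u η β w Y →
  ∀ X : ℝ, 0 < X →
  Summable (fun x : E × E × E => G1T θ a ρ q u w Y X x.1 x.2.1 x.2.2) →
  Summable (fun x : E × E × E => G2T θ a ρ q β w Y X x.1 x.2.1 x.2.2) ∧
  ∑' x : E × E × E, G1T θ a ρ q u w Y X x.1 x.2.1 x.2.2
    = xv c3 q u * ((((θ * X ^ 3 / Y) ^ 2 / X ^ 2 : ℝ) : ℂ) / (nm q : ℂ))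
      * ∑' x : E × E × E, psf (-(η * x.1)) q * G2T θ a ρ q β w Y X x.1 x.2.1 x.2.2
def VorDT : Prop := ∀ θ a ρ q u η β w Y, 0 < θ → θ ≤ 1 → VPr a ρ q u η β w Y →
  ∀ δ : E, δ ≠ 0 →
  Tendsto (fun X : ℝ => ((Y ^ 2 / X ^ 2 : ℝ) : ℂ) / (nm (Lam a * q) : ℂ)
      * ∑' x : E × E, G2T θ a ρ q β w Y X δ x.1 x.2) atTop
    (𝓝 (nm (Lam a) * bb a ρ q β δ * KaT θ w (zd a q Y δ)))
def VorET : Prop := ∀ θ a ρ q u η β w Y, 0 < θ → θ ≤ 1 → VPr a ρ q u η β w Y →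
  Tendsto (fun X : ℝ => ((Y ^ 2 / X ^ 2 : ℝ) : ℂ) / (nm (Lam a * q) : ℂ)
      * ∑' x : E × E, if x.2 = 0 then 0 else G2T θ a ρ q β w Y X 0 x.1 x.2) atTop (𝓝 0) ∧
  ∃ g : E → ℝ, Summable g ∧ ∀ X : ℝ, 1 ≤ X → ∀ δ : E, δ ≠ 0 →
    ‖((Y ^ 2 / X ^ 2 : ℝ) : ℂ) / (nm (Lam a * q) : ℂ)
      * ∑' x : E × E, G2T θ a ρ q β w Y X δ x.1 x.2‖ ≤ g δ
/-- The Voronoi formula with its polar term. -/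
def Vor0T : Prop := ∀ θ a ρ q β w, 0 < θ → θ ≤ 1 → ∃ Pol : ℂ, ∀ u η Y, VPr a ρ q u η β w Y →
  VLT θ (fun c => ρ c * psf (c * u) q) w Y = xv c3 q u * (((Y ^ (2 / 3 : ℝ) : ℝ) : ℂ) * Pol +
    (nm (Lam a) : ℂ) ^ 2 *
      ∑' δ : E, if δ = 0 then 0 else bb a ρ q β δ * psf (-(η * δ)) q * KaT θ w (zd a q Y δ))
/-- The cubic oscillatory integral. -/
def CO : Prop := ∃ C : ℝ, 0 < C ∧ ∀ (B : ℂ → ℂ) (m : ℝ) (t : ℂ), t ≠ 0 → ContDiff ℝ 1 B →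
  (∀ x, ‖B x‖ ≤ m * (1 + ‖x‖) ^ (-3 : ℝ)) → (∀ x, ‖fderiv ℝ B x‖ ≤ m * (1 + ‖x‖) ^ (-3 : ℝ)) →
  ‖(∫ x : ℂ, psi (x ^ 3 / t) * B x) - C0 * ((‖t‖ ^ (2 / 3 : ℝ) : ℝ) : ℂ) * B 0‖
    ≤ C * m * ‖t‖ ^ (5 / 6 : ℝ)
/-- Tate's local functional equation. -/
def Tate : Prop := ∀ (F m : ℂ → ℂ) (s : ℂ), 0 < s.re → s.re < 1 → Integrable F → Measurable m →
  (∀ᵐ y : ℂ, m y ≠ 0) → Integrable (fun y => ‖F y‖ * (‖m y‖ ^ 2) ^ (-s.re)) →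
  Integrable (fun z : ℂ => ‖∫ y, F y * psi (m y * z)‖ * (‖z‖ ^ 2) ^ (s.re - 1)) →
  ∫ z : ℂ, (∫ y, F y * psi (m y * z)) * ((‖z‖ ^ 2 : ℝ) : ℂ) ^ (s - 1)
    = ((√3 / 2 : ℝ) : ℂ) * gam0 s * ∫ y, F y * ((‖m y‖ ^ 2 : ℝ) : ℂ) ^ (-s)
def TateW : Prop := ∀ (w : ℂ → ℂ) (s : ℂ), ContDiff ℝ ∞ w →
  (∀ z, w z ≠ 0 → 1 ≤ ‖z‖ ∧ ‖z‖ ≤ 2) → 0 < s.re →
  ∫ z : ℂ, ft w z * ((‖z‖ ^ 2 : ℝ) : ℂ) ^ (s - 1)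
    = gam0 s * ∫ y : ℂ, w y * ((‖y‖ ^ 2 : ℝ) : ℂ) ^ (-s)
def C0ne : Prop := C0 ≠ 0
def GamB : Prop := ∃ C : ℝ, 0 < C ∧ ∀ σ t : ℝ, 1 / 2 ≤ σ → σ ≤ 3 / 2 →
  ‖gam0 (σ + t * I)‖ ≤ C * (1 + |t|) ^ (2 * σ - 1)
/-- The inner integral of `Kx`. -/
def Hx (w : ℂ → ℂ) (z : ℂ) : ℂ :=
  ∫ y : ℂ, ((‖y‖ ^ (-(4 / 3) : ℝ) : ℝ) : ℂ) * ft w (-y) * psi (z / y)
def KxRep : Prop :=
  (∀ w z, Rad w → ∫ c : ℂ, ((‖c‖ ^ (-(4 / 3) : ℝ) : ℝ) : ℂ) * IaT 0 w c z 0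
    = ((2 / √3 : ℝ) : ℂ) * (∫ d : ℂ, a0 d * ((‖d‖ ^ (2 / 3 : ℝ) : ℝ) : ℂ)) * Hx w z) ∧
  (∫ d : ℂ, a0 d * ((‖d‖ ^ (2 / 3 : ℝ) : ℝ) : ℂ)) ≠ 0 ∧
  (∀ (w : ℂ → ℂ) (A : ℕ), Rad w → ∃ M : ℝ, 0 < M ∧ ∀ z, ‖Hx w z‖ ≤ M * (1 + ‖z‖) ^ (-A : ℝ)) ∧
  (∀ w, Rad w → Continuous (Hx w)) ∧
  ∀ w u z, Rad w → ‖u‖ = 1 → Hx w (u * z) = Hx w z
/-- The Voronoi formula with an explicit transform. -/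
def VorX : Prop := ∃ C1 : ℂ, ∀ a ρ q β w, ∃ Pol : ℂ, ∀ u η Y, VPr a ρ q u η β w Y →
  VLX (fun c => ρ c * psf (c * u) q) w Y = xv c3 q u * (((Y ^ (2 / 3 : ℝ) : ℝ) : ℂ) * Pol +
    C1 * (nm (Lam a) : ℂ) ^ 2 *
      ∑' δ : E, if δ = 0 then 0 else bb a ρ q β δ * psf (-(η * δ)) q * Kx w (zd a q Y δ))
def RadW : Prop := ∀ φ T, Bump φ → 1 ≤ T → Rad (wphi φ T)
/-- Mellin transform of `wphi`. -/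
def MelW : Prop := ∀ (φ : ℝ → ℂ) (A : ℕ), Bump φ → ∃ C : ℝ, 0 < C ∧ ∀ T σ t : ℝ, 1 ≤ T →
  |σ| ≤ 2 → ‖∫ y : ℂ, wphi φ T y * ((‖y‖ ^ 2 : ℝ) : ℂ) ^ (-(σ + t * I))‖
    ≤ C * (1 + |t|) * T⁻¹ * (1 + |t| / T) ^ (-A : ℝ)
def KxB : Prop := ∀ (φ : ℝ → ℂ) (ε : ℝ), Bump φ → 0 < ε → ε < 1 / 12 → ∃ C : ℝ, 0 < C ∧
  ∀ (T : ℝ) (z : ℂ), 1 ≤ T → z ≠ 0 →
    ‖Kx (wphi φ T) z‖ ≤ C * T ^ (3 + 4 * ε) * (‖z‖ ^ 2) ^ (-(1 / 2) - ε)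
def ThZ : Prop := ∀ (φ : ℝ → ℂ) (ε : ℝ), Bump φ → 0 < ε → ∃ C : ℝ, 0 < C ∧ ∀ T : ℝ, 1 ≤ T →
  ∃ Pol : ℂ, ∀ (r q : Finset P) (x : ℝ), 1 / 3 ≤ x →
    ‖Th0 (dphi φ T) r q x - (if q = ∅ then Pol * ((x ^ (5 / 6 : ℝ) / Ns r : ℝ) : ℂ) else 0)‖
      ≤ C * T ^ (3 + ε) * Ns r ^ (1 / 2 + ε) * Ns q ^ (1 + ε)
/-- Asymptotic formula for the theta sums. -/
def ThetaT (κ : ℂ) : Prop := ∀ (φ : ℝ → ℂ) (ε : ℝ), Bump φ → 0 < ε → ∃ C : ℝ, 0 < C ∧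
  ∀ (T : ℝ) (r q : Finset P) (x : ℝ), 1 ≤ T → 0 < x →
    ‖Th0 (fun v => φ (T * v)) r q x
      - (if q = ∅ then κ * mo φ T (5 / 6) * ((x ^ (5 / 6 : ℝ) / Ns r : ℝ) : ℂ) else 0)‖
      ≤ C * T ^ (3 + ε) * Ns r ^ (1 / 2 + ε) * Ns q ^ (1 + ε)
/-- Twisted theta sums. -/
def TwS (κ : ℂ) : Prop := ∀ (φ : ℝ → ℂ) (ε : ℝ), Bump φ → 0 < ε → ∃ C : ℝ, 0 < C ∧
  ∀ (R1 R2 G : Finset P) (Y : ℝ), Disjoint R1 R2 → 0 < Y →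
    ‖∑ γ ∈ pball (3 * Y), (if Disjoint (fac γ) G then
          th γ * xs c3 R1 γ * conj (xs c3 R2 γ) else 0) * lw φ 1 Y (nm γ)
      - (if R2 = ∅ then conj (tt R1) * κ * mo φ 1 (5 / 6) *
          ((Y ^ (5 / 6 : ℝ) * Ns R1 ^ (-(1 / 6) : ℝ)
            * ∏ p ∈ R1 ∪ G, (1 - (nm p.1 : ℝ)⁻¹) : ℝ) : ℂ) else 0)‖
      ≤ C * (Ns R1 * Ns (G \ (R1 ∪ R2))) ^ (1 / 2 + ε) * Ns R2 ^ (1 + ε)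

/-! ### Smooth character sums -/

def PVu0 : Prop := ∃ (n : ℕ) (C : ℝ), 0 < C ∧ ∀ (φ : ℝ → ℂ) (D L R : ℝ) (G : Finset P),
  BD n φ D → 0 < L → (∀ v, φ v ≠ 0 → L * Real.exp v ≤ R) →
  ‖∑ c ∈ pball R, (if Disjoint (fac c) G then φ (Real.log (nm c / L)) else 0)
      - ((rho * L * ∏ p ∈ G, (1 - (nm p.1 : ℝ)⁻¹) : ℝ) : ℂ) * ∫ v : ℝ, φ v * (Real.exp v : ℝ)‖
    ≤ C * D * 2 ^ G.card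
def PVu1 : Prop := ∃ (n : ℕ) (C : ℝ), 0 < C ∧ ∀ (φ : ℝ → ℂ) (D L R : ℝ) (G : Finset P) (z : E),
  BD n φ D → 0 < L → (∀ v, φ v ≠ 0 → L * Real.exp v ≤ R) → z ≠ 0 → ¬ IsCube z →
  ‖∑ c ∈ pball R, (if Disjoint (fac c) G then xv c3 c z * φ (Real.log (nm c / L)) else 0)‖
    ≤ C * D * 2 ^ (G ∪ fac z).card * √(Ns (fac z))

/-! ### The residue -/

/-- Rational integers inside the Eisenstein integers. -/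
structure RatA : Prop where
  gz : ∀ (s : Finset P) (n : ℤ), Prim s →
    ∑ x ∈ Finset.range (nm (pr s)), xs c3 s (x : E) * e1 (x * n / nm (pr s))
      = conj (xs c3 s (n : E)) * gn s * (√(Ns s) : ℝ)
  per : ∀ (s : Finset P) (x y : ℤ), (nm (pr s) : ℤ) ∣ x - y → xs c3 s (x : E) = xs c3 s (y : E)
  tt_self : ∀ s, SelfC s → tt s = 1
  pr_self : ∀ s, SelfC s → pr s = (ell s : E) ∨ pr s = -(ell s : E)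
  ell_sq : ∀ s, SelfC s → nm (pr s) = ell s ^ 2
  ell_sqf : ∀ s, SelfC s → Squarefree (ell s)
  ell_inj : ∀ s t, SelfC s → SelfC t → ell s = ell t → s = t
  xs_self : ∀ (s : Finset P) (h : ℤ), SelfC s →
    xs c3 s (h : E) = if Int.gcd h (ell s) = 1 then 1 else 0
  split : ∀ s : Finset P, ∃! x : Finset P × Finset P,
    SelfC x.1 ∧ Prim x.2 ∧ Disjoint x.1 x.2 ∧ s = x.1 ∪ x.2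
structure RatB : Prop where
  fac_int : ∀ h : ℤ, h ≠ 0 → SelfC (fac (h : E)) ∧ SelfC (cf1 (h : E)) ∧ SelfC (cf2 (h : E))
  vp_int : ∀ (h : ℤ) (p : P) (l : ℕ), h ≠ 0 → l.Prime → p.1 ∣ (l : E) →
    vp p.1 (h : E) = padicValInt l h
  under : ∀ p : P, ∃ l : ℕ, l.Prime ∧ l ≠ 3 ∧ p.1 ∣ (l : E) ∧ (nm p.1 = l ∨ nm p.1 = l ^ 2) ∧
    ∀ h : ℤ, p.1 ∣ (h : E) ↔ (l : ℤ) ∣ h
  over_P : ∀ l : ℕ, l.Prime → l ≠ 3 → ∃ p : P, p.1 ∣ (l : E)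
  cop_int : ∀ (h : ℤ) (d : E), Pm d → h ≠ 0 →
    (Disjoint (fac d) (fac (h : E)) ↔ Int.gcd h (nm d) = 1)
  xv_int : ∀ (h : ℤ) (γ : E), ¬ (3 : ℤ) ∣ h → Pm γ → xv c3 γ (h : E) =
    if Disjoint (fac γ) (fac (h : E)) then
      xs c3 (cf1 (h : E)) γ * conj (xs c3 (cf2 (h : E)) γ) else 0
  cube_int : ∀ h : ℤ, IsCube (h : E) ↔ ∃ j : ℤ, h = j ^ 3
  cube_mn : ∀ m n : ℤ, m ≠ 0 → (∀ l : ℕ, l.Prime → ¬ (l : ℤ) ^ 3 ∣ m) →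
    (IsCube ((m * n ^ 2 : ℤ) : E) ↔ ∃ j : ℤ, n = m * j ^ 3)
  rough_P : ∀ (w : ℕ) (p : P), p ∉ fac (primorial w : E) → (w : ℝ) < nm p.1
  not_prim : ∀ γ : E, Pm γ → ¬ (γ = pr (fac γ) ∧ Prim (fac γ)) →
    ∃ p ∈ fac γ, p.1 ^ 2 ∣ γ ∨ p.1 * star p.1 ∣ γ ∨ (star p.1 = p.1)
structure RatF : Prop extends RatA, RatB
def KA (κ : ℂ) : Prop := ∀ φ : ℝ → ℂ, Bump φ → ∃ C : ℝ, 0 < C ∧ ∀ w : ℕ, 3 ≤ w →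
  ∃ Cw : ℝ, ∀ H Y : ℝ, 1 ≤ H → 1 ≤ Y →
    ‖KXi φ w H Y - κ * mo φ 1 (5 / 6) * ((PK w * PQ w * (Real.pi ^ (-(1 / 3) : ℝ)
        * Real.Gamma (1 / 3)) * Y ^ (5 / 6 : ℝ) * H ^ (2 / 3 : ℝ) : ℝ) : ℂ)‖
      ≤ C * (w : ℝ) ^ (-(1 / 2) : ℝ) * Y ^ (5 / 6 : ℝ) * H ^ (2 / 3 : ℝ)
        + Cw * (Y ^ (5 / 6 : ℝ) + H ^ (2 + 1 / 50 : ℝ))
def KB1 : Prop := ∀ (φ : ℝ → ℂ) (w : ℕ) (H Y : ℝ), Bump φ → 3 ≤ w → 0 < H → 0 < Y →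
  KXi φ w H Y = ∑ d ∈ pball (3 * Y) with Disjoint (fac d) (fac (primorial w : E)),
    ∑ s ∈ sqf (3 * Y) with SelfC s ∧ Disjoint s (fac (primorial w : E)),
      ∑ e ∈ (primorial w * nm (pr s) * nm d).divisors,
        (√(nm d : ℝ) : ℝ) * (ArithmeticFunction.moebius e : ℂ) *
          KBs φ (e * ell s) (H / e) (Y / (Ns s * (nm d : ℝ) ^ 3)) (fac (primorial w : E))
            fun _ => True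
def KBN : Prop := ∀ (φ : ℝ → ℂ) (ε : ℝ), Bump φ → 0 < ε → ∃ C : ℝ, 0 < C ∧
  ∀ (m : ℤ) (Hp L Z : ℝ) (G : Finset P), m ≠ 0 → 0 < Hp → 0 < L → 1 ≤ Z → |(m : ℝ)| ≤ Z →
    L ≤ Z → L / Hp ≤ Z →
    ‖KBs φ m Hp L G fun n => n ≠ 0 ∧ ¬ IsCube ((m * n ^ 2 : ℤ) : E)‖
      ≤ C * 2 ^ G.card * Z ^ ε * L ^ (3 / 2 : ℝ) * Hp ^ (-(1 / 2) : ℝ) * √|(m : ℝ)|
def KB3a : Prop := ∀ φ : ℝ → ℂ, Bump φ → ∃ C : ℝ, 0 < C ∧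
  ∀ (m : ℤ) (Hp L : ℝ) (G : Finset P), m ≠ 0 → (∀ l : ℕ, l.Prime → ¬ (l : ℤ) ^ 3 ∣ m) →
    0 < Hp → 0 < L →
    ‖KBs φ m Hp L G fun n => n ≠ 0 ∧ IsCube ((m * n ^ 2 : ℤ) : E)‖
      ≤ C * Hp ^ (2 / 3 : ℝ) * L ^ (5 / 6 : ℝ) * |(m : ℝ)| ^ (-(1 / 3) : ℝ) ∧
    ‖KBs φ m Hp L G fun n => n = 0‖ ≤ (if L ≤ 1 ∧ 1 ≤ 3 * L then C * Hp else 0) ∧
    KBs φ m Hp L G (fun _ => True) = KBs φ m Hp L G (fun n => n = 0)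
      + KBs φ m Hp L G (fun n => n ≠ 0 ∧ IsCube ((m * n ^ 2 : ℤ) : E))
      + KBs φ m Hp L G fun n => n ≠ 0 ∧ ¬ IsCube ((m * n ^ 2 : ℤ) : E)
def KB3b : Prop := ∀ φ : ℝ → ℂ, Bump φ → ∃ C : ℝ, 0 < C ∧ ∀ w : ℕ, 3 ≤ w →
  ∃ Cw : ℝ, ∀ (e : ℕ) (H Y : ℝ), e ∣ primorial w → 1 ≤ H → 1 ≤ Y →
    ‖KBs φ e (H / e) Y (fac (primorial w : E))
        (fun n => n ≠ 0 ∧ IsCube (((e : ℤ) * n ^ 2 : ℤ) : E))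
      - mo φ 1 (5 / 6) * ((rho * PK w * (1 / 3 * Real.pi ^ (-(1 / 6) : ℝ) * Real.Gamma (1 / 6))
        * Y ^ (5 / 6 : ℝ) * H ^ (2 / 3 : ℝ) / e : ℝ) : ℂ)‖
      ≤ C * (w : ℝ) ^ (-(1 / 2) : ℝ) * Y ^ (5 / 6 : ℝ) * H ^ (2 / 3 : ℝ) / e + Cw * H * √Y
def KBasm : Prop := ∀ φ : ℝ → ℂ, Bump φ → ∃ C : ℝ, 0 < C ∧ ∀ w : ℕ, 3 ≤ w →
  ∃ Cw : ℝ, ∀ Y : ℝ, 1 ≤ Y →
    ‖KXi φ w (Y ^ (3 / 5 : ℝ)) Y - mo φ 1 (5 / 6) * ((rho * PK w * PQ w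
        * (1 / 3 * Real.pi ^ (-(1 / 6) : ℝ) * Real.Gamma (1 / 6)) * Y ^ (37 / 30 : ℝ) : ℝ) : ℂ)‖
      ≤ C * (w : ℝ) ^ (-(1 / 2) : ℝ) / PQ w * Y ^ (37 / 30 : ℝ) + Cw * Y ^ (37 / 30 - 1 / 100 : ℝ)

end Pat
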