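import Vale.Agent.P006.IfA

/-! Interface B for P006: large sieve inequalities, large values, primes against characters. -/

noncomputable section
namespace Pat
open QRH Complex MeasureTheory Filter
open scoped ComplexConjugate Classical ContDiff Topology

/-- Large sieve for a family with pairwise non-cube ratios. -/
def HM1 : Prop := ∀ ε : ℝ, 0 < ε → ∃ C : ℝ, 0 < C ∧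
  ∀ (Z : Finset E) (K N : ℝ) (a : E → ℂ), 1 ≤ K → 0 < N →
    (∀ n, a n ≠ 0 → N / 3 ≤ nm n) → (∀ z ∈ Z, z ≠ 0 ∧ Ns (fac z) ≤ K) →
    (∀ z ∈ Z, ∀ z' ∈ Z, z ≠ z' → ¬ IsCube (z * z' ^ 2)) →
    ∑ z ∈ Z, ‖Dn a N z‖ ^ 2 ≤ C * (N + Z.card * K ^ (1 + ε)) * nrmE a N
/-- The same without restriction on the support. -/
def HM1g : Prop := ∀ ε : ℝ, 0 < ε → ∃ C : ℝ, 0 < C ∧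
  ∀ (Z : Finset E) (K N : ℝ) (a : E → ℂ), 1 ≤ K → 1 ≤ N → (∀ z ∈ Z, z ≠ 0 ∧ Ns (fac z) ≤ K) →
    (∀ z ∈ Z, ∀ z' ∈ Z, z ≠ z' → ¬ IsCube (z * z' ^ 2)) →
    ∑ z ∈ Z, ‖Dn a N z‖ ^ 2 ≤ C * N ^ ε * (N + Z.card * K ^ (1 + ε)) * nrmE a N
/-- Bounds for the transforms of thin annuli. -/
def HK : Prop := ∃ C : ℝ, 0 < C ∧ ∀ T : ℝ, 1 ≤ T →
  (∀ y v : ℝ, 0 ≤ y → |v| ≤ 3 → ‖h0 T (y * Real.exp (v / T))‖ ≤ C * GM T y) ∧ ‖hO T 0‖ ≤ C / T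
/-- Separation of variables in `hO`. -/
def HSep : Prop := ∀ n : ℕ, ∃ C : ℝ, 0 < C ∧ ∀ T y : ℝ, 1 ≤ T → 0 ≤ y →
  ∃ h : ℝ → ℂ, Continuous h ∧ (∀ τ, ‖h τ‖ ≤ C * GM T y * (1 + |τ|) ^ (-(n : ℝ))) ∧
    Integrable h ∧ ∀ u : ℝ, 1 ≤ u → u ≤ Real.exp (2 / T) →
      hO T (y / u) = ∫ τ : ℝ, h τ * (u : ℂ) ^ (1 + τ * T * I)
/-- Poisson summation for one pair. -/
def PoiP : Prop := ∀ (A T : ℝ) (d c c' : Finset P), 0 < A → 1 ≤ T → Disjoint c c' →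
  Disjoint d c → Disjoint d c' →
  ∑ a ∈ pball (3 * A), (Om (T * Real.log (nm a / A)) : ℝ) *
      (xs c3 (d ∪ c) a * conj (xs c3 (d ∪ c') a))
    = ∑ f ∈ d.powerset, mu f * (gn c * xs c3 c (pr f)) * conj (gn c' * xs c3 c' (pr f)) *
        ((A / (9 * Ns f * √(Ns c * Ns c')) : ℝ) : ℂ) *
        ∑' ξ : E, psf ξ 3 * conj (xs c3 c ξ) * xs c3 c' ξ
          * hO T (nm ξ * A / (9 * Ns f * (Ns c * Ns c')))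
/-- Poisson summation in the mean square. -/
def PoiU : Prop := ∀ n : ℕ, 2 ≤ n → ∃ C : ℝ, 0 < C ∧
  ∀ (x : Finset P → ℂ) (A B T : ℝ) (Pr : E → Prop), 0 < A → 0 < B → 1 ≤ T →
    Sup x B (B * Real.exp (1 / T)) →
    ‖(S1 x A B T : ℂ) - MainM x A B T Pr‖
      ≤ C * (A / T * nrm2 x (3 * B) + Rest0 x A B T n Pr + RestN x A B T n)

def LSb (α : ℝ) : Prop := ∀ ε : ℝ, 0 < ε → ∃ C : ℝ, 0 < C ∧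
  ∀ (M N : ℝ) (x : Finset P → ℂ), 1 ≤ M → 1 ≤ N →
    ∑ m ∈ sqf M, ‖Ds x N (pr m)‖ ^ 2
      ≤ C * (M * N) ^ ε * (M + N ^ α + (M * N) ^ (2 / 3 : ℝ)) * nrm2 x N
def LSd (α : ℝ) : Prop := ∀ ε : ℝ, 0 < ε → ∃ C : ℝ, 0 < C ∧
  ∀ (M N : ℝ) (x : Finset P → ℂ), 1 ≤ M → 1 ≤ N →
    ∑ m ∈ sqf M, ‖Ds x N (pr m)‖ ^ 2
      ≤ C * (M * N) ^ ε * (N + M ^ α + (M * N) ^ (2 / 3 : ℝ)) * nrm2 x N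
/-- One box of characters. -/
def Box (α : ℝ) : Prop := ∀ ε : ℝ, 0 < ε → ∃ C : ℝ, 0 < C ∧
  ∀ (y : Finset P → ℂ) (L X1 Y J Z : ℝ) (S : Finset E), 1 ≤ Z → L ≤ Z → 1 ≤ X1 → X1 ≤ Z → 1 ≤ Y →
    Y ≤ Z → 1 ≤ J →
    (∀ ξ ∈ S, ξ ≠ 0 ∧ (nm ξ : ℝ) ≤ Z ∧ Ns (cf1 ξ) ≤ X1 ∧ Ns (cf2 ξ) ≤ Y ∧ Jc ξ ≤ J) →
    ∑ ξ ∈ S, ‖Ds y L ξ‖ ^ 2 ≤ C * Z ^ ε * J *
      min (Y * (L + X1 ^ α + (X1 * L) ^ (2 / 3 : ℝ))) (L + (X1 * Y) ^ 2) * nrm2 y L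
/-- All characters. -/
def NB (α : ℝ) : Prop := ∀ ε : ℝ, 0 < ε → ∃ C : ℝ, 0 < C ∧
  ∀ (y : Finset P → ℂ) (L R Z1 Z : ℝ), 1 ≤ Z → L ≤ Z → 0 < R → R ≤ Z → 1 ≤ Z1 →
    ∑ ξ ∈ ball R with Z1 ≤ Qc ξ, ‖Ds y L ξ‖ ^ 2 ≤ C * Z ^ ε *
      (R ^ (1 / 3 : ℝ) * L * Z1 ^ (-(1 / 3) : ℝ) + R ^ α + (R * L) ^ (2 / 3 : ℝ)) * nrm2 y L
/-- Small conductors, without loss of logarithms. -/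
def N2 : Prop := ∃ C : ℝ, 0 < C ∧
  ∀ (y : Finset P → ℂ) (L R Q0 Z1 : ℝ), Sup y (L / 3) L → 0 < R → 1 ≤ Q0 → Z1 ^ 3 ≤ L →
    ∑ ξ ∈ ball R with Q0 ≤ Qc ξ ∧ Qc ξ < Z1, ‖Ds y L ξ‖ ^ 2
      ≤ C * (R / Q0) ^ (1 / 3 : ℝ) * L * nrm2 y L
/-- Bounded coefficients on all primary elements. -/
def NG : Prop := ∀ ε : ℝ, 0 < ε → ∃ C : ℝ, 0 < C ∧
  ∀ (a : E → ℂ) (N R m0 Z : ℝ), 1 ≤ N → N ≤ Z → 1 ≤ R → R ≤ Z → 1 ≤ m0 → (∀ n, ‖a n‖ ≤ 1) →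
    (∀ n, a n ≠ 0 → m0 ≤ Nsf n) →
    ∑ ξ ∈ ball R, ‖Dn a N ξ‖ ^ 2 ≤ C * Z ^ ε * N *
      (R + (R ^ (1 / 3 : ℝ) * N + (R * N) ^ (2 / 3 : ℝ)) * m0 ^ (-(1 / 2) : ℝ))
/-- Coefficients with small support. -/
def NS : Prop := ∀ ε : ℝ, 0 < ε → ∃ C : ℝ, 0 < C ∧
  ∀ (y : Finset P → ℂ) (L R G Z V : ℝ) (S : Finset (Finset P)), 1 ≤ Z → L ≤ Z → 0 < R → R ≤ Z →
    1 ≤ G → (∀ c, y c ≠ 0 → c ∈ S) → (S.card : ℝ) ≤ V →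
    ∑ ξ ∈ ball R, ‖Ds y L ξ‖ ^ 2
      ≤ C * Z ^ ε * (G * (R + L + (R * L) ^ (2 / 3 : ℝ)) + V * R / G) * nrm2 y L
/-- Restricted large sieve. -/
def HM2 : Prop := ∀ ε : ℝ, 0 < ε → ∃ C : ℝ, 0 < C ∧
  ∀ (S : Finset (Finset P)) (a : E → ℂ) (K N G Z : ℝ), 1 ≤ K → K ≤ Z → 1 ≤ N → N ≤ Z → 1 ≤ G →
    S ⊆ sqf K →
    ∑ s ∈ S, ‖Dn a N (pr s)‖ ^ 2
      ≤ C * Z ^ ε * (G * (N + N ^ (1 / 3 : ℝ) * K) + S.card * K / G) * nrmE a N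
def BL1 : Prop := ∃ C : ℝ, 0 < C ∧
  ∀ (y : Finset P → ℂ) (L K T Q0 Z1 : ℝ), Sup y (L / 3) L → 0 < K → 1 ≤ T → 1 ≤ Q0 → Z1 ^ 3 ≤ L →
    Xi y L K T (fun ξ => Q0 ≤ Qc ξ ∧ Qc ξ < Z1)
      ≤ C * T ^ (-(4 / 5) : ℝ) * (K / Q0) ^ (1 / 3 : ℝ) * L * nrm2 y L
def BL2 : Prop := ∀ ε : ℝ, 0 < ε → ∃ C : ℝ, 0 < C ∧
  ∀ (y : Finset P → ℂ) (L K T Z1 Z : ℝ), L ≤ Z → 0 < K → K ≤ Z → 1 ≤ T → T ≤ Z → 1 ≤ Z1 →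
    Xi y L K T (fun ξ => Z1 ≤ Qc ξ) ≤ C * Z ^ ε *
      (T ^ (-(4 / 5) : ℝ) * K ^ (1 / 3 : ℝ) * L * Z1 ^ (-(1 / 3) : ℝ)
        + T ^ (-(1 / 7) : ℝ) * (K * L) ^ (2 / 3 : ℝ) + T ^ (3 / 5 : ℝ) * K) * nrm2 y L
def BL3 : Prop := ∀ ε : ℝ, 0 < ε → ∃ C : ℝ, 0 < C ∧
  ∀ (y : Finset P → ℂ) (L K T Z1 R0 Z : ℝ), L ≤ Z → 0 < K → 1 ≤ T → 1 ≤ R0 → R0 ≤ Z →
    Xi y L K T (fun ξ => Z1 ≤ Qc ξ) ≤ ∑ ξ ∈ ball R0 with Z1 ≤ Qc ξ, ‖Ds y L ξ‖ ^ 2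
      + C * Z ^ ε * (K * T ^ 2 / R0) ^ 2 *
        (R0 ^ (1 / 3 : ℝ) * L + R0 + (R0 * L) ^ (2 / 3 : ℝ)) * nrm2 y L
/-- The terms with common factors. -/
def RN : Prop := ∀ (ε Λ : ℝ) (n : ℕ), 0 < ε → 1 ≤ Λ → 2 ≤ n → ∃ C : ℝ, 0 < C ∧
  ∀ (J : Finset ℤ) (x : ℤ → Finset P → ℂ) (Ai Bj : ℤ → ℝ) (A B T w Z : ℝ),
    1 ≤ A → 1 ≤ B → B ≤ Z → 1 ≤ T → T ≤ Z → 1 ≤ w →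
    (∀ i ∈ J, A / Λ ≤ Ai i ∧ Ai i ≤ Λ * A ∧ B / Λ ≤ Bj i ∧ Bj i ≤ Λ * B ∧
      Sup (x i) (Bj i) (3 * Bj i) ∧ ∀ c, x i c ≠ 0 → Rough w c) →
    (∀ c, ∑ i ∈ J, ‖x i c‖ ^ 2 ≤ 1) →
    ∑ i ∈ J, RestN (x i) (Ai i) (Bj i) T n
      ≤ C * (T ^ (-(4 / 5) : ℝ) * MM A B * w ^ (-(1 / 2) : ℝ)
        + Z ^ ε * (T ^ (-(4 / 5) : ℝ) * MM A B * B ^ (-(1 / 30) : ℝ)
          + T ^ (-(1 / 7) : ℝ) * A ^ (1 / 3 : ℝ) * B ^ 2 * w ^ (-(1 / 2) : ℝ)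
          + T ^ (3 / 5 : ℝ) * B ^ 2))

/-! ### Large values -/

def HA12 : Prop := ∀ δ1 δ : ℝ, 0 < δ1 → δ1 ≤ δ → δ ≤ 1 / 100 → ∃ C : ℝ, 0 < C ∧ ∀ B : ℝ, 1 ≤ B →
  HAf (Fam1 B δ1 δ) B δ1 (2 * δ) C ∧ HAf (Fam2 B δ1 δ) B δ1 (2 * δ) C
def RS : Prop := ∀ δ1 δ Λ : ℝ, 0 < δ1 → δ1 ≤ δ / 10 → δ ≤ 1 / 100 → 1 ≤ Λ → ∃ C : ℝ, 0 < C ∧
  ∀ (B L : ℝ) (y : Finset P → ℂ), 1 ≤ B → L ≤ Λ * B →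
    ∑ ξ ∈ ball (B ^ (1 + δ1)) with
        B ^ (1 / 10 : ℝ) ≤ Qc ξ ∧ ξ ∉ Fam1 B δ1 δ ∧ ξ ∉ Fam2 B δ1 δ, ‖Ds y L ξ‖ ^ 2
      ≤ C * B ^ (4 / 3 - δ / 10) * nrm2 y L
/-- Moment bound for one factor. -/
def LV1 : Prop := ∀ η C1 : ℝ, 0 < η → 0 < C1 → ∃ C : ℝ, 0 < C ∧
  ∀ (B δ1 ν : ℝ) (F : Finset E) (a : E → ℂ), 1 ≤ B → 0 < δ1 → δ1 ≤ 1 / 40000 → η ≤ ν →
    ν ≤ 0.85 → F ⊆ ball (B ^ (1 + δ1)) → HAf F B δ1 (1 / 1000) C1 → (∀ n, ‖a n‖ ≤ 1) →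
    (ν ≤ 0.62 ∨ ∀ ξ ∈ F, ‖Dn a (B ^ ν) ξ‖ ≤ B ^ (1 / 2 + δ1)) →
    ∑ ξ ∈ F, ‖Dn a (B ^ ν) ξ‖ ^ (2 / ν) ≤ C * B ^ (7 / 3 - 1.5 / 10000 : ℝ)
/-- Power saving for products. -/
def LV : Prop := ∀ (m : ℕ) (Λ C1 : ℝ), 1 ≤ Λ → 0 < C1 → ∃ C : ℝ, 0 < C ∧
  ∀ (ι : Type) (J : Finset ι) (B δ1 : ℝ) (F : Finset E) (a : ι → E → ℂ) (N : ι → ℝ),
    J.card ≤ m → 1 ≤ B → 0 < δ1 → δ1 ≤ 1 / 40000 → F ⊆ ball (B ^ (1 + δ1)) →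
    HAf F B δ1 (1 / 1000) C1 → (∀ i n, ‖a i n‖ ≤ 1) → (∀ i ∈ J, 1 ≤ N i) →
    ∏ i ∈ J, N i ≤ Λ * B →
    (∀ i ∈ J, N i ≤ B ^ (0.62 : ℝ) ∨ ∀ ξ ∈ F, ‖Dn (a i) (N i) ξ‖ ≤ B ^ (1 / 2 + δ1)) →
    ∑ ξ ∈ F, ‖∏ i ∈ J, Dn (a i) (N i) ξ‖ ^ 2 ≤ C * B ^ (7 / 3 - 1 / 10000 : ℝ)
/-- Heath-Brown's identity. -/
def HBI : Prop := ∀ (z N : ℝ) (g : E → ℂ), 1 ≤ z → N ≤ z ^ 2 → (∀ n : E, N < nm n → g n = 0) →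
  ∑ n ∈ pball N, (vm n : ℂ) * g n
    = 2 * ∑ m ∈ sqf z, ∑ k ∈ pball N, mu m * (Real.log (nm k) : ℝ) * g (pr m * k)
      - ∑ m ∈ sqf z, ∑ m' ∈ sqf z, ∑ k ∈ pball N, ∑ k' ∈ pball N,
          mu m * mu m' * (Real.log (nm k') : ℝ) * g (pr m * pr m' * k * k')
/-- The sum over primes in one box. -/
def Ap (w τ κ : ℝ) (i : ℤ) (s : ℂ) (ξ : E) : ℂ :=
  ∑ p ∈ prs (3 * Real.exp (i / 2)),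
    conj (pu w τ κ i p) * ((nm p.1 / Real.exp (i / 2) : ℝ) : ℂ) ^ s * c3 p ξ
/-- Decomposition of a long prime variable. -/
def PD : Prop := ∀ ε : ℝ, 0 < ε → ∃ (k : ℕ) (C : ℝ), 0 < C ∧
  ∀ (w τ κ R S M : ℝ) (i : ℤ) (s : ℂ) (F : Finset E) (ρ : E → ℝ), 2 ≤ i →
    w ≤ Real.exp (i / 2) → |κ| ≤ 1 → |s.re| ≤ 1 → 1 ≤ R → R ^ (1 / 2 + ε) ≤ S →
    √(Real.exp (i / 2)) ≤ S → (∀ ξ ∈ F, ξ ∈ ball R ∧ ¬ IsCube ξ) → (∀ ξ, 0 ≤ ρ ξ) →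
    (∀ (a : Fin 4 → E → ℂ) (N : Fin 4 → ℝ), (∀ j n, ‖a j n‖ ≤ 1) → (∀ j, 1 ≤ N j) →
      ∏ j, N j ≤ 300 * Real.exp (i / 2) →
      (∀ j, N j ≤ 6 * √(Real.exp (i / 2)) ∨ ∀ ξ ∈ F, ‖Dn (a j) (N j) ξ‖ ≤ S) →
      ∑ ξ ∈ F, ρ ξ * ‖∏ j, Dn (a j) (N j) ξ‖ ^ 2 ≤ M) →
    ∑ ξ ∈ F, ρ ξ * ‖Ap w τ κ i s ξ‖ ^ 2
      ≤ C * Real.exp (i / 2) ^ ε * ((1 + |τ|) * (1 + ‖s‖)) ^ k * M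
/-- Removing the condition that the primes are distinct. -/
def CoI : Prop := ∀ n : ℕ, ∃ C : ℝ, 0 < C ∧
  ∀ (w τ κ L : ℝ) (l : List ℤ) (s : ℂ), l.length ≤ n → 1 ≤ w → |κ| ≤ 1 → |s.re| ≤ 1 →
    3 ^ n * Bl l ≤ L →
    ∃ a : E → ℂ, (∀ m, ‖a m‖ ≤ C) ∧ (∀ m, a m ≠ 0 → w ^ 2 ≤ Nsf m) ∧
      ∀ ξ, ((2 ^ l.length * l.length.factorial : ℕ) : ℂ) * Ds (tw (nb w τ κ l) (Bl l) s) L ξ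
        = (l.map fun i => Ap w τ κ i s ξ).prod - Dn a L ξ
/-- The critical range for products of primes. -/
def CR : Prop := ∀ (η : ℝ) (n : ℕ), 0 < η → ∃ (δ1 δ2 : ℝ) (k : ℕ) (C : ℝ), 0 < δ1 ∧ 0 < δ2 ∧
  δ1 ≤ 1 / 100 ∧ 0 < C ∧ ∀ (w τ κ : ℝ) (l : List ℤ), l.length ≤ n → |κ| ≤ 1 → 1 ≤ Bl l →
    Bl l ^ η ≤ w → w ≤ √(Bl l) →
    Crit (nb w τ κ l) (Bl l) (3 ^ n * Bl l) δ1 δ2 k (C * (1 + |τ|) ^ k)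

/-! ### Primes against characters of small conductor -/

def MuB : Prop := ∃ (k : ℕ) (C : ℝ), 0 < C ∧ ∀ (z : E) (X τ : ℝ), z ≠ 0 → 1 ≤ X →
  Rr z ≤ X ^ (1 / 100 : ℝ) →
  ‖S (fun s => mu s * xs c3 s z) X (τ * I)‖ ≤ C * X ^ (29 / 30 : ℝ) * (1 + |τ|) ^ k
def MuW : Prop := ∃ c C : ℝ, 0 < c ∧ 0 < C ∧ ∀ (z : E) (y : ℝ), z ≠ 0 → 1 ≤ y → Rr z ≤ y ^ c →
  ‖∑ s ∈ sqf y, mu s * xs c3 s z‖ ≤ C * y ^ (1 - c)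
def PVs : Prop := ∃ C : ℝ, 0 < C ∧ ∀ (z : E) (y : ℝ), z ≠ 0 → ¬ IsCube z → 1 ≤ y →
  ‖∑ n ∈ pball y, xv c3 n z‖ ≤ C * Rr z * √y ∧
  ‖∑ n ∈ pball y, (Real.log (nm n) : ℝ) * xv c3 n z‖ ≤ C * Rr z * √y * (1 + Real.log y)
def PC : Prop := ∃ c C : ℝ, 0 < c ∧ c ≤ 1 / 2 ∧ 0 < C ∧
  ∀ (z : E) (y : ℝ), z ≠ 0 → ¬ IsCube z → 1 ≤ y → (nm z : ℝ) ≤ y ^ c →
  ‖∑ p ∈ prs y, c3 p z‖ ≤ C * y ^ (1 - c)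
/-- Weighted form: the primes with rank at least `m` and a weight of bounded variation. -/
def PCw : Prop := ∃ c C : ℝ, 0 < c ∧ c ≤ 1 / 2 ∧ 0 < C ∧
  ∀ (z : E) (y y' V : ℝ) (m : ℕ) (g g' : ℝ → ℂ), z ≠ 0 → ¬ IsCube z → 1 ≤ y → y' ≤ 3 * y →
    (nm z : ℝ) ≤ y ^ c → (∀ t, y ≤ t → t ≤ 3 * y → HasDerivAt g (g' t) t ∧ ‖g t‖ ≤ V ∧
      ‖g' t‖ ≤ V / y) →
    ‖∑ p ∈ prs (3 * y) with y ≤ nm p.1 ∧ (nm p.1 : ℝ) < y' ∧ m ≤ key p, g (nm p.1) * c3 p z‖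
      ≤ C * V * y ^ (1 - c)
def SC : Prop := ∀ n : ℕ, ∃ c C : ℝ, 0 < c ∧ 0 < C ∧
  ∀ (w τ κ L : ℝ) (l : List ℤ), l ≠ [] → l.length ≤ n → 1 ≤ w → |κ| ≤ 1 → 3 ^ n * Bl l ≤ L →
    Small (nb w τ κ l) (Bl l) L (w ^ c) (C * w ^ (-c) * (1 + |τ|))
def SCB : Prop := ∃ c C : ℝ, 0 < c ∧ 0 < C ∧
  ∀ (w1 w θ τ B L : ℝ), 1 ≤ w1 → 1 < B → w < B → 3 * B ≤ L →
    Small (bR w1 w θ τ B) B L (w1 ^ c) (C * (1 + Real.log B) * w1 ^ (-c) * (1 + |τ|))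

end Pat
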