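import Vale.Agent.P006.IfB

/-! Interface C for P006: the dispersion method and the sum over primes. -/

noncomputable section
namespace Pat
open QRH Complex MeasureTheory Filter
open scoped ComplexConjugate Classical ContDiff Topology

/-- Bounded rough coefficients supported in `[B, Λ B]`. -/
structure GB (β : Finset P → ℂ) (B Λ w : ℝ) : Prop where
  bd : ∀ b, ‖β b‖ ≤ 1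
  sup : Sup β B (Λ * B)
  rough : ∀ b, β b ≠ 0 → Rough w b
def mOm : ℂ := mo (fun v => (Om v : ℂ)) 1 (2 / 3)

/-- The sum over cubes. -/
def CS : Prop := ∃ C : ℝ, 0 < C ∧ ∀ s : ℝ, 0 < s →
  Summable (fun j : E => if j = 0 then 0 else ‖hO 1 (s * (nm j : ℝ) ^ 3)‖) ∧
  ∑' j : E, (if j = 0 then 0 else ‖hO 1 (s * (nm j : ℝ) ^ 3)‖) ≤ C * s ^ (-(1 / 3) : ℝ) ∧
  ‖∑' j : E, (if j = 0 then 0 else hO 1 (s * (nm j : ℝ) ^ 3))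
      - ((27 * (9 : ℝ) ^ (-(1 / 3) : ℝ) * rho * kap ^ 2 * s ^ (-(1 / 3) : ℝ) : ℝ) : ℂ) * mOm‖
    ≤ C * s ^ (-(1 / 6) : ℝ)
def MME : Prop := ∃ C : ℝ, 0 < C ∧ ∀ (β : Finset P → ℂ) (A B w : ℝ), 0 < A → 1 ≤ B → 1 ≤ w →
  GB β B 3 w →
  ‖MainM (fun b => β b * tt b) A B 1 IsCube
      - ((rho * A ^ (2 / 3 : ℝ) * ‖∑ b ∈ sqf (3 * B), β b * t0 b‖ ^ 2 : ℝ) : ℂ) * mOm‖
    ≤ C * (A ^ (5 / 6 : ℝ) * B ^ (-(2 / 3) : ℝ) * nrm1 β (3 * B) ^ 2 + MM A B / w)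
def S3B : Prop := ∃ C : ℝ, 0 < C ∧ ∀ A : ℝ, 1 ≤ A →
  ‖((∑ a ∈ pball (3 * A), Om (Real.log (nm a / A)) * ‖th a‖ ^ 2 * (nm a : ℝ) ^ (-(1 / 3) : ℝ)
      : ℝ) : ℂ) - ((rho * A ^ (2 / 3 : ℝ) : ℝ) : ℂ) * mOm‖ ≤ C * A ^ (1 / 3 : ℝ)
def S2B : Prop := ∀ ε : ℝ, 0 < ε → ∃ C : ℝ, 0 < C ∧ ∀ (β : Finset P → ℂ) (A B w : ℝ), 0 < A →
  1 ≤ B → 1 ≤ w → GB β B 3 w →
  ‖∑ a ∈ pball (3 * A), (Om (Real.log (nm a / A)) : ℝ) *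
        (∑ b ∈ sqf (3 * B), β b * tt b * xs c3 b a) * th a * (((nm a : ℝ) ^ (-(1 / 6) : ℝ) : ℝ) : ℂ)
      - ((rho * A ^ (2 / 3 : ℝ) : ℝ) : ℂ) * mOm * ∑ b ∈ sqf (3 * B), β b * t0 b‖
    ≤ C * (A ^ (2 / 3 : ℝ) * B ^ (5 / 6 : ℝ) / w + A ^ (-(1 / 6) : ℝ) * B ^ (3 / 2 + ε))
def DspB : Prop := ∀ (ε : ℝ) (n : ℕ), 0 < ε → 2 ≤ n → ∃ C : ℝ, 0 < C ∧
  ∀ (β : Finset P → ℂ) (A B w : ℝ), 1 ≤ A → 1 ≤ B → 1 ≤ w → GB β B (Real.exp 1) w →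
  Dsp β A B ≤ C * (A * nrm2 β (3 * B) + Rest0 (fun b => β b * tt b) A B 1 n IsCube
    + RestN (fun b => β b * tt b) A B 1 n
    + A ^ (5 / 6 : ℝ) * B ^ (-(2 / 3) : ℝ) * nrm1 β (3 * B) ^ 2 + MM A B / w
    + A ^ (1 / 3 : ℝ) * B ^ (5 / 3 : ℝ) + A ^ (-(1 / 6) : ℝ) * B ^ (7 / 3 + ε))
def R0B : Prop := ∀ n : ℕ, 2 ≤ n → ∃ C : ℝ, 0 < C ∧
  ∀ (β : Finset P → ℂ) (A B w Q0 Z1 e V : ℝ), 0 < A → 1 ≤ B → 1 ≤ w → 1 ≤ Q0 → Z1 ^ 3 ≤ 3 * B →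
    0 ≤ V → GB β B 3 w → Small β B (3 * B) (9 * Q0) e →
    (∀ τ : ℝ, Xi (tw β B (1 / 2 + τ * I)) (3 * B) (9 * B ^ 2 / A) 1 (fun ξ => Z1 ≤ Qc ξ)
      ≤ V * (1 + |τ|) ^ n) →
    Rest0 (fun b => β b * tt b) A B 1 (n + 2) IsCube
      ≤ C * (MM A B * (Q0 ^ (2 / 3 : ℝ) * (e ^ 2 + 1 / w) + Q0 ^ (-(1 / 3) : ℝ)) + A / B * V)
/-- Facts on the localised coefficients. -/
structure XlF : Prop where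
  gb : ∀ β B Λ w T τ i, GB β B Λ w → 0 < B → 1 ≤ T →
    GB (xl β B T τ i) (Bi B T i) (Real.exp (1 / T)) w
  bi : ∀ Λ B T i, 1 ≤ Λ → 0 < B → 1 ≤ T → i ∈ Ji Λ T → B / 3 ≤ Bi B T i ∧ Bi B T i ≤ 2 * Λ * B
  card : ∀ Λ T, 1 ≤ Λ → 1 ≤ T → ((Ji Λ T).card : ℝ) ≤ (2 * Real.log Λ + 4) * T
  norm_le : ∀ β B T τ i c, 0 < B → ‖xl β B T τ i c‖ ≤ ‖β c‖
  sum_sq : ∀ β B T τ (J : Finset ℤ) c, 0 < B → ∑ i ∈ J, ‖xl β B T τ i c‖ ^ 2 ≤ ‖β c‖ ^ 2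
  sum_eq : ∀ (β : Finset P → ℂ) (B Λ T : ℝ) (c : Finset P), 0 < B → 1 ≤ T → Sup β B (Λ * B) →
    ∑ i ∈ Ji Λ T, β c * (bx (T * Real.log (Ns c / B) - i / 2) : ℝ) = β c
  nrm1_le : ∀ β B Λ T τ i L, 0 < B → Sup β B (Λ * B) → nrm1 (xl β B T τ i) L ≤ nrm1 β (Λ * B)
  nrm2_le : ∀ β B Λ T τ (J : Finset ℤ) (L : ℤ → ℝ), 0 < B → Sup β B (Λ * B) →
    ∑ i ∈ J, nrm2 (xl β B T τ i) (L i) ≤ nrm2 β (Λ * B)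
  yd_eq : ∀ (β : Finset P → ℂ) (B T τ : ℝ),
    yd (fun b => β b * tt b) B T ∅ ∅ ∅ τ = tw β B (1 / 2 + τ * T * I)
  tw_nrm : ∀ β B L s, 0 < B → Sup β B (3 * B) → |s.re| ≤ 1 → nrm2 (tw β B s) L ≤ 9 * nrm2 β L
  transfer : ∀ (Λ : ℝ) (k : ℕ), 1 ≤ Λ → ∃ C : ℝ, 0 < C ∧
    ∀ (β : Finset P → ℂ) (B T τ V : ℝ) (i : ℤ) (s : ℂ) (F : Finset E), 0 < B → 1 ≤ T →
      i ∈ Ji Λ T → |s.re| ≤ 1 → Sup β B (Λ * B) →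
      (∀ s' : ℂ, |s'.re| ≤ 1 → ∑ ξ ∈ F, ‖Ds (tw β B s') (Λ * B) ξ‖ ^ 2 ≤ V * (1 + ‖s'‖) ^ k) →
      ∑ ξ ∈ F, ‖Ds (tw (xl β B T τ i) (Bi B T i) s) (3 * Bi B T i) ξ‖ ^ 2
        ≤ C * V * (T * (1 + |τ|) * (1 + ‖s‖)) ^ k
/-- Reduction of the bilinear form to the dispersion. -/
def E1c : Prop := ∀ (φ : ℝ → ℂ) (Λ : ℝ) (k : ℕ), Bump φ → 1 ≤ Λ → ∃ C : ℝ, 0 < C ∧
  ∀ (α β : Finset P → ℂ) (X B T w M0 M1 : ℝ), 1 ≤ B → B ≤ X → 1 ≤ T → 1 ≤ w → 0 ≤ M0 → 0 ≤ M1 →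
    GB β B Λ w →
    (∀ i ∈ Ji Λ 1, ∀ τ A' : ℝ, X / B / (30 * Λ) ≤ A' → A' ≤ 30 * (X / B) →
      Dsp (xl β B 1 τ i) A' (Bi B 1 i) ≤ M0 + M1 * (1 + |τ|) ^ (2 * k)) →
    ‖Bil dl α β X B (Λ * B) T φ‖ ≤ C * (√(nrm2 α (3 * X / B)) * (√M0 + √M1 * T ^ k)
      + nrm1 α (3 * X / B) * (X / B) ^ (-(1 / 6) : ℝ) * B ^ (5 / 6 : ℝ) * (1 + Real.log X) / w)
/-- The bound for the dispersion of one piece. -/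
def SmD : Prop := ∀ (Λ δ1 δ2 η : ℝ) (k kk : ℕ), 1 ≤ Λ → 0 < δ1 → δ1 ≤ 1 / 100 → 0 < δ2 → 0 < η →
  ∃ (k1 k2 k3 : ℕ) (δc C X0 : ℝ), 0 < δc ∧ δc ≤ 1 / 100 ∧ 0 < C ∧
  ∀ (β : Finset P → ℂ) (X B w u : ℝ), X0 ≤ X → X ^ (1 / 4 : ℝ) ≤ B → B ≤ Λ * √X →
    Real.log X ^ k2 ≤ w → 1 ≤ u → GB β B Λ w →
    Small β B (Λ * B) (Real.log X ^ k3) (u / Real.log X ^ k1) →
    (B ≤ X ^ (1 / 2 - δc) ∨ (X ^ η ≤ w ∧ Crit β B (Λ * B) δ1 δ2 kk u)) →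
    ∀ i ∈ Ji Λ 1, ∀ τ A' : ℝ, X / B / (30 * Λ) ≤ A' → A' ≤ 30 * (X / B) →
      Dsp (xl β B 1 τ i) A' (Bi B 1 i) ≤ C * (X / B * nrm2 β (Λ * B)
          + (X / B) ^ (5 / 6 : ℝ) * B ^ (-(2 / 3) : ℝ) * nrm1 β (Λ * B) ^ 2)
        + C * u ^ 2 * MM (X / B) B / Real.log X ^ k * (1 + |τ|) ^ (2 * (kk + 1))
/-- Bilinear forms, smooth range. -/
def SmB : Prop := ∀ (φ : ℝ → ℂ) (Λ δ1 δ2 η : ℝ) (k0 k kk : ℕ), Bump φ → 1 ≤ Λ → 0 < δ1 →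
  δ1 ≤ 1 / 100 → 0 < δ2 → 0 < η →
  ∃ (k1 k2 k3 : ℕ) (δc C X0 : ℝ), 0 < δc ∧ δc ≤ 1 / 100 ∧ 0 < C ∧
  ∀ (α β : Finset P → ℂ) (X B T w u : ℝ), X0 ≤ X → 1 ≤ T → T ≤ Real.log X ^ k0 →
    X ^ (1 / 4 : ℝ) ≤ B → B ≤ Λ * √X → Real.log X ^ k2 ≤ w → 1 ≤ u → GB β B Λ w →
    Small β B (Λ * B) (Real.log X ^ k3) (u / Real.log X ^ k1) →
    (B ≤ X ^ (1 / 2 - δc) ∨ (X ^ η ≤ w ∧ Crit β B (Λ * B) δ1 δ2 kk u)) →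
    ‖Bil dl α β X B (Λ * B) T φ‖ ≤ C * u * (√(nrm2 α (3 * X / B)) *
        (√(X / B * nrm2 β (Λ * B)) + (X / B) ^ (5 / 12 : ℝ) * B ^ (-(1 / 3) : ℝ) * nrm1 β (Λ * B)
          + (X / B) ^ (1 / 3 : ℝ) * B ^ (5 / 6 : ℝ) / Real.log X ^ k)
      + nrm1 α (3 * X / B) * (X / B) ^ (-(1 / 6) : ℝ) * B ^ (5 / 6 : ℝ) / Real.log X ^ k)
def E2c : Prop := ∀ (φ : ℝ → ℂ) (Λ : ℝ) (k : ℕ), Bump φ → 1 ≤ Λ → ∃ C : ℝ, 0 < C ∧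
  ∀ (α β : Finset P → ℂ) (X B T M : ℝ), 0 < X → 0 < B → 1 ≤ T → 0 ≤ M → Sup β B (Λ * B) →
    (∀ (τ : ℝ) (A' : ℤ → ℝ), (∀ i ∈ Ji Λ T, X / B / (30 * Λ) ≤ A' i ∧ A' i ≤ 30 * (X / B)) →
      ∑ i ∈ Ji Λ T, S1 (fun b => xl β B T τ i b * tt b) (A' i) (Bi B T i) T
        ≤ M * (1 + |τ|) ^ (2 * k)) →
    ‖Bil tt α β X B (Λ * B) T φ‖ ^ 2 ≤ C * nrm2 α (3 * X / B) * M
/-- The sum of the terms `Rest0` in the sharp range. -/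
def ShR : Prop := ∀ (Λ δ1 δ2 η : ℝ) (kk : ℕ), 1 ≤ Λ → 0 < δ1 → δ1 ≤ 1 / 100 → 0 < δ2 → 0 < η →
  ∃ δc c C X0 : ℝ, 0 < δc ∧ δc ≤ 1 / 100 ∧ 0 < c ∧ 0 < C ∧
  ∀ (β : Finset P → ℂ) (X B T w u τ : ℝ) (A' : ℤ → ℝ), X0 ≤ X → 1 ≤ T → T ≤ Tmax X →
    X ^ (1 / 10 : ℝ) ≤ B → B ≤ Λ * √X → 1 ≤ u → GB β B Λ w →
    (B ≤ X ^ (1 / 2 - δc) ∨ X ^ δc ≤ T ∨ Crit β B (Λ * B) δ1 δ2 kk u) →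
    (∀ i ∈ Ji Λ T, X / B / (30 * Λ) ≤ A' i ∧ A' i ≤ 30 * (X / B)) →
    ∑ i ∈ Ji Λ T, Rest0 (fun b => xl β B T τ i b * tt b) (A' i) (Bi B T i) T (kk + 2)
        (fun _ => False)
      ≤ C * u * MM (X / B) B * (T ^ (-(4 / 5) : ℝ) + X ^ (-c)) * (1 + |τ|) ^ kk
/-- Bilinear forms, sharp range. -/
def ShB : Prop := ∀ (φ : ℝ → ℂ) (Λ δ1 δ2 η : ℝ) (kk : ℕ), Bump φ → 1 ≤ Λ → 0 < δ1 →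
  δ1 ≤ 1 / 100 → 0 < δ2 → 0 < η →
  ∃ δc c C X0 : ℝ, 0 < δc ∧ δc ≤ 1 / 100 ∧ 0 < c ∧ 0 < C ∧
  ∀ (α β : Finset P → ℂ) (X B T w u : ℝ), X0 ≤ X → 1 ≤ T → T ≤ Tmax X →
    X ^ (1 / 10 : ℝ) ≤ B → B ≤ Λ * √X → 1 ≤ w → 1 ≤ u → GB β B Λ w →
    (B ≤ X ^ (1 / 2 - δc) ∨ X ^ δc ≤ T ∨ (X ^ η ≤ w ∧ Crit β B (Λ * B) δ1 δ2 kk u)) →
    ‖Bil tt α β X B (Λ * B) T φ‖ ^ 2 ≤ C * u * nrm2 α (3 * X / B) *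
      (X / T + MM (X / B) B * (T ^ (-(4 / 5) : ℝ) + X ^ (-c)))
/-- Bilinear forms by the large sieve alone. -/
def E3 : Prop := ∀ (φ : ℝ → ℂ) (Λ ε : ℝ), Bump φ → 1 ≤ Λ → 0 < ε → ∃ C : ℝ, 0 < C ∧
  ∀ (α β : Finset P → ℂ) (X B T : ℝ), 1 ≤ B → B ≤ X → 1 ≤ T →
    ‖Bil dl α β X B (Λ * B) T φ‖ ≤ C * X ^ ε *
      √(nrm2 α (3 * X / B) * nrm2 β (Λ * B) * (X / B + B + X ^ (2 / 3 : ℝ)))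

/-! ### Type I sums -/

def TIt : Prop := ∀ φ : ℝ → ℂ, Bump φ → ∃ c C : ℝ, 0 < c ∧ 0 < C ∧ ∀ X T : ℝ, 1 ≤ X → 1 ≤ T →
  T ≤ Tmax X →
  ‖TI tt X T φ (Y1 X T) - ((rho * kap * X ^ (5 / 6 : ℝ) : ℝ) : ℂ) * mo φ T (5 / 6)
      * MS (Y1 X T) (Dd X T)‖ ≤ C * X ^ (5 / 6 - c)
def TI0 : Prop := ∀ (φ : ℝ → ℂ) (k0 : ℕ), Bump φ → ∃ c C X0 : ℝ, 0 < c ∧ 0 < C ∧ ∀ X T : ℝ,
  X0 ≤ X → 1 ≤ T → T ≤ Real.log X ^ k0 →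
  ‖TI t0 X T φ (Y1 X T) - ((rho * kap * X ^ (5 / 6 : ℝ) : ℝ) : ℂ) * mo φ T (5 / 6)
      * MS (Y1 X T) (Dd X T)‖ ≤ C * X ^ (5 / 6 - c)
def MSb : Prop := ∃ C : ℝ, 0 < C ∧ ∀ Y D : ℝ, 1 ≤ Y → ‖MS Y D‖ ≤ C * (1 + Real.log Y)

/-! ### Products of large primes -/

/-- The boxes. -/
def JX (X : ℝ) : Finset ℤ := Finset.Icc 0 ⌈2 * Real.log (3 * X)⌉
structure CvF : Prop where
  perm : ∀ l l' : List (P → ℂ), l.Perm l' → Cv l = Cv l'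
  append : ∀ (l l' : List (P → ℂ)) (c : Finset P),
    Cv (l ++ l') c = ∑ b ∈ c.powerset, Cv l (c \ b) * Cv l' b
  card : ∀ (l : List (P → ℂ)) (c : Finset P), Cv l c ≠ 0 → c.card = l.length
  twist : ∀ (w τ κ : ℝ) (l : List ℤ) (c : Finset P), Cv (l.map (pu w τ κ)) c
    = Cv (l.map (pu w 0 0)) c * ∏ p ∈ c, (1 - κ * ((nm p.1 : ℝ) : ℂ) ^ (τ * I))
  norm_le : ∀ (w τ κ : ℝ) (l : List ℤ) (c : Finset P), |κ| ≤ 1 →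
    ‖Cv (l.map (pu w τ κ)) c‖ ≤ 2 ^ l.length * l.length.factorial
  boxes : ∀ (w τ κ : ℝ) (l : List ℤ) (c : Finset P), Cv (l.map (pu w τ κ)) c ≠ 0 →
    ∃ ps : List P, ps.Nodup ∧ ps.toFinset = c ∧ List.Forall₂ (fun (i : ℤ) (p : P) =>
      w < nm p.1 ∧ Real.exp (i / 2) < nm p.1 ∧ (nm p.1 : ℝ) < Real.exp (i / 2 + 1)) l ps
  supp : ∀ (w τ κ : ℝ) (l : List ℤ) (c : Finset P), Cv (l.map (pu w τ κ)) c ≠ 0 →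
    Bl l ≤ Ns c ∧ Ns c ≤ 3 ^ l.length * Bl l ∧ Rough w c
  gb : ∀ (w τ κ : ℝ) (l : List ℤ) (n : ℕ), l.length ≤ n → |κ| ≤ 1 →
    GB (nb w τ κ l) (Bl l) (3 ^ n) w
  nrm1_le : ∀ (w τ κ L : ℝ) (l : List ℤ), |κ| ≤ 1 → nrm1 (Cv (l.map (pu w τ κ))) L
    ≤ (l.map fun i : ℤ => 2 * ((prs (3 * Real.exp (i / 2))).card : ℝ)).prod
  total : ∀ (w : ℝ) (J : Finset ℤ) (n : ℕ) (c : Finset P), c.card = n → Rough w c →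
    (∀ p ∈ c, ∀ i : ℤ, bx (Real.log (nm p.1) - i / 2) ≠ 0 → i ∈ J) →
    ∑ f ∈ Fintype.piFinset fun _ : Fin n => J, Cv ((List.ofFn f).map (pu w 0 0)) c = n.factorial
def LPdec : Prop := ∃ X0 : ℝ, ∀ (F : Finset P → ℂ) (X T Y : ℝ) (φ : ℝ → ℂ), X0 ≤ X →
  LP F X T φ Y (wX X) = ∑ n ∈ Finset.Icc 2 51, (n.factorial : ℂ)⁻¹ *
    ∑ f ∈ Fintype.piFinset fun _ : Fin n => JX X, Cfg F X T φ Y (wX X) (List.ofFn f)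
def LPsp : Prop := ∀ k n : ℕ, ∃ C : ℝ, 0 < C ∧
  ∀ (F : Finset P → ℂ) (X T Y w : ℝ) (φ : ℝ → ℂ) (l l1 l2 : List ℤ), Bump φ → 0 < X → 1 ≤ T →
    1 ≤ Y → l.Perm (l1 ++ l2) → l2.length ≤ n →
    (∀ M : ℝ, 0 ≤ M → (∀ τ : ℝ, ‖Bil F (Cv (l1.map (pu w τ 1))) (nb w τ 1 l2) X (Bl l2)
        (3 ^ n * Bl l2) T φ‖ ≤ M * (1 + |τ|) ^ k) →
      ‖Cfg F X T φ Y w l‖ ≤ C * (1 + Real.log Y) * M) ∧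
    ((∀ c, Cv (l.map (pu w 0 0)) c ≠ 0 → nu Y c = -2) → ‖Cfg F X T φ Y w l‖
      ≤ C * ‖Bil F (Cv (l1.map (pu w 0 0))) (nb w 0 0 l2) X (Bl l2) (3 ^ n * Bl l2) T φ‖)
/-- Three primes of almost the same size. -/
def Narrow (X : ℝ) (l1 l2 : List ℤ) : Prop := ∃ a b m : ℤ, l1 = [a, b] ∧ l2 = [m] ∧ a ≤ m + 2 ∧
  b ≤ m + 2 ∧ (∀ i ∈ [a, b, m], X ^ (0.32 : ℝ) ≤ Real.exp (i / 2) ∧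
    Real.exp (i / 2) ≤ X ^ (0.34 : ℝ)) ∧
  2 * Real.log X - 6 ≤ a + b + m ∧ (a + b + m : ℝ) ≤ 2 * Real.log (3 * X)
def Comb : Prop := ∃ X0 : ℝ, ∀ (X Y : ℝ), X0 ≤ X → 1 ≤ Y → Y ≤ X ^ (0.43 : ℝ) →
  (∀ (F : Finset P → ℂ) (T : ℝ) (φ : ℝ → ℂ) (l : List ℤ), Bump φ → 1 ≤ T → 2 ≤ l.length →
    l.length ≤ 51 → Cfg F X T φ Y (wX X) l ≠ 0 →
    ∃ l1 l2 : List ℤ, l.Perm (l1 ++ l2) ∧ l1 ≠ [] ∧ l2 ≠ [] ∧ Bl l2 ≤ 2 * √X ∧ Bl l ≤ 3 * X ∧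
      min Y (X ^ (1 / 3 : ℝ)) / 3 ^ 51 ≤ Bl l2 ∧
      (min Y (X ^ (1 / 3 + 1 / 200 : ℝ)) / 3 ^ 51 ≤ Bl l2 ∨ Narrow X l1 l2)) ∧
  ∀ (l1 l2 : List ℤ) (w : ℝ) (c : Finset P), Narrow X l1 l2 → X ^ (0.4 : ℝ) ≤ Y →
    Cv ((l1 ++ l2).map (pu w 0 0)) c ≠ 0 → nu Y c = -2
/-- Bound in the smooth range. -/
def SmBd (G : (ℝ → ℂ) → ℝ → ℝ → ℂ) : Prop := ∀ (φ : ℝ → ℂ) (k0 : ℕ), Bump φ →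
  ∃ C X0 : ℝ, 0 < C ∧ ∀ X T : ℝ, X0 ≤ X → 1 ≤ T → T ≤ Real.log X ^ k0 →
    ‖G φ X T‖ ≤ C * X ^ (5 / 6 : ℝ) * Real.log X ^ (-(3 / 2) : ℝ)
/-- Bound in the whole range. -/
def ShBd (G : (ℝ → ℂ) → ℝ → ℝ → ℂ) : Prop := ∀ φ : ℝ → ℂ, Bump φ →
  ∃ (k : ℕ) (c C X0 : ℝ), 0 < c ∧ 0 < C ∧ ∀ X T : ℝ, X0 ≤ X → 1 ≤ T → T ≤ Tmax X →
    ‖G φ X T‖ ≤ C * X ^ (5 / 6 : ℝ) * (Real.log X ^ k * T ^ (-c) + X ^ (-c))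
/-- One configuration in the smooth range. -/
def LPS1 : Prop := ∀ (φ : ℝ → ℂ) (k0 : ℕ), Bump φ → ∃ C X0 : ℝ, 0 < C ∧
  ∀ (X T : ℝ) (l : List ℤ), X0 ≤ X → 1 ≤ T → T ≤ Real.log X ^ k0 → 2 ≤ l.length → l.length ≤ 51 →
    ‖Cfg dl X T φ (Y1 X T) (wX X) l‖ ≤ C * X ^ (5 / 6 : ℝ) / Real.log X ^ 53 ∨
    (l.length = 3 ∧ 2 * Real.log X - 6 ≤ l.sum ∧ ∃ m ∈ l, (∀ i ∈ l, i ≤ m + 2) ∧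
      ‖Cfg dl X T φ (Y1 X T) (wX X) l‖ ≤ C * X ^ (5 / 6 : ℝ) / Real.log X ^ 53
        + C * X ^ (5 / 6 : ℝ) * Real.log X ^ (-(3 / 2) : ℝ)
          * Real.exp (-((m - 2 / 3 * Real.log X) / 8)))
def LPS : Prop := SmBd fun φ X T => LP dl X T φ (Y1 X T) (wX X)
def LPH : Prop := ShBd fun φ X T => LP tt X T φ (Y1 X T) (wX X)

/-! ### Elements with a small prime factor -/

def bG (ind : Finset P → Prop) (w θ τ B : ℝ) (b : Finset P) : ℂ :=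
  if B ≤ Ns b ∧ Ns b < Real.exp 1 * B ∧ ind b then
    mu b * e1 (θ * kc w b) * ((Ns b : ℝ) : ℂ) ^ (τ * I) else 0
def BDt (F : Finset P → ℂ) (X T : ℝ) (φ : ℝ → ℂ) (Y w : ℝ) (ind sm : Finset P → Prop) : ℂ :=
  ∑ a ∈ sqf (3 * X), ∑ r ∈ sqf (3 * X) with Disjoint a r ∧ ind r,
    (∑ p ∈ a with (nm p.1 : ℝ) ≤ w ∧ (∀ q ∈ a, key p ≤ key q) ∧ key p < kc w r,
      ∑ s ∈ (a.erase p).powerset with sm s, mu s * mu r *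
        ((Vs (Real.log (Ns s * Ns r / Y)) - Vs (Real.log (Ns s * Ns r * nm p.1 / Y)) : ℝ) : ℂ))
      * F (a ∪ r) * lw φ T X (Ns a * Ns r)
def BD1 : Prop := ∀ (F : Finset P → ℂ) (X T Y w w1 U : ℝ) (φ : ℝ → ℂ), Bump φ → 0 < X → 1 ≤ T →
  1 ≤ w → w ≤ Y →
  BDs F X T φ Y w = BDt F X T φ Y w (Rough w1) (fun s => (∀ p ∈ s, (nm p.1 : ℝ) ≤ w1) ∧ Ns s ≤ U)
    + BDt F X T φ Y w (fun b => U < Ns (b.filter fun p => (nm p.1 : ℝ) ≤ w1)) fun s => s = ∅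
def BD2 : Prop := ∀ k : ℕ, ∃ C : ℝ, 0 < C ∧
  ∀ (F : Finset P → ℂ) (X T Y w U M : ℝ) (φ : ℝ → ℂ) (ind sm : Finset P → Prop), Bump φ → 1 ≤ T →
    1 ≤ w → 1 ≤ U → w * U ≤ X → 1 ≤ Y → Y ≤ X → 0 ≤ M → (∀ s, sm s → Ns s ≤ U) →
    (∀ (θ τ B : ℝ) (α : Finset P → ℂ), Y / (w * U) ≤ B → B ≤ 3 * Y →
      (∀ a, ‖α a‖ ≤ 2 * (a.powerset.filter sm).card) →
      ‖Bil F α (bG ind w θ τ B) X B (3 * B) T φ‖ ≤ M * (1 + |τ|) ^ k) →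
    ‖BDt F X T φ Y w ind sm‖ ≤ C * (1 + Real.log X) ^ 3 * M
def BDS : Prop := SmBd fun φ X T => BDs dl X T φ (Y1 X T) (wX X)
def BDH : Prop := ShBd fun φ X T => BDs tt X T φ (Y1 X T) (wX X)

/-! ### The end -/

def DelS : Prop := SmBd fun φ X T => PS dl X T φ
def DelH : Prop := ShBd fun φ X T => PS dl X T φ
def FinD : Prop := (fun X : ℝ => ∑ p ∈ prs X, dl {p}) =o[atTop]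
  fun X : ℝ => X ^ (5 / 6 : ℝ) / Real.log X
def PNTK : Prop := Asymptotics.IsEquivalent atTop
  (fun X : ℝ => ∑ p ∈ prs X, (nm p.1 : ℝ) ^ (-(1 / 6) : ℝ))
  fun X : ℝ => 6 / 5 * X ^ (5 / 6 : ℝ) / Real.log X
/-- Patterson's conjecture for rational primes. -/
def Final : Prop := Asymptotics.IsEquivalent atTop
  (fun X : ℝ => ∑ p ∈ Finset.Icc 1 ⌊X⌋₊ with p.Prime ∧ p % 3 = 1,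
    (∑ x ∈ Finset.range p, Complex.exp (2 * Real.pi * I * ((x : ℂ) ^ 3 / p))) / (2 * (√(p : ℝ) : ℝ)))
  fun X : ℝ => (((2 * Real.pi) ^ (2 / 3 : ℝ) / (5 * Real.Gamma (2 / 3))
    * (X ^ (5 / 6 : ℝ) / Real.log X) : ℝ) : ℂ)

end Pat
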