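import Vale.Agent.P006.KAAux1

noncomputable section
namespace Pat
open QRH Complex MeasureTheory Filter
open scoped ComplexConjugate Classical ContDiff Topology

theorem KA_big {w d : ℕ} {h : ℤ} (hc : Int.gcd h (primorial w) = 1) (hd : (d : ℤ) ∣ h)
    (h1 : d ≠ 1) (h0 : d ≠ 0) : w < d := by
  have hl := Nat.minFac_prime h1
  refine lt_of_lt_of_le (not_le.1 fun h2 => hl.ne_one ?_) (Nat.minFac_le (Nat.pos_of_ne_zero h0))
  have h3 := Int.dvd_gcd ((Int.natCast_dvd_natCast.2 (Nat.minFac_dvd d)).trans hd)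
    (Int.natCast_dvd_natCast.2 (hl.dvd_primorial_iff.2 h2))
  rwa [hc, Nat.dvd_one] at h3

theorem KA_three {w : ℕ} (hw : 3 ≤ w) {h : ℤ} (hc : Int.gcd h (primorial w) = 1) :
    ¬ (3 : ℤ) ∣ h := fun h3 => by
  have := KA_big (d := 3) hc h3 (by norm_num) (by norm_num)
  omega

theorem KA_P_ne (w : ℕ) : (primorial w : E) ≠ 0 := Nat.cast_ne_zero.2 (primorial_ne_zero w)

theorem KA_disj (hr : RatF) {w : ℕ} {h : ℤ} (h0 : h ≠ 0) (hc : Int.gcd h (primorial w) = 1) :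
    Disjoint (fac (primorial w : E)) (fac (h : E)) := by
  refine Finset.disjoint_left.2 fun p h1 h2 => ?_
  obtain ⟨l, hl, -, -, -, h3⟩ := hr.under p
  rw [mem_fac (KA_P_ne w), ← Int.cast_natCast, h3] at h1
  rw [mem_fac (Int.cast_ne_zero.2 h0), h3] at h2
  have h4 := Int.dvd_gcd h2 h1
  rw [hc, Nat.dvd_one] at h4
  exact hl.ne_one h4

theorem KA_nm (h : ℤ) : nm (h : E) = h.natAbs ^ 2 := by
  rw [← nm_natCast]
  rcases Int.natAbs_eq h with e | e <;> conv_lhs => rw [e]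
  · rw [Int.cast_natCast]
  · rw [Int.cast_neg, nm_neg, Int.cast_natCast]

theorem KA_Ns (hr : RatF) {s : Finset P} (hs : SelfC s) : Ns s = (ell s : ℝ) ^ 2 := by
  rw [Ns, hr.ell_sq s hs, Nat.cast_pow]

theorem KA_ell_pos (hr : RatF) {s : Finset P} (hs : SelfC s) : 0 < ell s :=
  Nat.pos_of_ne_zero (hr.ell_sqf s hs).ne_zero

theorem KA_dec (hb : BA) (hr : RatF) {h : ℤ} (h0 : h ≠ 0) (h3 : ¬ (3 : ℤ) ∣ h) :
    ∃ j : ℕ, h.natAbs = ell (cf1 (h : E)) * ell (cf2 (h : E)) ^ 2 * j ^ 3 ∧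
      nm (jc (h : E)) = j ^ 2 := by
  obtain ⟨-, s1, s2⟩ := hr.fac_int h h0
  have h1 := hb.nm_eq h (Int.cast_ne_zero.2 h0)
  rw [vp_of_not_dvd (p := lam) fun h4 => h3 (Int.natCast_dvd.2 (Nat.prime_three.dvd_of_dvd_pow
    (KA_nm h ▸ lam_dvd_iff.1 h4))), pow_zero, one_mul, Qc, KA_Ns hr s1, KA_Ns hr s2, ← hb.nm_jc,
    KA_nm] at h1
  have h2 : h.natAbs ^ 2 = (ell (cf1 (h : E)) * ell (cf2 (h : E)) ^ 2) ^ 2 * nm (jc (h : E)) ^ 3 := by
    rw [mul_pow]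
    exact_mod_cast h1
  have a1 := KA_ell_pos hr s1
  have a2 := KA_ell_pos hr s2
  have a3 : 0 < nm (jc (h : E)) := one_le_nm (primary_ne_zero (hb.jc_pm _))
  generalize nm (jc (h : E)) = J at h2 a3
  obtain ⟨t, ht⟩ := (Nat.pow_dvd_pow_iff two_ne_zero).1 (Dvd.intro _ h2.symm)
  rw [ht, mul_pow] at h2
  have h4 := Nat.eq_of_mul_eq_mul_left (by positivity) h2
  obtain ⟨j, rfl⟩ := (Nat.pow_dvd_pow_iff two_ne_zero).1 (Dvd.intro J (h4.trans (pow_succ J 2)).symm)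
  rw [mul_pow, pow_succ J 2] at h4
  have h5 := Nat.eq_of_mul_eq_mul_left (by positivity) h4
  exact ⟨j, by rw [ht, ← h5]; ring, h5.symm⟩

theorem KA_err (hb : BA) (hr : RatF) (w : ℕ) {h : ℤ} (h0 : h ≠ 0) (h3 : ¬ (3 : ℤ) ∣ h) {ε : ℝ}
    (hε : 0 < ε) :
    (Ns (cf1 (h : E)) * Ns ((fac (primorial w : E) ∪ fac (h : E)) \ (cf1 (h : E) ∪ cf2 (h : E))))
        ^ (1 / 2 + ε) * Ns (cf2 (h : E)) ^ (1 + ε)
      ≤ (primorial w : ℝ) ^ (1 + 2 * ε) * |(h : ℝ)| ^ (1 + 2 * ε) := by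
  obtain ⟨-, s1, s2⟩ := hr.fac_int h h0
  obtain ⟨j, e1, e2⟩ := KA_dec hb hr h0 h3
  have hz : (h : E) ≠ 0 := Int.cast_ne_zero.2 h0
  have hj := primary_ne_zero (hb.jc_pm (h : E))
  have a1 : Ns (fac (h : E) \ (cf1 (h : E) ∪ cf2 (h : E))) ≤ (j : ℝ) ^ 2 := by
    refine (e2_Ns_le hj (pr_dvd_iff.2 fun p hp => ?_)).trans_eq (by rw [e2, Nat.cast_pow])
    obtain ⟨b1, b2⟩ := Finset.mem_sdiff.1 hp
    have b3 := (dvd_iff_vp p.2.1 hz).1 ((mem_fac hz).1 b1)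
    simp only [cf1, cf2, Finset.mem_union, Finset.mem_filter, b1, true_and] at b2
    exact (dvd_pow_self p.1 (by omega)).trans (Finset.dvd_prod_of_mem _ b1)
  have a2 : Ns (fac (primorial w : E)) ≤ (primorial w : ℝ) ^ 2 :=
    (Ns_fac_le (KA_P_ne w)).trans_eq (by rw [nm_natCast, Nat.cast_pow])
  have a3 : Ns ((fac (primorial w : E) ∪ fac (h : E)) \ (cf1 (h : E) ∪ cf2 (h : E)))
      ≤ (primorial w : ℝ) ^ 2 * j ^ 2 := by
    refine (Ns_mono ?_).trans ((Ns_union_le _ _).trans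
      (mul_le_mul a2 a1 (Ns_pos _).le (by positivity)))
    rw [Finset.union_sdiff_distrib]
    exact Finset.union_subset_union_left Finset.sdiff_subset
  have a4 : (1 : ℝ) ≤ j := by
    have : 1 ≤ j ^ 2 := e2 ▸ one_le_nm hj
    exact_mod_cast Nat.pos_of_ne_zero fun e => by simp [e] at this
  have a5 : |(h : ℝ)| = ell (cf1 (h : E)) * ell (cf2 (h : E)) ^ 2 * j ^ 3 := by
    rw [← Int.cast_abs, ← Int.natCast_natAbs, e1]
    push_cast
    rfl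
  have a6 : Ns (cf2 (h : E)) ^ (1 + ε) ≤ (Ns (cf2 (h : E)) ^ 2) ^ (1 / 2 + ε) := by
    rw [← Real.rpow_two, ← Real.rpow_mul (Ns_pos _).le]
    exact Real.rpow_le_rpow_of_exponent_le (one_le_Ns _) (by linarith)
  have n1 := (Ns_pos (cf1 (h : E))).le
  have n2 := (Ns_pos ((fac (primorial w : E) ∪ fac (h : E)) \ (cf1 (h : E) ∪ cf2 (h : E)))).le
  refine (mul_le_mul_of_nonneg_left a6 (by positivity)).trans ?_
  rw [← Real.mul_rpow (by positivity) (by positivity), ← Real.mul_rpow (by positivity)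
    (abs_nonneg _), show 1 + 2 * ε = 2 * (1 / 2 + ε) by ring, Real.rpow_mul (by positivity),
    Real.rpow_two]
  refine Real.rpow_le_rpow (by positivity) ((mul_le_mul_of_nonneg_right
    (mul_le_mul_of_nonneg_left a3 n1) (by positivity)).trans ?_) (by positivity)
  rw [a5, KA_Ns hr s1, KA_Ns hr s2]
  have a7 : (j : ℝ) ^ 2 ≤ (j ^ 3) ^ 2 := by
    rw [← pow_mul]
    exact pow_le_pow_right₀ a4 (by norm_num)
  calc _ = (primorial w * ell (cf1 (h : E)) * ell (cf2 (h : E)) ^ 2) ^ 2 * (j : ℝ) ^ 2 := by ring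
    _ ≤ (primorial w * ell (cf1 (h : E)) * ell (cf2 (h : E)) ^ 2) ^ 2 * ((j : ℝ) ^ 3) ^ 2 :=
      mul_le_mul_of_nonneg_left a7 (by positivity)
    _ = _ := by ring

/-- The arithmetic factor of the main term. -/
def kaM (h : ℤ) : ℝ := if cf2 (h : E) = ∅ then
  Ns (cf1 (h : E)) ^ (-(1 / 6) : ℝ) * ∏ p ∈ fac (h : E), (1 - (nm p.1 : ℝ)⁻¹) else 0

theorem KA_cmp (hb : BA) (hr : RatF) {w M : ℕ} (hw : 3 ≤ w) {h : ℤ} (h0 : h ≠ 0)
    (hc : Int.gcd h (primorial w) = 1) (hM : h.natAbs ≤ M) :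
    |kaM h - |(h : ℝ)| ^ (-(1 / 3) : ℝ)| ≤ |(h : ℝ)| ^ (-(1 / 3) : ℝ) *
      (∑ p ∈ fac (h : E), (nm p.1 : ℝ)⁻¹
        + ∑ n ∈ Finset.Ioc w M, (if ((n ^ 2 : ℕ) : ℤ) ∣ h then (1 : ℝ) else 0)
        + ∑ n ∈ Finset.Ioc w M, (if ((n ^ 3 : ℕ) : ℤ) ∣ h then (n : ℝ) else 0)) := by
  obtain ⟨-, s1, s2⟩ := hr.fac_int h h0
  obtain ⟨j, e1, -⟩ := KA_dec hb hr h0 (KA_three hw hc)
  have hn : 0 < h.natAbs := Int.natAbs_pos.2 h0
  have hI : ∀ n : ℕ, n ∣ h.natAbs → n ≠ 1 → n ∈ Finset.Ioc w M := fun n h1 h2 =>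
    Finset.mem_Ioc.2 ⟨KA_big hc (Int.natCast_dvd.2 h1) h2 (Nat.pos_of_dvd_of_pos h1 hn).ne',
      (Nat.le_of_dvd hn h1).trans hM⟩
  have b0 : 0 ≤ |(h : ℝ)| ^ (-(1 / 3) : ℝ) := by positivity
  have b1 : 0 ≤ ∑ p ∈ fac (h : E), (nm p.1 : ℝ)⁻¹ := Finset.sum_nonneg fun _ _ => by positivity
  have c2 : ∀ n ∈ Finset.Ioc w M, 0 ≤ (if ((n ^ 2 : ℕ) : ℤ) ∣ h then (1 : ℝ) else 0) :=
    fun _ _ => by positivity
  have c3 : ∀ n ∈ Finset.Ioc w M, 0 ≤ (if ((n ^ 3 : ℕ) : ℤ) ∣ h then (n : ℝ) else 0) :=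
    fun _ _ => by positivity
  have b2 := Finset.sum_nonneg c2
  have b3 := Finset.sum_nonneg c3
  rw [kaM]
  split_ifs with h2
  · have a1 : ell (cf2 (h : E)) = 1 := by rw [h2, ell, pr_empty, nm_one, Nat.sqrt_one]
    rw [a1, one_pow, mul_one] at e1
    have a2 : (0 : ℝ) < ell (cf1 (h : E)) := Nat.cast_pos.2 (KA_ell_pos hr s1)
    have a3 : 0 < j := Nat.pos_of_ne_zero fun e => by simp [e, hn.ne'] at e1
    have a4 : (1 : ℝ) ≤ j := Nat.one_le_cast.2 a3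
    have a5 : Ns (cf1 (h : E)) ^ (-(1 / 6) : ℝ) = |(h : ℝ)| ^ (-(1 / 3) : ℝ) * j := by
      rw [← Int.cast_abs, ← Int.natCast_natAbs, e1, KA_Ns hr s1]
      push_cast
      rw [Real.mul_rpow a2.le (by positivity), ← Real.rpow_two, ← Real.rpow_natCast (j : ℝ),
        ← Real.rpow_mul a2.le, ← Real.rpow_mul (by positivity)]
      norm_num
      rw [Real.rpow_neg_one]
      field_simp
    obtain ⟨p1, p2, p3⟩ := KAAux_prod (fac (h : E))
    rw [a5, mul_assoc, ← mul_sub_one, abs_mul, abs_of_nonneg b0]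
    refine mul_le_mul_of_nonneg_left (abs_le.2 ?_) b0
    rcases eq_or_ne j 1 with rfl | h4
    · rw [Nat.cast_one, one_mul]
      constructor <;> linarith
    · have a6 : j ^ 3 ∣ h.natAbs := Dvd.intro_left _ e1.symm
      have a7 := Finset.single_le_sum c3 (hI j ((dvd_pow_self j (by norm_num)).trans a6) h4)
      rw [if_pos (Int.natCast_dvd.2 a6)] at a7
      have a8 := mul_le_mul_of_nonneg_left p2 (zero_le_one.trans a4)
      have a9 := mul_nonneg (zero_le_one.trans a4) p1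
      constructor <;> linarith
  · have a6 : ell (cf2 (h : E)) ^ 2 ∣ h.natAbs := e1 ▸ (dvd_mul_left _ _).mul_right _
    have a1 : ell (cf2 (h : E)) ≠ 1 := fun e => h2 (hr.ell_inj _ _ s2 (by simp [SelfC])
      (by rw [e, ell, pr_empty, nm_one, Nat.sqrt_one]))
    have a7 := Finset.single_le_sum c2 (hI _ ((dvd_pow_self _ two_ne_zero).trans a6) a1)
    rw [if_pos (Int.natCast_dvd.2 a6)] at a7
    rw [zero_sub, abs_neg, abs_of_nonneg b0]
    exact le_mul_of_one_le_right b0 (by linarith)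

theorem KA_swap {ι : Type*} {H : ℝ} (hH : 0 < H) (I : Finset ι) (c : ι → ℝ) (k : ι → ℕ)
    (hc : ∀ i ∈ I, 0 ≤ c i) (hk : ∀ i ∈ I, 0 < k i) (T : Finset ℤ) :
    ∑ h ∈ T, kaG H h * ∑ i ∈ I, (if (k i : ℤ) ∣ h then c i else 0)
      ≤ kaA * H ^ (2 / 3 : ℝ) * ∑ i ∈ I, c i / k i := by
  simp only [Finset.mul_sum]
  rw [Finset.sum_comm]
  refine Finset.sum_le_sum fun i hi => ?_
  obtain ⟨S, h1, h2, -⟩ := KAAux_Gk hH (hk i hi)
  have h3 := (sum_le_hasSum T (fun n _ => by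
    split_ifs
    · exact KAAux_G_nonneg _ _
    · exact le_rfl) h1).trans h2
  refine le_trans (le_of_eq ?_) ((mul_le_mul_of_nonneg_left h3 (hc i hi)).trans_eq (by ring))
  rw [Finset.mul_sum]
  refine Finset.sum_congr rfl fun h _ => ?_
  split_ifs <;> ring

theorem KA_root (hr : RatF) : ∃ l : P → ℕ, ∀ p : P, 0 < l p ∧
    (l p : ℝ)⁻¹ ≤ (nm p.1 : ℝ) ^ (-(1 / 2) : ℝ) ∧ ∀ h : ℤ, p.1 ∣ (h : E) ↔ (l p : ℤ) ∣ h := by
  choose l h1 _ _ h4 h5 using hr.under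
  refine ⟨l, fun p => ⟨(h1 p).pos, ?_, h5 p⟩⟩
  have a1 : (1 : ℝ) ≤ l p := Nat.one_le_cast.2 (h1 p).pos
  have a2 : (nm p.1 : ℝ) ≤ (l p : ℝ) ^ 2 := by
    rcases h4 p with e | e <;> rw [e] <;> push_cast <;> nlinarith
  refine le_trans (le_of_eq ?_) (Real.rpow_le_rpow_of_nonpos
    (zero_lt_one.trans_le (one_le_nmR p.ne_zero)) a2 (by norm_num))
  rw [← Real.rpow_two, ← Real.rpow_mul (by linarith), ← Real.rpow_neg_one]
  norm_num

theorem KA_dsum (hb : BA) (hr : RatF) : ∃ C : ℝ, 0 < C ∧ ∀ (w : ℕ) (H : ℝ) (T : Finset ℤ), 3 ≤ w →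
    0 < H → ∑ h ∈ T, (if h ≠ 0 ∧ Int.gcd h (primorial w) = 1 then
      Real.exp (-(Real.pi * h ^ 2 / H ^ 2)) * |kaM h - |(h : ℝ)| ^ (-(1 / 3) : ℝ)| else 0)
      ≤ C * (w : ℝ) ^ (-(1 / 2) : ℝ) * H ^ (2 / 3 : ℝ) := by
  obtain ⟨C, hC, ht⟩ := hb.tail_P (3 / 2) (by norm_num)
  obtain ⟨l, hl⟩ := KA_root hr
  have hA := KAAux_A_pos
  refine ⟨kaA * (C + 2), by positivity, fun w H T hw hH => ?_⟩
  have hw1 : (1 : ℝ) ≤ w := Nat.one_le_cast.2 (by omega)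
  rw [← Finset.sum_filter]
  obtain ⟨T1, hT1⟩ : ∃ T1, T1 = T.filter fun h => h ≠ 0 ∧ Int.gcd h (primorial w) = 1 := ⟨_, rfl⟩
  have hT : ∀ h ∈ T1, h ≠ 0 ∧ Int.gcd h (primorial w) = 1 := fun h hh => by
    rw [hT1] at hh
    exact (Finset.mem_filter.1 hh).2
  rw [← hT1]
  have hpos : ∀ n ∈ Finset.Ioc w (T1.sup Int.natAbs), 0 < n := fun n hn =>
    (Nat.zero_le _).trans_lt (Finset.mem_Ioc.1 hn).1
  have g1 := KA_swap hH (T1.biUnion fun h => fac (h : E)) (fun p => (nm p.1 : ℝ)⁻¹) l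
    (fun _ _ => by positivity) (fun p _ => (hl p).1) T1
  have g2 := KA_swap hH (Finset.Ioc w (T1.sup Int.natAbs)) (fun _ => 1) (fun n => n ^ 2)
    (fun _ _ => zero_le_one) (fun n hn => pow_pos (hpos n hn) _) T1
  have g3 := KA_swap hH (Finset.Ioc w (T1.sup Int.natAbs)) (fun n => n) (fun n => n ^ 3)
    (fun _ _ => by positivity) (fun n hn => pow_pos (hpos n hn) _) T1
  have t1 : ∑ p ∈ T1.biUnion fun h => fac (h : E), (nm p.1 : ℝ)⁻¹ / l p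
      ≤ C * (w : ℝ) ^ (-(1 / 2) : ℝ) := by
    refine (Finset.sum_le_sum fun p _ => ?_).trans ((ht w _ hw1 fun p hp => ?_).trans_eq
      (by norm_num))
    · rw [show -(3 / 2 : ℝ) = -1 + -(1 / 2) by norm_num,
        Real.rpow_add (zero_lt_one.trans_le (one_le_nmR p.ne_zero)), Real.rpow_neg_one,
        div_eq_mul_inv]
      exact mul_le_mul_of_nonneg_left (hl p).2.1 (by positivity)
    · obtain ⟨h, h1, h2⟩ := Finset.mem_biUnion.1 hp
      exact hr.rough_P w p (Finset.disjoint_right.1 (KA_disj hr (hT h h1).1 (hT h h1).2) h2)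
  have t2 : ∑ n ∈ Finset.Ioc w (T1.sup Int.natAbs), (n : ℝ) ^ (-2 : ℝ)
      ≤ (w : ℝ) ^ (-(1 / 2) : ℝ) := by
    refine (KAAux_tail (σ := 2) one_lt_two (by omega) _ fun n hn => (Finset.mem_Ioc.1 hn).1).trans ?_
    rw [show (2 : ℝ) - 1 = 1 by norm_num, div_one]
    exact Real.rpow_le_rpow_of_exponent_le hw1 (by norm_num)
  have t3 : ∑ n ∈ Finset.Ioc w (T1.sup Int.natAbs), (1 : ℝ) / ((n ^ 2 : ℕ) : ℝ)
      ≤ (w : ℝ) ^ (-(1 / 2) : ℝ) := le_trans (le_of_eq (Finset.sum_congr rfl fun n _ => by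
    rw [Real.rpow_neg (Nat.cast_nonneg _), Real.rpow_two, Nat.cast_pow, one_div])) t2
  have t4 : ∑ n ∈ Finset.Ioc w (T1.sup Int.natAbs), (n : ℝ) / ((n ^ 3 : ℕ) : ℝ)
      ≤ (w : ℝ) ^ (-(1 / 2) : ℝ) := le_trans (le_of_eq (Finset.sum_congr rfl fun n hn => by
    have : (n : ℝ) ≠ 0 := Nat.cast_ne_zero.2 (hpos n hn).ne'
    rw [Real.rpow_neg (Nat.cast_nonneg _), Real.rpow_two, Nat.cast_pow]
    field_simp)) t2
  have hH1 : 0 ≤ kaA * H ^ (2 / 3 : ℝ) := by positivity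
  have g4 := add_le_add (add_le_add (g1.trans (mul_le_mul_of_nonneg_left t1 hH1))
    (g2.trans (mul_le_mul_of_nonneg_left t3 hH1))) (g3.trans (mul_le_mul_of_nonneg_left t4 hH1))
  rw [← Finset.sum_add_distrib, ← Finset.sum_add_distrib] at g4
  refine (Finset.sum_le_sum fun h hh => ?_).trans (g4.trans_eq (by ring))
  obtain ⟨h0, hc⟩ := hT h hh
  refine (mul_le_mul_of_nonneg_left (KA_cmp hb hr hw h0 hc (Finset.le_sup (f := Int.natAbs) hh))
    (Real.exp_pos _).le).trans_eq ?_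
  rw [← mul_add, ← mul_add, kaG, ← mul_assoc, ← Finset.sum_filter (fun p => (l p : ℤ) ∣ h)]
  congr 4
  ext p
  rw [Finset.mem_filter, ← (hl p).2.2, ← mem_fac (Int.cast_ne_zero.2 h0)]
  exact ⟨fun hp => ⟨Finset.mem_biUnion.2 ⟨h, hh, hp⟩, hp⟩, fun hp => hp.2⟩

theorem KA_moeb {n : ℕ} (hn : n ≠ 0) (h : ℤ) :
    ∑ e ∈ n.divisors, (if (e : ℤ) ∣ h then (ArithmeticFunction.moebius e : ℝ) else 0)
      = if Int.gcd h n = 1 then 1 else 0 := by
  have h1 := congrArg (fun f : ArithmeticFunction ℝ => f (Int.gcd h n))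
    ArithmeticFunction.coe_moebius_mul_coe_zeta
  simp only [ArithmeticFunction.coe_mul_zeta_apply, ArithmeticFunction.one_apply,
    ArithmeticFunction.intCoe_apply] at h1
  rw [← h1, ← Finset.sum_filter]
  congr 1
  ext e
  rw [Finset.mem_filter, Nat.mem_divisors, Nat.mem_divisors, Int.gcd, Nat.dvd_gcd_iff,
    Int.natAbs_natCast, Int.natCast_dvd]
  exact ⟨fun h2 => ⟨⟨h2.2, h2.1.1⟩, Nat.gcd_ne_zero_right hn⟩, fun h2 => ⟨⟨h2.1.2, hn⟩, h2.1.1⟩⟩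

theorem KA_main (w : ℕ) {H : ℝ} (hH : 0 < H) : ∃ S : ℝ,
    HasSum (fun h : ℤ => if h ≠ 0 ∧ Int.gcd h (primorial w) = 1 then kaG H h else 0) S ∧
      |S - PQ w * kaA * H ^ (2 / 3 : ℝ)| ≤ 3 * (primorial w).divisors.card := by
  have h1 : ∀ e : ℕ, ∃ S : ℝ, 0 < e → HasSum (fun n => if (e : ℤ) ∣ n then kaG H n else 0) S ∧
      S ≤ kaA * H ^ (2 / 3 : ℝ) / e ∧ kaA * H ^ (2 / 3 : ℝ) / e - 3 ≤ S := fun e => by
    rcases Nat.eq_zero_or_pos e with h | h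
    · exact ⟨0, fun h' => absurd h h'.ne'⟩
    · obtain ⟨S, hS⟩ := KAAux_Gk hH h
      exact ⟨S, fun _ => hS⟩
  choose S hS using h1
  refine ⟨∑ e ∈ (primorial w).divisors, (ArithmeticFunction.moebius e : ℝ) * S e,
    (hasSum_sum fun e he => (hS e (Nat.pos_of_mem_divisors he)).1.mul_left _).congr_fun
      fun h => ?_, ?_⟩
  · have h2 := congrArg (· * kaG H h) (KA_moeb (primorial_ne_zero w) h)
    simp only [Finset.sum_mul, ite_mul, zero_mul, one_mul] at h2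
    simp only [mul_ite, mul_zero]
    rw [h2]
    rcases eq_or_ne h 0 with rfl | h0
    · simp [kaG]
    · simp [h0]
  · rw [← KAAux_PQ, mul_assoc, Finset.sum_mul, ← Finset.sum_sub_distrib, mul_comm 3, ← nsmul_eq_mul]
    refine (Finset.abs_sum_le_sum_abs _ _).trans (Finset.sum_le_card_nsmul _ _ _ fun e he => ?_)
    obtain ⟨-, h2, h3⟩ := hS e (Nat.pos_of_mem_divisors he)
    have h4 : |(ArithmeticFunction.moebius e : ℝ)| ≤ 1 := by
      exact_mod_cast ArithmeticFunction.abs_moebius_le_one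
    rw [mul_assoc, ← mul_sub, abs_mul, mul_comm (e : ℝ)⁻¹, ← div_eq_mul_inv]
    exact (mul_le_of_le_one_left (abs_nonneg _) h4).trans (abs_le.2 ⟨by linarith, by linarith⟩)

theorem kA (hb : BA) (hr : RatF) (κ : ℂ) (h : TwS κ) : KA κ := by
  intro φ hφ
  obtain ⟨C1, hC1, h1⟩ := h φ (1 / 100) hφ (by norm_num)
  obtain ⟨C2, hC2, h2⟩ := KA_dsum hb hr
  obtain ⟨C3, hC3, h3⟩ := KAAux_D (θ := 1 + 2 * (1 / 100)) (by norm_num) (by norm_num)
  obtain ⟨k, hk⟩ : ∃ k : ℝ, k = ‖κ * mo φ 1 (5 / 6)‖ := ⟨_, rfl⟩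
  have hk0 : 0 ≤ k := hk ▸ norm_nonneg _
  refine ⟨(k + 1) * C2, by positivity, fun w hw => ⟨k * (3 * (primorial w).divisors.card)
    + C1 * (primorial w : ℝ) ^ (1 + 2 * (1 / 100) : ℝ) * C3, fun H Y hH hY => ?_⟩⟩
  have hH0 : 0 < H := by linarith
  have hY0 : 0 < Y := by linarith
  obtain ⟨S, hS, hS1⟩ := KA_main w hH0
  obtain ⟨c, hc⟩ : ∃ c : ℂ, c = κ * mo φ 1 (5 / 6) * ((PK w * Y ^ (5 / 6 : ℝ) : ℝ) : ℂ) := ⟨_, rfl⟩
  obtain ⟨p1, p2, -⟩ : 0 ≤ PK w ∧ PK w ≤ 1 ∧ _ := KAAux_prod (fac (primorial w : E))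
  have hc1 : ‖c‖ ≤ k * Y ^ (5 / 6 : ℝ) := by
    rw [hc, norm_mul, ← hk, norm_real, Real.norm_of_nonneg (mul_nonneg p1 (by positivity))]
    exact mul_le_mul_of_nonneg_left (mul_le_of_le_one_left (by positivity) p2) hk0
  have key := KAAux_tsum (F := fun h : ℤ => if h ≠ 0 ∧ Int.gcd h (primorial w) = 1 then
      (Real.exp (-(Real.pi * h ^ 2 / H ^ 2)) : ℝ) *
        ∑ γ ∈ pball (3 * Y), (if Disjoint (fac γ) (fac (primorial w : E)) then
          th γ * xv c3 γ (h : E) else 0) * lw φ 1 Y (nm γ) else 0)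
    (u := fun h : ℤ => C1 * (primorial w : ℝ) ^ (1 + 2 * (1 / 100) : ℝ) *
      (Real.exp (-(Real.pi * h ^ 2 / H ^ 2)) * |(h : ℝ)| ^ (1 + 2 * (1 / 100) : ℝ))
      + ‖c‖ * if h ≠ 0 ∧ Int.gcd h (primorial w) = 1 then
        Real.exp (-(Real.pi * h ^ 2 / H ^ 2)) * |kaM h - |(h : ℝ)| ^ (-(1 / 3) : ℝ)| else 0)
    (B := C1 * (primorial w : ℝ) ^ (1 + 2 * (1 / 100) : ℝ) * (C3 * H ^ (1 + (1 + 2 * (1 / 100)) : ℝ))
      + ‖c‖ * (C2 * (w : ℝ) ^ (-(1 / 2) : ℝ) * H ^ (2 / 3 : ℝ)))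
    ((hasSum_ofReal.2 hS).mul_left c) (fun h => by
      split_ifs with hh
      · obtain ⟨h0, hg⟩ := hh
        have h4 := (h1 (cf1 (h : E)) (cf2 (h : E)) (fac (primorial w : E) ∪ fac (h : E)) Y
          (hb.cf_disj _) hY0).trans ((mul_assoc _ _ _).trans_le (mul_le_mul_of_nonneg_left
            (KA_err hb hr w h0 (KA_three hw hg) (by norm_num)) hC1.le))
        have e1 : ∑ γ ∈ pball (3 * Y), (if Disjoint (fac γ) (fac (primorial w : E)) then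
            th γ * xv c3 γ (h : E) else 0) * lw φ 1 Y (nm γ)
            = ∑ γ ∈ pball (3 * Y), (if Disjoint (fac γ) (fac (primorial w : E) ∪ fac (h : E)) then
              th γ * xs c3 (cf1 (h : E)) γ * conj (xs c3 (cf2 (h : E)) γ) else 0)
                * lw φ 1 Y (nm γ) := by
          refine Finset.sum_congr rfl fun γ hγ => ?_
          rw [hr.xv_int h γ (KA_three hw hg) (Finset.mem_filter.1 hγ).2]
          congr 1
          by_cases b1 : Disjoint (fac γ) (fac (primorial w : E)) <;>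
            by_cases b2 : Disjoint (fac γ) (fac (h : E)) <;> simp [b1, b2, mul_assoc]
        have e2 : (if cf2 (h : E) = ∅ then conj (tt (cf1 (h : E))) * κ * mo φ 1 (5 / 6) *
            ((Y ^ (5 / 6 : ℝ) * Ns (cf1 (h : E)) ^ (-(1 / 6) : ℝ) * ∏ p ∈ cf1 (h : E) ∪
              (fac (primorial w : E) ∪ fac (h : E)), (1 - (nm p.1 : ℝ)⁻¹) : ℝ) : ℂ) else 0)
            = c * (kaM h : ℝ) := by
          rw [kaM]
          split_ifs
          · rw [hr.tt_self _ (hr.fac_int h h0).2.1, map_one, one_mul, Finset.union_eq_right.2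
              ((show cf1 (h : E) ⊆ fac (h : E) from Finset.filter_subset _ _).trans
                Finset.subset_union_right),
              Finset.prod_union (KA_disj hr h0 hg), hc, PK, mul_assoc (κ * _), ← ofReal_mul]
            congr 2
            ring
          · rw [ofReal_zero, mul_zero]
        rw [← e1, e2] at h4
        generalize ∑ γ ∈ pball (3 * Y), (if Disjoint (fac γ) (fac (primorial w : E)) then
            th γ * xv c3 γ (h : E) else 0) * lw φ 1 Y (nm γ) = A at h4 ⊢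
        have e3 : (Real.exp (-(Real.pi * h ^ 2 / H ^ 2)) : ℝ) * A - c * (kaG H h : ℝ)
            = (Real.exp (-(Real.pi * h ^ 2 / H ^ 2)) : ℝ) * (A - c * (kaM h : ℝ))
              + c * ((Real.exp (-(Real.pi * h ^ 2 / H ^ 2))
                * (kaM h - |(h : ℝ)| ^ (-(1 / 3) : ℝ)) : ℝ) : ℂ) := by
          rw [kaG, ofReal_mul, ofReal_mul, ofReal_sub]
          ring
        rw [e3]
        refine (norm_add_le _ _).trans (add_le_add ?_ (le_of_eq ?_))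
        · rw [norm_mul, norm_real, Real.norm_of_nonneg (Real.exp_pos _).le]
          exact (mul_le_mul_of_nonneg_left h4 (Real.exp_pos _).le).trans_eq (by ring)
        · rw [norm_mul, norm_real, Real.norm_eq_abs, abs_mul, abs_of_pos (Real.exp_pos _)]
      · rw [ofReal_zero, mul_zero, sub_zero, norm_zero, mul_zero, add_zero]
        positivity) fun T => by
      rw [Finset.sum_add_distrib, ← Finset.mul_sum, ← Finset.mul_sum]
      exact add_le_add (mul_le_mul_of_nonneg_left (h3 H hH0 T) (by positivity))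
        (mul_le_mul_of_nonneg_left (h2 w H T hw hH0) (norm_nonneg _))
  have e4 : κ * mo φ 1 (5 / 6) * ((PK w * PQ w * (Real.pi ^ (-(1 / 3) : ℝ)
      * Real.Gamma (1 / 3)) * Y ^ (5 / 6 : ℝ) * H ^ (2 / 3 : ℝ) : ℝ) : ℂ)
      = c * S - c * ((S - PQ w * kaA * H ^ (2 / 3 : ℝ) : ℝ) : ℂ) := by
    rw [← mul_sub, ← ofReal_sub, sub_sub_cancel, hc, mul_assoc (κ * _), ← ofReal_mul, kaA]
    congr 2
    ring
  rw [e4, ← sub_add]
  refine (norm_add_le _ _).trans ((add_le_add key.2 ((norm_mul_le _ _).trans (mul_le_mul hc1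
    ((norm_real _).trans_le hS1) (norm_nonneg _) (by positivity)))).trans ?_)
  rw [show (1 + (1 + 2 * (1 / 100)) : ℝ) = 2 + 1 / 50 by norm_num]
  have g1 : 0 ≤ C2 * (w : ℝ) ^ (-(1 / 2) : ℝ) * H ^ (2 / 3 : ℝ) := by positivity
  have g2 := mul_le_mul_of_nonneg_right hc1 g1
  have g3 : 0 ≤ Y ^ (5 / 6 : ℝ) * (C2 * (w : ℝ) ^ (-(1 / 2) : ℝ) * H ^ (2 / 3 : ℝ)) := by positivity
  have g4 : 0 ≤ C1 * (primorial w : ℝ) ^ (1 + 2 * (1 / 100) : ℝ) * C3 * Y ^ (5 / 6 : ℝ) := by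
    positivity
  have g5 : 0 ≤ k * (3 * (primorial w).divisors.card) * H ^ (2 + 1 / 50 : ℝ) := by positivity
  linarith

end Pat
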