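import Vale.Agent.P006.IfA
import Vale.Agent.P026.Dvs
import Vale.Agent.P026.Sym

/-! Sums of Gaussians over the integers and small arithmetic facts. -/

noncomputable section
namespace Pat
open QRH Complex MeasureTheory Filter
open scoped ComplexConjugate Classical ContDiff Topology

theorem KAAux_nat {f : ℝ → ℝ} {c : ℝ} (ha : AntitoneOn f (Set.Ioi 0))
    (hi : IntegrableOn f (Set.Ioi 0)) (h0 : ∀ t, 0 < t → 0 ≤ f t)
    (hc : ∫ t in Set.Ioc (0 : ℝ) 1, f t ≤ c) :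
    ∃ S : ℝ, HasSum (fun n : ℕ => f (n + 1)) S ∧ S ≤ ∫ t in Set.Ioi (0 : ℝ), f t ∧
      (∫ t in Set.Ioi (0 : ℝ), f t) - c ≤ S := by
  have hs : Set.Ici ((1 : ℕ) : ℝ) ⊆ Set.Ioi 0 := fun t ht => by
    rw [Nat.cast_one] at ht
    exact lt_of_lt_of_le zero_lt_one (Set.mem_Ici.1 ht)
  have a1 := ha.mono hs
  have i1 : IntegrableOn f (Set.Ioi ((1 : ℕ) : ℝ)) := hi.mono_set (Set.Ioi_subset_Ici_self.trans hs)
  have n1 : ∀ t ∈ Set.Ioi ((1 : ℕ) : ℝ), 0 ≤ f t := fun t ht => h0 t (hs (Set.Ioi_subset_Ici_self ht))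
  have s1 := a1.summable_of_integrableOn_Ioi i1 n1
  have s2 : Summable fun n : ℕ => f (n + 1) := by
    simpa using (summable_nat_add_iff 1).2 s1
  have u1 := a1.tsum_comp_add_le_integral 1 i1 n1
  have l1 := a1.integral_le_tsum_comp_add 1 s1 n1
  have i0 : IntegrableOn f (Set.Ioc 0 1) := hi.mono_set Set.Ioc_subset_Ioi_self
  rw [Nat.cast_one] at i1
  have e1 : ∫ t in Set.Ioi (0 : ℝ), f t
      = (∫ t in Set.Ioc (0 : ℝ) 1, f t) + ∫ t in Set.Ioi (1 : ℝ), f t := by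
    rw [← setIntegral_union Set.Ioc_disjoint_Ioi_same measurableSet_Ioi i0 i1,
      Set.Ioc_union_Ioi_eq_Ioi zero_le_one]
  have e2 : f 1 ≤ ∫ t in Set.Ioc (0 : ℝ) 1, f t := by
    have := setIntegral_mono_on (f := fun _ => f 1) (integrableOn_const (by simp)) i0
      measurableSet_Ioc fun t ht => ha ht.1 (Set.mem_Ioi.2 one_pos) ht.2
    simpa using this
  push_cast at u1 l1
  refine ⟨_, s2.hasSum, ?_, by linarith⟩
  rw [s2.tsum_eq_zero_add]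
  push_cast
  rw [zero_add]
  linarith

theorem KAAux_int {q p b : ℝ} (hq : -1 < q) (hq0 : q ≤ 0) (hp : 0 < p) (hb : 0 < b) :
    ∃ S : ℝ, HasSum (fun n : ℤ => if n = 0 then 0 else
        |(n : ℝ)| ^ q * Real.exp (-b * |(n : ℝ)| ^ p)) S ∧
      S ≤ 2 * (b ^ (-(q + 1) / p) * (1 / p) * Real.Gamma ((q + 1) / p)) ∧
      2 * (b ^ (-(q + 1) / p) * (1 / p) * Real.Gamma ((q + 1) / p)) - 2 / (q + 1) ≤ S := by
  have hi := integrableOn_rpow_mul_exp_neg_mul_rpow hq hp hb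
  obtain ⟨S, h1, h2, h3⟩ := KAAux_nat (f := fun x => x ^ q * Real.exp (-b * x ^ p))
    (c := 1 / (q + 1)) (fun x hx y hy hxy => mul_le_mul (Real.rpow_le_rpow_of_nonpos hx hxy hq0)
      (Real.exp_le_exp.2 (by
        have := Real.rpow_le_rpow (le_of_lt hx) hxy hp.le
        nlinarith)) (Real.exp_pos _).le (Real.rpow_nonneg (le_of_lt hx) _)) hi
    (fun t ht => by positivity) (by
      have e1 := integral_rpow (a := 0) (b := 1) (r := q) (Or.inl hq)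
      rw [intervalIntegral.integral_of_le zero_le_one, Real.one_rpow,
        Real.zero_rpow (by linarith), sub_zero] at e1
      rw [← e1]
      refine setIntegral_mono_on (hi.mono_set Set.Ioc_subset_Ioi_self)
        (intervalIntegral.intervalIntegrable_rpow' hq (a := 0) (b := 1)).1 measurableSet_Ioc
        fun t ht => mul_le_of_le_one_right (Real.rpow_nonneg ht.1.le _)
          (Real.exp_le_one_iff.2 ?_)
      have := Real.rpow_nonneg ht.1.le p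
      nlinarith)
  rw [integral_rpow_mul_exp_neg_mul_rpow hp hq hb] at h2 h3
  refine ⟨S + S, ?_, by linarith, by rw [div_eq_mul_one_div 2]; linarith⟩
  have h4 := HasSum.of_add_one_of_neg_add_one (f := fun n : ℤ => if n = 0 then 0 else
    |(n : ℝ)| ^ q * Real.exp (-b * |(n : ℝ)| ^ p)) (m := S) (m' := S) ?_ ?_
  · simpa using h4
  · refine h1.congr_fun fun n => ?_
    rw [if_neg (by omega)]
    push_cast
    rw [abs_of_pos (by positivity)]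
  · refine h1.congr_fun fun n => ?_
    rw [if_neg (by omega)]
    push_cast
    rw [abs_neg, abs_of_pos (by positivity)]

/-- The weight of the first moment. -/
def kaG (a : ℝ) (h : ℤ) : ℝ := Real.exp (-(Real.pi * h ^ 2 / a ^ 2)) * |(h : ℝ)| ^ (-(1 / 3) : ℝ)
/-- The weight on cubes. -/
def kaC (a : ℝ) (j : ℤ) : ℝ := if j = 0 then 0 else Real.exp (-(Real.pi * ((j : ℝ) ^ 3 / a) ^ 2))
def kaA : ℝ := Real.pi ^ (-(1 / 3) : ℝ) * Real.Gamma (1 / 3)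
def kaB : ℝ := 1 / 3 * Real.pi ^ (-(1 / 6) : ℝ) * Real.Gamma (1 / 6)

theorem KAAux_A_pos : 0 < kaA :=
  mul_pos (Real.rpow_pos_of_pos Real.pi_pos _) (Real.Gamma_pos_of_pos (by norm_num))
theorem KAAux_B_pos : 0 < kaB :=
  mul_pos (mul_pos (by norm_num) (Real.rpow_pos_of_pos Real.pi_pos _))
    (Real.Gamma_pos_of_pos (by norm_num))
theorem KAAux_G_nonneg (a : ℝ) (h : ℤ) : 0 ≤ kaG a h := by
  unfold kaG
  positivity
theorem KAAux_C_nonneg (a : ℝ) (h : ℤ) : 0 ≤ kaC a h := by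
  unfold kaC
  split_ifs
  · exact le_rfl
  · positivity

theorem KAAux_rpow {c a : ℝ} (hc : 0 < c) (ha : 0 < a) (t : ℝ) :
    (c / a ^ 2) ^ (-t) = c ^ (-t) * a ^ (2 * t) := by
  rw [Real.div_rpow hc.le (by positivity), ← Real.rpow_two, ← Real.rpow_mul ha.le, div_eq_mul_inv,
    ← Real.rpow_neg ha.le]
  congr 2
  ring

theorem KAAux_G {a : ℝ} (ha : 0 < a) : ∃ S : ℝ, HasSum (kaG a) S ∧ S ≤ kaA * a ^ (2 / 3 : ℝ) ∧
    kaA * a ^ (2 / 3 : ℝ) - 3 ≤ S := by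
  obtain ⟨S, h1, h2, h3⟩ := KAAux_int (q := -(1 / 3)) (p := 2) (b := Real.pi / a ^ 2)
    (by norm_num) (by norm_num) two_pos (by positivity)
  have e1 : 2 * ((Real.pi / a ^ 2) ^ (-(-(1 / 3) + 1) / 2 : ℝ) * (1 / 2)
      * Real.Gamma ((-(1 / 3) + 1) / 2)) = kaA * a ^ (2 / 3 : ℝ) := by
    rw [show (-(-(1 / 3) + 1) / 2 : ℝ) = -(1 / 3) by norm_num, KAAux_rpow Real.pi_pos ha,
      show ((-(1 / 3) + 1) / 2 : ℝ) = 1 / 3 by norm_num,
      show (2 * (1 / 3) : ℝ) = 2 / 3 by norm_num, kaA]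
    ring
  rw [e1] at h2 h3
  refine ⟨S, h1.congr_fun fun n => ?_, h2, by norm_num at h3 ⊢; linarith⟩
  rw [kaG]
  split_ifs with h
  · rw [h, Int.cast_zero, abs_zero, Real.zero_rpow (by norm_num), mul_zero]
  · rw [Real.rpow_two, sq_abs, mul_comm]
    congr 2
    ring

theorem KAAux_C {a : ℝ} (ha : 0 < a) : ∃ S : ℝ, HasSum (kaC a) S ∧ S ≤ kaB * a ^ (1 / 3 : ℝ) ∧
    kaB * a ^ (1 / 3 : ℝ) - 2 ≤ S := by
  obtain ⟨S, h1, h2, h3⟩ := KAAux_int (q := 0) (p := 6) (b := Real.pi / a ^ 2)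
    (by norm_num) le_rfl (by norm_num) (by positivity)
  have e1 : 2 * ((Real.pi / a ^ 2) ^ (-(0 + 1) / 6 : ℝ) * (1 / 6)
      * Real.Gamma ((0 + 1) / 6)) = kaB * a ^ (1 / 3 : ℝ) := by
    rw [show (-(0 + 1) / 6 : ℝ) = -(1 / 6) by norm_num, KAAux_rpow Real.pi_pos ha,
      show ((0 + 1) / 6 : ℝ) = 1 / 6 by norm_num,
      show (2 * (1 / 6) : ℝ) = 1 / 3 by norm_num, kaB]
    ring
  rw [e1] at h2 h3
  refine ⟨S, h1.congr_fun fun n => ?_, h2, by norm_num at h3 ⊢; linarith⟩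
  rw [kaC]
  split_ifs with h
  · rfl
  · rw [Real.rpow_zero, one_mul, show (6 : ℝ) = (6 : ℕ) by norm_num, Real.rpow_natCast,
      Even.pow_abs (by decide)]
    congr 1
    ring

theorem KAAux_D {θ : ℝ} (h0 : 0 < θ) (h2 : θ ≤ 2) : ∃ C : ℝ, 0 < C ∧ ∀ a : ℝ, 0 < a →
    ∀ T : Finset ℤ, ∑ h ∈ T, Real.exp (-(Real.pi * h ^ 2 / a ^ 2)) * |(h : ℝ)| ^ θ
      ≤ C * a ^ (1 + θ) := by
  have hΓ : 0 < Real.Gamma ((0 + 1) / 2) := Real.Gamma_pos_of_pos (by norm_num)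
  refine ⟨(2 : ℝ) ^ (-(1 / 2) : ℝ) * Real.Gamma ((0 + 1) / 2), by positivity, fun a ha T => ?_⟩
  obtain ⟨S, h1, h3, -⟩ := KAAux_int (q := 0) (p := 2) (b := 2 / a ^ 2)
    (by norm_num) le_rfl two_pos (by positivity)
  rw [show (-(0 + 1) / 2 : ℝ) = -(1 / 2) by norm_num, KAAux_rpow two_pos ha,
    show (2 * (1 / 2) : ℝ) = 1 by norm_num] at h3
  have h4 := sum_le_hasSum T (fun n _ => mul_nonneg (Real.rpow_nonneg ha.le _) (by
    split_ifs
    · exact le_rfl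
    · positivity)) (h1.mul_left (a ^ θ))
  refine (Finset.sum_le_sum fun n _ => ?_).trans (h4.trans ((mul_le_mul_of_nonneg_left h3
    (by positivity)).trans_eq (by rw [Real.rpow_add ha]; ring)))
  split_ifs with h
  · rw [h, Int.cast_zero, abs_zero, Real.zero_rpow h0.ne', mul_zero, mul_zero]
  · obtain ⟨t, ht⟩ : ∃ t : ℝ, t = |(n : ℝ)| / a := ⟨_, rfl⟩
    have ht0 : 0 ≤ t := ht ▸ by positivity
    have e1 : |(n : ℝ)| = a * t := by rw [ht]; field_simp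
    have e2 : (n : ℝ) ^ 2 = a ^ 2 * t ^ 2 := by rw [← sq_abs, e1, mul_pow]
    have e3 : t ^ θ ≤ Real.exp (t ^ 2) := by
      refine le_trans ?_ (Real.add_one_le_exp _)
      rcases le_total t 1 with h5 | h5
      · exact (Real.rpow_le_one ht0 h5 h0.le).trans (by nlinarith)
      · exact (Real.rpow_le_rpow_of_exponent_le h5 h2).trans (by rw [Real.rpow_two]; linarith)
    rw [Real.rpow_zero, one_mul, Real.rpow_two, sq_abs, e2, e1, Real.mul_rpow ha.le ht0,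
      mul_left_comm]
    refine mul_le_mul_of_nonneg_left ((mul_le_mul_of_nonneg_left e3 (Real.exp_pos _).le).trans ?_)
      (by positivity)
    rw [← Real.exp_add]
    refine Real.exp_le_exp.2 ?_
    have e4 : Real.pi * (a ^ 2 * t ^ 2) / a ^ 2 = Real.pi * t ^ 2 := by field_simp
    have e5 : -(2 / a ^ 2) * (a ^ 2 * t ^ 2) = -(2 * t ^ 2) := by field_simp
    rw [e4, e5]
    nlinarith [Real.pi_gt_three, sq_nonneg t]

theorem KAAux_mul {M : Type*} [AddCommMonoid M] [TopologicalSpace M] {f : ℤ → M} {S : M} {k : ℤ}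
    (hk : k ≠ 0) (h : HasSum (fun j => f (k * j)) S) :
    HasSum (fun n => if k ∣ n then f n else 0) S := by
  refine ((mul_right_injective₀ hk).hasSum_iff fun n hn => if_neg fun ⟨j, hj⟩ => hn ⟨j, hj.symm⟩).1
    (h.congr_fun fun j => ?_)
  exact if_pos (dvd_mul_right _ _)

theorem KAAux_Gk {a : ℝ} (ha : 0 < a) {k : ℕ} (hk : 0 < k) :
    ∃ S : ℝ, HasSum (fun n => if (k : ℤ) ∣ n then kaG a n else 0) S ∧
      S ≤ kaA * a ^ (2 / 3 : ℝ) / k ∧ kaA * a ^ (2 / 3 : ℝ) / k - 3 ≤ S := by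
  have hk0 : (0 : ℝ) < k := Nat.cast_pos.2 hk
  have hk1 : (1 : ℝ) ≤ k := Nat.one_le_cast.2 hk
  obtain ⟨S, h1, h2, h3⟩ := KAAux_G (div_pos ha hk0)
  have e1 : (k : ℝ) ^ (-(1 / 3) : ℝ) * (kaA * (a / k) ^ (2 / 3 : ℝ)) = kaA * a ^ (2 / 3 : ℝ) / k := by
    rw [Real.div_rpow ha.le hk0.le, Real.rpow_neg hk0.le]
    have e2 : (k : ℝ) = k ^ (1 / 3 : ℝ) * k ^ (2 / 3 : ℝ) := by
      rw [← Real.rpow_add hk0]
      norm_num
    conv_rhs => rw [e2]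
    field_simp
  have h4 : (k : ℝ) ^ (-(1 / 3) : ℝ) ≤ 1 := Real.rpow_le_one_of_one_le_of_nonpos hk1 (by norm_num)
  have h5 : 0 ≤ (k : ℝ) ^ (-(1 / 3) : ℝ) := by positivity
  refine ⟨k ^ (-(1 / 3) : ℝ) * S, KAAux_mul (by exact_mod_cast hk.ne')
    ((h1.mul_left _).congr_fun fun j => ?_), e1 ▸ mul_le_mul_of_nonneg_left h2 h5, ?_⟩
  · rw [kaG, kaG, Int.cast_mul, Int.cast_natCast, abs_mul, abs_of_pos hk0,
      Real.mul_rpow hk0.le (abs_nonneg _), mul_left_comm]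
    congr 4
    field_simp
  · rw [← e1]
    nlinarith [mul_le_mul_of_nonneg_left h3 h5]

theorem KAAux_Ck {a : ℝ} (ha : 0 < a) {k : ℕ} (hk : 0 < k) :
    ∃ S : ℝ, HasSum (fun n => if (k : ℤ) ∣ n then kaC a n else 0) S ∧
      S ≤ kaB * a ^ (1 / 3 : ℝ) / k := by
  have hk0 : (0 : ℝ) < k := Nat.cast_pos.2 hk
  obtain ⟨S, h1, h2, -⟩ := KAAux_C (a := a / k ^ 3) (by positivity)
  refine ⟨S, KAAux_mul (by exact_mod_cast hk.ne') (h1.congr_fun fun j => ?_), h2.trans_eq ?_⟩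
  · rw [kaC, kaC, Int.cast_mul, Int.cast_natCast]
    refine if_congr (by simp [hk.ne']) rfl ?_
    congr 4
    field_simp
  · rw [Real.div_rpow ha.le (by positivity), ← Real.rpow_natCast, ← Real.rpow_mul hk0.le]
    norm_num
    ring

theorem KAAux_tsum {ι : Type*} {F g : ι → ℂ} {u : ι → ℝ} {S : ℂ} {B : ℝ} (hg : HasSum g S)
    (h : ∀ i, ‖F i - g i‖ ≤ u i) (hu : ∀ T : Finset ι, ∑ i ∈ T, u i ≤ B) :
    Summable F ∧ ‖∑' i, F i - S‖ ≤ B := by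
  have h0 : ∀ i, 0 ≤ u i := fun i => (norm_nonneg _).trans (h i)
  have h1 := summable_of_sum_le h0 hu
  have h2 : Summable fun i => F i - g i := Summable.of_norm_bounded h1 h
  have h3 : Summable F := (h2.add hg.summable).congr fun i => sub_add_cancel _ _
  refine ⟨h3, ?_⟩
  rw [← hg.tsum_eq, ← h3.tsum_sub hg.summable]
  exact (tsum_of_norm_bounded h1.hasSum h).trans (Real.tsum_le_of_sum_le h0 hu)

theorem KAAux_tail {σ : ℝ} (hσ : 1 < σ) {w : ℕ} (hw : 0 < w) (T : Finset ℕ) (hT : ∀ n ∈ T, w < n) :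
    ∑ n ∈ T, (n : ℝ) ^ (-σ) ≤ (w : ℝ) ^ (1 - σ) / (σ - 1) := by
  have hw0 : (0 : ℝ) < w := Nat.cast_pos.2 hw
  have h1 := AntitoneOn.sum_Ico_le_integral (f := fun x : ℝ => x ^ (-σ)) (a := w) (b := T.sup id)
    (fun x hx y _ hxy => Real.rpow_le_rpow_of_nonpos (hw0.trans_le hx.1) hxy (by linarith))
    (integrableOn_Ioi_rpow_of_lt (by linarith) hw0)
    fun t ht => Real.rpow_nonneg (hw0.trans ht).le _
  rw [integral_Ioi_rpow_of_lt (by linarith) hw0,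
    Finset.sum_Ico_add' (fun n : ℕ => (n : ℝ) ^ (-σ)) w _ 1] at h1
  refine (Finset.sum_le_sum_of_subset_of_nonneg (fun n hn => Finset.mem_Ico.2
    ⟨hT n hn, Nat.lt_succ_of_le (Finset.le_sup (f := id) hn)⟩) fun _ _ _ => by positivity).trans
    (h1.trans_eq ?_)
  rw [show -σ + 1 = 1 - σ by ring, neg_div, ← div_neg, neg_sub]

/-- The inverse as an arithmetic function. -/
def kaI : ArithmeticFunction ℝ := ⟨fun n => (n : ℝ)⁻¹, by simp⟩
theorem KAAux_I : kaI.IsMultiplicative :=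
  ⟨by simp [kaI], fun _ => by simp [kaI, mul_comm]⟩

theorem KAAux_PQ (w : ℕ) :
    ∑ e ∈ (primorial w).divisors, (ArithmeticFunction.moebius e : ℝ) * (e : ℝ)⁻¹ = PQ w :=
  (KAAux_I.prodPrimeFactors_one_sub_of_squarefree _ (squarefree_primorial w)).symm

theorem KAAux_PQ_pos (w : ℕ) : 0 < PQ w := Finset.prod_pos fun p hp => by
  have h : (1 : ℝ) < p := by exact_mod_cast (Nat.prime_of_mem_primeFactors hp).one_lt
  exact sub_pos.2 (inv_lt_one_of_one_lt₀ h)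

theorem KAAux_PQ_le (w : ℕ) : PQ w ≤ 1 := Finset.prod_le_one (fun p hp => by
  have h : (1 : ℝ) < p := by exact_mod_cast (Nat.prime_of_mem_primeFactors hp).one_lt
  exact (sub_pos.2 (inv_lt_one_of_one_lt₀ h)).le) fun p _ => sub_le_self _ (by positivity)

theorem KAAux_inv_sum (w : ℕ) : ∑ e ∈ (primorial w).divisors, (e : ℝ)⁻¹ ≤ (PQ w)⁻¹ := by
  have h := KAAux_I.prodPrimeFactors_one_add_of_squarefree (squarefree_primorial w)
  refine h.ge.trans ?_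
  rw [PQ, ← Finset.prod_inv_distrib]
  refine Finset.prod_le_prod (fun p _ => show (0 : ℝ) ≤ 1 + (p : ℝ)⁻¹ by positivity) fun p hp => ?_
  have h1 : (1 : ℝ) < p := by exact_mod_cast (Nat.prime_of_mem_primeFactors hp).one_lt
  have h2 := sub_pos.2 (inv_lt_one_of_one_lt₀ h1)
  rw [← one_div, le_div_iff₀ h2]
  show (1 + (p : ℝ)⁻¹) * _ ≤ _
  nlinarith [sq_nonneg (p : ℝ)⁻¹]

theorem KAAux_inv_P (p : P) : 0 < (nm p.1 : ℝ)⁻¹ ∧ (nm p.1 : ℝ)⁻¹ ≤ 1 := by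
  have h := one_le_nmR p.ne_zero
  exact ⟨by positivity, inv_le_one_of_one_le₀ h⟩

theorem KAAux_prod (s : Finset P) : 0 ≤ ∏ p ∈ s, (1 - (nm p.1 : ℝ)⁻¹) ∧
    ∏ p ∈ s, (1 - (nm p.1 : ℝ)⁻¹) ≤ 1 ∧
    1 - ∑ p ∈ s, (nm p.1 : ℝ)⁻¹ ≤ ∏ p ∈ s, (1 - (nm p.1 : ℝ)⁻¹) := by
  induction s using Finset.induction_on with
  | empty => simp
  | insert p s hp ih =>
    rw [Finset.prod_insert hp, Finset.sum_insert hp]
    obtain ⟨h1, h2⟩ := KAAux_inv_P p
    obtain ⟨h3, h4, h5⟩ := ih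
    refine ⟨mul_nonneg (by linarith) h3, ?_, ?_⟩ <;> nlinarith

theorem KAAux_lw (hb : BA) {φ : ℝ → ℂ} (hφ : Bump φ) : ∃ D : ℝ, 0 < D ∧ ∀ x y : ℝ, 0 < x → 0 < y →
    ‖lw φ 1 x y‖ ≤ D ∧ (lw φ 1 x y ≠ 0 → x ≤ y ∧ y ≤ 3 * x) := by
  obtain ⟨D, hD, h⟩ := hb.bump_bd φ hφ 0
  refine ⟨D, hD, fun x y hx hy => ⟨by simpa [lw] using h.bd 0 le_rfl _, fun h0 => ?_⟩⟩
  obtain ⟨h1, h2⟩ := hφ.supp _ h0
  rw [one_mul] at h1 h2
  rw [Real.log_nonneg_iff (div_pos hy hx), one_le_div hx] at h1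
  rw [Real.log_le_iff_le_exp (div_pos hy hx), div_le_iff₀ hx] at h2
  exact ⟨h1, h2.trans (mul_le_mul_of_nonneg_right Real.exp_one_lt_three.le hx.le)⟩

end Pat
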