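import Vale.Agent.P006.KB1Aux

noncomputable section
namespace Pat
open QRH Complex MeasureTheory Filter
open scoped ComplexConjugate Classical ContDiff Topology

theorem kB1_lw {φ : ℝ → ℂ} (hφ : Bump φ) {L y : ℝ} (hL : 0 < L) (hy : 3 * L < y) :
    lw φ 1 L y = 0 := by
  by_contra hne
  have h1 := (hφ.supp _ hne).2
  have h2 : 3 < y / L := by rwa [lt_div_iff₀ hL]
  have h3 : Real.exp 1 < y / L := (Real.exp_one_lt_d9.trans (by norm_num)).trans h2
  have h4 : 1 < Real.log (y / L) := by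
    rw [Real.lt_log_iff_exp_lt (by linarith)]
    exact h3
  linarith

/-- The coefficient of a primitive set. -/
def kB1_c (φ : ℝ → ℂ) (F : Finset P) (L : ℝ) (l : ℕ) (s : Finset P) : ℂ :=
  (if Prim s ∧ Disjoint s F then tt s * xs c3 s (l : E) else 0) * lw φ 1 L (Ns s)

theorem kB1_B1 (hb : BA) (hr : RatF) (φ : ℝ → ℂ) (F : Finset P) (L : ℝ) (l e : ℕ) {a : ℝ}
    (ha : 0 < a) :
    KBs φ (e * l) a L F (fun _ => True) = ∑ s ∈ sqf (3 * L),
      kB1_c φ F L l s * (xs c3 s (e : E) * ∑' k : ℤ, xs c3 s (k : E) * kB1_G a k) := by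
  unfold KBs
  simp only [if_true]
  have h1 : ∀ (s : Finset P) (n : ℤ), (if Prim s ∧ Disjoint s F then
      ((a / √(Ns s) * Real.exp (-(Real.pi * (n * a / Ns s) ^ 2)) : ℝ) : ℂ)
        * xs c3 s (((e : ℤ) * l * n ^ 2 : ℤ) : E) else 0) * lw φ 1 L (Ns s)
      = ((if Prim s ∧ Disjoint s F then xs c3 s (l : E) else 0) * lw φ 1 L (Ns s)
          * xs c3 s (e : E)) *
        (((a / √(Ns s) * Real.exp (-(Real.pi * (n * a / Ns s) ^ 2)) : ℝ) : ℂ)
          * xs c3 s ((n ^ 2 : ℤ) : E)) := by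
    intro s n
    split_ifs
    · rw [Int.cast_mul, Int.cast_mul, xs_mul ch_c3, xs_mul ch_c3, Int.cast_natCast,
        Int.cast_natCast]
      ring
    · simp only [zero_mul]
  simp only [h1]
  rw [Summable.tsum_finsetSum]
  · refine Finset.sum_congr rfl fun s _ => ?_
    rw [tsum_mul_left]
    unfold kB1_c
    split_ifs with hs
    · rw [← kB1_chi hb hr hs.1 ha]
      ring
    · simp only [zero_mul]
  · intro s _
    apply Summable.mul_left
    have := kB1_sum_dual (b := a / Ns s) (div_pos ha (Ns_pos s))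
      (f := fun n : ℤ => xs c3 s ((n ^ 2 : ℤ) : E)) (B := 1) (fun n => norm_xs_le ch_c3 s _)
      (a / √(Ns s))
    simpa only [mul_div_assoc] using this

theorem kB1_sumC {H : ℝ} (hH : 0 < H) (M : ℕ) (s : Finset P) :
    Summable fun h : ℤ => if Int.gcd h M = 1 then xs c3 s (h : E) * kB1_G H h else 0 := by
  have := kB1_sum_bdd hH (f := fun h : ℤ => if Int.gcd h M = 1 then xs c3 s (h : E) else 0)
    (B := 1) (fun h => by
      split_ifs
      · exact norm_xs_le ch_c3 s _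
      · simp)
  simpa only [ite_mul, zero_mul] using this

theorem kB1_B (hb : BA) (hr : RatF) (φ : ℝ → ℂ) (F : Finset P) (L : ℝ) (l : ℕ) {M : ℕ}
    (hM : M ≠ 0) {H : ℝ} (hH : 0 < H) :
    ∑' h : ℤ, ∑ s ∈ sqf (3 * L), kB1_c φ F L l s *
        (if Int.gcd h M = 1 then xs c3 s (h : E) * kB1_G H h else 0)
      = ∑ e ∈ M.divisors, (ArithmeticFunction.moebius e : ℂ) *
          KBs φ (e * l) (H / e) L F fun _ => True := by
  rw [Summable.tsum_finsetSum fun s _ => (kB1_sumC hH M s).mul_left _]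
  have h1 : ∀ e ∈ M.divisors, (ArithmeticFunction.moebius e : ℂ) *
      KBs φ (e * l) (H / e) L F (fun _ => True) = ∑ s ∈ sqf (3 * L), kB1_c φ F L l s *
        ((ArithmeticFunction.moebius e : ℂ) *
          ∑' k : ℤ, xs c3 s (((e : ℤ) * k : ℤ) : E) * kB1_G H (e * k)) := by
    intro e he
    have he0 := Nat.pos_of_mem_divisors he
    rw [kB1_B1 hb hr φ F L l e (div_pos hH (Nat.cast_pos.2 he0)), Finset.mul_sum]
    refine Finset.sum_congr rfl fun s _ => ?_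
    rw [mul_left_comm, ← tsum_mul_left]
    congr 2
    refine tsum_congr fun k => ?_
    rw [kB1_G_mul H he0, Int.cast_mul, xs_mul ch_c3, Int.cast_natCast, mul_assoc]
  rw [Finset.sum_congr rfl h1, Finset.sum_comm]
  refine Finset.sum_congr rfl fun s _ => ?_
  rw [tsum_mul_left, ← Finset.mul_sum,
    kB1_mob_sum hM (kB1_sum_bdd hH (B := 1) fun h => norm_xs_le ch_c3 s _)]

theorem kB1_two (hr : RatF) (R : ℝ) (Φ : Finset P → ℂ) (h0 : ∀ s, R < Ns s → Φ s = 0) :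
    ∑ s ∈ sqf R, Φ s = ∑ s1 ∈ sqf R, ∑ s0 ∈ sqf R,
      if SelfC s1 ∧ Prim s0 ∧ Disjoint s1 s0 then Φ (s1 ∪ s0) else 0 := by
  rw [← Finset.sum_product', ← Finset.sum_filter]
  have hinj : Set.InjOn (fun x : Finset P × Finset P => x.1 ∪ x.2)
      (((sqf R ×ˢ sqf R).filter fun x => SelfC x.1 ∧ Prim x.2 ∧ Disjoint x.1 x.2 :
        Finset (Finset P × Finset P)) : Set (Finset P × Finset P)) := by
    intro x hx y hy hxy
    have hx' := (Finset.mem_filter.1 hx).2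
    have hy' := (Finset.mem_filter.1 hy).2
    exact (hr.split (x.1 ∪ x.2)).unique ⟨hx'.1, hx'.2.1, hx'.2.2, rfl⟩
      ⟨hy'.1, hy'.2.1, hy'.2.2, hxy⟩
  rw [← Finset.sum_image hinj]
  refine Finset.sum_subset (fun s hs => ?_) fun s _ hs => h0 s (not_le.1 (mt mem_sqf.2 hs))
  obtain ⟨x, ⟨h1, h2, h3, h4⟩, -⟩ := hr.split s
  have hs' := mem_sqf.1 hs
  refine Finset.mem_image.2 ⟨x, Finset.mem_filter.2 ⟨Finset.mem_product.2 ⟨?_, ?_⟩, h1, h2, h3⟩,
    h4.symm⟩
  · exact mem_sqf.2 ((Ns_mono (h4 ▸ Finset.subset_union_left)).trans hs')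
  · exact mem_sqf.2 ((Ns_mono (h4 ▸ Finset.subset_union_right)).trans hs')

theorem kB1_gcd_mul (h : ℤ) (a b : ℕ) :
    Int.gcd h ((a * b : ℕ) : ℤ) = 1 ↔ Int.gcd h a = 1 ∧ Int.gcd h b = 1 := by
  simp only [← Int.isCoprime_iff_gcd_eq_one, Nat.cast_mul, IsCoprime.mul_right_iff]

theorem kB1_xs_neg (s : Finset P) (x : E) : xs c3 s (-x) = xs c3 s x :=
  Finset.prod_congr rfl fun p _ => c3_neg p x

theorem kB1_xs_ell (hr : RatF) {s1 : Finset P} (h1 : SelfC s1) (s0 : Finset P) :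
    xs c3 s0 (pr s1) = xs c3 s0 (ell s1 : E) := by
  rcases hr.pr_self s1 h1 with h | h
  · rw [h]
  · rw [h, kB1_xs_neg]

/-- The weight on primary elements. -/
def kB1_g (φ : ℝ → ℂ) (F : Finset P) (Y : ℝ) (h : ℤ) (c : E) : ℂ :=
  (if Disjoint (fac c) F then xv c3 c (h : E) else 0) * lw φ 1 Y (nm c)

theorem kB1_xv_cube (hr : RatF) {h : ℤ} (h0 : h ≠ 0) {d : E} (hd : Pm d) :
    xv c3 d (h : E) ^ 3 = if Int.gcd h (nm d) = 1 then 1 else 0 := by
  have hd0 := primary_ne_zero hd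
  have hE : (h : E) ≠ 0 := Int.cast_ne_zero.2 h0
  split_ifs with hg
  · have := (hr.cop_int h d hd h0).2 hg
    refine xv_c3_cube hd0 fun p hp => ?_
    exact Finset.disjoint_left.1 this ((mem_fac hd0).2 hp.1) ((mem_fac hE).2 hp.2)
  · have := mt (hr.cop_int h d hd h0).1 hg
    obtain ⟨p, hp1, hp2⟩ := Finset.not_disjoint_iff.1 this
    rw [(xv_eq_zero_iff ch_c3 hd0).2 ⟨p, (mem_fac hd0).1 hp1, (mem_fac hE).1 hp2⟩]
    norm_num

theorem kB1_term (hb : BA) (hr : RatF) (φ : ℝ → ℂ) (F : Finset P) {Y : ℝ} {W : ℕ} {h : ℤ}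
    (h0 : h ≠ 0) (hW : Int.gcd h W = 1) {d : E} (hd : Pm d) (hdF : Disjoint (fac d) F)
    {s1 : Finset P} (h1 : SelfC s1) (s0 : Finset P) :
    (if Prim s0 ∧ Disjoint s1 s0 then tt (s1 ∪ s0) * kB1_g φ F Y h (pr (s1 ∪ s0) * d ^ 3) else 0)
      = if Disjoint s1 F then kB1_c φ F (Y / (Ns s1 * (nm d : ℝ) ^ 3)) (ell s1) s0 *
          (if Int.gcd h ((W * nm (pr s1) * nm d : ℕ) : ℤ) = 1 then xs c3 s0 (h : E) else 0)
        else 0 := by
  have hd0 := primary_ne_zero hd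
  unfold kB1_c kB1_g
  by_cases hp : Prim s0
  swap
  · simp only [hp, false_and, if_false, zero_mul, ite_self]
  by_cases hdj : Disjoint s1 s0
  swap
  · have : xs c3 s0 (ell s1 : E) = 0 := by
      rw [← kB1_xs_ell hr h1]
      obtain ⟨p, hp1, hp2⟩ := Finset.not_disjoint_iff.1 hdj
      exact (xs_eq_zero_iff ch_c3).2 ⟨p, hp2, dvd_pr_iff.2 hp1⟩
    simp only [hdj, and_false, if_false, this, mul_zero, ite_self, zero_mul]
  have hfac : fac (pr (s1 ∪ s0) * d ^ 3) = s1 ∪ s0 ∪ fac d := by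
    rw [fac_mul (pr_ne_zero _) (pow_ne_zero _ hd0), fac_pr, fac_pow hd0 (by norm_num)]
  have hxv : xv c3 (pr (s1 ∪ s0) * d ^ 3) (h : E)
      = if Int.gcd h ((W * nm (pr s1) * nm d : ℕ) : ℤ) = 1 then xs c3 s0 (h : E) else 0 := by
    rw [xv_mul_left (pr_ne_zero _) (pow_ne_zero _ hd0), xv_pr, xv_pow_left hd0, xs_union hdj,
      kB1_xv_cube hr h0 hd, hr.xs_self s1 h h1]
    have e : Int.gcd h ((W * nm (pr s1) * nm d : ℕ) : ℤ) = 1
        ↔ Int.gcd h (ell s1) = 1 ∧ Int.gcd h (nm d) = 1 := by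
      rw [kB1_gcd_mul, kB1_gcd_mul, hr.ell_sq s1 h1, sq, kB1_gcd_mul]
      tauto
    simp only [e]
    by_cases a1 : Int.gcd h (ell s1) = 1 <;> by_cases a2 : Int.gcd h (nm d) = 1 <;>
      simp [a1, a2]
  have hlw : lw φ 1 Y (nm (pr (s1 ∪ s0) * d ^ 3))
      = lw φ 1 (Y / (Ns s1 * (nm d : ℝ) ^ 3)) (Ns s0) := by
    unfold lw
    rw [nm_mul, nm_pow, Nat.cast_mul, Nat.cast_pow]
    change φ (1 * Real.log (Ns (s1 ∪ s0) * _ / Y)) = _
    rw [Ns_union hdj, div_div_eq_mul_div]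
    congr 4
    ring
  rw [hfac, hxv, hlw, hb.tt_union s1 s0 hdj, hr.tt_self s1 h1, kB1_xs_ell hr h1]
  simp only [hp, hdj, and_self, if_true, true_and, Finset.disjoint_union_left, hdF, and_true]
  by_cases a1 : Disjoint s1 F <;> by_cases a2 : Disjoint s0 F <;>
    simp only [a1, a2, and_self, and_false, false_and, if_true, if_false, zero_mul, mul_zero]
  ring

theorem kB1_inner (hb : BA) (hr : RatF) {φ : ℝ → ℂ} (hφ : Bump φ) (F : Finset P) {Y : ℝ}
    (hY : 0 < Y) {W : ℕ} {h : ℤ} (h0 : h ≠ 0) (hW : Int.gcd h W = 1) {d : E} (hd : Pm d)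
    (hdF : Disjoint (fac d) F) :
    ∑ s ∈ sqf (3 * Y), tt s * kB1_g φ F Y h (pr s * d ^ 3)
      = ∑ s1 ∈ sqf (3 * Y) with SelfC s1 ∧ Disjoint s1 F,
        ∑ s0 ∈ sqf (3 * (Y / (Ns s1 * (nm d : ℝ) ^ 3))),
          kB1_c φ F (Y / (Ns s1 * (nm d : ℝ) ^ 3)) (ell s1) s0 *
          (if Int.gcd h ((W * nm (pr s1) * nm d : ℕ) : ℤ) = 1 then xs c3 s0 (h : E) else 0) := by
  have hd0 := primary_ne_zero hd
  have hd1 : (1 : ℝ) ≤ (nm d : ℝ) ^ 3 := one_le_pow₀ (one_le_nmR hd0)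
  rw [kB1_two hr (3 * Y), Finset.sum_filter]
  · refine Finset.sum_congr rfl fun s1 _ => ?_
    by_cases h1 : SelfC s1
    swap
    · simp only [h1, false_and, if_false, Finset.sum_const_zero]
    simp only [h1, true_and, kB1_term hb hr φ F h0 hW hd hdF h1]
    by_cases h2 : Disjoint s1 F
    swap
    · simp only [h2, if_false, Finset.sum_const_zero]
    simp only [h2, if_true]
    have hN : 1 ≤ Ns s1 * (nm d : ℝ) ^ 3 := one_le_mul_of_one_le_of_one_le (one_le_Ns s1) hd1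
    symm
    refine Finset.sum_subset (sqf_mono ?_) fun s0 _ hs0 => ?_
    · have := div_le_self hY.le hN
      linarith
    · unfold kB1_c
      rw [kB1_lw hφ (by positivity) (not_le.1 (mt mem_sqf.2 hs0)), mul_zero, zero_mul]
  · intro s hs
    unfold kB1_g
    rw [kB1_lw hφ hY, mul_zero, mul_zero]
    rw [nm_mul, nm_pow, Nat.cast_mul, Nat.cast_pow]
    exact hs.trans_le (le_mul_of_one_le_right (Ns_pos s).le hd1)

theorem kB1_A (hb : BA) (hr : RatF) {φ : ℝ → ℂ} (hφ : Bump φ) (F : Finset P) {Y : ℝ}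
    (hY : 0 < Y) (H : ℝ) {W : ℕ} (hW1 : W ≠ 1) (h : ℤ) :
    (if h ≠ 0 ∧ Int.gcd h W = 1 then kB1_G H h *
      ∑ γ ∈ pball (3 * Y), (if Disjoint (fac γ) F then th γ * xv c3 γ (h : E) else 0)
        * lw φ 1 Y (nm γ) else 0)
      = ∑ d ∈ pball (3 * Y) with Disjoint (fac d) F,
        ∑ s1 ∈ sqf (3 * Y) with SelfC s1 ∧ Disjoint s1 F, (√(nm d : ℝ) : ℝ) *
          ∑ s0 ∈ sqf (3 * (Y / (Ns s1 * (nm d : ℝ) ^ 3))),
            kB1_c φ F (Y / (Ns s1 * (nm d : ℝ) ^ 3)) (ell s1) s0 *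
            (if Int.gcd h ((W * nm (pr s1) * nm d : ℕ) : ℤ) = 1 then
              xs c3 s0 (h : E) * kB1_G H h else 0) := by
  by_cases hW : Int.gcd h W = 1
  swap
  · rw [if_neg fun hh => hW hh.2]
    symm
    refine Finset.sum_eq_zero fun d _ => Finset.sum_eq_zero fun s1 _ => ?_
    have : ¬ Int.gcd h ((W * nm (pr s1) * nm d : ℕ) : ℤ) = 1 := fun hh =>
      hW ((kB1_gcd_mul _ _ _).1 ((kB1_gcd_mul _ _ _).1 hh).1).1
    simp only [this, if_false, mul_zero, Finset.sum_const_zero]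
  have h0 : h ≠ 0 := by
    rintro rfl
    exact hW1 (by simpa using hW)
  rw [if_pos ⟨h0, hW⟩]
  have e1 : ∀ γ : E, (if Disjoint (fac γ) F then th γ * xv c3 γ (h : E) else 0)
      * lw φ 1 Y (nm γ) = th γ * kB1_g φ F Y h γ := by
    intro γ
    unfold kB1_g
    split_ifs
    · ring
    · simp only [zero_mul, mul_zero]
  simp only [e1]
  rw [hb.th_sum (3 * Y) (kB1_g φ F Y h) fun c hc => by
    unfold kB1_g
    rw [kB1_lw hφ hY hc, mul_zero], Finset.mul_sum, Finset.sum_filter]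
  refine Finset.sum_congr rfl fun d hd => ?_
  have hd' : Pm d := ((hb.mem_pball _ _).1 hd).1
  have hd0 := primary_ne_zero hd'
  simp only [mul_assoc]
  rw [← Finset.mul_sum]
  split_ifs with hdF
  · rw [kB1_inner hb hr hφ F hY h0 hW hd' hdF, ← Finset.mul_sum, mul_left_comm, Finset.mul_sum]
    congr 1
    refine Finset.sum_congr rfl fun s1 _ => ?_
    rw [Finset.mul_sum]
    refine Finset.sum_congr rfl fun s0 _ => ?_
    simp only [mul_assoc]
    split_ifs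
    · ring
    · simp only [mul_zero]
  · rw [Finset.sum_eq_zero, mul_zero, mul_zero]
    intro s _
    unfold kB1_g
    rw [if_neg, zero_mul, mul_zero]
    rw [fac_mul (pr_ne_zero _) (pow_ne_zero _ hd0), fac_pow hd0 (by norm_num),
      Finset.disjoint_union_left]
    exact fun hh => hdF hh.2

theorem kB1 (hb : BA) (hr : RatF) : KB1 := by
  intro φ w H Y hφ hw hH hY
  have hW1 : primorial w ≠ 1 := by
    intro h1
    have : 3 ∣ primorial w := (Nat.prime_three.dvd_primorial_iff).2 hw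
    rw [h1] at this
    norm_num at this
  have hA := kB1_A hb hr hφ (fac (primorial w : E)) hY H hW1
  unfold KXi
  change ∑' h : ℤ, (if h ≠ 0 ∧ Int.gcd h (primorial w) = 1 then kB1_G H h * _ else 0) = _
  rw [tsum_congr hA]
  have hs : ∀ (d : E) (s1 : Finset P), Summable fun h : ℤ => ((√(nm d : ℝ) : ℝ) : ℂ) *
      ∑ s0 ∈ sqf (3 * (Y / (Ns s1 * (nm d : ℝ) ^ 3))),
        kB1_c φ (fac (primorial w : E)) (Y / (Ns s1 * (nm d : ℝ) ^ 3)) (ell s1) s0 *
        (if Int.gcd h ((primorial w * nm (pr s1) * nm d : ℕ) : ℤ) = 1 then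
          xs c3 s0 (h : E) * kB1_G H h else 0) := fun d s1 =>
    (summable_sum fun s0 _ => (kB1_sumC hH _ s0).mul_left _).mul_left _
  rw [Summable.tsum_finsetSum fun d _ => summable_sum fun s1 _ => hs d s1]
  refine Finset.sum_congr rfl fun d hd => ?_
  rw [Summable.tsum_finsetSum fun s1 _ => hs d s1]
  refine Finset.sum_congr rfl fun s1 _ => ?_
  have hd' : Pm d := ((hb.mem_pball _ _).1 (Finset.mem_filter.1 hd).1).1
  have hM : primorial w * nm (pr s1) * nm d ≠ 0 :=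
    mul_ne_zero (mul_ne_zero (primorial_pos w).ne' (mt nm_eq_zero.1 (pr_ne_zero s1)))
      (mt nm_eq_zero.1 (primary_ne_zero hd'))
  rw [tsum_mul_left, kB1_B hb hr φ _ _ _ hM hH, Finset.mul_sum]
  exact Finset.sum_congr rfl fun e _ => (mul_assoc _ _ _).symm

end Pat
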