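import Vale.Agent.P006.IfA
import Vale.Agent.P026.Sym

noncomputable section
namespace Pat
open QRH Complex MeasureTheory Filter
open scoped ComplexConjugate Classical ContDiff Topology

/-- The Gaussian weight. -/
def kB1_G (a : ℝ) (h : ℤ) : ℂ := (Real.exp (-(Real.pi * h ^ 2 / a ^ 2)) : ℝ)

theorem kB1_sumR {T : ℝ} (hT : 0 < T) :
    Summable fun h : ℤ => Real.exp (-(Real.pi * (T * (h : ℝ) ^ 2))) := by
  have := summable_pow_mul_jacobiTheta₂_term_bound 0 hT 0
  refine this.congr fun n => ?_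
  rw [pow_zero, one_mul]
  congr 1
  ring

theorem kB1_sumG {a : ℝ} (ha : 0 < a) : Summable fun h : ℤ => ‖kB1_G a h‖ := by
  refine (kB1_sumR (T := (a ^ 2)⁻¹) (by positivity)).congr fun h => ?_
  unfold kB1_G
  rw [Complex.norm_real, Real.norm_of_nonneg (Real.exp_pos _).le]
  congr 1
  ring

theorem kB1_sum_bdd {a : ℝ} (ha : 0 < a) {f : ℤ → ℂ} {B : ℝ} (hf : ∀ h, ‖f h‖ ≤ B) :
    Summable fun h : ℤ => f h * kB1_G a h := by
  refine Summable.of_norm (((kB1_sumG ha).mul_left B).of_nonneg_of_le (fun _ => norm_nonneg _)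
    fun h => ?_)
  rw [norm_mul]
  exact mul_le_mul_of_nonneg_right (hf h) (norm_nonneg _)

theorem kB1_norm_e1 (x : ℝ) : ‖e1 x‖ = 1 := by
  unfold e1
  have : 2 * (Real.pi : ℂ) * I * x = ((2 * Real.pi * x : ℝ) : ℂ) * I := by push_cast; ring
  rw [this, Complex.norm_exp_ofReal_mul_I]

theorem kB1_sum_dual {b : ℝ} (hb : 0 < b) {f : ℤ → ℂ} {B : ℝ} (hf : ∀ h, ‖f h‖ ≤ B) (K : ℝ) :
    Summable fun n : ℤ =>
      ((K * Real.exp (-(Real.pi * (n * b) ^ 2)) : ℝ) : ℂ) * f n := by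
  have h1 := (kB1_sum_bdd (a := b⁻¹) (by positivity) hf).mul_left (K : ℂ)
  refine h1.congr fun n => ?_
  unfold kB1_G
  have : Real.pi * (n : ℝ) ^ 2 / (b⁻¹) ^ 2 = Real.pi * (n * b) ^ 2 := by
    field_simp
  rw [this]
  push_cast
  ring

/-- Poisson summation along one residue class. -/
theorem kB1_pois1 {a : ℝ} (ha : 0 < a) {c : ℕ} (hc : 0 < c) (x : ℕ) :
    ∑' k : ℤ, kB1_G a (k * c + x)
      = ∑' n : ℤ, ((a / c * Real.exp (-(Real.pi * (n * (a / c)) ^ 2)) : ℝ) : ℂ)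
          * e1 (x * n / c) := by
  have hc' : (0 : ℝ) < c := Nat.cast_pos.2 hc
  have hcC : (c : ℂ) ≠ 0 := Nat.cast_ne_zero.2 hc.ne'
  have haC : (a : ℂ) ≠ 0 := ofReal_ne_zero.2 ha.ne'
  have hA : 0 < (((c / a) ^ 2 : ℝ) : ℂ).re := by
    rw [ofReal_re]
    positivity
  have key := Complex.tsum_exp_neg_quadratic hA (-(x * c / a ^ 2 : ℂ))
  have e0 : (1 : ℂ) / (((c / a) ^ 2 : ℝ) : ℂ) ^ (1 / 2 : ℂ) = a / c := by
    have h2 : (1 / 2 : ℂ) = ((1 / 2 : ℝ) : ℂ) := by push_cast; ring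
    rw [h2, ← ofReal_cpow (by positivity), ← Real.sqrt_eq_rpow, Real.sqrt_sq (by positivity)]
    push_cast
    field_simp
  rw [e0] at key
  have e1' : ∀ k : ℤ, kB1_G a (k * c + x) = Complex.exp (-(Real.pi * x ^ 2 / a ^ 2)) *
      Complex.exp (-Real.pi * (((c / a) ^ 2 : ℝ) : ℂ) * k ^ 2
        + 2 * Real.pi * (-(x * c / a ^ 2 : ℂ)) * k) := by
    intro k
    unfold kB1_G
    rw [← Complex.exp_add, ofReal_exp]
    congr 1
    push_cast
    field_simp
    ring
  simp only [e1']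
  rw [tsum_mul_left, key, ← tsum_mul_left, ← tsum_mul_left]
  refine tsum_congr fun n => ?_
  unfold e1
  rw [ofReal_mul, ofReal_exp, mul_left_comm, ← Complex.exp_add, mul_assoc, ← Complex.exp_add]
  congr 1
  · push_cast
    rfl
  · congr 1
    push_cast
    field_simp
    ring_nf
    rw [I_sq]
    ring

theorem kB1_split {c : ℕ} (hc : 0 < c) {F : ℤ → ℂ} (hs : Summable F) :
    ∑' h : ℤ, F h = ∑ x ∈ Finset.range c, ∑' k : ℤ, F (k * c + x) := by
  have : NeZero c := ⟨hc.ne'⟩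
  let e : (Fin c × ℤ) ≃ ℤ := (Equiv.prodComm _ _).trans (Int.divModEquiv c).symm
  have he : ∀ p : Fin c × ℤ, e p = p.2 * c + (p.1 : ℕ) := fun p => rfl
  have hs2 : Summable fun p : Fin c × ℤ => F (e p) := e.summable_iff.2 hs
  rw [← e.tsum_eq, hs2.tsum_prod, tsum_fintype, Finset.sum_range]
  simp only [he]

/-- Poisson summation for a periodic function against the Gaussian. -/
theorem kB1_pois {a : ℝ} (ha : 0 < a) {c : ℕ} (hc : 0 < c) {f : ℤ → ℂ} {B : ℝ}
    (hf : ∀ h, ‖f h‖ ≤ B) (hp : ∀ x y : ℤ, (c : ℤ) ∣ x - y → f x = f y) :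
    ∑' h : ℤ, f h * kB1_G a h
      = ∑' n : ℤ, ((a / c * Real.exp (-(Real.pi * (n * (a / c)) ^ 2)) : ℝ) : ℂ)
          * ∑ x ∈ Finset.range c, f x * e1 (x * n / c) := by
  have hc' : (0 : ℝ) < c := Nat.cast_pos.2 hc
  have hs := kB1_sum_bdd ha hf
  have h1 : ∀ x : ℕ, ∑' k : ℤ, f (k * c + x) * kB1_G a (k * c + x)
      = ∑' n : ℤ, ((a / c * Real.exp (-(Real.pi * (n * (a / c)) ^ 2)) : ℝ) : ℂ)
          * (f x * e1 (x * n / c)) := by
    intro x
    have : ∀ k : ℤ, f (k * c + x) = f x := fun k => hp _ _ ⟨k, by ring⟩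
    simp only [this]
    rw [tsum_mul_left, kB1_pois1 ha hc, ← tsum_mul_left]
    exact tsum_congr fun n => mul_left_comm _ _ _
  have h2 : ∀ x ∈ Finset.range c, Summable fun n : ℤ =>
      ((a / c * Real.exp (-(Real.pi * (n * (a / c)) ^ 2)) : ℝ) : ℂ)
          * (f x * e1 (x * n / c)) := by
    intro x _
    refine kB1_sum_dual (div_pos ha hc') (f := fun n : ℤ => f x * e1 (x * n / c)) (B := B)
      (fun n => ?_) _
    rw [norm_mul, kB1_norm_e1, mul_one]
    exact hf _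
  rw [kB1_split hc hs, Finset.sum_congr rfl fun x _ => h1 x, ← Summable.tsum_finsetSum h2]
  exact tsum_congr fun n => (Finset.mul_sum _ _ _).symm

theorem kB1_mob {M : ℕ} (hM : M ≠ 0) (h : ℤ) :
    (if Int.gcd h M = 1 then (1 : ℂ) else 0)
      = ∑ e ∈ M.divisors, if (e : ℤ) ∣ h then (ArithmeticFunction.moebius e : ℂ) else 0 := by
  have h1 := congrArg (fun f : ArithmeticFunction ℂ => f (Int.gcd h M))
    (ArithmeticFunction.coe_moebius_mul_coe_zeta (R := ℂ))
  simp only [ArithmeticFunction.coe_mul_zeta_apply, ArithmeticFunction.one_apply,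
    ArithmeticFunction.intCoe_apply] at h1
  rw [← h1, ← Finset.sum_filter]
  refine Finset.sum_congr ?_ fun _ _ => rfl
  ext e
  have hg : Int.gcd h M ≠ 0 := by
    intro h0
    exact hM (by exact_mod_cast (Int.gcd_eq_zero_iff.1 h0).2)
  simp only [Nat.mem_divisors, Finset.mem_filter, ne_eq, hg, hM, not_false_eq_true, and_true]
  rw [← Int.natCast_dvd_natCast, Int.dvd_coe_gcd_iff, Int.natCast_dvd_natCast, and_comm]

theorem kB1_mob_sum {M : ℕ} (hM : M ≠ 0) {F : ℤ → ℂ} (hF : Summable F) :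
    ∑' h : ℤ, (if Int.gcd h M = 1 then F h else 0)
      = ∑ e ∈ M.divisors, (ArithmeticFunction.moebius e : ℂ) * ∑' k : ℤ, F (e * k) := by
  have h1 : ∀ h : ℤ, (if Int.gcd h M = 1 then F h else 0)
      = ∑ e ∈ M.divisors, (ArithmeticFunction.moebius e : ℂ) * if (e : ℤ) ∣ h then F h else 0 := by
    intro h
    have := congrArg (· * F h) (kB1_mob hM h)
    simp only [ite_mul, one_mul, zero_mul, Finset.sum_mul] at this
    rw [this]
    refine Finset.sum_congr rfl fun e _ => ?_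
    split_ifs <;> simp
  simp only [h1]
  rw [Summable.tsum_finsetSum]
  · refine Finset.sum_congr rfl fun e he => ?_
    rw [tsum_mul_left]
    congr 1
    have he0 : (e : ℤ) ≠ 0 := by
      have := Nat.pos_of_mem_divisors he
      omega
    have hinj : Function.Injective fun k : ℤ => (e : ℤ) * k := mul_right_injective₀ he0
    rw [← hinj.tsum_eq]
    · exact tsum_congr fun k => if_pos (dvd_mul_right _ _)
    · intro h hh
      have : (e : ℤ) ∣ h := by
        by_contra hn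
        exact hh (if_neg hn)
      obtain ⟨k, rfl⟩ := this
      exact ⟨k, rfl⟩
  · intro e _
    refine Summable.mul_left _ (Summable.of_norm (hF.norm.of_nonneg_of_le
      (fun _ => norm_nonneg _) fun h => ?_))
    split_ifs
    · exact le_rfl
    · rw [norm_zero]
      exact norm_nonneg _

theorem kB1_G_mul (H : ℝ) {e : ℕ} (he : 0 < e) (k : ℤ) : kB1_G H (e * k) = kB1_G (H / e) k := by
  unfold kB1_G
  have : (e : ℝ) ≠ 0 := Nat.cast_ne_zero.2 he.ne'
  congr 3
  push_cast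
  rw [div_pow, div_div_eq_mul_div]
  ring

/-- Poisson summation for a primitive cubic character. -/
theorem kB1_chi (hb : BA) (hr : RatF) {s : Finset P} (hs : Prim s) {a : ℝ} (ha : 0 < a) :
    tt s * ∑' h : ℤ, xs c3 s (h : E) * kB1_G a h
      = ∑' n : ℤ, ((a / √(Ns s) * Real.exp (-(Real.pi * (n * a / Ns s) ^ 2)) : ℝ) : ℂ)
          * xs c3 s ((n ^ 2 : ℤ) : E) := by
  have hc : 0 < nm (pr s) := one_le_nm (pr_ne_zero s)
  rw [kB1_pois ha hc (B := 1) (fun h => norm_xs_le ch_c3 s _) (hr.per s), ← tsum_mul_left]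
  refine tsum_congr fun n => ?_
  have h1 := hr.gz s n hs
  simp only [Int.cast_natCast]
  rw [h1, hb.conj_xs]
  have h2 := hb.tt_gn s
  have hN := Ns_pos s
  have h3 : a / (nm (pr s) : ℝ) * √(Ns s) = a / √(Ns s) := by
    change a / Ns s * √(Ns s) = _
    rw [div_mul_eq_mul_div, div_eq_div_iff hN.ne' (by positivity), mul_assoc,
      Real.mul_self_sqrt hN.le]
  have h4 : (n : ℝ) * (a / (nm (pr s) : ℝ)) = n * a / Ns s := by
    unfold Ns
    ring
  rw [← h3, h4]
  push_cast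
  linear_combination (↑a / ↑(nm (pr s)) * cexp (-(↑Real.pi * (↑n * ↑a / ↑(Ns s)) ^ 2))
    * xs c3 s ((n : E) ^ 2) * (√(Ns s) : ℝ)) * h2

end Pat
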