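import Vale.Agent.P006.KA

noncomputable section
namespace Pat
open QRH Complex MeasureTheory Filter
open scoped ComplexConjugate Classical ContDiff Topology

/-- One frequency of `KBs`. -/
def kbT (φ : ℝ → ℂ) (m : ℤ) (Hp L : ℝ) (G : Finset P) (n : ℤ) : ℂ :=
  ∑ s ∈ sqf (3 * L), (if Prim s ∧ Disjoint s G then
    ((Hp / √(Ns s) * Real.exp (-(Real.pi * (n * Hp / Ns s) ^ 2)) : ℝ) : ℂ)
      * xs c3 s ((m * n ^ 2 : ℤ) : E) else 0) * lw φ 1 L (Ns s)

theorem KB3_def (φ : ℝ → ℂ) (m : ℤ) (Hp L : ℝ) (G : Finset P) (Pr : ℤ → Prop) :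
    KBs φ m Hp L G Pr = ∑' n : ℤ, if Pr n then kbT φ m Hp L G n else 0 := rfl

theorem KB3_exp {x : ℝ} (hx : 0 < x) : ∃ u, x = Real.exp u := ⟨_, (Real.exp_log hx).symm⟩

theorem KB3_bd {φ : ℝ → ℂ} {D : ℝ} (hD : 0 < D) (h : ∀ x y : ℝ, 0 < x → 0 < y →
    ‖lw φ 1 x y‖ ≤ D ∧ (lw φ 1 x y ≠ 0 → x ≤ y ∧ y ≤ 3 * x)) (m : ℤ) {Hp L : ℝ} (hH : 0 < Hp)
    (hL : 0 < L) (G : Finset P) (n : ℤ) : ‖kbT φ m Hp L G n‖
      ≤ 36 * D * (Hp * √L) * Real.exp (-(Real.pi * (n * Hp / (3 * L)) ^ 2)) := by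
  have hs : 0 < √L := Real.sqrt_pos.2 hL
  refine (norm_sum_le _ _).trans ((Finset.sum_le_card_nsmul _ _ (Hp / √L *
    Real.exp (-(Real.pi * (n * Hp / (3 * L)) ^ 2)) * D) fun s _ => ?_).trans ?_)
  · by_cases h0 : lw φ 1 L (Ns s) = 0
    · rw [h0, mul_zero, norm_zero]
      positivity
    obtain ⟨h1, h2⟩ := h L (Ns s) hL (Ns_pos s)
    obtain ⟨h3, h4⟩ := h2 h0
    have h5 := Ns_pos s
    rw [norm_mul]
    refine mul_le_mul ?_ h1 (norm_nonneg _) (by positivity)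
    split_ifs
    · rw [norm_mul, norm_real, Real.norm_of_nonneg (by positivity)]
      refine (mul_le_of_le_one_right (by positivity) (norm_xs_le ch_c3 _ _)).trans
        (mul_le_mul (div_le_div_of_nonneg_left hH.le hs (Real.sqrt_le_sqrt h3))
          (Real.exp_le_exp.2 (neg_le_neg (mul_le_mul_of_nonneg_left ?_ Real.pi_pos.le)))
          (by positivity) (by positivity))
      rw [div_pow, div_pow]
      exact div_le_div_of_nonneg_left (sq_nonneg _) (by positivity) (pow_le_pow_left₀ h5.le h4 2)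
    · rw [norm_zero]
      positivity
  · rw [nsmul_eq_mul]
    refine (mul_le_mul_of_nonneg_right (card_sqf_le (by positivity)) (by positivity)).trans_eq ?_
    have e : L = √L * √L := (Real.mul_self_sqrt hL.le).symm
    generalize Real.exp _ = x
    generalize √L = r at e hs
    rw [e]
    field_simp
    ring

theorem KB3_gauss {b : ℝ} (hb : 0 < b) : Summable fun n : ℤ => Real.exp (-(Real.pi * (n * b) ^ 2)) := by
  obtain ⟨S, h1, -⟩ := KAAux_int (q := 0) (p := 2) (b := Real.pi * b ^ 2)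
    (by norm_num) le_rfl two_pos (by positivity)
  refine h1.summable.congr_cofinite ?_
  filter_upwards [eventually_cofinite_ne 0] with n hn
  rw [if_neg hn, Real.rpow_zero, one_mul, Real.rpow_two, sq_abs]
  congr 1
  ring

theorem KB3_cube (hr : RatF) (φ : ℝ → ℂ) {m : ℤ} (hm : m ≠ 0)
    (h3 : ∀ l : ℕ, l.Prime → ¬ (l : ℤ) ^ 3 ∣ m) (Hp L : ℝ) (G : Finset P) :
    KBs φ m Hp L G (fun n => n ≠ 0 ∧ IsCube ((m * n ^ 2 : ℤ) : E))
      = ∑' j : ℤ, if j = 0 then 0 else kbT φ m Hp L G (m * j ^ 3) := by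
  have hi : Function.Injective fun j : ℤ => m * j ^ 3 := fun a b h =>
    (Odd.strictMono_pow (by decide)).injective (mul_left_cancel₀ hm h)
  rw [KB3_def, ← hi.tsum_eq]
  · refine tsum_congr fun j => ?_
    by_cases hj : j = 0
    · rw [if_pos hj, if_neg fun h => h.1 (by simp [hj])]
    · rw [if_neg hj, if_pos ⟨by positivity, (hr.cube_mn m _ hm h3).2 ⟨j, rfl⟩⟩]
  · intro n hn
    by_contra h
    refine hn (if_neg fun h1 => h ?_)
    obtain ⟨j, hj⟩ := (hr.cube_mn m n hm h3).1 h1.2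
    exact ⟨j, hj.symm⟩

theorem kB3a (hb : BA) (hr : RatF) : KB3a := by
  intro φ hφ
  obtain ⟨D, hD, h⟩ := KAAux_lw hb hφ
  have hB := KAAux_B_pos
  refine ⟨36 * D * kaB * 3 ^ (1 / 3 : ℝ) + D, by positivity,
    fun m Hp L G hm h3 hH hL => ⟨?_, ?_, ?_⟩⟩
  · have hm0 : 0 < |(m : ℝ)| := abs_pos.2 (Int.cast_ne_zero.2 hm)
    obtain ⟨S, h1, h2, -⟩ := KAAux_C (a := 3 * L / (|(m : ℝ)| * Hp)) (by positivity)
    rw [KB3_cube hr φ hm h3]
    refine (tsum_of_norm_bounded (h1.mul_left (36 * D * (Hp * √L))) fun j => ?_).trans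
      ((mul_le_mul_of_nonneg_left h2 (by positivity)).trans ?_)
    · rw [kaC]
      split_ifs
      · rw [norm_zero, mul_zero]
      · refine (KB3_bd hD h m hH hL G _).trans_eq ?_
        congr 4
        rw [div_div_eq_mul_div, div_pow, div_pow, mul_pow _ (|(m : ℝ)| * Hp), mul_pow |(m : ℝ)|,
          sq_abs]
        push_cast
        ring
    · have e : Hp * √L * (3 * L / (|(m : ℝ)| * Hp)) ^ (1 / 3 : ℝ) = 3 ^ (1 / 3 : ℝ) *
          (Hp ^ (2 / 3 : ℝ) * L ^ (5 / 6 : ℝ) * |(m : ℝ)| ^ (-(1 / 3) : ℝ)) := by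
        rw [mul_div_assoc, Real.mul_rpow (by norm_num) (by positivity), mul_left_comm]
        obtain ⟨u, rfl⟩ := KB3_exp hH
        obtain ⟨v, rfl⟩ := KB3_exp hL
        obtain ⟨t, ht⟩ := KB3_exp hm0
        simp only [ht, Real.sqrt_eq_rpow, ← Real.exp_mul, ← Real.exp_add, ← Real.exp_sub]
        congr 2
        ring
      have g : 0 ≤ D * (Hp ^ (2 / 3 : ℝ) * L ^ (5 / 6 : ℝ) * |(m : ℝ)| ^ (-(1 / 3) : ℝ)) := by
        positivity
      calc _ = 36 * D * kaB * (Hp * √L * (3 * L / (|(m : ℝ)| * Hp)) ^ (1 / 3 : ℝ)) := by ring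
        _ ≤ _ := by rw [e]; linarith
  · rw [KB3_def, tsum_eq_single 0 fun n hn => by rw [if_neg hn], if_pos rfl, kbT,
      Finset.sum_eq_single ∅]
    · obtain ⟨h1, h2⟩ := h L (Ns ∅) hL (Ns_pos _)
      by_cases h0 : lw φ 1 L (Ns ∅) = 0
      · rw [h0, mul_zero, norm_zero]
        positivity
      have h4 := h2 h0
      rw [Ns_empty] at h4
      rw [if_pos h4, norm_mul, mul_comm]
      have g : 0 ≤ 36 * D * kaB * 3 ^ (1 / 3 : ℝ) := by positivity
      refine mul_le_mul (by linarith) ?_ (norm_nonneg _) (by positivity)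
      split_ifs
      · simp [xs_empty, Ns_empty, abs_of_pos hH]
      · rw [norm_zero]
        exact hH.le
    · intro s _ hs
      obtain ⟨p, hp⟩ := Finset.nonempty_iff_ne_empty.2 hs
      rw [(xs_eq_zero_iff ch_c3).2 ⟨p, hp, by simp⟩, mul_zero, ite_self, zero_mul]
    · intro h0
      rw [not_not.1 fun h1 => h0 (mem_sqf.2 ((h L _ hL (Ns_pos _)).2 h1).2), mul_zero]
  · have hs : ∀ Pr : ℤ → Prop, Summable fun n => if Pr n then kbT φ m Hp L G n else 0 := fun Pr => by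
      refine Summable.of_norm_bounded ((KB3_gauss (b := Hp / (3 * L)) (by positivity)).mul_left
        (36 * D * (Hp * √L))) fun n => ?_
      split_ifs
      · rw [← mul_div_assoc]
        exact KB3_bd hD h m hH hL G n
      · rw [norm_zero]
        positivity
    rw [KB3_def, KB3_def, KB3_def, KB3_def, ← (hs _).tsum_add (hs _),
      ← ((hs _).add (hs _)).tsum_add (hs _)]
    refine tsum_congr fun n => ?_
    by_cases h1 : n = 0
    · rw [if_pos trivial, if_pos h1, if_neg fun h => h.1 h1, if_neg fun h => h.1 h1, add_zero,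
        add_zero]
    · by_cases h2 : IsCube ((m * n ^ 2 : ℤ) : E)
      · rw [if_pos trivial, if_neg h1, if_pos ⟨h1, h2⟩, if_neg fun h => h.2 h2, add_zero, zero_add]
      · rw [if_pos trivial, if_neg h1, if_neg fun h => h2 h.2, if_pos ⟨h1, h2⟩, add_zero, zero_add]

theorem KB3_theta (hr : RatF) (s : Finset P) {a : ℝ} (ha : 0 < a) : ∃ S : ℝ,
    HasSum (fun j : ℤ => if ∀ p ∈ s, ¬ p.1 ∣ (j : E) then kaC a j else 0) S ∧
    |S - kaB * a ^ (1 / 3 : ℝ)|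
      ≤ 2 + kaB * a ^ (1 / 3 : ℝ) * ∑ p ∈ s, (nm p.1 : ℝ) ^ (-(1 / 2) : ℝ) := by
  obtain ⟨l, hl⟩ := KA_root hr
  obtain ⟨S, h1, h2, h3⟩ := KAAux_C ha
  choose T hT hT' using fun p : P => KAAux_Ck ha (hl p).1
  have h0 : ∀ j : ℤ, 0 ≤ if ∀ p ∈ s, ¬ p.1 ∣ (j : E) then kaC a j else 0 := fun j => by
    split_ifs
    · exact KAAux_C_nonneg _ _
    · exact le_rfl
  have h4 : ∀ j : ℤ, (if ∀ p ∈ s, ¬ p.1 ∣ (j : E) then kaC a j else 0) ≤ kaC a j := fun j => by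
    split_ifs
    · exact le_rfl
    · exact KAAux_C_nonneg _ _
  have h5 := Summable.of_nonneg_of_le h0 h4 h1.summable
  have h6 := hasSum_le h4 h5.hasSum h1
  have h7 := hasSum_le (fun j => ?_) h1 (h5.hasSum.add (hasSum_sum fun p (_ : p ∈ s) => hT p))
  · have hB := KAAux_B_pos
    have h8 : ∑ p ∈ s, T p ≤ kaB * a ^ (1 / 3 : ℝ) * ∑ p ∈ s, (nm p.1 : ℝ) ^ (-(1 / 2) : ℝ) := by
      rw [Finset.mul_sum]
      exact Finset.sum_le_sum fun p _ => (hT' p).trans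
        (mul_le_mul_of_nonneg_left (hl p).2.1 (by positivity))
    have h9 : 0 ≤ kaB * a ^ (1 / 3 : ℝ) * ∑ p ∈ s, (nm p.1 : ℝ) ^ (-(1 / 2) : ℝ) := by positivity
    exact ⟨_, h5.hasSum, abs_le.2 ⟨by linarith, by linarith⟩⟩
  · have h8 : ∀ p ∈ s, 0 ≤ if (l p : ℤ) ∣ j then kaC a j else 0 := fun p _ => by
      split_ifs
      · exact KAAux_C_nonneg _ _
      · exact le_rfl
    split_ifs with h
    · exact le_add_of_nonneg_right (Finset.sum_nonneg h8)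
    · push Not at h
      obtain ⟨p, hp, h9⟩ := h
      have := Finset.single_le_sum h8 hp
      rw [if_pos (((hl p).2.2 j).1 h9)] at this
      rwa [zero_add]

theorem KB3_psum (hb : BA) (hr : RatF) : ∃ C : ℝ, 0 < C ∧ ∀ (w : ℕ) (R : ℝ), 3 ≤ w → 0 ≤ R →
    ∑ s ∈ sqf R with Disjoint s (fac (primorial w : E)), ∑ p ∈ s, (nm p.1 : ℝ) ^ (-(1 / 2) : ℝ)
      ≤ C * (w : ℝ) ^ (-(1 / 2) : ℝ) * R := by
  obtain ⟨C, hC, ht⟩ := hb.tail_P (3 / 2) (by norm_num)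
  refine ⟨12 * C, by positivity, fun w R hw hR => ?_⟩
  have hw1 : (1 : ℝ) ≤ w := Nat.one_le_cast.2 (by omega)
  have h1 := ht w (prs R \ fac (primorial w : E)) hw1 fun p hp =>
    hr.rough_P w p (Finset.mem_sdiff.1 hp).2
  calc _ ≤ ∑ s ∈ sqf R, ∑ p ∈ prs R \ fac (primorial w : E),
        if {p} ⊆ s then (nm p.1 : ℝ) ^ (-(1 / 2) : ℝ) else 0 := by
        rw [Finset.sum_filter]
        refine Finset.sum_le_sum fun s hs => ?_
        split_ifs with h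
        · rw [← Finset.sum_filter]
          exact Finset.sum_le_sum_of_subset_of_nonneg (fun p hp => Finset.mem_filter.2
            ⟨Finset.mem_sdiff.2 ⟨Finset.mem_biUnion.2 ⟨s, hs, hp⟩, Finset.disjoint_left.1 h hp⟩,
              Finset.singleton_subset_iff.2 hp⟩) fun _ _ _ => by positivity
        · exact Finset.sum_nonneg fun _ _ => by positivity
    _ ≤ ∑ p ∈ prs R \ fac (primorial w : E), 12 * R * (nm p.1 : ℝ) ^ (-(3 / 2) : ℝ) := by
        rw [Finset.sum_comm]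
        refine Finset.sum_le_sum fun p _ => ?_
        rw [← Finset.sum_filter, Finset.sum_const, nsmul_eq_mul]
        refine (mul_le_mul_of_nonneg_right (hb.card_sup R {p} hR) (by positivity)).trans_eq ?_
        rw [Ns, pr_singleton, show -(3 / 2 : ℝ) = -1 + -(1 / 2) by norm_num,
          Real.rpow_add (zero_lt_one.trans_le (one_le_nmR p.ne_zero)), Real.rpow_neg_one]
        ring
    _ ≤ _ := by
        rw [← Finset.mul_sum]
        refine (mul_le_mul_of_nonneg_left h1 (by positivity)).trans_eq ?_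
        norm_num
        ring

theorem KB3_mult {R : ℝ} (hR : 0 ≤ R) {x : E} (hx : x ≠ 0) :
    (((ball R).filter fun γ => x ∣ γ).card : ℝ) ≤ 12 * R * (nm x : ℝ)⁻¹ := by
  have h0 := zero_lt_one.trans_le (one_le_nmR hx)
  refine le_trans ?_ ((card_ball_le (R := R / nm x) (by positivity)).trans_eq (by ring))
  refine Nat.cast_le.2 ((Finset.card_le_card fun γ hγ => ?_).trans
    (Finset.card_image_le (f := fun y => x * y)))
  obtain ⟨h1, y, rfl⟩ := Finset.mem_filter.1 hγ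
  obtain ⟨h2, h3⟩ := mem_ball.1 h1
  refine Finset.mem_image.2 ⟨y, mem_ball.2 ⟨right_ne_zero_of_mul h2, ?_⟩, rfl⟩
  rwa [le_div_iff₀' h0, ← Nat.cast_mul, ← nm_mul]

theorem KB3_bad (hb : BA) (hr : RatF) : ∃ C : ℝ, 0 < C ∧ ∀ (w : ℕ) (R : ℝ), 3 ≤ w → 0 ≤ R →
    (((pball R).filter fun γ => Disjoint (fac γ) (fac (primorial w : E)) ∧
      ¬ (γ = pr (fac γ) ∧ Prim (fac γ))).card : ℝ) ≤ C * (w : ℝ) ^ (-(1 / 2) : ℝ) * R := by
  obtain ⟨C, hC, ht⟩ := hb.tail_P 2 one_lt_two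
  refine ⟨12 * (C + 1), by positivity, fun w R hw hR => ?_⟩
  have hw1 : (1 : ℝ) ≤ w := Nat.one_le_cast.2 (by omega)
  have hww : (w : ℝ) ^ (1 - 2 : ℝ) ≤ (w : ℝ) ^ (-(1 / 2) : ℝ) :=
    Real.rpow_le_rpow_of_exponent_le hw1 (by norm_num)
  have h1 := ht w (prs R \ fac (primorial w : E)) hw1 fun p hp =>
    hr.rough_P w p (Finset.mem_sdiff.1 hp).2
  have h2 := KAAux_tail (σ := 2) one_lt_two (w := w) (by omega) (Finset.Ioc w ⌊R⌋₊)
    fun n hn => (Finset.mem_Ioc.1 hn).1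
  have h3 : ((pball R).filter fun γ => Disjoint (fac γ) (fac (primorial w : E)) ∧
      ¬ (γ = pr (fac γ) ∧ Prim (fac γ))) ⊆
      ((prs R \ fac (primorial w : E)).biUnion fun p => (ball R).filter fun γ => p.1 ^ 2 ∣ γ) ∪
        (Finset.Ioc w ⌊R⌋₊).biUnion fun n => (ball R).filter fun γ => (n : E) ∣ γ := by
    intro γ hγ
    obtain ⟨a1, a2, a3⟩ := Finset.mem_filter.1 hγ
    obtain ⟨a4, a5⟩ := Finset.mem_filter.1 a1
    obtain ⟨a6, a7⟩ := mem_ball.1 a4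
    obtain ⟨p, hp, a8⟩ := hr.not_prim γ a5 a3
    have b1 := Finset.disjoint_left.1 a2 hp
    have b2 := (mem_fac a6).1 hp
    have b3 : ∀ n : ℕ, w < n → (n : E) ∣ γ → γ ∈ (Finset.Ioc w ⌊R⌋₊).biUnion
        fun n => (ball R).filter fun γ => (n : E) ∣ γ := fun n c1 c2 => by
      have c3 := nm_le_of_dvd c2 a6
      rw [nm_natCast] at c3
      exact Finset.mem_biUnion.2 ⟨n, Finset.mem_Ioc.2 ⟨c1, Nat.le_floor
        ((Nat.cast_le.2 ((Nat.le_self_pow two_ne_zero n).trans c3)).trans a7)⟩,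
        Finset.mem_filter.2 ⟨a4, c2⟩⟩
    rcases a8 with a8 | a8 | a8
    · exact Finset.mem_union_left _ (Finset.mem_biUnion.2 ⟨p, Finset.mem_sdiff.2
        ⟨(hb.mem_prs R p).2 ((Nat.cast_le.2 (nm_le_of_dvd b2 a6)).trans a7), b1⟩,
        Finset.mem_filter.2 ⟨a4, a8⟩⟩)
    · rw [mul_star_eq] at a8
      exact Finset.mem_union_right _ (b3 _ (by exact_mod_cast hr.rough_P w p b1) a8)
    · rcases p.nm_cases with c1 | ⟨l, c1, -, c2⟩
      · exact absurd (Subtype.ext a8) c1.2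
      · rw [c2, neg_dvd] at b2
        refine Finset.mem_union_right _ (b3 l (not_le.1 fun c3 => b1 ?_) b2)
        rw [mem_fac (KA_P_ne w), c2, neg_dvd]
        exact Nat.cast_dvd_cast (c1.dvd_primorial_iff.2 c3)
  have h4 := (Finset.card_le_card h3).trans ((Finset.card_union_le _ _).trans
    (add_le_add Finset.card_biUnion_le Finset.card_biUnion_le))
  refine (Nat.cast_le.2 h4).trans ?_
  rw [Nat.cast_add, Nat.cast_sum, Nat.cast_sum]
  refine (add_le_add (Finset.sum_le_sum (g := fun p => 12 * R * (nm p.1 : ℝ) ^ (-2 : ℝ))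
    fun p _ => (KB3_mult hR (pow_ne_zero 2 p.ne_zero)).trans_eq ?_)
    (Finset.sum_le_sum (g := fun n : ℕ => 12 * R * (n : ℝ) ^ (-2 : ℝ)) fun n hn => (KB3_mult hR
      (Nat.cast_ne_zero.2 ((Nat.zero_le _).trans_lt (Finset.mem_Ioc.1 hn).1).ne')).trans_eq ?_)).trans ?_
  · rw [nm_pow, Real.rpow_neg (Nat.cast_nonneg _), Real.rpow_two, Nat.cast_pow]
  · rw [nm_natCast, Real.rpow_neg (Nat.cast_nonneg _), Real.rpow_two, Nat.cast_pow]
  · rw [← Finset.mul_sum, ← Finset.mul_sum, ← mul_add]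
    rw [show (2 : ℝ) - 1 = 1 by norm_num, div_one] at h2
    refine (mul_le_mul_of_nonneg_left (add_le_add (h1.trans (mul_le_mul_of_nonneg_left hww hC.le))
      (h2.trans hww)) (by positivity)).trans_eq (by ring)

theorem KB3_sum (hb : BA) (y : Finset P → ℂ) (R : ℝ) :
    ∑ n ∈ pball R, ex y n = ∑ s ∈ sqf R, y s := by
  simpa only [Dn, Ds, xv_one ch_c3, xs_one ch_c3, mul_one] using hb.ex_Dn y R 1

/-- The coefficient of the cubic theta series. -/
def kbc (φ : ℝ → ℂ) (G : Finset P) (Hp Y : ℝ) (s : Finset P) : ℂ :=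
  (if Prim s ∧ Disjoint s G then ((Hp / √(Ns s) : ℝ) : ℂ) else 0) * lw φ 1 Y (Ns s)

theorem KB3_term (hb : BA) (φ : ℝ → ℂ) {w e : ℕ} (he : e ∣ primorial w) {H : ℝ} (hH : 0 < H)
    (Y : ℝ) (j : ℤ) :
    (if j = 0 then 0 else kbT φ e (H / e) Y (fac (primorial w : E)) (e * j ^ 3))
      = ∑ s ∈ sqf (3 * Y), kbc φ (fac (primorial w : E)) (H / e) Y s *
        ((if ∀ p ∈ s, ¬ p.1 ∣ (j : E) then kaC (Ns s / H) j else 0 : ℝ) : ℂ) := by
  have he0 : e ≠ 0 := (Nat.pos_of_dvd_of_pos he (primorial_pos w)).ne'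
  by_cases hj : j = 0
  · simp [hj, kaC]
  rw [if_neg hj, kbT]
  refine Finset.sum_congr rfl fun s _ => ?_
  rw [kbc]
  by_cases hs : Prim s ∧ Disjoint s (fac (primorial w : E))
  swap
  · rw [if_neg hs, if_neg hs, zero_mul, zero_mul]
  have a1 : (e : E) ≠ 0 := Nat.cast_ne_zero.2 he0
  have a2 : (j : E) ≠ 0 := Int.cast_ne_zero.2 hj
  have a3 : (((e : ℤ) * ((e : ℤ) * j ^ 3) ^ 2 : ℤ) : E) = ((e : E) * (j : E) ^ 2) ^ 3 := by
    push_cast
    ring
  have a4 : Disjoint s (fac ((e : E) * (j : E) ^ 2)) ↔ ∀ p ∈ s, ¬ p.1 ∣ (j : E) := by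
    rw [fac_mul a1 (pow_ne_zero 2 a2), fac_pow a2 two_ne_zero, Finset.disjoint_union_right,
      and_iff_right (hs.2.mono_right (fac_mono (KA_P_ne w) (Nat.cast_dvd_cast he))),
      Finset.disjoint_left]
    simp only [mem_fac a2]
  have a5 : ((((e : ℤ) * j ^ 3 : ℤ) : ℝ) * (H / e) / Ns s) = (j : ℝ) ^ 3 / (Ns s / H) := by
    have : (e : ℝ) ≠ 0 := Nat.cast_ne_zero.2 he0
    have := Ns_pos s
    push_cast
    field_simp
  rw [if_pos hs, if_pos hs, a3, hb.xs_cube _ _ (mul_ne_zero a1 (pow_ne_zero 2 a2)), a5, kaC,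
    if_neg hj]
  by_cases h1 : ∀ p ∈ s, ¬ p.1 ∣ (j : E)
  · rw [if_pos h1, if_pos (a4.2 h1), ofReal_mul]
    ring
  · rw [if_neg h1, if_neg (mt a4.1 h1), ofReal_zero]
    ring

theorem KB3_first (hb : BA) (hr : RatF) {φ : ℝ → ℂ} (hφ : Bump φ) : ∃ C : ℝ, 0 < C ∧
    ∀ (w e : ℕ) (H Y : ℝ), 3 ≤ w → e ∣ primorial w → 1 ≤ H → 1 ≤ Y →
    ‖KBs φ e (H / e) Y (fac (primorial w : E))
        (fun n => n ≠ 0 ∧ IsCube (((e : ℤ) * n ^ 2 : ℤ) : E))
      - ∑ s ∈ sqf (3 * Y), kbc φ (fac (primorial w : E)) (H / e) Y s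
          * ((kaB * (Ns s / H) ^ (1 / 3 : ℝ) : ℝ) : ℂ)‖
      ≤ C * ((w : ℝ) ^ (-(1 / 2) : ℝ) * Y ^ (5 / 6 : ℝ) * H ^ (2 / 3 : ℝ) / e + H * √Y) := by
  obtain ⟨D, hD, h⟩ := KAAux_lw hb hφ
  obtain ⟨C, hC, h1⟩ := KB3_psum hb hr
  have hB := KAAux_B_pos
  refine ⟨D * (72 + kaB * 3 ^ (1 / 3 : ℝ) * C * 3), by positivity, fun w e H Y hw he hH hY => ?_⟩
  have hH0 : 0 < H := by linarith
  have hY0 : 0 < Y := by linarith
  have he0 : 0 < e := Nat.pos_of_dvd_of_pos he (primorial_pos w)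
  have he1 : (1 : ℝ) ≤ e := Nat.one_le_cast.2 he0
  have hs : 0 < √Y := Real.sqrt_pos.2 hY0
  choose S hS hS' using fun s : Finset P => KB3_theta hr s (div_pos (Ns_pos s) hH0)
  have h2 := hasSum_sum fun s (_ : s ∈ sqf (3 * Y)) =>
    (hasSum_ofReal.2 (hS s)).mul_left (kbc φ (fac (primorial w : E)) (H / e) Y s)
  rw [KB3_cube hr φ (by exact_mod_cast he0.ne') fun l hl h3 => hl.not_isUnit
    (((squarefree_primorial w).squarefree_of_dvd he) l ((pow_two l ▸ pow_dvd_pow l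
      (by norm_num : 2 ≤ 3)).trans (by exact_mod_cast h3))), tsum_congr (KB3_term hb φ he hH0 Y),
    h2.tsum_eq, ← Finset.sum_sub_distrib]
  refine (norm_sum_le _ _).trans ((Finset.sum_le_sum (g := fun s => H / e / √Y * D *
    (2 + kaB * (3 * Y / H) ^ (1 / 3 : ℝ) * if Disjoint s (fac (primorial w : E)) then
      ∑ p ∈ s, (nm p.1 : ℝ) ^ (-(1 / 2) : ℝ) else 0)) fun s hs1 => ?_).trans ?_)
  · rw [← mul_sub, ← ofReal_sub, norm_mul, norm_real, kbc]
    by_cases h0 : lw φ 1 Y (Ns s) = 0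
    · rw [h0, mul_zero, norm_zero, zero_mul]
      positivity
    by_cases h3 : Prim s ∧ Disjoint s (fac (primorial w : E))
    swap
    · rw [if_neg h3, zero_mul, norm_zero, zero_mul]
      positivity
    obtain ⟨h4, h5⟩ := h Y (Ns s) hY0 (Ns_pos s)
    have h6 := Ns_pos s
    rw [if_pos h3, if_pos h3.2, norm_mul, norm_real, Real.norm_of_nonneg (by positivity)]
    refine mul_le_mul (mul_le_mul (div_le_div_of_nonneg_left (by positivity) hs
      (Real.sqrt_le_sqrt (h5 h0).1)) h4 (norm_nonneg _) (by positivity)) ((hS' s).trans ?_)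
      (norm_nonneg _) (by positivity)
    exact add_le_add le_rfl (mul_le_mul_of_nonneg_right (mul_le_mul_of_nonneg_left
      (Real.rpow_le_rpow (by positivity) (div_le_div_of_nonneg_right (h5 h0).2 hH0.le)
        (by norm_num)) hB.le) (Finset.sum_nonneg fun _ _ => by positivity))
  · rw [← Finset.mul_sum, Finset.sum_add_distrib, ← Finset.mul_sum, ← Finset.sum_filter,
      Finset.sum_const, nsmul_eq_mul]
    have g1 := card_sqf_le (R := 3 * Y) (by positivity)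
    have g2 := h1 w (3 * Y) hw (by positivity)
    have g3 : H / e / √Y * Y ≤ H * √Y := by
      rw [div_mul_eq_mul_div, mul_div_assoc, Real.div_sqrt]
      exact mul_le_mul_of_nonneg_right (div_le_self hH0.le he1) hs.le
    have g4 : H / e / √Y * (3 * Y / H) ^ (1 / 3 : ℝ) * Y
        = 3 ^ (1 / 3 : ℝ) * (Y ^ (5 / 6 : ℝ) * H ^ (2 / 3 : ℝ) / e) := by
      rw [mul_div_assoc 3, Real.mul_rpow (by norm_num) (by positivity), mul_left_comm, mul_assoc]
      obtain ⟨u, rfl⟩ := KB3_exp hH0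
      obtain ⟨v, rfl⟩ := KB3_exp hY0
      obtain ⟨t, ht⟩ := KB3_exp (zero_lt_one.trans_le he1)
      simp only [ht, Real.sqrt_eq_rpow, ← Real.exp_mul, ← Real.exp_add, ← Real.exp_sub]
      congr 2
      ring
    have g5 : 0 ≤ (w : ℝ) ^ (-(1 / 2) : ℝ) * Y ^ (5 / 6 : ℝ) * H ^ (2 / 3 : ℝ) / e := by positivity
    calc _ ≤ H / e / √Y * D * (12 * (3 * Y) * 2 + kaB * (3 * Y / H) ^ (1 / 3 : ℝ) *
          (C * (w : ℝ) ^ (-(1 / 2) : ℝ) * (3 * Y))) := by gcongr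
      _ = D * (72 * (H / e / √Y * Y) + kaB * C * 3 * (w : ℝ) ^ (-(1 / 2) : ℝ) *
          (H / e / √Y * (3 * Y / H) ^ (1 / 3 : ℝ) * Y)) := by ring
      _ ≤ D * (72 * (H * √Y) + kaB * C * 3 * (w : ℝ) ^ (-(1 / 2) : ℝ) *
          (3 ^ (1 / 3 : ℝ) * (Y ^ (5 / 6 : ℝ) * H ^ (2 / 3 : ℝ) / e))) := by
        rw [g4]
        gcongr
      _ ≤ _ := by
        rw [mul_assoc D]
        refine mul_le_mul_of_nonneg_left ?_ hD.le
        have g6 : 0 ≤ kaB * 3 ^ (1 / 3 : ℝ) * C * 3 * (H * √Y) := by positivity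
        have g7 : kaB * C * 3 * (w : ℝ) ^ (-(1 / 2) : ℝ) *
            (3 ^ (1 / 3 : ℝ) * (Y ^ (5 / 6 : ℝ) * H ^ (2 / 3 : ℝ) / e)) = kaB * 3 ^ (1 / 3 : ℝ) * C * 3
              * ((w : ℝ) ^ (-(1 / 2) : ℝ) * Y ^ (5 / 6 : ℝ) * H ^ (2 / 3 : ℝ) / e) := by ring
        rw [g7]
        linarith

theorem kB3b (hb : BA) (hr : RatF) (h : PVu0) : KB3b := by
  intro φ hφ
  obtain ⟨n, C0, hC0, h⟩ := h
  obtain ⟨D0, hD0, hd0⟩ := hb.bump_bd φ hφ n
  obtain ⟨C1, hC1, hd1⟩ := hb.der n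
  have hψ := hd1 φ D0 1 ((-(1 / 6) : ℝ) : ℂ) hd0 le_rfl (by
    rw [ofReal_re, abs_le]
    constructor <;> norm_num)
  obtain ⟨D, hDe⟩ : ∃ D : ℝ, D = C1 * D0 * 1 ^ n * (1 + ‖((-(1 / 6) : ℝ) : ℂ)‖) ^ n := ⟨_, rfl⟩
  have hD : 0 < D := hDe ▸ by positivity
  obtain ⟨ψ, hψe⟩ : ∃ ψ : ℝ → ℂ, ψ = fun v => φ (1 * v) * Complex.exp (((-(1 / 6) : ℝ) : ℂ) * v) :=
    ⟨_, rfl⟩
  rw [← hDe, ← hψe] at hψ
  obtain ⟨C2, hC2, h2⟩ := KB3_first hb hr hφ
  obtain ⟨C3, hC3, h3⟩ := KB3_bad hb hr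
  have hB := KAAux_B_pos
  refine ⟨C2 + kaB * D * C3 * 3, by positivity, fun w hw =>
    ⟨C2 + kaB * (C0 * D * 2 ^ (fac (primorial w : E)).card), fun e H Y he hH hY => ?_⟩⟩
  have hH0 : 0 < H := by linarith
  have hY0 : 0 < Y := by linarith
  have he1 : (1 : ℝ) ≤ e := Nat.one_le_cast.2 (Nat.pos_of_dvd_of_pos he (primorial_pos w))
  have he0 : (0 : ℝ) < e := by linarith
  obtain ⟨K, hK⟩ : ∃ K : ℝ, K = kaB * (H ^ (2 / 3 : ℝ) * Y ^ (-(1 / 6) : ℝ) / e) := ⟨_, rfl⟩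
  have hK0 : 0 ≤ K := hK ▸ by positivity
  have hK1 : K * Y = kaB * (Y ^ (5 / 6 : ℝ) * H ^ (2 / 3 : ℝ) / e) := by
    rw [hK, show (5 / 6 : ℝ) = -(1 / 6) + 1 by norm_num, Real.rpow_add_one hY0.ne']
    ring
  have hK2 : K ≤ kaB * (H * √Y) := by
    rw [hK]
    refine mul_le_mul_of_nonneg_left ((div_le_self (by positivity) he1).trans (mul_le_mul
      (Real.rpow_le_self_of_one_le hH (by norm_num)) ?_ (by positivity) hH0.le)) hB.le
    exact (Real.rpow_le_one_of_one_le_of_nonpos hY (by norm_num)).trans (Real.one_le_sqrt.2 hY)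
  have e1 : ∑ s ∈ sqf (3 * Y), kbc φ (fac (primorial w : E)) (H / e) Y s
      * ((kaB * (Ns s / H) ^ (1 / 3 : ℝ) : ℝ) : ℂ) = K * ∑ γ ∈ pball (3 * Y), ex (fun s =>
        if Prim s ∧ Disjoint s (fac (primorial w : E)) then ψ (Real.log (Ns s / Y)) else 0) γ := by
    rw [KB3_sum hb, Finset.mul_sum]
    refine Finset.sum_congr rfl fun s _ => ?_
    rw [kbc]
    split_ifs
    · have a1 : H / e / √(Ns s) * (kaB * (Ns s / H) ^ (1 / 3 : ℝ))
          = K * Real.exp (-(1 / 6) * Real.log (Ns s / Y)) := by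
        rw [hK, mul_left_comm, mul_assoc]
        obtain ⟨u, rfl⟩ := KB3_exp hH0
        obtain ⟨v, rfl⟩ := KB3_exp hY0
        obtain ⟨t, ht⟩ := KB3_exp he0
        obtain ⟨r, hr⟩ := KB3_exp (Ns_pos s)
        simp only [ht, hr, Real.sqrt_eq_rpow, ← Real.exp_mul, ← Real.exp_add, ← Real.exp_sub,
          Real.log_exp]
        congr 2
        ring
      rw [mul_right_comm, ← ofReal_mul, a1, hψe, lw, ofReal_mul, ofReal_exp, ofReal_mul]
      ring
    · rw [zero_mul, zero_mul, mul_zero]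
  have e2 : ‖∑ γ ∈ pball (3 * Y), ex (fun s => if Prim s ∧ Disjoint s (fac (primorial w : E)) then
      ψ (Real.log (Ns s / Y)) else 0) γ - ∑ γ ∈ pball (3 * Y),
        (if Disjoint (fac γ) (fac (primorial w : E)) then ψ (Real.log (nm γ / Y)) else 0)‖
      ≤ D * (C3 * (w : ℝ) ^ (-(1 / 2) : ℝ) * (3 * Y)) := by
    refine le_trans ?_ (mul_le_mul_of_nonneg_left (h3 w (3 * Y) hw (by positivity)) hD.le)
    rw [← Finset.sum_sub_distrib, mul_comm D, ← nsmul_eq_mul, ← Finset.sum_const,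
      Finset.sum_filter]
    refine (norm_sum_le _ _).trans (Finset.sum_le_sum fun γ _ => ?_)
    rw [ex]
    by_cases a1 : Disjoint (fac γ) (fac (primorial w : E))
    · by_cases a2 : γ = pr (fac γ) ∧ Prim (fac γ)
      · rw [if_pos a2.1, if_pos ⟨a2.2, a1⟩, if_pos a1, if_neg fun h => h.2 a2, Ns, ← a2.1, sub_self,
          norm_zero]
      · rw [if_pos a1, if_pos (And.intro a1 a2)]
        have a3 := hψ.bd 0 (Nat.zero_le _) (Real.log (nm γ / Y))
        rw [iteratedDeriv_zero] at a3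
        by_cases a4 : γ = pr (fac γ)
        · rwa [if_pos a4, if_neg fun h => a2 ⟨a4, h.1⟩, zero_sub, norm_neg]
        · rwa [if_neg a4, zero_sub, norm_neg]
    · rw [if_neg a1, if_neg fun h : _ ∧ _ => a1 h.2, if_neg fun h : _ ∧ _ => a1 h.1, ite_self,
        sub_zero, norm_zero]
  have e3 := h ψ D Y (3 * Y) (fac (primorial w : E)) hψ hY0 fun v hv => by
    rw [hψe] at hv
    have a1 := (hφ.supp _ (left_ne_zero_of_mul hv)).2
    rw [one_mul] at a1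
    rw [mul_comm]
    exact mul_le_mul_of_nonneg_right ((Real.exp_le_exp.2 a1).trans Real.exp_one_lt_three.le) hY0.le
  have e4 : ∫ v : ℝ, ψ v * (Real.exp v : ℝ) = mo φ 1 (5 / 6) := by
    refine congrArg _ (funext fun v => ?_)
    rw [hψe, mul_assoc, ← ofReal_mul, ← ofReal_exp, ← ofReal_mul, ← Real.exp_add]
    congr 3
    ring
  have e5 : mo φ 1 (5 / 6) * ((rho * PK w * (1 / 3 * Real.pi ^ (-(1 / 6) : ℝ) * Real.Gamma (1 / 6))
      * Y ^ (5 / 6 : ℝ) * H ^ (2 / 3 : ℝ) / e : ℝ) : ℂ) = K * (((rho * Y * ∏ p ∈ fac (primorial w : E),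
        (1 - (nm p.1 : ℝ)⁻¹) : ℝ) : ℂ) * mo φ 1 (5 / 6)) := by
    rw [← mul_assoc (K : ℂ), ← ofReal_mul, mul_comm]
    congr 2
    rw [← PK, ← kaB]
    linear_combination (-(rho * PK w)) * hK1
  rw [e4] at e3
  have e6 := h2 w e H Y hw he hH hY
  rw [e1] at e6
  rw [e5]
  have e7 := mul_le_mul_of_nonneg_left ((norm_sub_le_norm_sub_add_norm_sub _ _ _).trans
    (add_le_add e2 e3)) hK0
  rw [← Real.norm_of_nonneg hK0, ← norm_real, ← norm_mul, norm_real, Real.norm_of_nonneg hK0,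
    mul_sub] at e7
  refine ((norm_sub_le_norm_sub_add_norm_sub _ _ _).trans (add_le_add e6 e7)).trans ?_
  have e8 := mul_le_mul_of_nonneg_right hK2
    (show 0 ≤ C0 * D * 2 ^ (fac (primorial w : E)).card by positivity)
  have e9 : K * (D * (C3 * (w : ℝ) ^ (-(1 / 2) : ℝ) * (3 * Y))) = kaB * D * C3 * 3 *
      (w : ℝ) ^ (-(1 / 2) : ℝ) * Y ^ (5 / 6 : ℝ) * H ^ (2 / 3 : ℝ) / e := by
    linear_combination D * C3 * (w : ℝ) ^ (-(1 / 2) : ℝ) * 3 * hK1
  rw [mul_add K, e9]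
  refine le_trans (add_le_add le_rfl (add_le_add le_rfl e8)) (le_of_eq ?_)
  ring

end Pat
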