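import Vale.Agent.P006.KBNAux2

noncomputable section
namespace Pat
open QRH Complex MeasureTheory Filter
open scoped ComplexConjugate Classical ContDiff Topology

def KBN_g (A : ℝ) (n : ℤ) : ℝ := if n = 0 then 0 else (1 + (n / A) ^ 2)⁻¹

theorem KBN_nat {A : ℝ} (hA : 0 < A) :
    ∃ S ≤ 2 * A, HasSum (fun k : ℕ => (1 + ((k + 1) / A) ^ 2)⁻¹) S := by
  have h1 : ∀ N : ℕ, ∑ k ∈ Finset.range N, (1 + (((k : ℝ) + 1) / A) ^ 2)⁻¹ ≤ 2 * A := by
    intro N
    have h2 : ∀ k ∈ Finset.range N, (1 + (((k : ℝ) + 1) / A) ^ 2)⁻¹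
        ≤ 2 * A ^ 2 / (A + k) - 2 * A ^ 2 / (A + (k + 1 : ℕ)) := by
      intro k _
      have hk : (0 : ℝ) ≤ k := Nat.cast_nonneg k
      have e1 : (1 + (((k : ℝ) + 1) / A) ^ 2)⁻¹ = A ^ 2 / (A ^ 2 + (k + 1) ^ 2) := by field_simp
      have e2 : 2 * A ^ 2 / (A + k) - 2 * A ^ 2 / (A + (k + 1 : ℕ))
          = A ^ 2 / ((A + k) * (A + k + 1) / 2) := by
        push_cast
        field_simp
        ring
      rw [e1, e2]
      refine div_le_div_of_nonneg_left (by positivity) (by positivity) ?_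
      nlinarith [sq_nonneg (A - (k + 1))]
    refine (Finset.sum_le_sum h2).trans ?_
    rw [Finset.sum_range_sub' (fun k : ℕ => 2 * A ^ 2 / (A + k)) N]
    have e3 : 2 * A ^ 2 / (A + (0 : ℕ)) = 2 * A := by
      push_cast
      field_simp
      ring
    have e4 : 0 ≤ 2 * A ^ 2 / (A + N) := by positivity
    linarith
  have h0 : ∀ k : ℕ, 0 ≤ (1 + (((k : ℝ) + 1) / A) ^ 2)⁻¹ := fun k => by positivity
  have hs := summable_of_sum_range_le h0 h1
  exact ⟨_, hs.tsum_le_of_sum_range_le h1, hs.hasSum⟩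

theorem KBN_g_sum {A : ℝ} (hA : 0 < A) : ∃ S ≤ 4 * A, HasSum (KBN_g A) S := by
  obtain ⟨S, hS, h⟩ := KBN_nat hA
  have e1 : (fun k : ℕ => KBN_g A ((k + 1 : ℕ) : ℤ)) = fun k : ℕ => (1 + ((k + 1) / A) ^ 2)⁻¹ := by
    funext k
    unfold KBN_g
    rw [if_neg (by omega)]
    push_cast
    rfl
  have e2 : (fun k : ℕ => KBN_g A (-(k + 1))) = fun k : ℕ => (1 + ((k + 1) / A) ^ 2)⁻¹ := by
    funext k
    unfold KBN_g
    rw [if_neg (by omega)]
    push_cast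
    rw [neg_div, neg_sq]
  have h1 : HasSum (fun k : ℕ => KBN_g A k) S := by
    have h3 := (hasSum_nat_add_iff (f := fun k : ℕ => KBN_g A k) 1).1 (e1 ▸ h)
    simpa [KBN_g] using h3
  have h4 : HasSum (fun k : ℕ => KBN_g A (-(k + 1))) S := e2 ▸ h
  exact ⟨_, by linarith, h1.of_nat_of_neg_add_one h4⟩

theorem KBN_term (φ : ℝ → ℂ) (Hp : ℝ) {L : ℝ} (hL : 0 < L) (x : ℝ) (G s : Finset P) (z : E) :
    (if Prim s ∧ Disjoint s G then
      ((Hp / √(Ns s) * Real.exp (-(Real.pi * (x * Hp / Ns s) ^ 2)) : ℝ) : ℂ) * xs c3 s z else 0)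
        * lw φ 1 L (Ns s)
      = ((Hp / √L : ℝ) : ℂ) * (if Prim s then (if Disjoint s G then xs c3 s z *
          (φ (Real.log (Ns s / L)) * KBN_f 0 (Real.pi * (x * Hp / L) ^ 2) (Real.log (Ns s / L)))
          else 0) else 0) := by
  by_cases h1 : Prim s
  · by_cases h2 : Disjoint s G
    · have hs := Ns_pos s
      have hy : 0 < Ns s / L := by positivity
      have e1 : Real.exp (-(Real.log (Ns s / L) / 2)) = √L / √(Ns s) := by
        rw [← Real.log_sqrt hy.le, Real.exp_neg, Real.exp_log (Real.sqrt_pos.2 hy),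
          Real.sqrt_div hs.le, inv_div]
      have e2 : Real.exp (-(2 * Real.log (Ns s / L))) = (L / Ns s) ^ 2 := by
        have e : 2 * Real.log (Ns s / L) = Real.log ((Ns s / L) ^ 2) := by
          rw [Real.log_pow]
          norm_num
        rw [e, Real.exp_neg, Real.exp_log (by positivity), ← inv_pow, inv_div]
      have e3 : Real.pi * (x * Hp / L) ^ 2 * (L / Ns s) ^ 2 = Real.pi * (x * Hp / Ns s) ^ 2 := by
        field_simp
      have e4 : Hp / √(Ns s) = Hp / √L * (√L / √(Ns s)) := by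
        have : √L ≠ 0 := (Real.sqrt_pos.2 hL).ne'
        field_simp
      rw [if_pos ⟨h1, h2⟩, if_pos h1, if_pos h2, lw, one_mul, KBN_f, e1, e2, e3, e4]
      push_cast
      ring
    · rw [if_neg (fun h => h2 h.2), if_pos h1, if_neg h2, zero_mul, mul_zero]
  · rw [if_neg (fun h => h1 h.1), if_neg h1, zero_mul, mul_zero]

theorem KBN_fac {m n : ℤ} (hm : m ≠ 0) (hn : n ≠ 0) :
    ((m * n ^ 2 : ℤ) : E) ≠ 0 ∧ Ns (fac ((m * n ^ 2 : ℤ) : E)) ≤ (|(m : ℝ)| * |(n : ℝ)|) ^ 2 := by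
  have h0 : ∀ k : ℤ, (nm (k : E) : ℝ) = (k : ℝ) ^ 2 := fun k => by
    have e := nm_int (k : E)
    rw [QuadraticAlgebra.re_intCast, QuadraticAlgebra.im_intCast] at e
    have e2 : ((nm (k : E) : ℤ) : ℝ) = (((k : ℤ) ^ 2 - k * 0 + 0 ^ 2 : ℤ) : ℝ) := congrArg _ e
    simpa using e2
  have h1 : ∀ k : ℤ, k ≠ 0 → (k : E) ≠ 0 := fun k hk e => by
    have := h0 k
    rw [e, nm_zero] at this
    have h2 : (k : ℝ) ≠ 0 := by exact_mod_cast hk
    exact pow_ne_zero 2 h2 (by simpa using this.symm)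
  refine ⟨h1 _ (mul_ne_zero hm (pow_ne_zero 2 hn)), ?_⟩
  have e : fac ((m * n ^ 2 : ℤ) : E) = fac ((m * n : ℤ) : E) := by
    push_cast
    rw [fac_mul (h1 m hm) (pow_ne_zero 2 (h1 n hn)), fac_pow (h1 n hn) two_ne_zero,
      fac_mul (h1 m hm) (h1 n hn)]
  rw [e]
  refine (Ns_fac_le (h1 _ (mul_ne_zero hm hn))).trans (le_of_eq ?_)
  rw [h0, ← abs_mul, sq_abs]
  push_cast
  rfl

theorem KBN_rpow {x θ : ℝ} (hx : 0 ≤ x) (h0 : 0 ≤ θ) (h2 : θ ≤ 2) : x ^ θ ≤ 1 + x ^ 2 := by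
  rcases le_total x 1 with h | h
  · linarith [Real.rpow_le_one hx h h0, sq_nonneg x]
  · have := Real.rpow_le_rpow_of_exponent_le h h2
    rw [Real.rpow_two] at this
    linarith

theorem kBN (hb : BA) (hr : RatF) (h : PVu1) : KBN := by
  intro φ ε hφ hε
  obtain ⟨η, hη⟩ : ∃ η : ℝ, η = min ε 1 / 8 := ⟨_, rfl⟩
  have hη0 : 0 < η := by rw [hη]; positivity
  have hη1 : η ≤ 1 / 8 := by rw [hη]; linarith [min_le_right ε 1]
  have hη2 : 8 * η ≤ ε := by rw [hη]; linarith [min_le_left ε 1]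
  obtain ⟨n0, C1, hC1, h1⟩ := KBN_prim hb hr h hη0
  obtain ⟨C2, hC2, h2⟩ := KBN_weight hb hφ n0
  obtain ⟨C3, hC3, h3⟩ := pow_card_le (A := 2) (by norm_num) hη0
  refine ⟨108 * C1 * C2 * C3, by positivity, fun m Hp L Z G hm hH hL hZ hmZ hLZ hA => ?_⟩
  obtain ⟨A, hAe⟩ : ∃ A, A = L / Hp := ⟨_, rfl⟩
  have hA0 : 0 < A := by rw [hAe]; positivity
  rw [← hAe] at hA
  obtain ⟨Y, hY⟩ : ∃ Y, Y = Z ^ η := ⟨_, rfl⟩
  have hY1 : 1 ≤ Y := by rw [hY]; exact Real.one_le_rpow hZ hη0.le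
  have hYε : Y ^ 7 ≤ Z ^ ε := by
    rw [hY, ← Real.rpow_natCast, ← Real.rpow_mul (by linarith)]
    refine Real.rpow_le_rpow_of_exponent_le hZ ?_
    push_cast
    linarith
  have b1 : (3 * L) ^ η ≤ 3 * Y := by
    rw [Real.mul_rpow (by norm_num) hL.le, hY]
    refine mul_le_mul ?_ (Real.rpow_le_rpow hL.le hLZ hη0.le) (by positivity) (by norm_num)
    exact Real.rpow_le_self_of_one_le (by norm_num) (by linarith)
  have b2 : |(m : ℝ)| ^ η ≤ Y := by rw [hY]; exact Real.rpow_le_rpow (abs_nonneg _) hmZ hη0.le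
  have b3 : A ^ η ≤ Y := by rw [hY]; exact Real.rpow_le_rpow hA0.le hA hη0.le
  obtain ⟨S, hS, hsum⟩ := KBN_g_sum hA0
  obtain ⟨K, hK⟩ : ∃ K, K = 27 * C1 * C2 * C3 * 2 ^ G.card * Y ^ 7 * Hp * √A * √|(m : ℝ)| :=
    ⟨_, rfl⟩
  have hK0 : 0 ≤ K := by rw [hK]; positivity
  refine (tsum_of_norm_bounded (hsum.mul_left K) fun n => ?_).trans ?_
  · have g0 : 0 ≤ K * KBN_g A n := by
      unfold KBN_g
      split_ifs <;> positivity
    split_ifs with hn
    swap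
    · rwa [norm_zero]
    obtain ⟨hz, hN⟩ := KBN_fac hm hn.1
    obtain ⟨x, hx⟩ : ∃ x, x = |(n : ℝ)| / A := ⟨_, rfl⟩
    have hx0 : 0 ≤ x := by rw [hx]; positivity
    have hnx : |(n : ℝ)| = A * x := by rw [hx]; field_simp
    have ea : (n * Hp / L) ^ 2 = x ^ 2 := by
      rw [hx, hAe, div_pow |(n : ℝ)|, sq_abs]
      field_simp
    have eg : KBN_g A n = (1 + x ^ 2)⁻¹ := by
      rw [KBN_g, if_neg hn.1, hx, div_pow, div_pow, sq_abs]
    rw [Finset.sum_congr rfl fun s _ => KBN_term φ Hp hL n G s _, ← Finset.mul_sum, norm_mul,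
      Complex.norm_real, Real.norm_of_nonneg (by positivity), ea, eg]
    have h4 := h1 _ _ L G _ (h2 (Real.pi * x ^ 2) (by positivity))
      (fun v hv => (hφ.supp v (left_ne_zero_of_mul hv)).2) hL hz hn.2
    refine (mul_le_mul_of_nonneg_left h4 (by positivity)).trans ?_
    have c1 : (2 : ℝ) ^ (fac ((m * n ^ 2 : ℤ) : E)).card ≤ C3 * (Y * Y * x ^ η) ^ 2 := by
      refine (h3 _).trans (mul_le_mul_of_nonneg_left ?_ hC3.le)
      refine (Real.rpow_le_rpow (Ns_pos _).le hN hη0.le).trans ?_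
      rw [← Real.rpow_natCast, ← Real.rpow_mul (by positivity), mul_comm _ η,
        Real.rpow_mul (by positivity), Real.rpow_natCast, hnx,
        Real.mul_rpow (abs_nonneg _) (by positivity), Real.mul_rpow hA0.le hx0, ← mul_assoc]
      gcongr
    have c2 : √(√(Ns (fac ((m * n ^ 2 : ℤ) : E)))) ≤ √|(m : ℝ)| * √A * √x := by
      rw [← Real.sqrt_mul (abs_nonneg _), ← Real.sqrt_mul (by positivity), mul_assoc, ← hnx]
      exact Real.sqrt_le_sqrt (Real.sqrt_le_iff.2 ⟨by positivity, hN⟩)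
    have c3 : C2 / (1 + Real.pi * x ^ 2) ^ 2 ≤ C2 / (1 + x ^ 2) ^ 2 := by
      refine div_le_div_of_nonneg_left hC2.le (by positivity) (pow_le_pow_left₀ (by positivity) ?_ 2)
      nlinarith [Real.pi_gt_three, sq_nonneg x]
    have c4 : (x ^ η) ^ 2 * √x ≤ 1 + x ^ 2 := by
      rw [← Real.rpow_natCast, ← Real.rpow_mul hx0, Real.sqrt_eq_rpow,
        ← Real.rpow_add' hx0 (by positivity)]
      refine KBN_rpow hx0 (by positivity) ?_
      push_cast
      linarith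
    have sL : √L ≠ 0 := (Real.sqrt_pos.2 hL).ne'
    calc _ ≤ Hp / √L * (C1 * (C2 / (1 + x ^ 2) ^ 2) * 2 ^ G.card * (C3 * (Y * Y * x ^ η) ^ 2) *
          (√|(m : ℝ)| * √A * √x) * √L * (3 * Y) ^ 3) := by gcongr
      _ = K * ((x ^ η) ^ 2 * √x) / (1 + x ^ 2) ^ 2 := by
          rw [hK]
          field_simp
          ring
      _ ≤ K * (1 + x ^ 2) / (1 + x ^ 2) ^ 2 := by gcongr
      _ = _ := by field_simp
  · have e1 : L ^ (3 / 2 : ℝ) = L * √L := by
      rw [Real.sqrt_eq_rpow, ← Real.rpow_one_add' hL.le (by norm_num)]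
      norm_num
    have e2 : Hp ^ (-(1 / 2) : ℝ) = (√Hp)⁻¹ := by
      rw [Real.rpow_neg hH.le, Real.sqrt_eq_rpow]
    have e3 : Hp * √A * A = L * √L * (√Hp)⁻¹ := by
      rw [hAe, Real.sqrt_div hL.le]
      field_simp
    calc K * S ≤ K * (4 * A) := mul_le_mul_of_nonneg_left hS hK0
      _ = 108 * C1 * C2 * C3 * 2 ^ G.card * Y ^ 7 * (Hp * √A * A) * √|(m : ℝ)| := by
          rw [hK]
          ring
      _ ≤ 108 * C1 * C2 * C3 * 2 ^ G.card * Z ^ ε * (Hp * √A * A) * √|(m : ℝ)| := by gcongr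
      _ = _ := by
          rw [e1, e2, e3]
          ring

end Pat
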