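import Vale.Agent.P006.IfA
import Vale.Agent.P026.Sym
import Vale.Agent.P026.Dvs

noncomputable section
namespace Pat
open QRH Complex MeasureTheory Filter
open scoped ComplexConjugate Classical ContDiff Topology

/-- The family of weights closed under differentiation. -/
def KBN_f (k : ℕ) (a v : ℝ) : ℂ :=
  ((Real.exp (-(v / 2)) * (a * Real.exp (-(2 * v))) ^ k * Real.exp (-(a * Real.exp (-(2 * v))))
    : ℝ) : ℂ)

theorem KBN_f_smooth (k : ℕ) (a : ℝ) : ContDiff ℝ ∞ (KBN_f k a) := by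
  have h : ContDiff ℝ ∞ fun v : ℝ => Real.exp (-(v / 2)) * (a * Real.exp (-(2 * v))) ^ k *
      Real.exp (-(a * Real.exp (-(2 * v)))) := by fun_prop
  exact ofRealCLM.contDiff.comp h

theorem KBN_f_deriv (k : ℕ) (a : ℝ) :
    deriv (KBN_f k a) = fun v => (-(1 / 2 + 2 * k) : ℂ) * KBN_f k a v + 2 * KBN_f (k + 1) a v := by
  funext v
  have h1 : HasDerivAt (fun v : ℝ => Real.exp (-(v / 2))) (Real.exp (-(v / 2)) * -(1 / 2)) v :=
    ((hasDerivAt_id v).div_const 2).neg.exp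
  have h2 : HasDerivAt (fun v : ℝ => a * Real.exp (-(2 * v)))
      (a * (Real.exp (-(2 * v)) * -(2 * 1))) v :=
    (((hasDerivAt_id v).const_mul 2).neg.exp).const_mul a
  have h3 := ((h1.mul (h2.pow k)).mul h2.neg.exp).ofReal_comp
  refine h3.deriv.trans ?_
  unfold KBN_f
  have e : (k : ℝ) * (a * Real.exp (-(2 * v))) ^ (k - 1) * (a * (Real.exp (-(2 * v)) * -(2 * 1)))
      = -2 * k * (a * Real.exp (-(2 * v))) ^ k := by
    rcases k with _ | k
    · simp
    · rw [Nat.add_sub_cancel, pow_succ]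
      ring
  simp only [Pi.mul_apply, Pi.pow_apply, Pi.neg_apply]
  rw [e]
  push_cast
  ring

theorem KBN_f_zero (k : ℕ) : ∃ C : ℝ, 0 < C ∧ ∀ a v : ℝ, 0 ≤ a → -3 ≤ v → v ≤ 3 →
    ‖KBN_f k a v‖ ≤ C / (1 + a) ^ 2 := by
  refine ⟨Real.exp 2 * Real.exp 6 ^ 2 *
    (k.factorial + 2 * (k + 1).factorial + (k + 2).factorial), by positivity, ?_⟩
  intro a v ha h1 h2
  obtain ⟨x, hx⟩ : ∃ x, x = a * Real.exp (-(2 * v)) := ⟨_, rfl⟩
  have hx0 : 0 ≤ x := by rw [hx]; positivity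
  have b1 : Real.exp (-(v / 2)) ≤ Real.exp 2 := Real.exp_le_exp.2 (by linarith)
  have b2 : 1 + a ≤ Real.exp 6 * (1 + x) := by
    have e1 : (1 : ℝ) ≤ Real.exp 6 := Real.one_le_exp (by norm_num)
    have e2 : (1 : ℝ) ≤ Real.exp 6 * Real.exp (-(2 * v)) := by
      rw [← Real.exp_add]
      exact Real.one_le_exp (by linarith)
    rw [hx]
    nlinarith
  have b3 : ∀ m : ℕ, x ^ m * Real.exp (-x) ≤ m.factorial := by
    intro m
    have := Real.pow_div_factorial_le_exp x hx0 m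
    rw [div_le_iff₀ (by positivity)] at this
    rw [Real.exp_neg, ← div_eq_mul_inv, div_le_iff₀ (Real.exp_pos x)]
    linarith
  have b4 : x ^ k * Real.exp (-x) * (1 + x) ^ 2 ≤
      k.factorial + 2 * (k + 1).factorial + (k + 2).factorial := by
    have e : x ^ k * Real.exp (-x) * (1 + x) ^ 2 = x ^ k * Real.exp (-x) +
        2 * (x ^ (k + 1) * Real.exp (-x)) + x ^ (k + 2) * Real.exp (-x) := by ring
    rw [e]
    linarith [b3 k, b3 (k + 1), b3 (k + 2)]
  unfold KBN_f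
  rw [← hx, Complex.norm_real, Real.norm_of_nonneg (by positivity), le_div_iff₀ (by positivity)]
  have b5 : (1 + a) ^ 2 ≤ (Real.exp 6 * (1 + x)) ^ 2 := pow_le_pow_left₀ (by linarith) b2 2
  calc Real.exp (-(v / 2)) * x ^ k * Real.exp (-x) * (1 + a) ^ 2
      ≤ Real.exp 2 * x ^ k * Real.exp (-x) * (Real.exp 6 * (1 + x)) ^ 2 := by gcongr
    _ = Real.exp 2 * Real.exp 6 ^ 2 * (x ^ k * Real.exp (-x) * (1 + x) ^ 2) := by ring
    _ ≤ _ := by gcongr

theorem KBN_f_iter (j : ℕ) : ∀ k : ℕ, ∃ C : ℝ, 0 < C ∧ ∀ a v : ℝ, 0 ≤ a → -3 ≤ v → v ≤ 3 →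
    ‖iteratedDeriv j (KBN_f k a) v‖ ≤ C / (1 + a) ^ 2 := by
  induction j with
  | zero => simpa using KBN_f_zero
  | succ j ih =>
    intro k
    obtain ⟨C1, hC1, h1⟩ := ih k
    obtain ⟨C2, hC2, h2⟩ := ih (k + 1)
    refine ⟨(1 / 2 + 2 * k) * C1 + 2 * C2, by positivity, fun a v ha hv1 hv2 => ?_⟩
    have s1 : ContDiffAt ℝ j (KBN_f k a) v :=
      ((KBN_f_smooth k a).of_le (by exact_mod_cast le_top)).contDiffAt
    have s2 : ContDiffAt ℝ j (KBN_f (k + 1) a) v :=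
      ((KBN_f_smooth (k + 1) a).of_le (by exact_mod_cast le_top)).contDiffAt
    rw [iteratedDeriv_succ', KBN_f_deriv,
      iteratedDeriv_fun_add (contDiffAt_const.mul s1) (contDiffAt_const.mul s2),
      iteratedDeriv_const_mul _ s1, iteratedDeriv_const_mul _ s2]
    refine (norm_add_le _ _).trans ?_
    have n1 : ‖(-(1 / 2 + 2 * k) : ℂ)‖ = 1 / 2 + 2 * k := by
      have : (-(1 / 2 + 2 * k) : ℂ) = ((-(1 / 2 + 2 * k) : ℝ) : ℂ) := by push_cast; ring
      rw [this, Complex.norm_real, norm_neg, Real.norm_of_nonneg (by positivity)]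
    rw [norm_mul, norm_mul, n1, Complex.norm_two, add_div, mul_div_assoc, mul_div_assoc]
    gcongr
    · exact h1 a v ha hv1 hv2
    · exact h2 a v ha hv1 hv2

theorem KBN_f_all (n : ℕ) : ∃ C : ℝ, 0 < C ∧ ∀ j ≤ n, ∀ a v : ℝ, 0 ≤ a → -3 ≤ v → v ≤ 3 →
    ‖iteratedDeriv j (KBN_f 0 a) v‖ ≤ C / (1 + a) ^ 2 := by
  choose C hC h using fun j => KBN_f_iter j 0
  refine ⟨∑ j ∈ Finset.range (n + 1), C j,
    Finset.sum_pos (fun j _ => hC j) ⟨0, Finset.mem_range.2 (Nat.succ_pos n)⟩,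
    fun j hj a v ha h1 h2 => (h j a v ha h1 h2).trans ?_⟩
  refine div_le_div_of_nonneg_right ?_ (by positivity)
  exact Finset.single_le_sum (fun j _ => (hC j).le) (Finset.mem_range.2 (Nat.lt_succ_of_le hj))

theorem KBN_weight (hb : BA) {φ : ℝ → ℂ} (hφ : Bump φ) (n : ℕ) : ∃ C : ℝ, 0 < C ∧
    ∀ a : ℝ, 0 ≤ a → BD n (fun v => φ v * KBN_f 0 a v) (C / (1 + a) ^ 2) := by
  obtain ⟨D, hD, h1⟩ := hb.bump_bd φ hφ n
  obtain ⟨C1, hC1, h2⟩ := hb.der_mul n
  obtain ⟨C2, hC2, h3⟩ := KBN_f_all n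
  refine ⟨C1 * D * C2, by positivity, fun a ha => ?_⟩
  rw [mul_div_assoc]
  exact h2 φ _ D _ h1 (KBN_f_smooth 0 a) fun j hj v => h3 j hj a v ha

/-- Weights vanish beyond `3 L`. -/
theorem KBN_vanish {W : ℝ → ℂ} (hW : ∀ v, W v ≠ 0 → v ≤ 1) {L y : ℝ} (hL : 0 < L)
    (hy : 3 * L < y) : W (Real.log (y / L)) = 0 := by
  by_contra hne
  have h1 := hW _ hne
  have h2 : 3 < y / L := by rwa [lt_div_iff₀ hL]
  rw [Real.log_le_iff_le_exp (by linarith)] at h1
  linarith [Real.exp_one_lt_d9]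

/-- The geometric mean of the two bounds for a smooth character sum. -/
theorem KBN_in (hb : BA) (h : PVu1) : ∃ (n : ℕ) (C : ℝ), 0 < C ∧
    ∀ (W : ℝ → ℂ) (D L R : ℝ) (G : Finset P) (z : E), BD n W D → (∀ v, W v ≠ 0 → v ≤ 1) →
      0 < L → 3 * L ≤ R → z ≠ 0 → ¬ IsCube z →
      ‖∑ c ∈ pball R, (if Disjoint (fac c) G then xv c3 c z * W (Real.log (nm c / L)) else 0)‖
        ≤ C * D * 2 ^ (G ∪ fac z).card * √(√(Ns (fac z))) * √L := by
  obtain ⟨n, C, hC, h⟩ := h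
  refine ⟨n, 6 * √C, by positivity, fun W D L R G z hW hs hL hR hz hc => ?_⟩
  have hD0 : ∀ v, ‖W v‖ ≤ D := fun v => by simpa using hW.bd 0 (Nat.zero_le n) v
  have hD : 0 ≤ D := (norm_nonneg _).trans (hD0 0)
  have h1 := h W D L R G z hW hL (fun v hv => by
    have e1 : Real.exp v ≤ Real.exp 1 := Real.exp_le_exp.2 (hs v hv)
    nlinarith [Real.exp_one_lt_d9]) hz hc
  have h2 : ‖∑ c ∈ pball R,
      (if Disjoint (fac c) G then xv c3 c z * W (Real.log (nm c / L)) else 0)‖ ≤ 36 * L * D := by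
    rw [← Finset.sum_subset (s₁ := (pball R).filter fun c => (nm c : ℝ) ≤ 3 * L)
      (Finset.filter_subset _ _) (fun c hc hc' => by
        rw [Finset.mem_filter, not_and] at hc'
        rw [KBN_vanish hs hL (not_le.1 (hc' hc)), mul_zero, ite_self])]
    refine (norm_sum_le _ _).trans ?_
    refine (Finset.sum_le_card_nsmul _ _ D fun c _ => ?_).trans ?_
    · split_ifs
      · rw [norm_mul]
        exact (mul_le_of_le_one_left (norm_nonneg _) (norm_xv_le ch_c3 _ _)).trans (hD0 _)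
      · rwa [norm_zero]
    · rw [nsmul_eq_mul]
      refine mul_le_mul_of_nonneg_right ?_ hD
      have e1 : ((pball R).filter fun c => (nm c : ℝ) ≤ 3 * L) ⊆ ball (3 * L) := by
        intro c hc
        rw [Finset.mem_filter, hb.mem_pball] at hc
        exact mem_ball.2 ⟨primary_ne_zero hc.1.1, hc.2⟩
      have e2 := card_ball_le (R := 3 * L) (by linarith)
      have e3 : ((((pball R).filter fun c => (nm c : ℝ) ≤ 3 * L).card : ℕ) : ℝ)
          ≤ (ball (3 * L)).card := by exact_mod_cast Finset.card_le_card e1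
      linarith
  refine (pow_le_pow_iff_left₀ (norm_nonneg _) (by positivity) two_ne_zero).1 ?_
  have p1 : (1 : ℝ) ≤ 2 ^ (G ∪ fac z).card := one_le_pow₀ (by norm_num)
  calc _ ≤ (C * D * 2 ^ (G ∪ fac z).card * √(Ns (fac z))) * (36 * L * D) := by
        rw [sq]
        exact mul_le_mul h1 h2 (norm_nonneg _) (by positivity)
    _ = (C * D * 2 ^ (G ∪ fac z).card * √(Ns (fac z))) * (36 * L * D) * 1 := (mul_one _).symm
    _ ≤ (C * D * 2 ^ (G ∪ fac z).card * √(Ns (fac z))) * (36 * L * D) * 2 ^ (G ∪ fac z).card := by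
        gcongr
    _ = _ := by
        rw [mul_pow, mul_pow, mul_pow, mul_pow, mul_pow, Real.sq_sqrt hC.le, Real.sq_sqrt hL.le,
          Real.sq_sqrt (Real.sqrt_nonneg _)]
        ring

/-- The same for squarefree elements. -/
theorem KBN_sqf (hb : BA) (h : PVu1) {η : ℝ} (hη : 0 < η) : ∃ (n : ℕ) (C : ℝ), 0 < C ∧
    ∀ (W : ℝ → ℂ) (D L : ℝ) (G : Finset P) (z : E), BD n W D → (∀ v, W v ≠ 0 → v ≤ 1) →
      0 < L → z ≠ 0 → ¬ IsCube z →
      ‖∑ u ∈ sqf (3 * L), (if Disjoint u G then xs c3 u z * W (Real.log (Ns u / L)) else 0)‖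
        ≤ C * D * 2 ^ (G ∪ fac z).card * √(√(Ns (fac z))) * √L * (3 * L) ^ η := by
  obtain ⟨n, C, hC, h⟩ := KBN_in hb h
  obtain ⟨C1, hC1, h1⟩ := sum_sqf_inv hη
  refine ⟨n, C * C1, by positivity, fun W D L G z hW hs hL hz hc => ?_⟩
  have hD : 0 ≤ D := (norm_nonneg _).trans (hW.bd 0 (Nat.zero_le n) 0)
  have e := hb.sqf_sum (3 * L)
    (fun c => if Disjoint (fac c) G then xv c3 c z * W (Real.log (nm c / L)) else 0)
    (fun c hc => by rw [KBN_vanish hs hL hc, mul_zero, ite_self])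
  simp only [fac_pr, xv_pr] at e
  have e' : ∑ u ∈ sqf (3 * L), (if Disjoint u G then xs c3 u z * W (Real.log (Ns u / L)) else 0)
      = _ := e
  rw [e']
  refine (norm_sum_le _ _).trans ?_
  have key : ∀ d ∈ sqf (3 * L), ‖∑ c ∈ pball (3 * L), mu d *
      (if Disjoint (fac (pr d ^ 2 * c)) G then
        xv c3 (pr d ^ 2 * c) z * W (Real.log (nm (pr d ^ 2 * c) / L)) else 0)‖
      ≤ C * D * 2 ^ (G ∪ fac z).card * √(√(Ns (fac z))) * √L * (Ns d)⁻¹ := by
    intro d _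
    have hd := Ns_pos d
    have hd1 := one_le_Ns d
    have e1 : ∀ c ∈ pball (3 * L), mu d * (if Disjoint (fac (pr d ^ 2 * c)) G then
        xv c3 (pr d ^ 2 * c) z * W (Real.log (nm (pr d ^ 2 * c) / L)) else 0)
        = (mu d * if Disjoint d G then xs c3 d z ^ 2 else 0) *
          (if Disjoint (fac c) G then xv c3 c z * W (Real.log (nm c / (L / Ns d ^ 2))) else 0) := by
      intro c hc
      have hc0 : c ≠ 0 := primary_ne_zero ((hb.mem_pball _ _).1 hc).1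
      have hd0 : pr d ^ 2 ≠ 0 := pow_ne_zero 2 (pr_ne_zero d)
      have e2 : ((nm (pr d ^ 2 * c) : ℕ) : ℝ) / L = nm c / (L / Ns d ^ 2) := by
        rw [nm_mul, nm_pow]
        push_cast
        unfold Ns at hd ⊢
        field_simp
      rw [fac_mul hd0 hc0, fac_pow (pr_ne_zero d) two_ne_zero, fac_pr, xv_mul_left hd0 hc0,
        xv_pow_left (pr_ne_zero d), xv_pr, e2]
      simp only [Finset.disjoint_union_left]
      by_cases h1 : Disjoint d G <;> by_cases h2 : Disjoint (fac c) G <;> simp [h1, h2]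
      ring
    rw [Finset.sum_congr rfl e1, ← Finset.mul_sum, norm_mul]
    have n1 : ‖mu d * if Disjoint d G then xs c3 d z ^ 2 else 0‖ ≤ 1 := by
      rw [norm_mul, norm_mu, one_mul]
      split_ifs
      · rw [norm_pow]
        exact pow_le_one₀ (norm_nonneg _) (norm_xs_le ch_c3 _ _)
      · simp
    refine (mul_le_of_le_one_left (norm_nonneg _) n1).trans ?_
    have hL' : L / Ns d ^ 2 ≤ L := div_le_self hL.le (one_le_pow₀ hd1)
    refine (h W D (L / Ns d ^ 2) (3 * L) G z hW hs (by positivity) (by linarith) hz hc).trans ?_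
    rw [Real.sqrt_div hL.le, Real.sqrt_sq hd.le, div_eq_mul_inv, ← mul_assoc]
  refine (Finset.sum_le_sum key).trans ?_
  rw [← Finset.mul_sum]
  calc _ ≤ C * D * 2 ^ (G ∪ fac z).card * √(√(Ns (fac z))) * √L * (C1 * (3 * L) ^ η) :=
        mul_le_mul_of_nonneg_left (h1 _ (by linarith)) (by positivity)
    _ = _ := by ring

end Pat
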