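import Vale.Agent.P006.KBNAux1

noncomputable section
namespace Pat
open QRH Complex MeasureTheory Filter
open scoped ComplexConjugate Classical ContDiff Topology

theorem KBN_bar_bar (p : P) : p.bar.bar = p := Subtype.ext (star_star _)

theorem KBN_bar_im (p : P) : p.bar.1.im = -p.1.im := QuadraticAlgebra.im_star _

theorem KBN_bar_eq {p : P} (h : p.1.im = 0) : p.bar = p := by
  refine Subtype.ext (QuadraticAlgebra.ext ?_ ?_)
  · show (star p.1).re = _
    rw [QuadraticAlgebra.re_star, h, mul_zero, add_zero]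
  · rw [KBN_bar_im, h, neg_zero]

/-- Closure under conjugation. -/
def KBN_cl (t : Finset P) : Finset P := t ∪ t.image P.bar

/-- One representative of each conjugate pair inside `s`. -/
def KBN_B (s : Finset P) : Finset P := s.filter fun p => p.bar ∈ s ∧ 0 ≤ p.1.im

theorem KBN_selfC (t : Finset P) : SelfC (KBN_cl t) := by
  intro p hp
  refine ⟨p.bar, ?_, rfl⟩
  rcases Finset.mem_union.1 hp with h | h
  · exact Finset.mem_union_right _ (Finset.mem_image_of_mem _ h)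
  · obtain ⟨q, hq, rfl⟩ := Finset.mem_image.1 h
    rw [KBN_bar_bar]
    exact Finset.mem_union_left _ hq

theorem KBN_cl_filter {t : Finset P} (ht : ∀ p ∈ t, 0 ≤ p.1.im) :
    (KBN_cl t).filter (fun p => 0 ≤ p.1.im) = t := by
  ext p
  rw [Finset.mem_filter]
  refine ⟨fun h => ?_, fun h => ⟨Finset.mem_union_left _ h, ht p h⟩⟩
  rcases Finset.mem_union.1 h.1 with h1 | h1
  · exact h1
  · obtain ⟨q, hq, rfl⟩ := Finset.mem_image.1 h1
    have h2 := h.2
    rw [KBN_bar_im] at h2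
    rw [KBN_bar_eq (le_antisymm (by linarith) (ht q hq))]
    exact hq

theorem KBN_B_empty (s : Finset P) : KBN_B s = ∅ ↔ Prim s := by
  unfold KBN_B
  rw [Finset.filter_eq_empty_iff]
  constructor
  · intro h p hp q hq e
    have e1 : q = p.bar := Subtype.ext e
    by_cases h0 : 0 ≤ p.1.im
    · exact h hp ⟨e1 ▸ hq, h0⟩
    · refine h hq ⟨?_, ?_⟩
      · rw [e1, KBN_bar_bar]
        exact hp
      · rw [e1, KBN_bar_im]
        linarith
  · intro h p hp h1
    exact h p hp p.bar h1.1 rfl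

theorem KBN_sub_B {t s : Finset P} : t ⊆ KBN_B s ↔ KBN_cl t ⊆ s ∧ ∀ p ∈ t, 0 ≤ p.1.im := by
  constructor
  · intro h
    refine ⟨Finset.union_subset (fun p hp => (Finset.mem_filter.1 (h hp)).1) fun p hp => ?_,
      fun p hp => (Finset.mem_filter.1 (h hp)).2.2⟩
    obtain ⟨q, hq, rfl⟩ := Finset.mem_image.1 hp
    exact (Finset.mem_filter.1 (h hq)).2.1
  · intro h p hp
    exact Finset.mem_filter.2 ⟨h.1 (Finset.mem_union_left _ hp),
      h.1 (Finset.mem_union_right _ (Finset.mem_image_of_mem _ hp)), h.2 p hp⟩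

/-- The index set of the inclusion-exclusion. -/
def KBN_U (R : ℝ) : Finset (Finset P) :=
  (sqf R).filter fun t => (∀ p ∈ t, 0 ≤ p.1.im) ∧ Ns (KBN_cl t) ≤ R

theorem KBN_ie (R : ℝ) (F : Finset P → ℂ) :
    ∑ s ∈ sqf R, (if Prim s then F s else 0)
      = ∑ t ∈ KBN_U R, mu t * ∑ s ∈ sqf R with KBN_cl t ⊆ s, F s := by
  have e : ∀ s ∈ sqf R, (if Prim s then F s else 0) = ∑ t ∈ (KBN_B s).powerset, mu t * F s := by
    intro s _
    rw [← Finset.sum_mul, sum_mu]
    by_cases h : Prim s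
    · rw [if_pos h, if_pos ((KBN_B_empty s).2 h), one_mul]
    · rw [if_neg h, if_neg (fun h1 => h ((KBN_B_empty s).1 h1)), zero_mul]
  rw [Finset.sum_congr rfl e]
  simp only [Finset.mul_sum]
  refine Finset.sum_comm' fun s t => ?_
  rw [Finset.mem_powerset, KBN_sub_B, Finset.mem_filter, KBN_U, Finset.mem_filter, mem_sqf, mem_sqf]
  constructor
  · rintro ⟨h1, h2, h3⟩
    have h4 := (Ns_mono h2).trans h1
    exact ⟨⟨h1, h2⟩, (Ns_mono Finset.subset_union_left).trans h4, h3, h4⟩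
  · rintro ⟨⟨h1, h2⟩, -, h3, -⟩
    exact ⟨h1, h2, h3⟩

theorem KBN_sup (R : ℝ) (g : Finset P) (F : Finset P → ℂ) :
    ∑ s ∈ sqf R with g ⊆ s, F s
      = ∑ u ∈ sqf (R / Ns g), if Disjoint u g then F (g ∪ u) else 0 := by
  rw [← Finset.sum_filter]
  refine Finset.sum_nbij' (fun s => s \ g) (fun u => g ∪ u) (fun s hs => ?_) (fun u hu => ?_)
    (fun s hs => ?_) (fun u hu => ?_) fun s hs => ?_
  · rw [Finset.mem_filter, mem_sqf] at hs ⊢
    refine ⟨?_, Finset.sdiff_disjoint⟩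
    rw [le_div_iff₀ (Ns_pos g), ← Ns_union Finset.sdiff_disjoint, Finset.sdiff_union_of_subset hs.2]
    exact hs.1
  · rw [Finset.mem_filter, mem_sqf] at hu ⊢
    refine ⟨?_, Finset.subset_union_left⟩
    rw [Ns_union hu.2.symm, mul_comm, ← le_div_iff₀ (Ns_pos g)]
    exact hu.1
  · exact Finset.union_sdiff_of_subset (Finset.mem_filter.1 hs).2
  · exact Finset.union_sdiff_cancel_left (Finset.mem_filter.1 hu).2.symm
  · rw [Finset.union_sdiff_of_subset (Finset.mem_filter.1 hs).2]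

theorem KBN_U_sum (hr : RatF) {η : ℝ} (hη : 0 < η) : ∃ C : ℝ, 0 < C ∧ ∀ R : ℝ, 0 ≤ R →
    ∑ t ∈ KBN_U R, 2 ^ (KBN_cl t).card * (√(Ns (KBN_cl t)))⁻¹ ≤ C * R ^ η * R ^ η := by
  obtain ⟨C1, hC1, h1⟩ := pow_card_le (A := 2) (by norm_num) hη
  have hs : Summable fun k : ℕ => (k : ℝ) ^ (-(1 + η)) :=
    Real.summable_nat_rpow.2 (by linarith)
  have hs0 : 0 ≤ ∑' k : ℕ, (k : ℝ) ^ (-(1 + η)) := tsum_nonneg fun k => by positivity
  refine ⟨C1 * (∑' k : ℕ, (k : ℝ) ^ (-(1 + η)) + 1), by positivity, fun R hR => ?_⟩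
  have key : ∀ t ∈ KBN_U R, 2 ^ (KBN_cl t).card * (√(Ns (KBN_cl t)))⁻¹
      ≤ C1 * R ^ η * R ^ η * (ell (KBN_cl t) : ℝ) ^ (-(1 + η)) := by
    intro t ht
    have h2 : Ns (KBN_cl t) ≤ R := (Finset.mem_filter.1 ht).2.2
    have h3 : Ns (KBN_cl t) = (ell (KBN_cl t) : ℝ) ^ 2 := by
      unfold Ns
      rw [hr.ell_sq _ (KBN_selfC t)]
      push_cast
      rfl
    obtain ⟨l, hl⟩ : ∃ l : ℝ, l = ell (KBN_cl t) := ⟨_, rfl⟩
    rw [← hl] at h3 ⊢
    have l0 : 0 ≤ l := by rw [hl]; positivity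
    have l1 : 1 ≤ l := by
      have := one_le_Ns (KBN_cl t)
      rw [h3] at this
      nlinarith
    have h4 : (2 : ℝ) ^ (KBN_cl t).card ≤ C1 * R ^ η :=
      (h1 _).trans (mul_le_mul_of_nonneg_left (Real.rpow_le_rpow (Ns_pos _).le h2 hη.le) hC1.le)
    have h5 : l⁻¹ ≤ R ^ η * l ^ (-(1 + η)) := by
      have e : l⁻¹ = l ^ η * l ^ (-(1 + η)) := by
        rw [← Real.rpow_add (by linarith), ← Real.rpow_neg_one]
        exact congrArg _ (by ring)
      rw [e]
      exact mul_le_mul_of_nonneg_right (Real.rpow_le_rpow l0 (by nlinarith) hη.le) (by positivity)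
    rw [h3, Real.sqrt_sq l0, mul_assoc (C1 * R ^ η)]
    exact mul_le_mul h4 h5 (by positivity) (by positivity)
  refine (Finset.sum_le_sum key).trans ?_
  rw [← Finset.mul_sum]
  have inj : Set.InjOn (fun t => ell (KBN_cl t)) (KBN_U R) := by
    intro t ht t' ht' e
    have e1 := hr.ell_inj _ _ (KBN_selfC t) (KBN_selfC t') e
    rw [← KBN_cl_filter (Finset.mem_filter.1 ht).2.1, e1,
      KBN_cl_filter (Finset.mem_filter.1 ht').2.1]
  have h6 : ∑ t ∈ KBN_U R, (ell (KBN_cl t) : ℝ) ^ (-(1 + η))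
      ≤ ∑' k : ℕ, (k : ℝ) ^ (-(1 + η)) + 1 := by
    rw [← Finset.sum_image (f := fun k : ℕ => (k : ℝ) ^ (-(1 + η))) inj]
    exact (hs.sum_le_tsum _ fun k _ => by positivity).trans (by linarith)
  calc _ ≤ C1 * R ^ η * R ^ η * (∑' k : ℕ, (k : ℝ) ^ (-(1 + η)) + 1) :=
        mul_le_mul_of_nonneg_left h6 (by positivity)
    _ = _ := by ring

/-- The bound for a fixed character. -/
theorem KBN_prim (hb : BA) (hr : RatF) (h : PVu1) {η : ℝ} (hη : 0 < η) :
    ∃ (n : ℕ) (C : ℝ), 0 < C ∧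
    ∀ (W : ℝ → ℂ) (D L : ℝ) (G : Finset P) (z : E), BD n W D → (∀ v, W v ≠ 0 → v ≤ 1) →
      0 < L → z ≠ 0 → ¬ IsCube z →
      ‖∑ s ∈ sqf (3 * L), (if Prim s then
          (if Disjoint s G then xs c3 s z * W (Real.log (Ns s / L)) else 0) else 0)‖
        ≤ C * D * 2 ^ G.card * 2 ^ (fac z).card * √(√(Ns (fac z))) * √L * ((3 * L) ^ η) ^ 3 := by
  obtain ⟨n, C, hC, h⟩ := KBN_sqf hb h hη
  obtain ⟨C1, hC1, h1⟩ := KBN_U_sum hr hη
  refine ⟨n, C * C1, by positivity, fun W D L G z hW hs hL hz hc => ?_⟩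
  have hD : 0 ≤ D := (norm_nonneg _).trans (hW.bd 0 (Nat.zero_le n) 0)
  rw [KBN_ie]
  refine (norm_sum_le _ _).trans ?_
  have key : ∀ g : Finset P, ‖∑ s ∈ sqf (3 * L) with g ⊆ s,
      (if Disjoint s G then xs c3 s z * W (Real.log (Ns s / L)) else 0)‖
      ≤ C * D * 2 ^ G.card * 2 ^ (fac z).card * √(√(Ns (fac z))) * √L * (3 * L) ^ η *
        (2 ^ g.card * (√(Ns g))⁻¹) := by
    intro g
    have hg := Ns_pos g
    have hg1 := one_le_Ns g
    have e1 : ∀ u ∈ sqf (3 * (L / Ns g)), (if Disjoint u g then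
        (if Disjoint (g ∪ u) G then xs c3 (g ∪ u) z * W (Real.log (Ns (g ∪ u) / L)) else 0) else 0)
        = (if Disjoint g G then xs c3 g z else 0) *
          (if Disjoint u (G ∪ g) then xs c3 u z * W (Real.log (Ns u / (L / Ns g))) else 0) := by
      intro u _
      by_cases h0 : Disjoint u g
      · have e2 : Ns (g ∪ u) / L = Ns u / (L / Ns g) := by
          rw [Ns_union h0.symm]
          field_simp
        rw [if_pos h0, xs_union h0.symm, e2]
        simp only [Finset.disjoint_union_left, Finset.disjoint_union_right]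
        by_cases h1 : Disjoint g G <;> by_cases h2 : Disjoint u G <;> simp [h0, h1, h2]
        ring
      · rw [if_neg h0, if_neg (fun h1 => h0 (Finset.disjoint_union_right.1 h1).2), mul_zero]
    rw [KBN_sup, mul_div_assoc, Finset.sum_congr rfl e1, ← Finset.mul_sum, norm_mul]
    have n1 : ‖if Disjoint g G then xs c3 g z else 0‖ ≤ 1 := by
      split_ifs
      · exact norm_xs_le ch_c3 _ _
      · simp
    refine (mul_le_of_le_one_left (norm_nonneg _) n1).trans ?_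
    refine (h W D (L / Ns g) (G ∪ g) z hW hs (by positivity) hz hc).trans ?_
    have c1 : (2 : ℝ) ^ (G ∪ g ∪ fac z).card ≤ 2 ^ G.card * 2 ^ (fac z).card * 2 ^ g.card := by
      rw [← pow_add, ← pow_add]
      refine pow_le_pow_right₀ (by norm_num) ?_
      have a1 := Finset.card_union_le (G ∪ g) (fac z)
      have a2 := Finset.card_union_le G g
      omega
    have c2 : (3 * (L / Ns g)) ^ η ≤ (3 * L) ^ η :=
      Real.rpow_le_rpow (by positivity) (by linarith [div_le_self hL.le hg1]) hη.le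
    rw [Real.sqrt_div hL.le]
    calc _ ≤ C * D * (2 ^ G.card * 2 ^ (fac z).card * 2 ^ g.card) * √(√(Ns (fac z))) *
          (√L / √(Ns g)) * (3 * L) ^ η := by gcongr
      _ = _ := by ring
  have key2 : ∀ t ∈ KBN_U (3 * L), ‖mu t * ∑ s ∈ sqf (3 * L) with KBN_cl t ⊆ s,
      (if Disjoint s G then xs c3 s z * W (Real.log (Ns s / L)) else 0)‖ ≤ _ := fun t _ =>
    (le_of_eq (by rw [norm_mul, norm_mu, one_mul])).trans (key (KBN_cl t))
  refine (Finset.sum_le_sum key2).trans ?_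
  rw [← Finset.mul_sum]
  calc _ ≤ C * D * 2 ^ G.card * 2 ^ (fac z).card * √(√(Ns (fac z))) * √L * (3 * L) ^ η *
        (C1 * (3 * L) ^ η * (3 * L) ^ η) :=
        mul_le_mul_of_nonneg_left (h1 _ (by linarith)) (by positivity)
    _ = _ := by ring

end Pat
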