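import Vale.Agent.P006.KA

noncomputable section
namespace Pat
open QRH Complex MeasureTheory Filter
open scoped ComplexConjugate Classical ContDiff Topology

theorem KBasm_exp {x : ℝ} (hx : 1 ≤ x) : ∃ u, 0 ≤ u ∧ x = Real.exp u :=
  ⟨_, Real.log_nonneg hx, (Real.exp_log (zero_lt_one.trans_le hx)).symm⟩

theorem KBasm_sig {ε : ℝ} (hε : 0 < ε) {N : ℕ} (hN : 0 < N) :
    ∑ e ∈ N.divisors, (e : ℝ)⁻¹ ≤ (1 + ε⁻¹) * (N : ℝ) ^ ε := by
  have h1 := harmonic_le_one_add_log N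
  rw [harmonic_eq_sum_Icc] at h1
  push_cast at h1
  have h2 := Real.log_le_rpow_div (Nat.cast_nonneg N) hε
  have h3 : 1 ≤ (N : ℝ) ^ ε := Real.one_le_rpow (Nat.one_le_cast.2 hN) hε.le
  refine (Finset.sum_le_sum_of_subset_of_nonneg (fun e he => Finset.mem_Icc.2
    ⟨Nat.pos_of_mem_divisors he, Nat.divisor_le he⟩) fun _ _ _ => by positivity).trans (h1.trans ?_)
  rw [div_eq_mul_inv] at h2
  linarith

theorem KBasm_sig_mul (A B : ℕ) : ∑ e ∈ (A * B).divisors, (e : ℝ)⁻¹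
    ≤ (∑ e ∈ A.divisors, (e : ℝ)⁻¹) * ∑ e ∈ B.divisors, (e : ℝ)⁻¹ := by
  rw [Nat.divisors_mul, Finset.mul_def, Finset.sum_mul_sum, ← Finset.sum_product']
  refine (Finset.sum_image_le_of_nonneg fun _ _ => by positivity).trans_eq
    (Finset.sum_congr rfl fun x _ => ?_)
  rw [Nat.cast_mul, mul_inv]

theorem KBasm_sqf {M N : ℕ} (hN : 0 < N) (h : M ∣ N ^ 2) :
    ∑ e ∈ M.divisors with Squarefree e, (e : ℝ) ≤ N * ∑ e ∈ N.divisors, (e : ℝ)⁻¹ := by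
  refine (Finset.sum_le_sum_of_subset_of_nonneg (t := N.divisors) (fun e he => ?_)
    fun _ _ _ => by positivity).trans ?_
  · obtain ⟨h1, h2⟩ := Finset.mem_filter.1 he
    exact Nat.mem_divisors.2 ⟨(h2.dvd_pow_iff_dvd two_ne_zero).1
      ((Nat.dvd_of_mem_divisors h1).trans h), hN.ne'⟩
  · rw [← Nat.sum_div_divisors N fun e => (e : ℝ), Finset.mul_sum]
    exact Finset.sum_le_sum fun e _ => Nat.cast_div_le

theorem KBasm_cf {e a : ℕ} (he : Squarefree e) (ha : Squarefree a) (l : ℕ) (hl : l.Prime) :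
    ¬ (l : ℤ) ^ 3 ∣ (e : ℤ) * a := fun h => by
  have h1 : l ^ 3 ∣ e * a := by exact_mod_cast h
  rw [hl.pow_dvd_iff_le_factorization (mul_ne_zero he.ne_zero ha.ne_zero),
    Nat.factorization_mul he.ne_zero ha.ne_zero, Finsupp.add_apply] at h1
  have := he.natFactorization_le_one l
  have := ha.natFactorization_le_one l
  omega

theorem KBasm_pair {α β : Type*} [DecidableEq α] [DecidableEq β] (D : Finset α) (S : Finset β) {d0 : α} {s0 : β} (hd : d0 ∈ D)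
    (hs : s0 ∈ S) (F : α → β → ℂ) (g : α → ℝ) (f : β → ℝ) {K δ1 δ2 : ℝ} (hK : 0 ≤ K)
    (hg : ∀ d, 0 ≤ g d) (hf : ∀ s, 0 ≤ f s) (hg0 : g d0 = 1) (hf0 : f s0 = 1)
    (h1 : ∑ d ∈ D.erase d0, g d ≤ δ1) (h2 : ∑ s ∈ S.erase s0, f s ≤ δ2)
    (h : ∀ d ∈ D, ∀ s ∈ S, ‖F d s‖ ≤ K * (g d * f s)) :
    ‖∑ d ∈ D, ∑ s ∈ S, F d s - F d0 s0‖ ≤ K * (δ1 + δ2 + δ1 * δ2) := by
  have h0 : (d0, s0) ∈ D ×ˢ S := Finset.mem_product.2 ⟨hd, hs⟩
  have h3 := Finset.add_sum_erase (D ×ˢ S) (fun x => g x.1 * f x.2) h0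
  rw [Finset.sum_product' D S fun d s => g d * f s, ← Finset.sum_mul_sum,
    ← Finset.add_sum_erase D g hd, ← Finset.add_sum_erase S f hs, hg0, hf0] at h3
  rw [← Finset.sum_product' D S F, ← Finset.add_sum_erase _ _ h0, add_sub_cancel_left]
  refine (norm_sum_le _ _).trans ((Finset.sum_le_sum fun x hx => h _
    (Finset.mem_product.1 (Finset.mem_of_mem_erase hx)).1 _
    (Finset.mem_product.1 (Finset.mem_of_mem_erase hx)).2).trans ?_)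
  rw [← Finset.mul_sum]
  refine mul_le_mul_of_nonneg_left ?_ hK
  have a1 := Finset.sum_nonneg (s := D.erase d0) fun d _ => hg d
  have a2 := Finset.sum_nonneg (s := S.erase s0) fun s _ => hf s
  have a3 := mul_le_mul h1 h2 a2 (a1.trans h1)
  linarith

/-- The sum over the divisors. -/
def kbU (φ : ℝ → ℂ) (w : ℕ) (H Y : ℝ) (a n : ℕ) (Pr : ℤ → ℤ → Prop) : ℂ :=
  ∑ e ∈ (primorial w * a ^ 2 * n).divisors, (√(n : ℝ) : ℝ) * (ArithmeticFunction.moebius e : ℂ) *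
    KBs φ (e * a) (H / e) (Y / ((a : ℝ) ^ 2 * (n : ℝ) ^ 3)) (fac (primorial w : E)) (Pr (e * a))

theorem KBasm_norm {φ : ℝ → ℂ} {w : ℕ} {H Y : ℝ} {a n : ℕ} {Pr : ℤ → ℤ → Prop} {K : ℝ}
    (g : ℕ → ℝ) (h : ∀ e ∈ (primorial w * a ^ 2 * n).divisors, Squarefree e → √(n : ℝ) *
      ‖KBs φ (e * a) (H / e) (Y / ((a : ℝ) ^ 2 * (n : ℝ) ^ 3)) (fac (primorial w : E)) (Pr (e * a))‖
        ≤ K * g e) :
    ‖kbU φ w H Y a n Pr‖ ≤ K * ∑ e ∈ (primorial w * a ^ 2 * n).divisors with Squarefree e, g e := by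
  rw [Finset.mul_sum, Finset.sum_filter]
  refine (norm_sum_le _ _).trans (Finset.sum_le_sum fun e he => ?_)
  split_ifs with h1
  · rw [norm_mul, norm_mul, norm_intCast, ← Int.cast_abs,
      ArithmeticFunction.abs_moebius_eq_one_of_squarefree h1, Int.cast_one, mul_one, norm_real,
      Real.norm_of_nonneg (Real.sqrt_nonneg _)]
    exact h e he h1
  · rw [ArithmeticFunction.moebius_eq_zero_of_not_squarefree h1, Int.cast_zero, mul_zero, zero_mul,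
      norm_zero]

theorem KBasm_inv (M : ℕ) : ∑ e ∈ M.divisors with Squarefree e, (e : ℝ)⁻¹
    ≤ ∑ e ∈ M.divisors, (e : ℝ)⁻¹ :=
  Finset.sum_le_sum_of_subset_of_nonneg (Finset.filter_subset _ _) fun _ _ _ => by positivity

theorem KBasm_A (h3 : KB3a) {φ : ℝ → ℂ} (hφ : Bump φ) : ∃ C : ℝ, 0 < C ∧
    ∀ (w : ℕ) (Y : ℝ) (a n : ℕ), 1 ≤ Y → Squarefree a → 0 < n →
    kbU φ w (Y ^ (3 / 5 : ℝ)) Y a n (fun _ _ => True)
      = kbU φ w (Y ^ (3 / 5 : ℝ)) Y a n (fun m k => k ≠ 0 ∧ IsCube ((m * k ^ 2 : ℤ) : E))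
        + (kbU φ w (Y ^ (3 / 5 : ℝ)) Y a n (fun _ k => k = 0)
          + kbU φ w (Y ^ (3 / 5 : ℝ)) Y a n (fun m k => k ≠ 0 ∧ ¬ IsCube ((m * k ^ 2 : ℤ) : E))) ∧
    ‖kbU φ w (Y ^ (3 / 5 : ℝ)) Y a n (fun m k => k ≠ 0 ∧ IsCube ((m * k ^ 2 : ℤ) : E))‖
      ≤ C / PQ w * Y ^ (37 / 30 : ℝ) * ((n : ℝ) ^ (-(3 / 2) : ℝ) * (a : ℝ) ^ (-(3 / 2) : ℝ)) ∧
    ‖kbU φ w (Y ^ (3 / 5 : ℝ)) Y a n (fun _ k => k = 0)‖
      ≤ C * primorial w * Y ^ (37 / 30 - 1 / 100 : ℝ)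
        * ((n : ℝ) ^ (-(5 / 4) : ℝ) * (a : ℝ) ^ (-(11 / 10) : ℝ)) := by
  obtain ⟨C, hC, h⟩ := h3 φ hφ
  refine ⟨63 * C, by positivity, fun w Y a n hY ha hn => ?_⟩
  have hY0 : 0 < Y := by linarith
  have ha0 : 0 < a := Nat.pos_of_ne_zero ha.ne_zero
  have ha1 : (1 : ℝ) ≤ a := Nat.one_le_cast.2 ha0
  have hn1 : (1 : ℝ) ≤ n := Nat.one_le_cast.2 hn
  have hP := primorial_pos w
  have hP1 : (1 : ℝ) ≤ primorial w := Nat.one_le_cast.2 hP
  have hQ := KAAux_PQ_pos w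
  have key := fun (e : ℕ) (he : Squarefree e) => h (e * a) (Y ^ (3 / 5 : ℝ) / e)
    (Y / ((a : ℝ) ^ 2 * (n : ℝ) ^ 3)) (fac (primorial w : E))
    (by exact_mod_cast mul_ne_zero he.ne_zero ha.ne_zero) (KBasm_cf he ha)
    (div_pos (by positivity) (Nat.cast_pos.2 (Nat.pos_of_ne_zero he.ne_zero))) (by positivity)
  obtain ⟨y, y0, hy⟩ := KBasm_exp hY
  obtain ⟨α, α0, hα⟩ := KBasm_exp ha1
  obtain ⟨ν, ν0, hν⟩ := KBasm_exp hn1
  refine ⟨?_, (KBasm_norm (K := C * Y ^ (37 / 30 : ℝ) * ((n : ℝ) ^ (-2 : ℝ) * (a : ℝ) ^ (-2 : ℝ)))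
    (fun e => (e : ℝ)⁻¹) fun e _ he => ?_).trans ?_,
    (KBasm_norm (K := 3 * C * Y ^ (6 / 5 : ℝ) * ((n : ℝ) ^ (-(13 / 10) : ℝ) * (a : ℝ) ^ (-(6 / 5) : ℝ)))
    (fun e => (e : ℝ)⁻¹) fun e _ he => ?_).trans ?_⟩
  · simp only [kbU, ← Finset.sum_add_distrib, ← mul_add]
    refine Finset.sum_congr rfl fun e _ => ?_
    by_cases he : Squarefree e
    · rw [(key e he).2.2, add_right_comm, add_comm]
    · rw [ArithmeticFunction.moebius_eq_zero_of_not_squarefree he, Int.cast_zero, mul_zero,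
        zero_mul, zero_mul]
  · refine (mul_le_mul_of_nonneg_left (key e he).1 (Real.sqrt_nonneg _)).trans_eq ?_
    obtain ⟨t, -, ht⟩ := KBasm_exp (Nat.one_le_cast.2 (Nat.pos_of_ne_zero he.ne_zero) : (1 : ℝ) ≤ e)
    rw [Int.cast_mul, Int.cast_natCast, Int.cast_natCast, abs_of_nonneg (by positivity)]
    simp only [mul_assoc C, mul_left_comm _ C, ht, hy, hα, hν, Real.sqrt_eq_rpow, ← Real.exp_mul,
      ← Real.exp_add, ← Real.exp_sub, ← Real.exp_nat_mul, ← Real.exp_neg]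
    congr 2
    push_cast
    ring
  · have b1 := KBasm_sig (ε := 1 / 4) (by norm_num) (show 0 < a ^ 2 * n by positivity)
    have b2 := ((KBasm_inv _).trans (KBasm_sig_mul _ _)).trans (mul_le_mul (KAAux_inv_sum w) b1
      (Finset.sum_nonneg fun _ _ => by positivity) (by positivity))
    rw [← mul_assoc] at b2
    refine (mul_le_mul_of_nonneg_left b2 (by positivity)).trans ?_
    have b3 : (n : ℝ) ^ (-2 : ℝ) * (a : ℝ) ^ (-2 : ℝ) * ((a ^ 2 * n : ℕ) : ℝ) ^ (1 / 4 : ℝ)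
        ≤ (n : ℝ) ^ (-(3 / 2) : ℝ) * (a : ℝ) ^ (-(3 / 2) : ℝ) := by
      simp only [Nat.cast_mul, Nat.cast_pow, hα, hν, ← Real.exp_mul, ← Real.exp_add,
        ← Real.exp_nat_mul]
      exact Real.exp_le_exp.2 (by push_cast; linarith)
    calc _ = 5 * C / PQ w * Y ^ (37 / 30 : ℝ) * ((n : ℝ) ^ (-2 : ℝ) * (a : ℝ) ^ (-2 : ℝ)
          * ((a ^ 2 * n : ℕ) : ℝ) ^ (1 / 4 : ℝ)) := by ring
      _ ≤ _ := by gcongr; norm_num
  · have he1 : (1 : ℝ) ≤ e := Nat.one_le_cast.2 (Nat.pos_of_ne_zero he.ne_zero)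
    refine (mul_le_mul_of_nonneg_left (key e he).2.1 (Real.sqrt_nonneg _)).trans ?_
    split_ifs with b1
    · have b2 := (Real.one_le_rpow b1.2 (by norm_num : (0 : ℝ) ≤ 3 / 5)).trans_eq
        (Real.mul_rpow (by norm_num) (by positivity))
      have b3 := b2.trans (mul_le_mul_of_nonneg_right
        (Real.rpow_le_self_of_one_le (by norm_num) (by norm_num)) (by positivity))
      refine (le_mul_of_one_le_right (by positivity) b3).trans_eq ?_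
      obtain ⟨t, -, ht⟩ := KBasm_exp he1
      rw [mul_left_comm _ (3 : ℝ), mul_assoc (3 : ℝ), mul_assoc (3 : ℝ), mul_assoc (3 : ℝ)]
      congr 1
      simp only [mul_assoc C, mul_left_comm _ C, ht, hy,
        hα, hν, Real.sqrt_eq_rpow, ← Real.exp_mul, ← Real.exp_add, ← Real.exp_sub,
        ← Real.exp_nat_mul, ← Real.exp_neg]
      congr 2
      push_cast
      ring
    · rw [mul_zero]
      positivity
  · have b1 := (KBasm_inv _).trans (KBasm_sig (ε := 1 / 20) (by norm_num)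
      (show 0 < primorial w * a ^ 2 * n by positivity))
    refine (mul_le_mul_of_nonneg_left b1 (by positivity)).trans ?_
    obtain ⟨π, π0, hπ⟩ := KBasm_exp hP1
    have b3 : Y ^ (6 / 5 : ℝ) * ((n : ℝ) ^ (-(13 / 10) : ℝ) * (a : ℝ) ^ (-(6 / 5) : ℝ))
        * ((primorial w * a ^ 2 * n : ℕ) : ℝ) ^ (1 / 20 : ℝ) ≤ primorial w * Y ^ (37 / 30 - 1 / 100 : ℝ)
          * ((n : ℝ) ^ (-(5 / 4) : ℝ) * (a : ℝ) ^ (-(11 / 10) : ℝ)) := by
      simp only [Nat.cast_mul, Nat.cast_pow, hα, hν, hy, hπ, ← Real.exp_mul, ← Real.exp_add,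
        ← Real.exp_nat_mul]
      exact Real.exp_le_exp.2 (by push_cast; linarith)
    refine le_trans (le_of_eq (by ring)) ((mul_le_mul_of_nonneg_left b3
      (show 0 ≤ 63 * C by positivity)).trans_eq (by ring))

theorem KBasm_B (h2 : KBN) {φ : ℝ → ℂ} (hφ : Bump φ) (w : ℕ) : ∃ C : ℝ, 0 < C ∧
    ∀ (Y : ℝ) (a n : ℕ), 1 ≤ Y → 0 < a → 0 < n →
    ‖kbU φ w (Y ^ (3 / 5 : ℝ)) Y a n (fun m k => k ≠ 0 ∧ ¬ IsCube ((m * k ^ 2 : ℤ) : E))‖
      ≤ C * Y ^ (37 / 30 - 1 / 100 : ℝ)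
        * ((n : ℝ) ^ (-(5 / 4) : ℝ) * (a : ℝ) ^ (-(11 / 10) : ℝ)) := by
  obtain ⟨C, hC, h⟩ := h2 φ (1 / 100) hφ (by norm_num)
  have hP := primorial_pos w
  have hP1 : (1 : ℝ) ≤ primorial w := Nat.one_le_cast.2 hP
  obtain ⟨K, hK⟩ : ∃ K : ℝ, K = C * 2 ^ (fac (primorial w : E)).card
    * (9 * primorial w) ^ (1 / 100 : ℝ) := ⟨_, rfl⟩
  have hK0 : 0 < K := hK ▸ by positivity
  refine ⟨K * 11 * (primorial w : ℝ) ^ 2, by positivity, fun Y a n hY ha hn => ?_⟩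
  have hY0 : 0 < Y := by linarith
  have ha1 : (1 : ℝ) ≤ a := Nat.one_le_cast.2 ha
  have hn1 : (1 : ℝ) ≤ n := Nat.one_le_cast.2 hn
  obtain ⟨y, y0, hy⟩ := KBasm_exp hY
  obtain ⟨α, α0, hα⟩ := KBasm_exp ha1
  obtain ⟨ν, ν0, hν⟩ := KBasm_exp hn1
  refine (KBasm_norm (K := K * (Y ^ (61 / 50 : ℝ) * (n : ℝ) ^ (-4 : ℝ) * (a : ℝ) ^ (-(5 / 2) : ℝ)))
    (fun e => (e : ℝ)) fun e he1 he => ?_).trans ?_
  · have he2 : (1 : ℝ) ≤ e := Nat.one_le_cast.2 (Nat.pos_of_ne_zero he.ne_zero)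
    rcases lt_or_ge (3 * (Y / ((a : ℝ) ^ 2 * (n : ℝ) ^ 3))) 1 with b1 | b1
    · simp only [KBs, sqf_eq_empty b1, Finset.sum_empty, ite_self, tsum_zero, norm_zero, mul_zero]
      positivity
    rw [← mul_div_assoc, one_le_div (by positivity)] at b1
    have b2 : (a : ℝ) ^ 2 * n ≤ 3 * Y :=
      (mul_le_mul_of_nonneg_left (le_self_pow₀ hn1 (by norm_num)) (by positivity)).trans b1
    have b3 : (a : ℝ) ≤ 3 * Y :=
      ((le_self_pow₀ ha1 two_ne_zero).trans (le_mul_of_one_le_right (by positivity) hn1)).trans b2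
    have b4 : (e : ℝ) ≤ primorial w * (3 * Y) := by
      refine le_trans ?_ (mul_le_mul_of_nonneg_left b2 (by positivity))
      rw [← mul_assoc]
      exact_mod_cast Nat.divisor_le he1
    have b5 : Y / ((a : ℝ) ^ 2 * (n : ℝ) ^ 3) ≤ Y := div_le_self hY0.le
      (one_le_mul_of_one_le_of_one_le (one_le_pow₀ ha1) (one_le_pow₀ hn1))
    have b6 : Y ≤ primorial w * Y ^ 2 :=
      (le_self_pow₀ hY two_ne_zero).trans (le_mul_of_one_le_left (by positivity) hP1)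
    have b7 : |(((e : ℤ) * a : ℤ) : ℝ)| = e * a := by
      rw [Int.cast_mul, Int.cast_natCast, Int.cast_natCast, abs_of_nonneg (by positivity)]
    have b8 := h (e * a) (Y ^ (3 / 5 : ℝ) / e) (Y / ((a : ℝ) ^ 2 * (n : ℝ) ^ 3))
      (9 * primorial w * Y ^ 2) (fac (primorial w : E))
      (by exact_mod_cast mul_ne_zero he.ne_zero ha.ne') (by positivity) (by positivity)
      (by linarith) (by
        rw [b7]
        exact (mul_le_mul b4 b3 (by positivity) (by positivity)).trans_eq (by ring))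
      (by linarith) (by
        rw [div_div_eq_mul_div]
        refine (div_le_self (by positivity) (Real.one_le_rpow hY (by norm_num))).trans
          ((mul_le_mul b5 b4 (by positivity) hY0.le).trans ?_)
        linarith)
    refine (mul_le_mul_of_nonneg_left b8 (Real.sqrt_nonneg _)).trans_eq ?_
    rw [b7, Real.mul_rpow (by positivity) (by positivity), ← mul_assoc (C * _), ← hK]
    obtain ⟨t, -, ht⟩ := KBasm_exp he2
    simp only [mul_assoc K, mul_left_comm _ K, ht, hy, hα, hν, Real.sqrt_eq_rpow, ← Real.exp_mul,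
      ← Real.exp_add, ← Real.exp_sub, ← Real.exp_nat_mul]
    congr 2
    push_cast
    ring
  · have b0 : 0 < primorial w * a * n := by positivity
    have b1 := (KBasm_sqf (M := primorial w * a ^ 2 * n) b0 ⟨primorial w * n, by ring⟩).trans
      (mul_le_mul_of_nonneg_left (KBasm_sig (ε := 1 / 10) (by norm_num) b0) (by positivity))
    refine (mul_le_mul_of_nonneg_left b1 (by positivity)).trans ?_
    obtain ⟨π, π0, hπ⟩ := KBasm_exp hP1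
    have b3 : Y ^ (61 / 50 : ℝ) * (n : ℝ) ^ (-4 : ℝ) * (a : ℝ) ^ (-(5 / 2) : ℝ)
        * (((primorial w * a * n : ℕ) : ℝ) * ((primorial w * a * n : ℕ) : ℝ) ^ (1 / 10 : ℝ))
        ≤ (primorial w : ℝ) ^ 2 * Y ^ (37 / 30 - 1 / 100 : ℝ)
          * ((n : ℝ) ^ (-(5 / 4) : ℝ) * (a : ℝ) ^ (-(11 / 10) : ℝ)) := by
      simp only [Nat.cast_mul, hα, hν, hy, hπ, ← Real.exp_mul, ← Real.exp_add, ← Real.exp_nat_mul]
      exact Real.exp_le_exp.2 (by push_cast; linarith)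
    refine le_trans (le_of_eq (by ring)) ((mul_le_mul_of_nonneg_left b3
      (show 0 ≤ K * 11 by positivity)).trans_eq (by ring))

theorem KBasm_C (h4 : KB3b) {φ : ℝ → ℂ} (hφ : Bump φ) : ∃ C : ℝ, 0 < C ∧ ∀ w : ℕ, 3 ≤ w →
    ∃ Cw : ℝ, ∀ Y : ℝ, 1 ≤ Y →
    ‖kbU φ w (Y ^ (3 / 5 : ℝ)) Y 1 1 (fun m k => k ≠ 0 ∧ IsCube ((m * k ^ 2 : ℤ) : E))
      - mo φ 1 (5 / 6) * ((rho * PK w * PQ w
        * (1 / 3 * Real.pi ^ (-(1 / 6) : ℝ) * Real.Gamma (1 / 6)) * Y ^ (37 / 30 : ℝ) : ℝ) : ℂ)‖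
      ≤ C * (w : ℝ) ^ (-(1 / 2) : ℝ) / PQ w * Y ^ (37 / 30 : ℝ)
        + Cw * Y ^ (37 / 30 - 1 / 100 : ℝ) := by
  obtain ⟨C, hC, h⟩ := h4 φ hφ
  refine ⟨C, hC, fun w hw => ?_⟩
  obtain ⟨Cw, h⟩ := h w hw
  refine ⟨(primorial w).divisors.card * |Cw|, fun Y hY => ?_⟩
  have hY0 : 0 < Y := by linarith
  have e1 : Y ^ (5 / 6 : ℝ) * (Y ^ (3 / 5 : ℝ)) ^ (2 / 3 : ℝ) = Y ^ (37 / 30 : ℝ) := by
    rw [← Real.rpow_mul hY0.le, ← Real.rpow_add hY0]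
    norm_num
  have e2 : Y ^ (3 / 5 : ℝ) * √Y ≤ Y ^ (37 / 30 - 1 / 100 : ℝ) := by
    rw [Real.sqrt_eq_rpow, ← Real.rpow_add hY0]
    exact Real.rpow_le_rpow_of_exponent_le hY (by norm_num)
  have e3 : mo φ 1 (5 / 6) * ((rho * PK w * PQ w
      * (1 / 3 * Real.pi ^ (-(1 / 6) : ℝ) * Real.Gamma (1 / 6)) * Y ^ (37 / 30 : ℝ) : ℝ) : ℂ)
      = ∑ e ∈ (primorial w).divisors, (ArithmeticFunction.moebius e : ℂ) * (mo φ 1 (5 / 6) *
        ((rho * PK w * (1 / 3 * Real.pi ^ (-(1 / 6) : ℝ) * Real.Gamma (1 / 6))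
          * Y ^ (5 / 6 : ℝ) * (Y ^ (3 / 5 : ℝ)) ^ (2 / 3 : ℝ) / e : ℝ) : ℂ)) := by
    rw [← KAAux_PQ, Finset.mul_sum, Finset.sum_mul, Finset.sum_mul, ofReal_sum, Finset.mul_sum]
    refine Finset.sum_congr rfl fun e _ => ?_
    rw [mul_left_comm _ (mo φ 1 (5 / 6)), ← ofReal_intCast, ← ofReal_mul, ← e1]
    congr 2
    ring
  rw [e3]
  simp only [kbU, one_pow, mul_one, Nat.cast_one, Real.sqrt_one, ofReal_one, one_mul, div_one,
    ← Finset.sum_sub_distrib, ← mul_sub]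
  refine (norm_sum_le _ _).trans ((Finset.sum_le_sum (g := fun e : ℕ => C * (w : ℝ) ^ (-(1 / 2) : ℝ)
    * Y ^ (37 / 30 : ℝ) * (e : ℝ)⁻¹ + |Cw| * Y ^ (37 / 30 - 1 / 100 : ℝ)) fun e he => ?_).trans ?_)
  · have b1 : ‖(ArithmeticFunction.moebius e : ℂ)‖ ≤ 1 := by
      rw [norm_intCast]
      exact_mod_cast ArithmeticFunction.abs_moebius_le_one
    rw [norm_mul]
    refine ((mul_le_of_le_one_left (norm_nonneg _) b1).trans (h e _ Y (Nat.dvd_of_mem_divisors he)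
      (Real.one_le_rpow hY (by norm_num)) hY)).trans (add_le_add (le_of_eq ?_) ?_)
    · rw [← e1]
      ring
    · rw [mul_assoc]
      exact mul_le_mul (le_abs_self _) e2 (by positivity) (abs_nonneg _)
  · rw [Finset.sum_add_distrib, ← Finset.mul_sum, Finset.sum_const, nsmul_eq_mul]
    exact add_le_add ((mul_le_mul_of_nonneg_left (KAAux_inv_sum w) (by positivity)).trans_eq
      (by ring)) (le_of_eq (by ring))

theorem KBasm_ell (hr : RatF) {w : ℕ} {s : Finset P} (hs : SelfC s) (h0 : s ≠ ∅)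
    (hd : Disjoint s (fac (primorial w : E))) : w < ell s := by
  obtain ⟨p, hp⟩ := Finset.nonempty_iff_ne_empty.2 h0
  obtain ⟨l, hl, -, -, -, h3⟩ := hr.under p
  have h1 : p.1 ∣ (ell s : E) := by
    have := dvd_pr_iff.2 hp
    rcases hr.pr_self s hs with e | e <;> rw [e] at this
    · exact this
    · exact dvd_neg.1 this
  rw [← Int.cast_natCast, h3, Int.natCast_dvd_natCast] at h1
  refine lt_of_lt_of_le (not_le.1 fun h2 => Finset.disjoint_left.1 hd hp ?_)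
    (Nat.le_of_dvd (KA_ell_pos hr hs) h1)
  rw [mem_fac (KA_P_ne w), ← Int.cast_natCast, h3, Int.natCast_dvd_natCast]
  exact hl.dvd_primorial_iff.2 h2

theorem kBasm (hb : BA) (hr : RatF) (h1 : KB1) (h2 : KBN) (h3 : KB3a) (h4 : KB3b) : KBasm := by
  intro φ hφ
  obtain ⟨CA, hCA, hA⟩ := KBasm_A h3 hφ
  obtain ⟨CC, hCC, hC⟩ := KBasm_C h4 hφ
  obtain ⟨Ct, hCt, ht⟩ := tail_nm_rpow (σ := 3 / 2) (by norm_num)
  refine ⟨CC + CA * (Ct + 2 + Ct * 2), by positivity, fun w hw => ?_⟩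
  obtain ⟨CB, hCB, hB⟩ := KBasm_B h2 hφ w
  obtain ⟨Cw, hC⟩ := hC w hw
  refine ⟨Cw + (CA * primorial w + CB) * ((∑' x : E, (nm x : ℝ) ^ (-(5 / 4) : ℝ))
    * ∑' n : ℕ, (n : ℝ) ^ (-(11 / 10) : ℝ)), fun Y hY => ?_⟩
  have hY0 : 0 < Y := by linarith
  have hw1 : (1 : ℝ) ≤ w := Nat.one_le_cast.2 (by omega)
  have hQ := KAAux_PQ_pos w
  have hell : ell ∅ = 1 := by rw [ell, pr_empty, nm_one, Nat.sqrt_one]
  obtain ⟨D, hD⟩ : ∃ D, D = (pball (3 * Y)).filter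
    fun d => Disjoint (fac d) (fac (primorial w : E)) := ⟨_, rfl⟩
  obtain ⟨S, hS⟩ : ∃ S, S = (sqf (3 * Y)).filter
    fun s => SelfC s ∧ Disjoint s (fac (primorial w : E)) := ⟨_, rfl⟩
  have mD : ∀ d ∈ D, Pm d ∧ Disjoint (fac d) (fac (primorial w : E)) := fun d hd => by
    rw [hD] at hd
    exact ⟨((hb.mem_pball _ _).1 (Finset.mem_filter.1 hd).1).1, (Finset.mem_filter.1 hd).2⟩
  have mS : ∀ s ∈ S, SelfC s ∧ Disjoint s (fac (primorial w : E)) := fun s hs => by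
    rw [hS] at hs
    exact (Finset.mem_filter.1 hs).2
  have pD : ∀ d ∈ D, 0 < nm d := fun d hd => one_le_nm (primary_ne_zero (mD d hd).1)
  have d0 : (1 : E) ∈ D := by
    rw [hD]
    refine Finset.mem_filter.2 ⟨(hb.mem_pball _ _).2 ⟨by simp [Pm], ?_⟩, ?_⟩
    · rw [nm_one, Nat.cast_one]
      linarith
    · rw [fac_unit isUnit_one]
      exact Finset.disjoint_empty_left _
  have s0 : ∅ ∈ S := by
    rw [hS]
    refine Finset.mem_filter.2 ⟨mem_sqf.2 ?_, by simp [SelfC], Finset.disjoint_empty_left _⟩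
    rw [Ns_empty]
    linarith
  have hinj : ∀ T ⊆ S, Set.InjOn ell T := fun T hT s hs t ht =>
    hr.ell_inj s t (mS s (hT hs)).1 (mS t (hT ht)).1
  have e1 : KXi φ w (Y ^ (3 / 5 : ℝ)) Y = ∑ d ∈ D, ∑ s ∈ S, kbU φ w (Y ^ (3 / 5 : ℝ)) Y (ell s) (nm d)
      (fun m k => k ≠ 0 ∧ IsCube ((m * k ^ 2 : ℤ) : E)) + ∑ d ∈ D, ∑ s ∈ S,
        (kbU φ w (Y ^ (3 / 5 : ℝ)) Y (ell s) (nm d) (fun _ k => k = 0)
          + kbU φ w (Y ^ (3 / 5 : ℝ)) Y (ell s) (nm d)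
            fun m k => k ≠ 0 ∧ ¬ IsCube ((m * k ^ 2 : ℤ) : E)) := by
    rw [h1 φ w _ Y hφ hw (by positivity) hY0, ← hD, ← hS, ← Finset.sum_add_distrib]
    refine Finset.sum_congr rfl fun d hd => ?_
    rw [← Finset.sum_add_distrib]
    refine Finset.sum_congr rfl fun s hs => ?_
    rw [← (hA w Y _ _ hY (hr.ell_sqf s (mS s hs).1) (pD d hd)).1, kbU, KA_Ns hr (mS s hs).1,
      hr.ell_sq s (mS s hs).1]
  have e2 := KBasm_pair D S d0 s0 (fun d s => kbU φ w (Y ^ (3 / 5 : ℝ)) Y (ell s) (nm d)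
      fun m k => k ≠ 0 ∧ IsCube ((m * k ^ 2 : ℤ) : E)) (fun d => (nm d : ℝ) ^ (-(3 / 2) : ℝ))
    (fun s => (ell s : ℝ) ^ (-(3 / 2) : ℝ)) (K := CA / PQ w * Y ^ (37 / 30 : ℝ))
    (δ1 := Ct * (w : ℝ) ^ (-(1 / 2) : ℝ)) (δ2 := 2 * (w : ℝ) ^ (-(1 / 2) : ℝ)) (by positivity)
    (fun _ => by positivity) (fun _ => by positivity) (by simp [nm_one]) (by simp [hell])
    ((ht w (by linarith) _ fun d hd => by
      obtain ⟨a1, a2⟩ := Finset.mem_erase.1 hd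
      obtain ⟨a3, a4⟩ := mD d a2
      obtain ⟨p, hp⟩ := Finset.nonempty_iff_ne_empty.2 fun e : fac d = ∅ =>
        a1 (by rw [primary_factor a3, e, Finset.prod_empty])
      exact (hr.rough_P w p (Finset.disjoint_left.1 a4 hp)).le.trans (Nat.cast_le.2 (nm_le_of_dvd
        ((mem_fac (primary_ne_zero a3)).1 hp) (primary_ne_zero a3)))).trans_eq (by norm_num))
    (by
      rw [← Finset.sum_image (f := fun n : ℕ => (n : ℝ) ^ (-(3 / 2) : ℝ))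
        (hinj _ (Finset.erase_subset _ _))]
      refine (KAAux_tail (σ := 3 / 2) (w := w) (by norm_num) (by omega) _ fun n hn => ?_).trans_eq
        (by norm_num; ring)
      obtain ⟨s, hs, rfl⟩ := Finset.mem_image.1 hn
      obtain ⟨a1, a2⟩ := Finset.mem_erase.1 hs
      exact KBasm_ell hr (mS s a2).1 a1 (mS s a2).2)
    fun d hd s hs => (hA w Y _ _ hY (hr.ell_sqf s (mS s hs).1) (pD d hd)).2.1
  have e3 : ‖∑ d ∈ D, ∑ s ∈ S, (kbU φ w (Y ^ (3 / 5 : ℝ)) Y (ell s) (nm d) (fun _ k => k = 0)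
      + kbU φ w (Y ^ (3 / 5 : ℝ)) Y (ell s) (nm d)
        fun m k => k ≠ 0 ∧ ¬ IsCube ((m * k ^ 2 : ℤ) : E))‖
      ≤ (CA * primorial w + CB) * Y ^ (37 / 30 - 1 / 100 : ℝ) *
        ((∑' x : E, (nm x : ℝ) ^ (-(5 / 4) : ℝ)) * ∑' n : ℕ, (n : ℝ) ^ (-(11 / 10) : ℝ)) := by
    refine (norm_sum_le _ _).trans ((Finset.sum_le_sum fun d hd => (norm_sum_le _ _).trans
      (Finset.sum_le_sum fun s hs => (norm_add_le _ _).trans (add_le_add
        (hA w Y _ _ hY (hr.ell_sqf s (mS s hs).1) (pD d hd)).2.2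
        (hB Y _ _ hY (KA_ell_pos hr (mS s hs).1) (pD d hd))))).trans ?_)
    simp only [← add_mul, ← Finset.mul_sum, ← Finset.sum_mul]
    refine mul_le_mul_of_nonneg_left (mul_le_mul ((summable_nm_rpow (by norm_num)).sum_le_tsum _
      fun _ _ => by positivity) ?_ (Finset.sum_nonneg fun _ _ => by positivity)
      (tsum_nonneg fun _ => by positivity)) (by positivity)
    rw [← Finset.sum_image (f := fun n : ℕ => (n : ℝ) ^ (-(11 / 10) : ℝ)) (hinj _ subset_rfl)]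
    exact (Real.summable_nat_rpow.2 (by norm_num)).sum_le_tsum _ fun _ _ => by positivity
  have e4 := hC Y hY
  rw [hell, nm_one] at e2
  rw [e1, add_sub_right_comm]
  refine (norm_add_le _ _).trans ((add_le_add ((norm_sub_le_norm_sub_add_norm_sub _ _ _).trans
    (add_le_add e2 e4)) e3).trans ?_)
  have g1 : (w : ℝ) ^ (-(1 / 2) : ℝ) ≤ 1 := Real.rpow_le_one_of_one_le_of_nonpos hw1 (by norm_num)
  have g2 := mul_le_mul_of_nonneg_left g1 (show 0 ≤ CA / PQ w * Y ^ (37 / 30 : ℝ) * (Ct * 2)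
    * (w : ℝ) ^ (-(1 / 2) : ℝ) by positivity)
  rw [div_eq_mul_inv] at g2
  simp only [div_eq_mul_inv _ (PQ w)]
  linarith

end Pat
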