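import Vale.Agent.P006.IfA
import Vale.Agent.P026.Eis2

/-! The value of the residue. -/

noncomputable section
namespace Pat
open QRH Complex MeasureTheory Filter
open scoped ComplexConjugate Classical ContDiff Topology

def KF_S (w : ℕ) : ℝ := ∑ l ∈ Nat.primesLE w, (l : ℝ)⁻¹

theorem KF_step (j : ℕ) (hj : 1 ≤ j) : KF_S (2 ^ (j + 1)) ≤ KF_S (2 ^ j) + 4 / j := by
  have hsub : Nat.primesLE (2 ^ j) ⊆ Nat.primesLE (2 ^ (j + 1)) := by
    intro l hl
    rw [Nat.mem_primesLE] at hl ⊢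
    exact ⟨hl.1.trans (Nat.pow_le_pow_right (by norm_num) (Nat.le_succ j)), hl.2⟩
  set T := Nat.primesLE (2 ^ (j + 1)) \ Nat.primesLE (2 ^ j) with hT
  have hlt : ∀ l ∈ T, 2 ^ j ≤ l := by
    intro l hl
    rw [hT, Finset.mem_sdiff, Nat.mem_primesLE, Nat.mem_primesLE] at hl
    by_contra h
    exact hl.2 ⟨by omega, hl.1.2⟩
  have h1 : (2 ^ j) ^ T.card ≤ ∏ l ∈ T, l := Finset.pow_card_le_prod T (fun l => l) _ hlt
  have h2 : ∏ l ∈ T, l ≤ primorial (2 ^ (j + 1)) := by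
    rw [primorial_eq_prod_primesLE]
    exact Finset.prod_le_prod_of_subset_of_one_le' Finset.sdiff_subset fun l hl _ =>
      (Nat.prime_of_mem_primesLE hl).one_le
  have h3 := primorial_le_four_pow (2 ^ (j + 1))
  have h4 : 2 ^ (j * T.card) ≤ 2 ^ (2 * 2 ^ (j + 1)) := by
    rw [pow_mul, pow_mul]
    exact h1.trans (h2.trans h3)
  have h5 : j * T.card ≤ 2 * 2 ^ (j + 1) := (Nat.pow_le_pow_iff_right (by norm_num)).1 h4
  have h6 : (j : ℝ) * T.card ≤ 4 * 2 ^ j := by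
    have : ((j * T.card : ℕ) : ℝ) ≤ ((2 * 2 ^ (j + 1) : ℕ) : ℝ) := by exact_mod_cast h5
    push_cast at this
    rw [pow_succ] at this
    linarith
  have h7 : ∑ l ∈ T, (l : ℝ)⁻¹ ≤ T.card * ((2 : ℝ) ^ j)⁻¹ := by
    rw [← nsmul_eq_mul]
    refine Finset.sum_le_card_nsmul T _ _ fun l hl => ?_
    refine inv_anti₀ (by positivity) ?_
    exact_mod_cast hlt l hl
  have hj' : (0 : ℝ) < j := by exact_mod_cast hj
  have h8 : (T.card : ℝ) * ((2 : ℝ) ^ j)⁻¹ ≤ 4 / j := by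
    rw [← div_eq_mul_inv, div_le_div_iff₀ (by positivity) hj']
    linarith
  unfold KF_S
  rw [← Finset.sum_sdiff hsub]
  linarith

theorem KF_lin (j0 : ℕ) (h : 200 ≤ j0) (k : ℕ) :
    KF_S (2 ^ (j0 + k)) ≤ KF_S (2 ^ j0) + k / 50 := by
  induction k with
  | zero => simp
  | succ k ih =>
    have h1 := KF_step (j0 + k) (by omega)
    have h2 : (4 : ℝ) / ((j0 + k : ℕ) : ℝ) ≤ 1 / 50 := by
      have : (200 : ℝ) ≤ ((j0 + k : ℕ) : ℝ) := by exact_mod_cast (by omega : 200 ≤ j0 + k)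
      rw [div_le_div_iff₀ (by linarith) (by norm_num)]
      linarith
    rw [← add_assoc]
    push_cast at h1 h2 ⊢
    linarith

theorem KF_exp {x : ℝ} (h0 : 0 ≤ x) (h1 : x ≤ 1 / 2) : Real.exp (-(2 * x)) ≤ 1 - x := by
  have h2 : 1 + 2 * x ≤ Real.exp (2 * x) := by linarith [Real.add_one_le_exp (2 * x)]
  rw [Real.exp_neg, inv_le_iff_one_le_mul₀ (Real.exp_pos _)]
  nlinarith

theorem KF_prod {ι : Type} (s : Finset ι) (x : ι → ℝ) (h : ∀ i ∈ s, 0 ≤ x i ∧ x i ≤ 1 / 2) :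
    Real.exp (-(2 * ∑ i ∈ s, x i)) ≤ ∏ i ∈ s, (1 - x i) ∧ ∏ i ∈ s, (1 - x i) ≤ 1 := by
  refine ⟨?_, Finset.prod_le_one (fun i hi => by linarith [(h i hi).2])
    fun i hi => by linarith [(h i hi).1]⟩
  rw [Finset.mul_sum, ← Finset.sum_neg_distrib, Real.exp_sum]
  exact Finset.prod_le_prod (fun i _ => (Real.exp_pos _).le) fun i hi => KF_exp (h i hi).1 (h i hi).2

theorem KF_inv {n : ℕ} (h : 2 ≤ n) : 0 ≤ (n : ℝ)⁻¹ ∧ (n : ℝ)⁻¹ ≤ 1 / 2 := by
  refine ⟨by positivity, ?_⟩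
  rw [one_div]
  exact inv_anti₀ (by norm_num) (by exact_mod_cast h)

theorem KF_PQ (w : ℕ) : Real.exp (-(2 * KF_S w)) ≤ PQ w ∧ PQ w ≤ 1 := by
  unfold PQ KF_S
  rw [primeFactors_primorial]
  exact KF_prod _ _ fun l hl => KF_inv (Nat.two_le_of_mem_primesLE hl)

theorem KF_PK (hb : BA) (hr : RatF) (w : ℕ) : Real.exp (-(8 * KF_S w)) ≤ PK w := by
  choose l hl using hr.under
  have h0 : ((primorial w : ℕ) : E) ≠ 0 := by exact_mod_cast primorial_ne_zero w
  have hmap : ∀ p ∈ fac (primorial w : E), l p ∈ Nat.primesLE w := by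
    intro p hp
    rw [mem_fac h0] at hp
    have h1 := ((hl p).2.2.2.2 (primorial w : ℤ)).1 (by exact_mod_cast hp)
    rw [Nat.mem_primesLE]
    exact ⟨(hl p).1.dvd_primorial_iff.1 (by exact_mod_cast h1), (hl p).1⟩
  have hs : ∑ p ∈ fac (primorial w : E), (nm p.1 : ℝ)⁻¹ ≤ 4 * KF_S w := by
    rw [← Finset.sum_fiberwise_of_maps_to hmap, KF_S, Finset.mul_sum]
    refine Finset.sum_le_sum fun a ha => ?_
    have ha2 := Nat.two_le_of_mem_primesLE ha
    set F := (fac (primorial w : E)).filter fun p => l p = a with hF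
    have hc : F.card ≤ 4 := by
      have h1 := hb.card_nm a (F.filter fun p => nm p.1 = a) fun p hp => (Finset.mem_filter.1 hp).2
      have h2 := hb.card_nm (a ^ 2) (F.filter fun p => ¬nm p.1 = a) fun p hp => by
        have h3 := Finset.mem_filter.1 hp
        have h4 := (Finset.mem_filter.1 h3.1).2
        have h5 := (hl p).2.2.2.1
        rw [h4] at h5
        exact h5.resolve_left h3.2
      have := Finset.card_filter_add_card_filter_not (s := F) fun p => nm p.1 = a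
      omega
    calc ∑ p ∈ F, (nm p.1 : ℝ)⁻¹ ≤ F.card • (a : ℝ)⁻¹ := by
          refine Finset.sum_le_card_nsmul F _ _ fun p hp => ?_
          have h4 := (Finset.mem_filter.1 hp).2
          have h5 := (hl p).2.2.2.1
          rw [h4] at h5
          refine inv_anti₀ (by positivity) ?_
          have : a ≤ nm p.1 := by
            rcases h5 with h5 | h5
            · exact h5.ge
            · rw [h5]; nlinarith
          exact_mod_cast this
      _ ≤ 4 * (a : ℝ)⁻¹ := by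
          rw [nsmul_eq_mul]
          gcongr
          exact_mod_cast hc
  refine le_trans ?_ (KF_prod (fac (primorial w : E)) (fun p => (nm p.1 : ℝ)⁻¹) fun p _ =>
    KF_inv (le_trans (by norm_num) p.four_le_nm)).1
  exact Real.exp_le_exp.2 (by linarith)

theorem KF_mo (hb : BA) : mo (fun v => (bx v : ℂ)) 1 (5 / 6) ≠ 0 := by
  have hc : Continuous bx := by
    unfold bx
    have := Real.smoothTransition.continuous
    fun_prop
  have hs : HasCompactSupport bx := by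
    refine HasCompactSupport.intro (isCompact_Icc (a := 0) (b := 1)) fun v hv => ?_
    by_contra h
    exact hv ⟨(hb.bx_supp v h).1.le, (hb.bx_supp v h).2.le⟩
  have hpos : 0 < ∫ v : ℝ, bx v * Real.exp (5 / 6 * v) := by
    refine Continuous.integral_pos_of_hasCompactSupport_nonneg_nonzero (x := 1 / 2) (by fun_prop)
      hs.mul_right (fun v => mul_nonneg (hb.bx_nonneg v) (Real.exp_pos _).le) ?_
    have : bx (1 / 2) = 1 := by
      unfold bx
      norm_num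
    rw [this]
    positivity
  unfold mo
  simp only [one_mul]
  have : (fun v : ℝ => (bx v : ℂ) * ((Real.exp (5 / 6 * v) : ℝ) : ℂ)) =
      fun v => ((bx v * Real.exp (5 / 6 * v) : ℝ) : ℂ) := by
    funext v; push_cast; ring
  rw [this, integral_complex_ofReal]
  exact_mod_cast hpos.ne'

theorem KF_const : kap * (Real.pi ^ (-(1 / 3) : ℝ) * Real.Gamma (1 / 3)) =
    1 / 3 * Real.pi ^ (-(1 / 6) : ℝ) * Real.Gamma (1 / 6) := by
  have h := Real.Gamma_mul_Gamma_add_half (1 / 6)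
  norm_num at h
  have hg : 0 < Real.Gamma (2 / 3) := Real.Gamma_pos_of_pos (by norm_num)
  have hp := Real.pi_pos
  have h1 : Real.pi ^ (2 / 3 : ℝ) * Real.pi ^ (-(1 / 3) : ℝ) =
      Real.pi ^ (-(1 / 6) : ℝ) * √Real.pi := by
    rw [Real.sqrt_eq_rpow, ← Real.rpow_add hp, ← Real.rpow_add hp]
    norm_num
  unfold kap
  rw [Real.mul_rpow (by norm_num) hp.le]
  field_simp
  linear_combination (2 : ℝ) ^ (2 / 3 : ℝ) * Real.Gamma (1 / 3) * h1 -
    Real.pi ^ (-(1 / 6) : ℝ) * h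

theorem KF_lim {x y K : ℝ} (h : ∀ Y : ℝ, 1 ≤ Y → x ≤ y + K * Y ^ (-(1 / 100) : ℝ)) : x ≤ y := by
  have h1 : Tendsto (fun Y : ℝ => y + K * Y ^ (-(1 / 100) : ℝ)) atTop (𝓝 (y + K * 0)) :=
    tendsto_const_nhds.add ((tendsto_rpow_neg_atTop (by norm_num)).const_mul K)
  rw [mul_zero, add_zero] at h1
  exact ge_of_tendsto h1 ((eventually_ge_atTop 1).mono h)

theorem kF (hb : BA) (hr : RatF) (κ : ℂ) (h1 : KA κ) (h2 : KBasm) :
    κ = ((rho * kap : ℝ) : ℂ) := by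
  obtain ⟨C1, hC1, h1⟩ := h1 _ hb.bx_bump
  obtain ⟨C2, hC2, h2⟩ := h2 _ hb.bx_bump
  have hm := KF_mo hb
  set m := mo (fun v => (bx v : ℂ)) 1 (5 / 6) with hmd
  set A : ℝ := Real.pi ^ (-(1 / 3) : ℝ) * Real.Gamma (1 / 3) with hA
  have hA0 : 0 < A := mul_pos (Real.rpow_pos_of_pos Real.pi_pos _)
    (Real.Gamma_pos_of_pos (by norm_num))
  rw [← KF_const, ← hA] at h2
  set a : ℝ := ‖κ - ((rho * kap : ℝ) : ℂ)‖ * ‖m‖ * A with ha
  have key : ∀ w : ℕ, 3 ≤ w → a * (PK w * PQ w) ≤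
      C1 * (w : ℝ) ^ (-(1 / 2) : ℝ) + C2 * (w : ℝ) ^ (-(1 / 2) : ℝ) / PQ w := by
    intro w hw
    obtain ⟨D1, h1⟩ := h1 w hw
    obtain ⟨D2, h2⟩ := h2 w hw
    have hK : 0 < PK w := lt_of_lt_of_le (Real.exp_pos _) (KF_PK hb hr w)
    have hQ : 0 < PQ w := lt_of_lt_of_le (Real.exp_pos _) (KF_PQ w).1
    refine KF_lim (K := 2 * |D1| + |D2|) fun Y hY => ?_
    have hY0 : 0 < Y := by linarith
    have g1 := h1 (Y ^ (3 / 5 : ℝ)) Y (Real.one_le_rpow hY (by norm_num)) hY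
    have g2 := h2 Y hY
    have e1 : Y ^ (5 / 6 : ℝ) * (Y ^ (3 / 5 : ℝ)) ^ (2 / 3 : ℝ) = Y ^ (37 / 30 : ℝ) := by
      rw [← Real.rpow_mul hY0.le, ← Real.rpow_add hY0]; norm_num
    have e2 : Y ^ (37 / 30 - 1 / 100 : ℝ) = Y ^ (-(1 / 100) : ℝ) * Y ^ (37 / 30 : ℝ) := by
      rw [← Real.rpow_add hY0]; norm_num
    have e3 : Y ^ (5 / 6 : ℝ) ≤ Y ^ (37 / 30 - 1 / 100 : ℝ) :=
      Real.rpow_le_rpow_of_exponent_le hY (by norm_num)
    have e4 : (Y ^ (3 / 5 : ℝ)) ^ (2 + 1 / 50 : ℝ) ≤ Y ^ (37 / 30 - 1 / 100 : ℝ) := by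
      rw [← Real.rpow_mul hY0.le]
      exact Real.rpow_le_rpow_of_exponent_le hY (by norm_num)
    rw [mul_assoc (PK w * PQ w * A), e1, mul_assoc (C1 * _), e1] at g1
    set Z := Y ^ (37 / 30 : ℝ) with hZ
    have hZ0 : 0 < Z := Real.rpow_pos_of_pos hY0 _
    set X := KXi (fun v => (bx v : ℂ)) w (Y ^ (3 / 5 : ℝ)) Y
    have g3 : a * (PK w * PQ w) * Z = ‖(X - m * ((rho * PK w * PQ w * (kap * A) * Z : ℝ) : ℂ)) -
        (X - κ * m * ((PK w * PQ w * A * Z : ℝ) : ℂ))‖ := by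
      have : (X - m * ((rho * PK w * PQ w * (kap * A) * Z : ℝ) : ℂ)) -
          (X - κ * m * ((PK w * PQ w * A * Z : ℝ) : ℂ)) =
          (κ - ((rho * kap : ℝ) : ℂ)) * m * ((A * (PK w * PQ w) * Z : ℝ) : ℂ) := by
        push_cast; ring
      rw [this, norm_mul, norm_mul, Complex.norm_real, Real.norm_of_nonneg (by positivity), ha]
      ring
    have g4 := (norm_sub_le _ _).trans (add_le_add g2 g1)
    rw [← g3] at g4
    set V := Y ^ (37 / 30 - 1 / 100 : ℝ)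
    have hV : 0 < V := Real.rpow_pos_of_pos hY0 _
    have g5 : D1 * (Y ^ (5 / 6 : ℝ) + (Y ^ (3 / 5 : ℝ)) ^ (2 + 1 / 50 : ℝ)) ≤ |D1| * (2 * V) :=
      (mul_le_mul_of_nonneg_right (le_abs_self _) (by positivity)).trans
        (mul_le_mul_of_nonneg_left (by linarith) (abs_nonneg _))
    have g6 : D2 * V ≤ |D2| * V := mul_le_mul_of_nonneg_right (le_abs_self _) hV.le
    refine le_of_mul_le_mul_right ?_ hZ0
    calc _ ≤ _ := g4
      _ ≤ C2 * (w : ℝ) ^ (-(1 / 2) : ℝ) / PQ w * Z + |D2| * V +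
          (C1 * (w : ℝ) ^ (-(1 / 2) : ℝ) * Z + |D1| * (2 * V)) := by linarith
      _ = _ := by rw [e2]; ring
  have ha0 : 0 ≤ a := by positivity
  obtain ⟨j0, hj0⟩ : ∃ j0 : ℕ, 200 ≤ j0 := ⟨200, le_rfl⟩
  have key2 : ∀ k : ℕ, a ≤ (C1 + C2) * Real.exp (12 * KF_S (2 ^ j0)) * Real.exp (-(1 / 10)) ^ k := by
    intro k
    have hw : 3 ≤ 2 ^ (j0 + k) :=
      le_trans (by norm_num : 3 ≤ 2 ^ 2) (Nat.pow_le_pow_right (by norm_num) (by omega))
    have g1 := key _ hw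
    have g2 := KF_lin j0 hj0 k
    have g3 := KF_PK hb hr (2 ^ (j0 + k))
    obtain ⟨g4, g5⟩ := KF_PQ (2 ^ (j0 + k))
    set S := KF_S (2 ^ (j0 + k))
    set K := PK (2 ^ (j0 + k))
    set Q := PQ (2 ^ (j0 + k))
    have hQ : 0 < Q := lt_of_lt_of_le (Real.exp_pos _) g4
    have g6 : (((2 ^ (j0 + k) : ℕ) : ℝ)) ^ (-(1 / 2) : ℝ) ≤ Real.exp (-(17 / 50 * k)) := by
      push_cast
      rw [Real.rpow_def_of_pos (by positivity), Real.log_pow]
      refine Real.exp_le_exp.2 ?_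
      have := Real.log_two_gt_d9
      have h0 : (0 : ℝ) ≤ j0 := by positivity
      have h0' : (0 : ℝ) ≤ k := by positivity
      push_cast
      nlinarith
    set W := (((2 ^ (j0 + k) : ℕ) : ℝ)) ^ (-(1 / 2) : ℝ)
    have hW : 0 ≤ W := by positivity
    have g7 : a * (K * Q * Q) ≤ (C1 + C2) * W := by
      have := mul_le_mul_of_nonneg_right g1 hQ.le
      have e : (C1 * W + C2 * W / Q) * Q = C1 * W * Q + C2 * W := by field_simp
      rw [e] at this
      have : C1 * W * Q ≤ C1 * W := mul_le_of_le_one_right (by positivity) g5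
      nlinarith
    have g8 : Real.exp (-(12 * S)) ≤ K * Q * Q := by
      have : Real.exp (-(12 * S)) =
          Real.exp (-(8 * S)) * Real.exp (-(2 * S)) * Real.exp (-(2 * S)) := by
        rw [← Real.exp_add, ← Real.exp_add]; ring_nf
      rw [this]
      have hK : 0 < K := lt_of_lt_of_le (Real.exp_pos _) g3
      gcongr
    have g9 : a * Real.exp (-(12 * S)) ≤ (C1 + C2) * Real.exp (-(17 / 50 * k)) :=
      (mul_le_mul_of_nonneg_left g8 ha0).trans (g7.trans (by gcongr))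
    calc a = a * Real.exp (-(12 * S)) * Real.exp (12 * S) := by
          rw [mul_assoc, ← Real.exp_add]; simp
      _ ≤ (C1 + C2) * Real.exp (-(17 / 50 * k)) * Real.exp (12 * S) := by gcongr
      _ ≤ _ := by
          rw [mul_assoc, mul_assoc, ← Real.exp_add, ← Real.exp_nat_mul, ← Real.exp_add]
          refine mul_le_mul_of_nonneg_left (Real.exp_le_exp.2 ?_) (by positivity)
          linarith
  have hlim : Tendsto (fun k : ℕ => (C1 + C2) * Real.exp (12 * KF_S (2 ^ j0)) *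
      Real.exp (-(1 / 10)) ^ k) atTop (𝓝 ((C1 + C2) * Real.exp (12 * KF_S (2 ^ j0)) * 0)) :=
    (tendsto_pow_atTop_nhds_zero_of_lt_one (Real.exp_pos _).le
      (Real.exp_lt_one_iff.2 (by norm_num))).const_mul _
  rw [mul_zero] at hlim
  have hz : a = 0 := le_antisymm (ge_of_tendsto' hlim key2) ha0
  rw [ha, mul_eq_zero, mul_eq_zero, norm_eq_zero, norm_eq_zero] at hz
  rcases hz with (hz | hz) | hz
  · exact sub_eq_zero.1 hz
  · exact absurd hz hm
  · exact absurd hz hA0.ne'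

end Pat
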