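import Vale.Agent.P006.IfA
import Vale.Agent.P026.FtD

/-! P006: the bound for the Voronoi transform. -/

noncomputable section
namespace Pat
open QRH Complex MeasureTheory Filter
open scoped ComplexConjugate Classical ContDiff Topology

theorem kxB_ae : ∀ᵐ z : ℂ, z ≠ 0 := by
  have h : (volume : Measure ℂ) {0} = 0 := measure_singleton 0
  exact measure_eq_zero_iff_ae_notMem.1 h

theorem kxB_int {F : Type} [NormedAddCommGroup F] {f : ℂ → F} {M b : ℝ} (hM : 0 ≤ M)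
    (h1 : -2 < b) (h2 : b ≤ 1) (hf : AEStronglyMeasurable f volume)
    (h : ∀ z, z ≠ 0 → ‖f z‖ ≤ ‖z‖ ^ b * (M * (1 + ‖z‖) ^ (-4 : ℝ))) : Integrable f := by
  rw [← integrableOn_univ, ← Set.union_compl_self (Metric.ball (0 : ℂ) 1)]
  refine IntegrableOn.union ?_ ?_
  · refine integrableOn_ball_of_norm_le_rpow (C := M) (α := -b) (by simp) ?_ ?_ hf
    · rw [Complex.finrank_real_complex]
      push_cast
      linarith
    · filter_upwards [ae_restrict_of_ae kxB_ae] with z hz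
      have h3 : (1 + ‖z‖) ^ (-4 : ℝ) ≤ 1 :=
        Real.rpow_le_one_of_one_le_of_nonpos (by linarith [norm_nonneg z]) (by norm_num)
      refine (h z hz).trans ?_
      rw [neg_neg, mul_comm M (‖z‖ ^ b)]
      exact mul_le_mul_of_nonneg_left (mul_le_of_le_one_right hM h3) (by positivity)
  · refine Integrable.mono' ((integrable_decay (σ := 3) (by norm_num)).const_mul M).integrableOn
      hf.restrict ?_
    filter_upwards [ae_restrict_mem Metric.isOpen_ball.measurableSet.compl] with z hz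
    have h3 : 1 ≤ ‖z‖ := by simpa using hz
    have h4 : ‖z‖ ^ b ≤ (1 + ‖z‖) ^ (1 : ℝ) :=
      (Real.rpow_le_rpow_of_exponent_le h3 h2).trans
        (Real.rpow_le_rpow (norm_nonneg z) (by linarith) zero_le_one)
    have h5 : (1 + ‖z‖) ^ (1 : ℝ) * (M * (1 + ‖z‖) ^ (-4 : ℝ)) = M * (1 + ‖z‖) ^ (-3 : ℝ) := by
      rw [mul_left_comm, ← Real.rpow_add (by linarith)]
      norm_num
    refine (h z (norm_pos_iff.1 (by linarith))).trans ?_
    rw [← h5]
    exact mul_le_mul_of_nonneg_right h4 (by positivity)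

theorem kxB_sq (z : ℂ) (a : ℝ) : (‖z‖ ^ 2) ^ a = ‖z‖ ^ (2 * a) := by
  rw [Real.rpow_mul (norm_nonneg z), Real.rpow_two]

theorem kxB_pow {y : ℂ} (hy : y ≠ 0) (s : ℂ) :
    ((‖y‖ ^ (-(4 / 3) : ℝ) : ℝ) : ℂ) * ((‖y⁻¹‖ ^ 2 : ℝ) : ℂ) ^ (-s)
      = ((‖y‖ ^ 2 : ℝ) : ℂ) ^ (s + 1 / 3 - 1) := by
  have hr : 0 < ‖y‖ ^ 2 := by positivity
  have e1 : ‖y‖ ^ (-(4 / 3) : ℝ) = (‖y‖ ^ 2) ^ (-(2 / 3) : ℝ) := by
    rw [kxB_sq]
    norm_num
  have e2 : ((‖y⁻¹‖ ^ 2 : ℝ) : ℂ) ^ (-s) = ((‖y‖ ^ 2 : ℝ) : ℂ) ^ s := by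
    rw [norm_inv, inv_pow, Complex.ofReal_inv, Complex.inv_cpow _ _ ?_, Complex.cpow_neg, inv_inv]
    rw [Complex.arg_ofReal_of_nonneg hr.le]
    exact Real.pi_ne_zero.symm
  rw [e1, e2, Complex.ofReal_cpow hr.le, ← Complex.cpow_add _ _ (Complex.ofReal_ne_zero.2 hr.ne')]
  have e3 : ((-(2 / 3) : ℝ) : ℂ) + s = s + 1 / 3 - 1 := by
    push_cast
    ring
  rw [e3]

/-- The Mellin transform of `Hx`. -/
theorem kxB_tate (h1 : Tate) (h2 : TateW) (h4 : KxRep) {w : ℂ → ℂ} (hw : Rad w) {s : ℂ}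
    (hs0 : 0 < s.re) (hs1 : s.re < 1) :
    Integrable (fun z : ℂ => ‖Hx w z‖ * (‖z‖ ^ 2) ^ (s.re - 1)) ∧
    ∫ z : ℂ, Hx w z * ((‖z‖ ^ 2 : ℝ) : ℂ) ^ (s - 1) = ((√3 / 2 : ℝ) : ℂ) * gam0 s *
      (gam0 (s + 1 / 3) * ∫ y : ℂ, w y * ((‖y‖ ^ 2 : ℝ) : ℂ) ^ (-(s + 1 / 3))) := by
  have hs : ∀ z, w z ≠ 0 → ‖z‖ ≤ 2 := fun z hz => (hw.supp z hz).2
  obtain ⟨C, hC, hft⟩ := ft_le 4
  obtain ⟨W, hW, hD⟩ := exists_DB hw.smooth hs 4
  have hb : ∀ y, ‖ft w (-y)‖ ≤ C * W * (1 + ‖y‖) ^ (-4 : ℝ) := fun y => by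
    have h := hft w W hw.smooth hs hD (-y)
    rw [norm_neg] at h
    exact_mod_cast h
  have hc : Continuous fun y => ft w (-y) :=
    (contDiff_ft hw.smooth hs).continuous.comp continuous_neg
  obtain ⟨M, hM, hH⟩ := h4.2.2.1 w 4 hw
  have hHc := h4.2.2.2.1 w hw
  have hFm : Measurable fun y : ℂ => ((‖y‖ ^ (-(4 / 3) : ℝ) : ℝ) : ℂ) * ft w (-y) :=
    (Complex.measurable_ofReal.comp (measurable_norm.pow_const _)).mul hc.measurable
  have hFn : ∀ y : ℂ, ‖((‖y‖ ^ (-(4 / 3) : ℝ) : ℝ) : ℂ) * ft w (-y)‖ ≤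
      ‖y‖ ^ (-(4 / 3) : ℝ) * (C * W * (1 + ‖y‖) ^ (-4 : ℝ)) := fun y => by
    rw [norm_mul, Complex.norm_real, Real.norm_of_nonneg (by positivity)]
    exact mul_le_mul_of_nonneg_left (hb y) (by positivity)
  have i1 : Integrable fun y : ℂ => ((‖y‖ ^ (-(4 / 3) : ℝ) : ℝ) : ℂ) * ft w (-y) :=
    kxB_int (by positivity) (by norm_num) (by norm_num) hFm.aestronglyMeasurable fun y _ => hFn y
  have i2 : Integrable fun y : ℂ => ‖((‖y‖ ^ (-(4 / 3) : ℝ) : ℝ) : ℂ) * ft w (-y)‖ *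
      (‖y⁻¹‖ ^ 2) ^ (-s.re) := by
    refine kxB_int (M := C * W) (b := -(4 / 3) + 2 * s.re) (by positivity) (by linarith)
      (by linarith)
      (hFm.norm.mul ((measurable_inv.norm.pow_const _).pow_const _)).aestronglyMeasurable
      fun y hy => ?_
    have hy' : 0 < ‖y‖ := norm_pos_iff.2 hy
    have e : (‖y⁻¹‖ ^ 2) ^ (-s.re) = ‖y‖ ^ (2 * s.re) := by
      rw [kxB_sq, norm_inv, Real.inv_rpow hy'.le, ← Real.rpow_neg hy'.le, mul_neg, neg_neg]
    rw [e, Real.norm_of_nonneg (by positivity), Real.rpow_add hy', mul_right_comm]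
    exact mul_le_mul_of_nonneg_right (hFn y) (by positivity)
  have i3 : Integrable fun z : ℂ => ‖Hx w z‖ * (‖z‖ ^ 2) ^ (s.re - 1) := by
    refine kxB_int (M := M) (b := 2 * (s.re - 1)) hM.le (by linarith) (by linarith)
      (hHc.measurable.norm.mul ((measurable_norm.pow_const _).pow_const _)).aestronglyMeasurable
      fun z _ => ?_
    rw [kxB_sq, Real.norm_of_nonneg (by positivity), mul_comm]
    refine mul_le_mul_of_nonneg_left ?_ (by positivity)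
    exact_mod_cast hH z
  have eH : ∀ z, ∫ y : ℂ, ((‖y‖ ^ (-(4 / 3) : ℝ) : ℝ) : ℂ) * ft w (-y) * psi (y⁻¹ * z) = Hx w z :=
    fun z => by simp only [Hx, div_eq_inv_mul z]
  have hT := h1 _ (fun y => y⁻¹) s hs0 hs1 i1 measurable_inv
    (kxB_ae.mono fun y hy => inv_ne_zero hy) i2 (by simpa only [eH] using i3)
  simp only [eH] at hT
  have hre : 0 < (s + 1 / 3).re := by
    have e : (s + 1 / 3).re = s.re + 1 / 3 := by simp
    linarith
  refine ⟨i3, ?_⟩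
  rw [hT, ← h2 w (s + 1 / 3) hw.smooth hw.supp hre,
    ← integral_neg_eq_self (fun z : ℂ => ft w z * ((‖z‖ ^ 2 : ℝ) : ℂ) ^ (s + 1 / 3 - 1))]
  refine congrArg _ (integral_congr_ae (kxB_ae.mono fun y hy => ?_))
  simp only [norm_neg]
  rw [← kxB_pow hy]
  ring

theorem kxB_rad (h4 : KxRep) {w : ℂ → ℂ} (hw : Rad w) (z : ℂ) :
    Hx w (√(‖z‖ ^ 2) : ℝ) = Hx w z := by
  rw [Real.sqrt_sq (norm_nonneg z)]
  by_cases hz : z = 0
  · rw [hz, norm_zero, Complex.ofReal_zero]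
  · have hn : (‖z‖ : ℂ) ≠ 0 := Complex.ofReal_ne_zero.2 (norm_ne_zero_iff.2 hz)
    have h := h4.2.2.2.2 w (z / ‖z‖) ‖z‖ hw (by
      rw [norm_div, Complex.norm_real, norm_norm, div_self (norm_ne_zero_iff.2 hz)])
    rw [div_mul_cancel₀ _ hn] at h
    exact h.symm

/-- Mellin inversion as an inequality. -/
theorem kxB_inv {h : ℝ → ℂ} (hc : Continuous h) {σ x : ℝ} (hx : 0 < x)
    (hm : MellinConvergent h σ) {g : ℝ → ℝ} (hg : Integrable g)
    (hb : ∀ t : ℝ, ‖mellin h (σ + t * I)‖ ≤ g t) : ‖h x‖ ≤ x ^ (-σ) * ∫ t, g t := by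
  have hme : AEStronglyMeasurable (fun t : ℝ => mellin h (σ + t * I)) volume := by
    have h1 : Measurable fun p : ℝ × ℝ => (p.2 : ℂ) ^ ((σ : ℂ) + p.1 * I - 1) • h p.2 := by
      have h2 := hc.measurable
      fun_prop
    exact (h1.stronglyMeasurable.integral_prod_right'
      (ν := volume.restrict (Set.Ioi 0))).aestronglyMeasurable
  have hv : Complex.VerticalIntegrable (mellin h) σ := hg.mono' hme (Eventually.of_forall hb)
  have h0 : 0 ≤ ∫ t, g t := integral_nonneg fun t => (norm_nonneg _).trans (hb t)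
  rw [← mellinInv_mellin_eq σ h hx hm hv hc.continuousAt, mellinInv, norm_smul]
  have h1 : ‖∫ y : ℝ, (x : ℂ) ^ (-(σ + y * I)) • mellin h (σ + y * I)‖ ≤ ∫ t, x ^ (-σ) * g t := by
    refine norm_integral_le_of_norm_le (hg.const_mul _) (Eventually.of_forall fun t => ?_)
    have e : (-((σ : ℂ) + t * I)).re = -σ := by simp
    rw [norm_smul, Complex.norm_cpow_eq_rpow_re_of_pos hx, e]
    exact mul_le_mul_of_nonneg_left (hb t) (by positivity)
  have h2 : ‖(1 / (2 * Real.pi) : ℝ)‖ ≤ 1 := by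
    rw [Real.norm_of_nonneg (by positivity), div_le_one (by positivity)]
    linarith [Real.pi_gt_three]
  rw [integral_const_mul] at h1
  exact (mul_le_mul h2 h1 (norm_nonneg _) zero_le_one).trans (one_mul _).le

theorem kxB_est {T t a : ℝ} (hT : 1 ≤ T) (ha : 0 ≤ a) (ha' : a ≤ 4) :
    (1 + |t|) ^ a * (1 + |t| / T) ^ (-6 : ℝ) ≤ T ^ a * (1 + ‖t / T‖) ^ (-2 : ℝ) := by
  have hT0 : 0 < T := by linarith
  have hu : 0 ≤ |t| / T := by positivity
  have e : ‖t / T‖ = |t| / T := by rw [Real.norm_eq_abs, abs_div, abs_of_pos hT0]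
  have h1 : 1 + |t| ≤ T * (1 + |t| / T) := by
    rw [mul_add, mul_div_cancel₀ _ hT0.ne']
    linarith
  have h2 : (1 + |t|) ^ a ≤ T ^ a * (1 + |t| / T) ^ (4 : ℝ) := by
    refine (Real.rpow_le_rpow (by positivity) h1 ha).trans ?_
    rw [Real.mul_rpow hT0.le (by positivity)]
    exact mul_le_mul_of_nonneg_left (Real.rpow_le_rpow_of_exponent_le (by linarith) ha')
      (by positivity)
  refine (mul_le_mul_of_nonneg_right h2 (by positivity)).trans (le_of_eq ?_)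
  rw [e, mul_assoc, ← Real.rpow_add (by positivity)]
  norm_num

theorem kxB (hb : BA) (h1 : Tate) (h2 : TateW) (h3 : GamB) (h4 : KxRep) (h5 : RadW) (h6 : MelW) :
    KxB := by
  intro φ ε hφ hε hε'
  obtain ⟨C1, hC1, hG⟩ := h3
  obtain ⟨C2, hC2, hM⟩ := h6 φ 6 hφ
  have hi : Integrable fun t : ℝ => (1 + ‖t‖) ^ (-2 : ℝ) := integrable_one_add_norm (by simp)
  have hi0 : 0 ≤ ∫ t : ℝ, (1 + ‖t‖) ^ (-2 : ℝ) := integral_nonneg fun t => by positivity
  refine ⟨C1 * C1 * C2 * ((∫ t : ℝ, (1 + ‖t‖) ^ (-2 : ℝ)) + 1), by positivity,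
    fun T z hT hz => ?_⟩
  have hT0 : 0 < T := by linarith
  have hw := h5 φ T hφ hT
  have hHc := h4.2.2.2.1 _ hw
  have hc : Continuous fun y : ℝ => Hx (wphi φ T) (√y : ℝ) :=
    hHc.comp (Complex.continuous_ofReal.comp Real.continuous_sqrt)
  have hre : ∀ a t : ℝ, ((a : ℂ) + t * I).re = a := fun a t => by simp
  have hm : MellinConvergent (fun y : ℝ => Hx (wphi φ T) (√y : ℝ)) (5 / 6 + ε : ℝ) := by
    refine (hb.polar_int _).1 ?_
    have h7 := (kxB_tate h1 h2 h4 hw (s := (5 / 6 + ε : ℝ)) (by rw [ofReal_re]; linarith)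
      (by rw [ofReal_re]; linarith)).1
    refine h7.mono' ?_ (kxB_ae.mono fun y hy => ?_)
    · have h8 := hc.measurable
      refine Measurable.aestronglyMeasurable ?_
      fun_prop
    · have hy' : 0 < ‖y‖ ^ 2 := by positivity
      simp only [kxB_rad h4 hw]
      rw [norm_smul, Complex.norm_cpow_eq_rpow_re_of_pos hy', mul_comm]
      exact le_rfl
  have hbd : ∀ t : ℝ, ‖mellin (fun y : ℝ => Hx (wphi φ T) (√y : ℝ)) ((5 / 6 + ε : ℝ) + t * I)‖ ≤
      C1 * C1 * C2 * T ^ (3 + 4 * ε) * T⁻¹ * (1 + ‖t / T‖) ^ (-2 : ℝ) := fun t => by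
    have h7 := (kxB_tate h1 h2 h4 hw (s := (5 / 6 + ε : ℝ) + t * I) (by rw [hre]; linarith)
      (by rw [hre]; linarith)).2
    have h8 := hb.polar fun y : ℝ =>
      (y : ℂ) ^ (((5 / 6 + ε : ℝ) : ℂ) + t * I - 1) • Hx (wphi φ T) (√y : ℝ)
    simp only [kxB_rad h4 hw, smul_eq_mul, mul_comm _ (Hx (wphi φ T) _)] at h8
    have e : ((5 / 6 + ε : ℝ) : ℂ) + t * I + 1 / 3 = ((7 / 6 + ε : ℝ) : ℂ) + t * I := by
      push_cast
      ring
    rw [h8, e] at h7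
    have g1 := hG (5 / 6 + ε) t (by linarith) (by linarith)
    have g2 := hG (7 / 6 + ε) t (by linarith) (by linarith)
    have g3 := hM T (7 / 6 + ε) t hT (by rw [abs_of_pos (by linarith)]; linarith)
    have g4 : ‖((√3 / 2 : ℝ) : ℂ)‖ ≤ 1 := by
      rw [Complex.norm_real, Real.norm_of_nonneg (by positivity), div_le_one two_pos]
      exact Real.sqrt_le_iff.2 ⟨zero_le_two, by norm_num⟩
    have g5 := congrArg norm h7
    rw [norm_mul, norm_mul, norm_mul, norm_mul, Complex.norm_real,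
      Real.norm_of_nonneg Real.pi_pos.le] at g5
    have g6 := mul_le_mul (mul_le_mul g4 g1 (norm_nonneg _) zero_le_one)
      (mul_le_mul g2 g3 (norm_nonneg _) (by positivity)) (by positivity) (by positivity)
    rw [← g5] at g6
    have e2 : (1 + |t|) ^ (2 * (5 / 6 + ε) - 1) * (1 + |t|) ^ (2 * (7 / 6 + ε) - 1) * (1 + |t|)
        = (1 + |t|) ^ (3 + 4 * ε) := by
      rw [← Real.rpow_add (by positivity), ← Real.rpow_add_one (by positivity)]
      ring_nf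
    have g7 := mul_le_mul_of_nonneg_left
      (kxB_est (t := t) (a := 3 + 4 * ε) hT (by linarith) (by linarith))
      (by positivity : 0 ≤ C1 * C1 * C2 * T⁻¹)
    rw [← e2] at g7
    have e3 : (-((6 : ℕ) : ℝ)) = -6 := by norm_num
    rw [e3] at g6
    simp only [mellin, smul_eq_mul, mul_comm _ (Hx (wphi φ T) _)]
    refine (le_mul_of_one_le_left (norm_nonneg _) (by linarith [Real.pi_gt_three])).trans
      (g6.trans ?_)
    linarith
  have hz' : 0 < ‖z‖ ^ 2 := by positivity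
  have h7 := kxB_inv hc hz' hm ((hi.comp_div hT0.ne').const_mul _) hbd
  rw [kxB_rad h4 hw, integral_const_mul,
    Measure.integral_comp_div (fun t : ℝ => (1 + ‖t‖) ^ (-2 : ℝ)), abs_of_pos hT0, smul_eq_mul,
    mul_assoc _ T⁻¹, inv_mul_cancel_left₀ hT0.ne'] at h7
  have e : Kx (wphi φ T) z = ((‖z‖ ^ (2 / 3 : ℝ) : ℝ) : ℂ) * Hx (wphi φ T) z := rfl
  have e1 : ‖z‖ ^ (2 / 3 : ℝ) * (‖z‖ ^ 2) ^ (-(5 / 6 + ε)) = (‖z‖ ^ 2) ^ (-(1 / 2) - ε) := by
    rw [kxB_sq, kxB_sq, ← Real.rpow_add (norm_pos_iff.2 hz)]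
    ring_nf
  rw [e, norm_mul, Complex.norm_real, Real.norm_of_nonneg (by positivity), ← e1]
  refine (mul_le_mul_of_nonneg_left h7 (by positivity)).trans ?_
  have h8 : 0 ≤ C1 * C1 * C2 * T ^ (3 + 4 * ε) *
      (‖z‖ ^ (2 / 3 : ℝ) * (‖z‖ ^ 2) ^ (-(5 / 6 + ε))) := by positivity
  linarith

end Pat
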