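import Vale.Agent.P006.IfA
import Vale.Agent.P026.Arch

noncomputable section
namespace Pat
open QRH Complex MeasureTheory Filter
open scoped ComplexConjugate Classical ContDiff Topology

theorem kxRep_real {s : ℝ} (h1 : -1 < s) (h2 : s < 2) :
    IntegrableOn (fun y : ℝ => y ^ s * (1 + y) ^ (-3 : ℝ)) (Set.Ioi 0) := by
  have hm : AEStronglyMeasurable (fun y : ℝ => y ^ s * (1 + y) ^ (-3 : ℝ)) volume :=
    (by fun_prop : Measurable fun y : ℝ => y ^ s * (1 + y) ^ (-3 : ℝ)).aestronglyMeasurable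
  rw [← Set.Ioc_union_Ioi_eq_Ioi zero_le_one, integrableOn_union]
  constructor
  · have h := (intervalIntegral.intervalIntegrable_rpow' (a := 0) (b := 1) h1).1
    refine Integrable.mono' h hm.restrict ?_
    filter_upwards [ae_restrict_mem measurableSet_Ioc] with y hy
    have hy0 := hy.1
    rw [Real.norm_of_nonneg (by positivity)]
    refine mul_le_of_le_one_right (by positivity) ?_
    exact Real.rpow_le_one_of_one_le_of_nonpos (by linarith) (by norm_num)
  · have h := integrableOn_Ioi_rpow_of_lt (a := s + -3) (by linarith) one_pos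
    refine Integrable.mono' h hm.restrict ?_
    filter_upwards [ae_restrict_mem measurableSet_Ioi] with y hy
    have hy0 : 0 < y := lt_trans one_pos hy
    rw [Real.norm_of_nonneg (by positivity), Real.rpow_add hy0]
    exact mul_le_mul_of_nonneg_left
      (Real.rpow_le_rpow_of_nonpos hy0 (by linarith) (by norm_num)) (by positivity)

theorem kxRep_sing {s : ℝ} (h1 : -2 < s) (h2 : s < 1) :
    Integrable fun z : ℂ => ‖z‖ ^ s * (1 + ‖z‖) ^ (-3 : ℝ) := by
  refine (integrable_fun_norm_addHaar (μ := (volume : Measure ℂ))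
    (f := fun y : ℝ => y ^ s * (1 + y) ^ (-3 : ℝ))).2 ?_
  refine (kxRep_real (s := s + 1) (by linarith) (by linarith)).congr_fun (fun y hy => ?_)
    measurableSet_Ioi
  have hy' : 0 < y := hy
  simp only [Complex.finrank_real_complex, smul_eq_mul]
  rw [Real.rpow_add hy', Real.rpow_one]
  norm_num
  ring

theorem kxRep_b0 : b0 0 = 1 := by
  have : b1B (0 : ℝ) = 1 :=
    b1B.one_of_mem_closedBall (Metric.mem_closedBall_self b1B.rIn_pos.le)
  simp [b0, this]

theorem kxRep_int_ft_b0 : Integrable (ft b0) := by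
  obtain ⟨M, -, h⟩ := ft_b0_decay 3
  refine ((integrable_decay (σ := 3) (by norm_num)).const_mul M).mono'
    (contDiff_ft contDiff_b0 ar_b0_supp).continuous.aestronglyMeasurable
    (Eventually.of_forall fun z => ?_)
  simpa using h z

theorem kxRep_conj (g : ℂ → ℂ) : ∫ z, g (conj z) = ∫ z, g z :=
  (conjLIE.measurePreserving).integral_comp conjLIE.toHomeomorph.measurableEmbedding g

theorem kxRep_inv : ∫ x, ft b0 x = ((√3 / 2 : ℝ) : ℂ) := by
  have h3 : (0 : ℝ) < √3 := by positivity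
  have hs : √3 * √3 = (3 : ℝ) := Real.mul_self_sqrt (by norm_num)
  obtain ⟨a, ha⟩ : ∃ a : ℂ, a = ((2 / √3 : ℝ) : ℂ) * I := ⟨_, rfl⟩
  have hn : ‖a‖ = 2 / √3 := by
    rw [ha, norm_mul, norm_I, mul_one, norm_real, Real.norm_of_nonneg (by positivity)]
  have ha0 : a ≠ 0 := norm_pos_iff.1 (by rw [hn]; positivity)
  have hk : ((2 / √3 : ℝ) : ℂ) ≠ 0 := ofReal_ne_zero.2 (by positivity)
  have hb : Integrable b0 := contDiff_b0.continuous.integrable_of_hasCompactSupport
    (HasCompactSupport.intro (isCompact_closedBall 0 2) fun z hz => by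
      by_contra h
      exact hz (mem_closedBall_zero_iff.2 (ar_b0_supp z h)))
  have hF : ∀ ξ, FourierTransform.fourier b0 ξ
      = ((2 / √3 : ℝ) : ℂ)⁻¹ * ft b0 (conj (a⁻¹ * ξ + 0)) := by
    intro ξ
    rw [ft_eq_fourier, ← ha, Complex.conj_conj, add_zero, ← mul_assoc, inv_mul_cancel₀ hk,
      one_mul, ← mul_assoc, mul_inv_cancel₀ ha0, one_mul]
  have hI : Integrable (FourierTransform.fourier b0) := by
    rw [funext hF]
    refine Integrable.const_mul ?_ _
    have h1 : Integrable fun z => ft b0 (conj z) :=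
      (conjLIE.measurePreserving.integrable_comp_emb
        conjLIE.toHomeomorph.measurableEmbedding).2 kxRep_int_ft_b0
    have h2 := (fd_emb (inv_ne_zero ha0) 0).integrable_map_iff (μ := volume)
      (g := fun z => ft b0 (conj z))
    rw [fd_map (inv_ne_zero ha0)] at h2
    exact h2.1 (h1.smul_measure ENNReal.ofReal_ne_top)
  have h0 := hb.fourierInv_fourier_eq hI (v := 0) contDiff_b0.continuous.continuousAt
  rw [Real.fourierInv_eq, kxRep_b0] at h0
  simp only [inner_zero_right, AddChar.map_zero_eq_one, one_smul] at h0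
  have h4 := integral_comp_mul_left_complex (FourierTransform.fourier b0) ha0
  have h5 := kxRep_conj fun z => FourierTransform.fourier b0 (a * z)
  simp only [ft_eq_fourier, ← ha]
  rw [integral_const_mul, h5, h4, h0, hn, mul_one, ← ofReal_inv, ← ofReal_mul]
  congr 1
  field_simp

theorem kxRep_supp {w : ℂ → ℂ} (h : Rad w) (z : ℂ) (hz : w z ≠ 0) : ‖z‖ ≤ 2 := (h.supp z hz).2

theorem kxRep_Ia (h1 : ArchT) {w : ℂ → ℂ} (h : Rad w) (c z : ℂ) : IaT 0 w c z 0
    = ((2 / √3 : ℝ) : ℂ) * ∫ d : ℂ, a0 d * ft w (-(c / d)) * psi (d * (z / c)) := by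
  obtain ⟨M, -, hM⟩ := h1.bound w h
  have hi : Integrable (fun y : ℂ × ℂ => FintT 0 w c y * psi (-(y.1 * -(z / c) + y.2 * (0 / c))))
      ((volume : Measure ℂ).prod volume) := by
    refine (ar_int_prod (integrable_decay (σ := 3) (by norm_num))
      (integrable_decay (σ := 3) (by norm_num)) M).mono'
      ((h1.smooth 0 w c h).continuous.mul
        (continuous_psi.comp (by fun_prop))).aestronglyMeasurable
      (Eventually.of_forall fun y => ?_)
    rw [norm_mul, norm_psi, mul_one]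
    exact hM 0 c y
  have hs : ((4 / 3 : ℝ) : ℂ) * ((√3 / 2 : ℝ) : ℂ) = ((2 / √3 : ℝ) : ℂ) := by
    rw [← ofReal_mul]
    congr 1
    have h3 : (0 : ℝ) < √3 := by positivity
    have hs : √3 * √3 = (3 : ℝ) := Real.mul_self_sqrt (by norm_num)
    field_simp
    nlinarith
  rw [IaT, ft2, Measure.volume_eq_prod, integral_prod _ hi, ← hs, mul_assoc]
  congr 1
  rw [← integral_const_mul]
  congr 1
  funext d
  by_cases hd : a0 d = 0
  · simp [FintT, hd]
  have hd1 := (a0_supp hd).1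
  have hd0 : d ≠ 0 := norm_pos_iff.1 (by linarith)
  have e : ∀ x : ℂ, FintT 0 w c (d, x) * psi (-(d * -(z / c) + x * (0 / c)))
      = (((‖d‖ ^ 2 : ℝ) : ℂ)⁻¹ * (a0 d * ft w (-(c / d)) * psi (d * (z / c))))
        * ft b0 (d⁻¹ * x) := by
    intro x
    simp only [FintT, ofReal_zero, zero_mul, zero_div, psi_zero, mul_zero, add_zero, mul_neg,
      neg_neg]
    rw [div_eq_inv_mul x]
    ring
  simp only [e]
  have hN : ((‖d‖ ^ 2 : ℝ) : ℂ) ≠ 0 := ofReal_ne_zero.2 (by positivity)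
  rw [integral_const_mul, integral_comp_mul_left_complex _ (inv_ne_zero hd0), kxRep_inv, norm_inv,
    inv_pow, ofReal_inv, inv_inv]
  field_simp

theorem kxRep_meas {w : ℂ → ℂ} (h : Rad w) : Measurable (ft w) :=
  (contDiff_ft h.smooth (kxRep_supp h)).continuous.measurable

theorem kxRep_one (h1 : ArchT) {w : ℂ → ℂ} (h : Rad w) (z : ℂ) :
    ∫ c : ℂ, ((‖c‖ ^ (-(4 / 3) : ℝ) : ℝ) : ℂ) * IaT 0 w c z 0
      = ((2 / √3 : ℝ) : ℂ) * (∫ d : ℂ, a0 d * ((‖d‖ ^ (2 / 3 : ℝ) : ℝ) : ℂ)) * Hx w z := by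
  obtain ⟨M, hM0, hM⟩ := ar_decay h.smooth (kxRep_supp h) 3
  have hw := kxRep_meas h
  have hp := continuous_psi.measurable
  have ha := contDiff_a0.continuous.measurable
  have hA : Integrable fun d => ‖a0 d‖ := (contDiff_a0.continuous.integrable_of_hasCompactSupport
    (HasCompactSupport.intro (isCompact_closedBall 0 2) fun z hz => by
      by_contra h
      exact hz (mem_closedBall_zero_iff.2 (a0_supp h).2.le))).norm
  have hi : Integrable (Function.uncurry fun c d : ℂ => ((‖c‖ ^ (-(4 / 3) : ℝ) : ℝ) : ℂ) *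
      (a0 d * ft w (-(c / d)) * psi (d * (z / c)))) ((volume : Measure ℂ).prod volume) := by
    refine (ar_int_prod (kxRep_sing (s := -(4 / 3)) (by norm_num) (by norm_num)) hA
      (M * 2 ^ 3)).mono' (Measurable.aestronglyMeasurable (by fun_prop))
      (Eventually.of_forall fun y => ?_)
    obtain ⟨c, d⟩ := y
    simp only [Function.uncurry_apply_pair, norm_mul, norm_psi, mul_one, norm_real]
    by_cases hd : a0 d = 0
    · simp [hd]
    obtain ⟨hl, hu⟩ := a0_supp hd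
    have e4 : ‖ft w (-(c / d))‖ ≤ M * (2 ^ 3 * (1 + ‖c‖) ^ (-3 : ℝ)) := by
      refine (hM _).trans (mul_le_mul_of_nonneg_left ?_ hM0.le)
      rw [show (-((3 : ℕ) : ℝ)) = (-3 : ℝ) by norm_num]
      refine ar_rpow_le (by positivity) (by positivity) two_pos ?_
      have : ‖c‖ ≤ 2 * ‖-(c / d)‖ := by
        rw [norm_neg, norm_div, ← mul_div_assoc, le_div_iff₀ (by linarith)]
        nlinarith [norm_nonneg c]
      linarith
    rw [Real.norm_of_nonneg (by positivity)]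
    calc _ ≤ ‖c‖ ^ (-(4 / 3) : ℝ) * (‖a0 d‖ * (M * (2 ^ 3 * (1 + ‖c‖) ^ (-3 : ℝ)))) := by gcongr
      _ = _ := by ring
  simp only [kxRep_Ia h1 h, mul_left_comm _ ((2 / √3 : ℝ) : ℂ)]
  rw [integral_const_mul, mul_assoc, ← integral_mul_const]
  congr 1
  simp only [← integral_const_mul]
  rw [integral_integral_swap hi]
  congr 1
  funext d
  by_cases hd : a0 d = 0
  · simp [hd]
  have hd1 := (a0_supp hd).1
  have hn : 0 < ‖d‖ := by linarith
  have hd0 : d ≠ 0 := norm_pos_iff.1 hn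
  have h4 := integral_comp_mul_left_complex (fun c => ((‖c‖ ^ (-(4 / 3) : ℝ) : ℝ) : ℂ) *
      (a0 d * ft w (-(c / d)) * psi (d * (z / c)))) hd0
  have hN : ((‖d‖ ^ 2 : ℝ) : ℂ) ≠ 0 := ofReal_ne_zero.2 (by positivity)
  rw [eq_inv_mul_iff_mul_eq₀ hN] at h4
  have h5 : ‖d‖ ^ (2 / 3 : ℝ) = ‖d‖ ^ 2 * ‖d‖ ^ (-(4 / 3) : ℝ) := by
    rw [← Real.rpow_natCast, ← Real.rpow_add hn]
    norm_num
  rw [← h4, Hx, ← integral_const_mul, ← integral_const_mul]
  congr 1
  funext y
  rw [norm_mul, Real.mul_rpow hn.le (norm_nonneg _), mul_div_cancel_left₀ _ hd0,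
    ← mul_div_assoc, mul_div_mul_left _ _ hd0, h5]
  push_cast
  ring

theorem kxRep_two : (∫ d : ℂ, a0 d * ((‖d‖ ^ (2 / 3 : ℝ) : ℝ) : ℂ)) ≠ 0 := by
  have hc : Continuous fun d : ℂ => w0 (‖d‖ ^ 2) * ‖d‖ ^ (2 / 3 : ℝ) :=
    (contDiff_w0.continuous.comp (by fun_prop)).mul
      (continuous_norm.rpow_const fun _ => Or.inr (by norm_num))
  have hs : HasCompactSupport fun d : ℂ => w0 (‖d‖ ^ 2) * ‖d‖ ^ (2 / 3 : ℝ) :=
    HasCompactSupport.intro (isCompact_closedBall 0 2) fun z hz => by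
      by_contra h
      have h1 : a0 z ≠ 0 := ofReal_ne_zero.2 (left_ne_zero_of_mul h)
      exact hz (mem_closedBall_zero_iff.2 (a0_supp h1).2.le)
  have hp := hc.integral_pos_of_hasCompactSupport_nonneg_nonzero (μ := volume)
    (x := ((3 / 2 : ℝ) : ℂ)) hs (fun d => mul_nonneg (w0_nonneg _) (by positivity)) (by
      rw [norm_real, Real.norm_of_nonneg (by norm_num)]
      exact (mul_pos (wt_w0_pos (by norm_num) (by norm_num)) (by positivity)).ne')
  simp only [a0, ← ofReal_mul]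
  rw [integral_complex_ofReal]
  exact ofReal_ne_zero.2 hp.ne'

theorem kxRep_three (h1 : ArchT) (h2 : IBdT) (w : ℂ → ℂ) (A : ℕ) (h : Rad w) :
    ∃ M : ℝ, 0 < M ∧ ∀ z, ‖Hx w z‖ ≤ M * (1 + ‖z‖) ^ (-A : ℝ) := by
  obtain ⟨C, hC, hb⟩ := h2 w (A + 3) h
  obtain ⟨k, hk⟩ : ∃ k : ℂ,
      k = ((2 / √3 : ℝ) : ℂ) * ∫ d : ℂ, a0 d * ((‖d‖ ^ (2 / 3 : ℝ) : ℝ) : ℂ) := ⟨_, rfl⟩
  have hk0 : 0 < ‖k‖ := norm_pos_iff.2 (by
    rw [hk]
    exact mul_ne_zero (ofReal_ne_zero.2 (by positivity)) kxRep_two)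
  have hI := kxRep_sing (s := -(1 / 3)) (by norm_num) (by norm_num)
  obtain ⟨J, hJ⟩ : ∃ J : ℝ, J = ∫ c : ℂ, ‖c‖ ^ (-(1 / 3) : ℝ) * (1 + ‖c‖) ^ (-3 : ℝ) := ⟨_, rfl⟩
  have hJ0 : 0 ≤ J := by rw [hJ]; exact integral_nonneg fun c => by positivity
  refine ⟨(J * C + 1) / ‖k‖, by positivity, fun z => ?_⟩
  have e := kxRep_one h1 h z
  rw [← hk] at e
  have hz : 0 < (1 + ‖z‖) ^ (-A : ℝ) := by positivity
  rw [div_mul_eq_mul_div, le_div_iff₀ hk0, mul_comm, ← norm_mul, ← e]
  refine (norm_integral_le_of_norm_le (hI.mul_const (C * (1 + ‖z‖) ^ (-A : ℝ)))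
    (Eventually.of_forall fun c => ?_)).trans ?_
  · by_cases hc : c = 0
    · subst hc
      rw [norm_zero, Real.zero_rpow (by norm_num), ofReal_zero, zero_mul, norm_zero]
      positivity
    have hn : 0 < ‖c‖ := norm_pos_iff.2 hc
    have b1 := (hb 0 le_rfl zero_le_one c z hc).1 0
    rw [norm_zero, add_zero, Real.one_rpow, mul_one] at b1
    have b2 : (1 + ‖c‖) ^ (-((A + 3 : ℕ) : ℝ)) ≤ (1 + ‖c‖) ^ (-3 : ℝ) :=
      Real.rpow_le_rpow_of_exponent_le (by linarith)
        (by push_cast; linarith [Nat.cast_nonneg (α := ℝ) A])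
    have b3 : (1 + ‖z‖) ^ (-((A + 3 : ℕ) : ℝ)) ≤ (1 + ‖z‖) ^ (-A : ℝ) :=
      Real.rpow_le_rpow_of_exponent_le (by linarith [norm_nonneg z]) (by push_cast; linarith)
    have b4 : ‖c‖ ^ (-(1 / 3) : ℝ) = ‖c‖ ^ (-(4 / 3) : ℝ) * ‖c‖ := by
      rw [← Real.rpow_add_one hn.ne']
      norm_num
    rw [norm_mul, norm_real, Real.norm_of_nonneg (by positivity), b4]
    calc _ ≤ ‖c‖ ^ (-(4 / 3) : ℝ) * (C * ‖c‖ * (1 + ‖c‖) ^ (-3 : ℝ) * (1 + ‖z‖) ^ (-A : ℝ)) := by
          gcongr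
          exact b1.trans (by gcongr)
      _ = _ := by ring
  · rw [integral_mul_const, ← hJ]
    nlinarith

theorem kxRep_four {w : ℂ → ℂ} (h : Rad w) : Continuous (Hx w) := by
  obtain ⟨M, hM0, hM⟩ := ar_decay h.smooth (kxRep_supp h) 3
  have hw := kxRep_meas h
  have hp := continuous_psi.measurable
  refine continuous_of_dominated (fun z => Measurable.aestronglyMeasurable (by fun_prop))
    (fun z => Eventually.of_forall fun y => ?_)
    ((kxRep_sing (s := -(4 / 3)) (by norm_num) (by norm_num)).mul_const M)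
    (Eventually.of_forall fun y => continuous_const.mul (continuous_psi.comp (by fun_prop)))
  have b := hM (-y)
  rw [norm_neg, show (-((3 : ℕ) : ℝ)) = (-3 : ℝ) by norm_num] at b
  rw [norm_mul, norm_psi, mul_one, norm_mul, norm_real, Real.norm_of_nonneg (by positivity),
    mul_assoc, mul_comm _ M]
  gcongr

theorem kxRep_five {w : ℂ → ℂ} (h : Rad w) {u : ℂ} (hu : ‖u‖ = 1) (z : ℂ) :
    Hx w (u * z) = Hx w z := by
  have hu0 := ar_ne hu
  have hr : ∀ η, ft w (u * η) = ft w η := fun η => by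
    rw [← QRH.ft_rot (k := 1) hu (fun z => by rw [h.rot u z hu, one_mul]) η, one_mul]
  have h4 := integral_comp_mul_left_complex
    (fun y => ((‖y‖ ^ (-(4 / 3) : ℝ) : ℝ) : ℂ) * ft w (-y) * psi (u * z / y)) hu0
  rw [hu, one_pow, ofReal_one, inv_one, one_mul] at h4
  rw [Hx, ← h4, Hx]
  congr 1
  funext y
  rw [norm_mul, hu, one_mul, ← mul_neg, hr, mul_div_mul_left _ _ hu0]

theorem kxRep (h1 : ArchT) (h2 : IBdT) : KxRep :=
  ⟨fun _ z h => kxRep_one h1 h z, kxRep_two, kxRep_three h1 h2, fun _ h => kxRep_four h,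
    fun _ _ z h hu => kxRep_five h hu z⟩

end Pat
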