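import Vale.Agent.P006.IfC
import Vale.Agent.P026.Cnt

/-! Products of large primes, the whole range. -/

noncomputable section
namespace Pat
open QRH Complex MeasureTheory Filter
open scoped ComplexConjugate Classical ContDiff Topology

theorem lph_Y {X T : ℝ} (hX : 1 ≤ X) (hT : 1 ≤ T) (hT' : T ≤ Tmax X) :
    X ^ (1 / 5 : ℝ) ≤ Y1 X T ∧ Y1 X T ≤ X ^ (0.43 : ℝ) ∧
      X ^ (1 / 3 + 1 / 25 : ℝ) ≤ Y1 X T * T := by
  have hX0 : 0 < X := by linarith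
  have hT0 : 0 < T := by linarith
  have k : ∀ a : ℝ, 0 ≤ a → X ^ (-((1 / 6 + 1 / 1000) * a)) ≤ T ^ (-a) := fun a ha => by
    rw [← mul_neg, Real.rpow_mul hX0.le]
    exact Real.rpow_le_rpow_of_nonpos hT0 hT' (by linarith)
  refine ⟨?_, ?_, ?_⟩
  · refine le_trans ?_ (mul_le_mul_of_nonneg_left (k (4 / 3) (by norm_num)) (by positivity))
    rw [← Real.rpow_add hX0]
    exact Real.rpow_le_rpow_of_exponent_le hX (by norm_num)
  · rw [show (0.43 : ℝ) = 43 / 100 by norm_num]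
    exact mul_le_of_le_one_right (by positivity)
      (Real.rpow_le_one_of_one_le_of_nonpos hT (by norm_num))
  · have e : Y1 X T * T = X ^ (43 / 100 : ℝ) * T ^ (-(1 / 3) : ℝ) := by
      rw [Y1, mul_assoc, ← Real.rpow_add_one hT0.ne']
      norm_num
    rw [e]
    refine le_trans ?_ (mul_le_mul_of_nonneg_left (k (1 / 3) (by norm_num)) (by positivity))
    rw [← Real.rpow_add hX0]
    exact Real.rpow_le_rpow_of_exponent_le hX (by norm_num)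

theorem lph_nrm2 (hb : BA) {α : Finset P → ℂ} {K R : ℝ} (hR : 0 ≤ R) (h : ∀ c, ‖α c‖ ≤ K) :
    nrm2 α R ≤ 12 * R * K ^ 2 := by
  have h1 := hb.card_sup R ∅ hR
  simp only [Finset.empty_subset, Finset.filter_true, Ns_empty, div_one] at h1
  refine (Finset.sum_le_card_nsmul _ _ (K ^ 2) fun c _ =>
    pow_le_pow_left₀ (norm_nonneg _) (h c) 2).trans ?_
  rw [nsmul_eq_mul]
  gcongr

theorem lph_first {X T B Λ c : ℝ} (hX : 1 ≤ X) (hT : 1 ≤ T) (hT' : T ≤ Tmax X) (hΛ : 0 < Λ)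
    (hB : min (Y1 X T) (X ^ (1 / 3 : ℝ)) / Λ ≤ B) (hc : c ≤ 1 / 25) :
    X / B * (X / T) ≤ Λ * X ^ (5 / 3 : ℝ) * (T ^ (-c) + X ^ (-c)) := by
  have hX0 : 0 < X := by linarith
  have hT0 : 0 < T := by linarith
  obtain ⟨h1, -, h3⟩ := lph_Y hX hT hT'
  have hY : 0 < Y1 X T := lt_of_lt_of_le (by positivity) h1
  have hm : 0 < min (Y1 X T) (X ^ (1 / 3 : ℝ)) := lt_min hY (by positivity)
  have hB0 : 0 < B := lt_of_lt_of_le (by positivity) hB
  have h4 : X / B * (X / T) ≤ Λ * (X * X / (min (Y1 X T) (X ^ (1 / 3 : ℝ)) * T)) := by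
    calc _ ≤ X / (min (Y1 X T) (X ^ (1 / 3 : ℝ)) / Λ) * (X / T) := by gcongr
      _ = _ := by field_simp
  refine h4.trans ?_
  rw [mul_assoc]
  refine mul_le_mul_of_nonneg_left ?_ hΛ.le
  have e : X * X = X ^ (5 / 3 : ℝ) * X ^ (1 / 3 : ℝ) := by
    rw [← Real.rpow_add hX0, ← sq, ← Real.rpow_natCast]
    norm_num
  rw [e, mul_div_assoc]
  refine mul_le_mul_of_nonneg_left ?_ (by positivity)
  rcases min_choice (Y1 X T) (X ^ (1 / 3 : ℝ)) with h | h <;> rw [h]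
  · refine le_trans ?_ (le_add_of_nonneg_left (by positivity))
    calc _ ≤ X ^ (1 / 3 : ℝ) / X ^ (1 / 3 + 1 / 25 : ℝ) := by gcongr
      _ = X ^ (-(1 / 25) : ℝ) := by rw [← Real.rpow_sub hX0]; norm_num
      _ ≤ _ := Real.rpow_le_rpow_of_exponent_le hX (by linarith)
  · refine le_trans ?_ (le_add_of_nonneg_right (by positivity))
    calc _ = T ^ (-1 : ℝ) := by rw [Real.rpow_neg_one]; field_simp
      _ ≤ _ := Real.rpow_le_rpow_of_exponent_le hT (by linarith)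

theorem lph_sq {D : ℝ} (hD : 0 ≤ D) : D ≤ (√D + 1) ^ 2 := by
  nlinarith [Real.sq_sqrt hD, Real.sqrt_nonneg D]

theorem lph_B {X T B : ℝ} (hX1 : ((3 : ℝ) ^ 51) ^ 10 ≤ X) (hT : 1 ≤ T) (hT' : T ≤ Tmax X)
    (hB1 : B ≤ 2 * √X) (hB2 : min (Y1 X T) (X ^ (1 / 3 : ℝ)) / 3 ^ 51 ≤ B) :
    1 ≤ X ∧ X ^ (1 / 10 : ℝ) ≤ B ∧ 1 ≤ B ∧ B ≤ X ∧ wX X ≤ √B := by
  have hX4 : 4 ≤ X := le_trans (by norm_num) hX1
  have hX2 : 1 ≤ X := by linarith
  have hX0 : 0 < X := by linarith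
  obtain ⟨y1, -, -⟩ := lph_Y hX2 hT hT'
  have b1 : (3 : ℝ) ^ 51 ≤ X ^ (1 / 10 : ℝ) := by
    calc (3 : ℝ) ^ 51 = (((3 : ℝ) ^ 51) ^ 10) ^ (1 / 10 : ℝ) := by
          rw [← Real.rpow_natCast _ 10, ← Real.rpow_mul (by positivity)]
          norm_num
      _ ≤ _ := Real.rpow_le_rpow (by positivity) hX1 (by norm_num)
  have b2 : X ^ (1 / 10 : ℝ) ≤ B := by
    refine le_trans ?_ hB2
    rw [le_div_iff₀ (by positivity)]
    calc _ ≤ X ^ (1 / 10 : ℝ) * X ^ (1 / 10 : ℝ) := by gcongr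
      _ = X ^ (1 / 5 : ℝ) := by rw [← Real.rpow_add hX0]; norm_num
      _ ≤ _ := le_min y1 (Real.rpow_le_rpow_of_exponent_le hX2 (by norm_num))
  refine ⟨hX2, b2, (Real.one_le_rpow hX2 (by norm_num)).trans b2, hB1.trans ?_, ?_⟩
  · have h1 : 2 ≤ √X := Real.le_sqrt_of_sq_le (by linarith)
    calc 2 * √X ≤ √X * √X := by gcongr
      _ = X := Real.mul_self_sqrt hX0.le
  · refine Real.le_sqrt_of_sq_le (le_trans ?_ b2)
    rw [wX, ← Real.rpow_natCast, ← Real.rpow_mul hX0.le]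
    exact Real.rpow_le_rpow_of_exponent_le hX2 (by norm_num)

theorem lph_add_sq {T X e : ℝ} (hT0 : 0 < T) (hX0 : 0 < X) :
    T ^ (-(2 * e)) + X ^ (-(2 * e)) ≤ (T ^ (-e) + X ^ (-e)) ^ 2 := by
  rw [show -(2 * e) = -e * 2 by ring, Real.rpow_mul hT0.le, Real.rpow_mul hX0.le,
    Real.rpow_two, Real.rpow_two]
  nlinarith [mul_pos (Real.rpow_pos_of_pos hT0 (-e)) (Real.rpow_pos_of_pos hX0 (-e))]

theorem lph_bil (hb : BA) (hc : CvF) (h4 : ShB) (h5 : CR) {φ : ℝ → ℂ} (hφ : Bump φ) :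
    ∃ (k : ℕ) (c C X0 : ℝ), 0 < c ∧ 0 < C ∧ ∀ (X T τ : ℝ) (l1 l2 : List ℤ), X0 ≤ X → 1 ≤ T →
      T ≤ Tmax X → l1.length ≤ 51 → l2.length ≤ 51 → Bl l2 ≤ 2 * √X →
      min (Y1 X T) (X ^ (1 / 3 : ℝ)) / 3 ^ 51 ≤ Bl l2 →
      ‖Bil tt (Cv (l1.map (pu (wX X) τ 1))) (nb (wX X) τ 1 l2) X (Bl l2) (3 ^ 51 * Bl l2) T φ‖
        ≤ C * X ^ (5 / 6 : ℝ) * (T ^ (-c) + X ^ (-c)) * (1 + |τ|) ^ k := by
  obtain ⟨δ1, δ2, k, C1, hδ1, hδ2, hδ1', hC1, H1⟩ := h5 (1 / 50) 51 (by norm_num)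
  obtain ⟨δc, c, C2, X0, -, -, hc0, hC2, H2⟩ := h4 φ (3 ^ 51) δ1 δ2 (1 / 50) k hφ
    (by norm_num) hδ1 hδ1' hδ2 (by norm_num)
  obtain ⟨K, hK⟩ : ∃ K : ℝ, K = 2 ^ 51 * (51 : ℕ).factorial := ⟨_, rfl⟩
  obtain ⟨e, he⟩ : ∃ e : ℝ, e = min c (1 / 25) / 2 := ⟨_, rfl⟩
  have he0 : 0 < e := by rw [he]; positivity
  have he1 : 2 * e ≤ c := by rw [he]; linarith [min_le_left c (1 / 25)]
  have he2 : 2 * e ≤ 1 / 25 := by rw [he]; linarith [min_le_right c (1 / 25)]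
  obtain ⟨D, hD⟩ : ∃ D : ℝ, D = C2 * (C1 + 1) * (36 * K ^ 2) * (3 ^ 51 + 1) := ⟨_, rfl⟩
  have hD0 : 0 ≤ D := by rw [hD]; positivity
  refine ⟨k, e, √D + 1, max X0 ((3 ^ 51) ^ 10), he0, by positivity,
    fun X T τ l1 l2 hX hT hT' hl1 hl2 hB1 hB2 => ?_⟩
  obtain ⟨hX2, b2, b3, b4, b5⟩ := lph_B ((le_max_right _ _).trans hX) hT hT' hB1 hB2
  have hX0 : 0 < X := by linarith
  have hT0 : 0 < T := by linarith
  have cr := H1 (wX X) τ 1 l2 hl2 (by norm_num) b3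
    (Real.rpow_le_rpow (by linarith) b4 (by norm_num)) b5
  have u1 : 1 ≤ (1 + |τ|) ^ k := one_le_pow₀ (le_add_of_nonneg_right (abs_nonneg _))
  have key := H2 (Cv (l1.map (pu (wX X) τ 1))) (nb (wX X) τ 1 l2) X (Bl l2) T (wX X)
    ((C1 + 1) * (1 + |τ|) ^ k) ((le_max_left _ _).trans hX) hT hT' b2
    (hB1.trans (by gcongr; norm_num)) (Real.one_le_rpow hX2 (by norm_num))
    (one_le_mul_of_one_le_of_one_le (by linarith) u1) (hc.gb _ τ 1 l2 51 hl2 (by norm_num))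
    (Or.inr (Or.inr ⟨le_rfl, fun s hs => (cr s hs).trans (by gcongr; linarith)⟩))
  have n2 : nrm2 (Cv (l1.map (pu (wX X) τ 1))) (3 * X / Bl l2) ≤ 12 * (3 * X / Bl l2) * K ^ 2 :=
    lph_nrm2 hb (by positivity) fun s => (hc.norm_le _ τ 1 l1 s (by norm_num)).trans (by
      rw [hK]
      gcongr
      norm_num)
  have f1 := lph_first (c := 2 * e) hX2 hT hT' (by positivity) hB2 he2
  have f2 : X / Bl l2 * MM (X / Bl l2) (Bl l2) = X ^ (5 / 3 : ℝ) := by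
    rw [MM, ← mul_assoc, mul_comm (X / Bl l2), ← Real.rpow_add_one (by positivity),
      show (2 / 3 + 1 : ℝ) = 5 / 3 by norm_num, ← Real.mul_rpow (by positivity) (by positivity),
      div_mul_cancel₀ _ (by positivity)]
  have f3 : T ^ (-(4 / 5) : ℝ) + X ^ (-c) ≤ T ^ (-(2 * e)) + X ^ (-(2 * e)) :=
    add_le_add (Real.rpow_le_rpow_of_exponent_le hT (by linarith))
      (Real.rpow_le_rpow_of_exponent_le hX2 (by linarith))
  have f4 := lph_add_sq (e := e) hT0 hX0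
  have f5 : X ^ (5 / 3 : ℝ) = (X ^ (5 / 6 : ℝ)) ^ 2 := by
    rw [← Real.rpow_natCast, ← Real.rpow_mul hX0.le]
    norm_num
  have m0 : 0 ≤ MM (X / Bl l2) (Bl l2) := by unfold MM; positivity
  refine (pow_le_pow_iff_left₀ (norm_nonneg _) (by positivity) two_ne_zero).1 (key.trans ?_)
  calc _ ≤ C2 * ((C1 + 1) * (1 + |τ|) ^ k) * (12 * (3 * X / Bl l2) * K ^ 2) *
        (X / T + MM (X / Bl l2) (Bl l2) * (T ^ (-(2 * e)) + X ^ (-(2 * e)))) := by gcongr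
    _ = C2 * (C1 + 1) * (36 * K ^ 2) * (1 + |τ|) ^ k * (X / Bl l2 * (X / T) +
        X / Bl l2 * MM (X / Bl l2) (Bl l2) * (T ^ (-(2 * e)) + X ^ (-(2 * e)))) := by ring
    _ ≤ C2 * (C1 + 1) * (36 * K ^ 2) * (1 + |τ|) ^ k *
        (3 ^ 51 * X ^ (5 / 3 : ℝ) * (T ^ (-(2 * e)) + X ^ (-(2 * e))) +
        X ^ (5 / 3 : ℝ) * (T ^ (-(2 * e)) + X ^ (-(2 * e)))) := by rw [f2]; gcongr
    _ = D * X ^ (5 / 3 : ℝ) * (T ^ (-(2 * e)) + X ^ (-(2 * e))) * (1 + |τ|) ^ k := by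
        rw [hD]; ring
    _ ≤ (√D + 1) ^ 2 * X ^ (5 / 3 : ℝ) * (T ^ (-e) + X ^ (-e)) ^ 2 * ((1 + |τ|) ^ k) ^ 2 := by
        gcongr
        · exact lph_sq hD0
        · exact le_self_pow₀ u1 two_ne_zero
    _ = _ := by rw [f5]; ring

theorem lph_card {X : ℝ} (hX : 3 ≤ X) : ((JX X).card : ℝ) ≤ 7 * Real.log X := by
  have h1 : 1 ≤ Real.log X := by
    rw [Real.le_log_iff_exp_le (by linarith)]
    linarith [Real.exp_one_lt_d9]
  have h2 : Real.log (3 * X) ≤ 2 * Real.log X := by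
    rw [Real.log_mul (by norm_num) (by linarith)]
    linarith [Real.log_le_log (by norm_num) hX]
  have h3 : 0 ≤ Real.log (3 * X) := Real.log_nonneg (by linarith)
  have h4 : (0 : ℤ) ≤ ⌈2 * Real.log (3 * X)⌉ + 1 := by positivity
  rw [JX, Int.card_Icc, sub_zero, ← Int.cast_natCast, Int.toNat_of_nonneg h4]
  push_cast
  linarith [Int.ceil_lt_add_one (2 * Real.log (3 * X))]

theorem lPH (hb : BA) (hc : CvF) (h1 : LPdec) (h2 : LPsp) (h3 : Comb) (h4 : ShB) (h5 : CR) :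
    LPH := by
  intro φ hφ
  obtain ⟨X1, H1⟩ := h1
  obtain ⟨X3, H3⟩ := h3
  obtain ⟨k, c, C, X0, hc0, hC, H⟩ := lph_bil hb hc h4 h5 hφ
  obtain ⟨C2, hC2, H2⟩ := h2 k 51
  obtain ⟨D, hD⟩ : ∃ D : ℝ, D = 50 * 7 ^ 51 * (C2 * 2 * C) := ⟨_, rfl⟩
  have hD0 : 0 < D := by rw [hD]; positivity
  refine ⟨52, c / 2, D * (1 + (104 / c) ^ 52), max (max X0 X1) (max X3 3), by positivity,
    by positivity, fun X T hX hT hT' => ?_⟩
  have g0 : X0 ≤ X := ((le_max_left _ _).trans (le_max_left _ _)).trans hX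
  have g1 : X1 ≤ X := ((le_max_right _ _).trans (le_max_left _ _)).trans hX
  have g3 : X3 ≤ X := ((le_max_left _ _).trans (le_max_right _ _)).trans hX
  have g4 : 3 ≤ X := ((le_max_right _ _).trans (le_max_right _ _)).trans hX
  have hX1 : 1 ≤ X := by linarith
  have hX0 : 0 < X := by linarith
  have hL : 1 ≤ Real.log X := by
    rw [Real.le_log_iff_exp_le hX0]
    linarith [Real.exp_one_lt_d9]
  obtain ⟨y1, y2, -⟩ := lph_Y hX1 hT hT'
  have y3 : 1 ≤ Y1 X T := (Real.one_le_rpow hX1 (by norm_num)).trans y1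
  have y4 : Real.log (Y1 X T) ≤ Real.log X := Real.log_le_log (by linarith)
    (y2.trans (Real.rpow_le_self_of_one_le hX1 (by norm_num)))
  obtain ⟨M, hM⟩ : ∃ M : ℝ, M = C * X ^ (5 / 6 : ℝ) * (T ^ (-c) + X ^ (-c)) := ⟨_, rfl⟩
  have hM0 : 0 ≤ M := by rw [hM]; positivity
  have one : ∀ l : List ℤ, 2 ≤ l.length → l.length ≤ 51 →
      ‖Cfg tt X T φ (Y1 X T) (wX X) l‖ ≤ C2 * (2 * Real.log X) * M := fun l l2 l51 => by
    by_cases h0 : Cfg tt X T φ (Y1 X T) (wX X) l = 0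
    · rw [h0, norm_zero]
      positivity
    obtain ⟨l1, l2, hp, -, -, b1, -, b2, -⟩ := (H3 X _ g3 y3 y2).1 tt T φ l hφ hT l2 l51 h0
    have e := hp.length_eq
    rw [List.length_append] at e
    refine ((H2 tt X T _ (wX X) φ l l1 l2 hφ hX0 hT y3 hp (by omega)).1 M hM0 fun τ =>
      hM ▸ H X T τ l1 l2 g0 hT hT' (by omega) (by omega) b1 b2).trans ?_
    gcongr
    linarith
  have hJ := lph_card g4
  have tot : ‖LP tt X T φ (Y1 X T) (wX X)‖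
      ≤ 50 * ((7 * Real.log X) ^ 51 * (C2 * (2 * Real.log X) * M)) := by
    rw [H1 tt X T _ φ g1]
    refine (norm_sum_le _ _).trans ((Finset.sum_le_card_nsmul _ _
      ((7 * Real.log X) ^ 51 * (C2 * (2 * Real.log X) * M)) fun n hn => ?_).trans
      (by rw [Nat.card_Icc, nsmul_eq_mul]; norm_num))
    obtain ⟨n2, n51⟩ := Finset.mem_Icc.1 hn
    have f1 : ‖(n.factorial : ℂ)⁻¹‖ ≤ 1 := by
      rw [norm_inv, Complex.norm_natCast]
      exact inv_le_one_of_one_le₀ (by exact_mod_cast n.factorial_pos)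
    rw [norm_mul]
    refine (mul_le_of_le_one_left (norm_nonneg _) f1).trans ((norm_sum_le _ _).trans
      ((Finset.sum_le_card_nsmul _ _ _ fun f _ => one _ (by simpa using n2)
        (by simpa using n51)).trans ?_))
    rw [nsmul_eq_mul, Fintype.card_piFinset, Finset.prod_const, Finset.card_univ, Fintype.card_fin]
    push_cast
    refine mul_le_mul_of_nonneg_right ?_ (by positivity)
    exact (pow_le_pow_left₀ (Nat.cast_nonneg _) hJ n).trans (pow_le_pow_right₀ (by linarith) n51)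
  refine tot.trans ?_
  have a1 : T ^ (-c) ≤ T ^ (-(c / 2)) := Real.rpow_le_rpow_of_exponent_le hT (by linarith)
  have a2 : Real.log X ^ 52 * X ^ (-c) ≤ (104 / c) ^ 52 * X ^ (-(c / 2)) := by
    have h6 := Real.log_le_rpow_div hX0.le (show 0 < c / 104 by positivity)
    calc _ ≤ (X ^ (c / 104) / (c / 104)) ^ 52 * X ^ (-c) := by gcongr
      _ = (104 / c) ^ 52 * ((X ^ (c / 104)) ^ 52 * X ^ (-c)) := by field_simp
      _ = _ := by
          rw [← Real.rpow_natCast (X ^ _), ← Real.rpow_mul hX0.le, ← Real.rpow_add hX0]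
          congr 2
          push_cast
          ring
  have p1 : 0 ≤ Real.log X ^ 52 * T ^ (-(c / 2)) := by positivity
  have p2 : 0 ≤ X ^ (-(c / 2)) := by positivity
  have p3 : 0 ≤ (104 / c) ^ 52 := by positivity
  calc _ = D * X ^ (5 / 6 : ℝ) * (Real.log X ^ 52 * T ^ (-c) + Real.log X ^ 52 * X ^ (-c)) := by
        rw [hD, hM]; ring
    _ ≤ D * X ^ (5 / 6 : ℝ) * ((1 + (104 / c) ^ 52) *
        (Real.log X ^ 52 * T ^ (-(c / 2)) + X ^ (-(c / 2)))) := by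
        have a3 : Real.log X ^ 52 * T ^ (-c) ≤ Real.log X ^ 52 * T ^ (-(c / 2)) := by gcongr
        gcongr
        nlinarith [mul_nonneg p3 p1]
    _ = _ := by ring

end Pat
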