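import Vale.Agent.P006.LPSAux2

noncomputable section
namespace Pat
open QRH Complex MeasureTheory Filter
open scoped ComplexConjugate Classical ContDiff Topology

theorem lPS1 (hb : BA) (hc : CvF) (h1 : LPsp) (h2 : Comb) (h3 : SmB) (h4 : SC) (h5 : CR) :
    LPS1 := by
  intro φ k0 hφ
  obtain ⟨CA, hCA, hA⟩ := LPS_wide hc h1 h3 h4 h5 hφ k0
  obtain ⟨CB, hCB, hB⟩ := LPS_narrow hb hc h1 h3 h4 h5 hφ k0
  obtain ⟨X2, h2⟩ := h2
  obtain ⟨X0, hX0⟩ := eventually_atTop.1 (hA.and (hB.and ((eventually_ge_atTop X2).and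
    ((eventually_ge_atTop 3).and (LPS_ev 1 (2 * k0) (c := 1 / 100) (by norm_num))))))
  refine ⟨CA + CB, X0, by positivity, fun X T l hX hT hT' hl hl' => ?_⟩
  obtain ⟨hA, hB, hX2, hX3, e1⟩ := hX0 X hX
  have hX1 : 1 ≤ X := by linarith
  have hL : 0 ≤ Real.log X := Real.log_nonneg hX1
  obtain ⟨y1, y2⟩ := LPS_Y hX1 hT hT' (by rwa [one_mul] at e1)
  have y3 : 1 ≤ Y1 X T := (Real.one_le_rpow hX1 (by norm_num)).trans y1
  have y4 : Y1 X T ≤ X := y2.trans (Real.rpow_le_self_of_one_le hX1 (by norm_num))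
  obtain ⟨c1, c2⟩ := h2 X (Y1 X T) hX2 y3 y2
  by_cases h0 : Cfg dl X T φ (Y1 X T) (wX X) l = 0
  · left
    rw [h0, norm_zero]
    positivity
  obtain ⟨l1, l2, hp, -, hne, b1, -, -, b2 | hN⟩ := c1 dl T φ l hφ hT hl hl' h0
  · left
    rw [min_eq_right ((Real.rpow_le_rpow_of_exponent_le hX1 (by norm_num)).trans y1)] at b2
    refine (hA T _ l l1 l2 hT hT' y3 y4 hl' hp hne b1 b2).trans ?_
    gcongr
    linarith
  · right
    have hnu : ∀ c, Cv (l.map (pu (wX X) 0 0)) c ≠ 0 → nu (Y1 X T) c = -2 := fun c h => by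
      rw [hc.perm _ _ (hp.map _)] at h
      exact c2 l1 l2 _ c hN ((Real.rpow_le_rpow_of_exponent_le hX1 (by norm_num)).trans y1) h
    obtain ⟨a, b, m, rfl, rfl, ha, hb', hi, s1, s2⟩ := hN
    refine ⟨hp.length_eq, ?_, m, hp.mem_iff.2 (by simp), fun i hi' => ?_, ?_⟩
    · rw [hp.sum_eq]
      simp only [List.cons_append, List.nil_append, List.sum_cons, List.sum_nil, add_zero]
      push_cast
      linarith
    · have := hp.mem_iff.1 hi'
      simp only [List.cons_append, List.nil_append, List.mem_cons, List.not_mem_nil,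
        or_false] at this
      omega
    · refine (hB T _ l a b m hT hT' y3 hp b1 ha hb' (fun i h => (hi i h).1) s1 s2 hnu).trans ?_
      gcongr <;> linarith

theorem LPS_geo : ∃ S : ℝ, 1 ≤ S ∧ ∀ (c : ℝ) (J : Finset ℤ),
    ∑ j ∈ J, Real.exp (-(|(j : ℝ) - c| / 48)) ≤ S := by
  have h0 : Summable fun n : ℕ => Real.exp (-((n : ℝ) / 48)) := by
    have h1 := summable_geometric_of_lt_one (Real.exp_pos (-(1 / 48))).le
      (Real.exp_lt_one_iff.2 (by norm_num))
    refine h1.congr fun n => ?_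
    rw [← Real.exp_nat_mul]
    exact congrArg _ (by ring)
  have hs : Summable fun k : ℤ => Real.exp (-(|(k : ℝ)| / 48)) := by
    refine Summable.of_nat_of_neg (h0.congr fun n => ?_) (h0.congr fun n => ?_)
    · rw [Int.cast_natCast, Nat.abs_cast]
    · rw [Int.cast_neg, abs_neg, Int.cast_natCast, Nat.abs_cast]
  have hs0 : 0 ≤ ∑' k : ℤ, Real.exp (-(|(k : ℝ)| / 48)) := tsum_nonneg fun k => by positivity
  refine ⟨3 * ∑' k : ℤ, Real.exp (-(|(k : ℝ)| / 48)) + 1, by linarith, fun c J => ?_⟩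
  have key : ∀ j ∈ J, Real.exp (-(|(j : ℝ) - c| / 48))
      ≤ 3 * Real.exp (-(|((j - ⌊c⌋ : ℤ) : ℝ)| / 48)) := by
    intro j _
    have h1 : |((j - ⌊c⌋ : ℤ) : ℝ)| ≤ |(j : ℝ) - c| + 1 := by
      push_cast
      rw [abs_le]
      constructor <;> linarith [Int.floor_le c, Int.lt_floor_add_one c, le_abs_self ((j : ℝ) - c),
        neg_abs_le ((j : ℝ) - c)]
    have h2 : Real.exp (-(|(j : ℝ) - c| / 48))
        ≤ Real.exp 1 * Real.exp (-(|((j - ⌊c⌋ : ℤ) : ℝ)| / 48)) := by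
      rw [← Real.exp_add]
      exact Real.exp_le_exp.2 (by linarith)
    exact h2.trans (mul_le_mul_of_nonneg_right (by linarith [Real.exp_one_lt_d9])
      (Real.exp_pos _).le)
  refine (Finset.sum_le_sum key).trans ?_
  rw [← Finset.mul_sum, ← Finset.sum_image (f := fun k : ℤ => Real.exp (-(|(k : ℝ)| / 48)))
    (g := fun j => j - ⌊c⌋) (fun a _ b _ h => sub_left_injective h)]
  linarith [hs.sum_le_tsum (J.image fun j => j - ⌊c⌋) fun k _ => (Real.exp_pos _).le]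

theorem LPS_three {l : List ℤ} {m : ℤ} {L : ℝ} (hl : l.length = 3) (hs : 2 * L - 6 ≤ l.sum)
    (hm : ∀ i ∈ l, i ≤ m + 2) :
    Real.exp (-((m - 2 / 3 * L) / 8))
      ≤ 3 * (l.map fun i : ℤ => Real.exp (-(|(i : ℝ) - 2 / 3 * L| / 48))).prod := by
  obtain ⟨x, y, z, rfl⟩ := List.length_eq_three.1 hl
  have hx : (x : ℝ) ≤ m + 2 := by exact_mod_cast hm x (by simp)
  have hy : (y : ℝ) ≤ m + 2 := by exact_mod_cast hm y (by simp)
  have hz : (z : ℝ) ≤ m + 2 := by exact_mod_cast hm z (by simp)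
  simp only [List.sum_cons, List.sum_nil, add_zero] at hs
  push_cast at hs
  have ax : |(x : ℝ) - 2 / 3 * L| ≤ 2 * (m - 2 / 3 * L) + 10 := abs_le.2 ⟨by linarith, by linarith⟩
  have ay : |(y : ℝ) - 2 / 3 * L| ≤ 2 * (m - 2 / 3 * L) + 10 := abs_le.2 ⟨by linarith, by linarith⟩
  have az : |(z : ℝ) - 2 / 3 * L| ≤ 2 * (m - 2 / 3 * L) + 10 := abs_le.2 ⟨by linarith, by linarith⟩
  simp only [List.map_cons, List.map_nil, List.prod_cons, List.prod_nil, mul_one]
  rw [← Real.exp_add, ← Real.exp_add]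
  refine le_trans ?_ (mul_le_mul_of_nonneg_right (b := Real.exp 1)
    (by linarith [Real.exp_one_lt_d9]) (Real.exp_pos _).le)
  rw [← Real.exp_add]
  exact Real.exp_le_exp.2 (by linarith)

theorem lPS (hb : BA) (h1 : LPdec) (h2 : LPS1) : LPS := by
  intro φ k0 hφ
  obtain ⟨X1, h1⟩ := h1
  obtain ⟨C, X2, hC, h2⟩ := h2 φ k0 hφ
  obtain ⟨S, hS, hg⟩ := LPS_geo
  obtain ⟨K, hK⟩ : ∃ K : ℝ, K = 3 ^ 51 := ⟨_, rfl⟩
  have hK0 : 0 < K := by rw [hK]; positivity
  refine ⟨50 * (C * K + 3 * C * S ^ 51), max (max X1 X2) (Real.exp 5), by positivity,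
    fun X T hX hT hT' => ?_⟩
  have hX5 : Real.exp 5 ≤ X := le_of_max_le_right hX
  have hX0 : 0 < X := (Real.exp_pos 5).trans_le hX5
  obtain ⟨L, hLe⟩ : ∃ L, L = Real.log X := ⟨_, rfl⟩
  have hL : 5 ≤ L := by rwa [hLe, Real.le_log_iff_exp_le hX0]
  have hJ : ((JX X).card : ℝ) ≤ 3 * L := by
    have l3 : Real.log 3 ≤ 3 / 2 := by
      rw [Real.log_le_iff_le_exp (by norm_num)]
      have := Real.add_one_le_exp (1 / 2 : ℝ)
      have e : Real.exp (3 / 2) = Real.exp 1 * Real.exp (1 / 2) := by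
        rw [← Real.exp_add]
        norm_num
      nlinarith [Real.exp_one_gt_d9]
    have l4 : Real.log (3 * X) = Real.log 3 + L := by
      rw [hLe, Real.log_mul (by norm_num) hX0.ne']
    have l5 : 0 ≤ Real.log 3 := Real.log_nonneg (by norm_num)
    have c1 : (0 : ℤ) ≤ ⌈2 * Real.log (3 * X)⌉ := Int.ceil_nonneg (by linarith)
    have c2 : (((JX X).card : ℤ) : ℝ) = ((⌈2 * Real.log (3 * X)⌉ + 1 - 0 : ℤ) : ℝ) :=
      congrArg _ (Int.card_Icc_of_le _ _ (by linarith))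
    push_cast at c2
    linarith [Int.ceil_lt_add_one (2 * Real.log (3 * X))]
  obtain ⟨U, hU⟩ : ∃ U, U = X ^ (5 / 6 : ℝ) * L ^ (-(3 / 2) : ℝ) := ⟨_, rfl⟩
  have hU0 : 0 ≤ U := by rw [hU]; positivity
  have key : ∀ n ∈ Finset.Icc 2 51, ‖(n.factorial : ℂ)⁻¹ *
      ∑ f ∈ Fintype.piFinset fun _ : Fin n => JX X, Cfg dl X T φ (Y1 X T) (wX X) (List.ofFn f)‖
      ≤ (C * K + 3 * C * S ^ 51) * U := by
    intro n hn
    rw [Finset.mem_Icc] at hn
    have n1 : ‖(n.factorial : ℂ)⁻¹‖ ≤ 1 := by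
      rw [norm_inv, Complex.norm_natCast]
      exact inv_le_one_of_one_le₀ (by exact_mod_cast n.factorial_pos)
    rw [norm_mul]
    refine (mul_le_of_le_one_left (norm_nonneg _) n1).trans ((norm_sum_le _ _).trans ?_)
    have k1 : ∀ f ∈ Fintype.piFinset fun _ : Fin n => JX X,
        ‖Cfg dl X T φ (Y1 X T) (wX X) (List.ofFn f)‖ ≤ C * X ^ (5 / 6 : ℝ) / L ^ 53
          + 3 * C * U * ∏ i, Real.exp (-(|(f i : ℝ) - 2 / 3 * L| / 48)) := by
      intro f _
      rcases h2 X T (List.ofFn f) (le_of_max_le_right (le_of_max_le_left hX)) hT hT'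
        (by rw [List.length_ofFn]; exact hn.1) (by rw [List.length_ofFn]; exact hn.2) with
        h | ⟨a1, a2, m, -, a3, h⟩
      · rw [← hLe] at h
        exact h.trans (le_add_of_nonneg_right (by positivity))
      · rw [← hLe] at h a2
        have a4 := LPS_three a1 a2 a3
        rw [List.map_ofFn, List.prod_ofFn] at a4
        refine h.trans (add_le_add le_rfl ?_)
        rw [mul_assoc C, ← hU]
        exact (mul_le_mul_of_nonneg_left a4 (by positivity)).trans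
          (le_of_eq (by simp only [Function.comp]; ring))
    refine (Finset.sum_le_sum k1).trans ?_
    rw [Finset.sum_add_distrib, Finset.sum_const, nsmul_eq_mul, ← Finset.mul_sum,
      ← Finset.prod_univ_sum (fun _ : Fin n => JX X)
        (fun _ j => Real.exp (-(|(j : ℝ) - 2 / 3 * L| / 48))), Finset.prod_const,
      Fintype.card_piFinset, Finset.prod_const, Finset.card_univ, Fintype.card_fin, add_mul]
    refine add_le_add ?_ ?_
    · have c1 : (((JX X).card ^ n : ℕ) : ℝ) ≤ K * L ^ 51 := by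
        rw [hK, ← mul_pow, Nat.cast_pow]
        exact (pow_le_pow_left₀ (Nat.cast_nonneg _) hJ n).trans
          (pow_le_pow_right₀ (by linarith) hn.2)
      have c2 : (L ^ 2)⁻¹ ≤ L ^ (-(3 / 2) : ℝ) := by
        rw [← Real.rpow_two, ← Real.rpow_neg (by linarith)]
        exact Real.rpow_le_rpow_of_exponent_le (by linarith) (by norm_num)
      calc _ ≤ K * L ^ 51 * (C * X ^ (5 / 6 : ℝ) / L ^ 53) := by gcongr
        _ = C * K * (X ^ (5 / 6 : ℝ) * (L ^ 2)⁻¹) := by field_simp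
        _ ≤ C * K * (X ^ (5 / 6 : ℝ) * L ^ (-(3 / 2) : ℝ)) := by gcongr
        _ = _ := by rw [hU]
    · have c1 : (∑ j ∈ JX X, Real.exp (-(|(j : ℝ) - 2 / 3 * L| / 48))) ^ n ≤ S ^ 51 :=
        (pow_le_pow_left₀ (Finset.sum_nonneg fun _ _ => (Real.exp_pos _).le) (hg _ _) n).trans
          (pow_le_pow_right₀ hS hn.2)
      exact (mul_le_mul_of_nonneg_left c1 (by positivity)).trans (le_of_eq (by ring))
  show ‖LP dl X T φ (Y1 X T) (wX X)‖ ≤ _
  rw [h1 dl X T _ φ (le_of_max_le_left (le_of_max_le_left hX)), ← hLe, mul_assoc, mul_assoc, ← hU]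
  refine (norm_sum_le _ _).trans ((Finset.sum_le_card_nsmul _ _ _ key).trans (le_of_eq ?_))
  rw [nsmul_eq_mul, Nat.card_Icc]
  norm_num

end Pat
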