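import Vale.Agent.P006.IfC
import Vale.Agent.P026.Cnt

noncomputable section
namespace Pat
open QRH Complex MeasureTheory Filter
open scoped ComplexConjugate Classical ContDiff Topology

theorem LPS_ev (K : ℝ) (k : ℕ) {c : ℝ} (hc : 0 < c) :
    ∀ᶠ X : ℝ in atTop, K * Real.log X ^ k ≤ X ^ c := by
  have h := (isLittleO_log_rpow_rpow_atTop (k : ℝ) hc).bound (c := (|K| + 1)⁻¹) (by positivity)
  filter_upwards [h, eventually_ge_atTop 1] with X h1 hX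
  have hL : 0 ≤ Real.log X ^ k := pow_nonneg (Real.log_nonneg hX) k
  rw [Real.rpow_natCast, Real.norm_of_nonneg hL, Real.norm_of_nonneg (by positivity),
    inv_mul_eq_div, le_div_iff₀ (by positivity)] at h1
  nlinarith [le_abs_self K]

theorem LPS_alg {X B M N2 N1 N2' N1' s t a b : ℝ} (hX : 0 < X) (hB : 0 < B) (hM : 0 < M)
    (hs : 0 ≤ s) (ht : 0 ≤ t) (h0 : 0 ≤ N1') (h1 : N2 ≤ s ^ 2 * (X / B)) (h2 : N1 ≤ a * (X / B))
    (h3 : N2' ≤ t ^ 2 * B) (h4 : N1' ≤ b * B) :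
    √N2 * (√(X / B * N2') + (X / B) ^ (5 / 12 : ℝ) * B ^ (-(1 / 3) : ℝ) * N1'
          + (X / B) ^ (1 / 3 : ℝ) * B ^ (5 / 6 : ℝ) / M)
      + N1 * (X / B) ^ (-(1 / 6) : ℝ) * B ^ (5 / 6 : ℝ) / M
      ≤ X ^ (5 / 6 : ℝ) * (s * t * (X ^ (1 / 12 : ℝ) * B ^ (-(1 / 4) : ℝ)) ^ 2
        + s * b * (X ^ (1 / 12 : ℝ) * B ^ (-(1 / 4) : ℝ)) + (s + a) / M) := by
  obtain ⟨x, hx⟩ : ∃ x, x = X ^ (1 / 12 : ℝ) := ⟨_, rfl⟩
  obtain ⟨y, hy⟩ : ∃ y, y = B ^ (1 / 12 : ℝ) := ⟨_, rfl⟩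
  have hx0 : 0 < x := by rw [hx]; positivity
  have hy0 : 0 < y := by rw [hy]; positivity
  have pw : ∀ {Z z : ℝ}, 0 < Z → z = Z ^ (1 / 12 : ℝ) → ∀ (n : ℕ) (r : ℝ), r = n / 12 →
      Z ^ r = z ^ n := by
    intro Z z hZ hz n r hr
    rw [hz, ← Real.rpow_natCast, ← Real.rpow_mul hZ.le, hr]
    exact congrArg _ (by ring)
  have hA : x / y = (X / B) ^ (1 / 12 : ℝ) := by rw [hx, hy, Real.div_rpow hX.le hB.le]
  have hA0 : 0 < X / B := by positivity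
  have eX : X = x ^ 12 := by rw [← pw hX hx 12 1 (by norm_num), Real.rpow_one]
  have eB : B = y ^ 12 := by rw [← pw hB hy 12 1 (by norm_num), Real.rpow_one]
  rw [Real.rpow_neg hB.le, Real.rpow_neg hB.le, Real.rpow_neg hA0.le,
    pw hA0 hA 5 (5 / 12) (by norm_num), pw hA0 hA 4 (1 / 3) (by norm_num),
    pw hA0 hA 2 (1 / 6) (by norm_num), pw hB hy 4 (1 / 3) (by norm_num),
    pw hB hy 10 (5 / 6) (by norm_num), pw hB hy 3 (1 / 4) (by norm_num),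
    pw hX hx 10 (5 / 6) (by norm_num), ← hx]
  have c1 : √N2 ≤ s * (x / y) ^ 6 := by
    refine Real.sqrt_le_iff.2 ⟨by positivity, h1.trans (le_of_eq ?_)⟩
    rw [eX, eB]
    field_simp
  have c2 : √(X / B * N2') ≤ t * x ^ 6 := by
    refine Real.sqrt_le_iff.2 ⟨by positivity, (mul_le_mul_of_nonneg_left h3 hA0.le).trans
      (le_of_eq ?_)⟩
    rw [eX]
    field_simp
  have c3 : N1' ≤ b * y ^ 12 := eB ▸ h4
  have c4 : N1 ≤ a * (x / y) ^ 12 := by rwa [div_pow, ← eX, ← eB]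
  calc _ ≤ s * (x / y) ^ 6 * (t * x ^ 6 + (x / y) ^ 5 * (y ^ 4)⁻¹ * (b * y ^ 12)
          + (x / y) ^ 4 * y ^ 10 / M) + a * (x / y) ^ 12 * ((x / y) ^ 2)⁻¹ * y ^ 10 / M := by
        gcongr
    _ = _ := by
        field_simp
        ring

theorem LPS_bil (hc : CvF) (h3 : SmB) (h4 : SC) (h5 : CR) {φ : ℝ → ℂ} (hφ : Bump φ) (k0 : ℕ) :
    ∃ (kk : ℕ) (C : ℝ), 0 < C ∧ ∀ᶠ X : ℝ in atTop,
      ∀ (α : Finset P → ℂ) (T τ κ : ℝ) (l : List ℤ) (s t a b : ℝ), 1 ≤ T →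
      T ≤ Real.log X ^ k0 → |κ| ≤ 1 → l ≠ [] → l.length ≤ 51 → X ^ (1 / 4 : ℝ) ≤ Bl l →
      Bl l ≤ 2 * √X → 0 ≤ s → 0 ≤ t → nrm2 α (3 * X / Bl l) ≤ s ^ 2 * (X / Bl l) →
      nrm1 α (3 * X / Bl l) ≤ a * (X / Bl l) →
      nrm2 (nb (wX X) τ κ l) (3 ^ 51 * Bl l) ≤ t ^ 2 * Bl l →
      nrm1 (nb (wX X) τ κ l) (3 ^ 51 * Bl l) ≤ b * Bl l →
      ‖Bil dl α (nb (wX X) τ κ l) X (Bl l) (3 ^ 51 * Bl l) T φ‖
        ≤ C * (1 + |τ|) ^ kk * (X ^ (5 / 6 : ℝ) *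
          (s * t * (X ^ (1 / 12 : ℝ) * Bl l ^ (-(1 / 4) : ℝ)) ^ 2
            + s * b * (X ^ (1 / 12 : ℝ) * Bl l ^ (-(1 / 4) : ℝ)) + (s + a) / Real.log X ^ 55)) := by
  obtain ⟨δ1, δ2, kk, C5, hδ1, hδ2, hδ1', hC5, h5⟩ := h5 (1 / 50) 51 (by norm_num)
  obtain ⟨c, C4, hc0, hC4, h4⟩ := h4 51
  obtain ⟨k1, k2, k3, δc, C3, X0, -, -, hC3, h3⟩ := h3 φ (3 ^ 51) δ1 δ2 (1 / 50) k0 55 kk hφ
    (by norm_num) hδ1 hδ1' hδ2 (by norm_num)
  refine ⟨kk + 1, C3 * (C5 + 1), by positivity, ?_⟩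
  filter_upwards [eventually_ge_atTop X0, eventually_ge_atTop 4,
    LPS_ev 1 k2 (c := 1 / 50) (by norm_num), LPS_ev 1 k3 (c := 1 / 50 * c) (by positivity),
    LPS_ev C4 k1 (c := 1 / 50 * c) (by positivity)] with X hX0 hX4 e2 e3 e1
  intro α T τ κ l s t a b hT hT' hκ hl hl' hB1 hB2 hs ht n1 n2 n3 n4
  have hX : 0 < X := by linarith
  have hX1 : 1 ≤ X := by linarith
  have hL : 0 < Real.log X := Real.log_pos (by linarith)
  have hB : 0 < Bl l := Real.exp_pos _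
  have hw : wX X ^ c = X ^ (1 / 50 * c) := by rw [wX, ← Real.rpow_mul hX.le]
  have hw1 : 1 ≤ wX X := Real.one_le_rpow hX1 (by norm_num)
  have hτ : 1 ≤ 1 + |τ| := by linarith [abs_nonneg τ]
  have hτ1 : 1 ≤ (1 + |τ|) ^ kk := one_le_pow₀ hτ
  rw [one_mul] at e2 e3
  obtain ⟨u, hu⟩ : ∃ u, u = (C5 + 1) * (1 + |τ|) ^ (kk + 1) := ⟨_, rfl⟩
  have u1 : 1 + |τ| ≤ u := by
    rw [hu, pow_succ]
    nlinarith [mul_le_mul_of_nonneg_right hτ1 (by linarith : 0 ≤ 1 + |τ|)]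
  have u2 : C5 * (1 + |τ|) ^ kk ≤ u := by
    rw [hu]
    exact mul_le_mul (by linarith) (pow_le_pow_right₀ hτ (Nat.le_succ kk)) (by positivity)
      (by positivity)
  have hsm : Small (nb (wX X) τ κ l) (Bl l) (3 ^ 51 * Bl l) (Real.log X ^ k3)
      (u / Real.log X ^ k1) := by
    intro z hz hz' hn s' hs'
    refine (h4 (wX X) τ κ _ l hl hl' hw1 hκ le_rfl z hz hz' (hw ▸ hn.trans e3) s' hs').trans ?_
    refine mul_le_mul_of_nonneg_right (mul_le_mul_of_nonneg_right ?_ hB.le) (by positivity)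
    rw [le_div_iff₀ (by positivity), Real.rpow_neg (by linarith), hw]
    have p1 : 0 < X ^ (1 / 50 * c) := by positivity
    calc C4 * (X ^ (1 / 50 * c))⁻¹ * (1 + |τ|) * Real.log X ^ k1
        = C4 * Real.log X ^ k1 / X ^ (1 / 50 * c) * (1 + |τ|) := by ring
      _ ≤ 1 * (1 + |τ|) := mul_le_mul_of_nonneg_right ((div_le_one p1).2 e1) (by linarith)
      _ ≤ u := by linarith
  have hsq : 2 * √X ≤ X := by
    have : 2 ≤ √X := Real.le_sqrt_of_sq_le (by linarith)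
    nlinarith [Real.mul_self_sqrt hX.le]
  have hcr : Crit (nb (wX X) τ κ l) (Bl l) (3 ^ 51 * Bl l) δ1 δ2 kk u := by
    intro s' hs'
    refine (h5 (wX X) τ κ l hl' hκ ((Real.one_le_rpow hX1 (by norm_num)).trans hB1)
      (Real.rpow_le_rpow hB.le (hB2.trans hsq) (by norm_num)) ?_ s' hs').trans ?_
    · refine Real.le_sqrt_of_sq_le (le_trans ?_ hB1)
      rw [wX, ← Real.rpow_natCast, ← Real.rpow_mul hX.le]
      exact Real.rpow_le_rpow_of_exponent_le hX1 (by norm_num)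
    · exact mul_le_mul_of_nonneg_right (mul_le_mul_of_nonneg_right u2 (by positivity))
        (by positivity)
  refine (h3 α _ X (Bl l) T (wX X) u hX0 hT hT' hB1
    (hB2.trans (mul_le_mul_of_nonneg_right (by norm_num) (Real.sqrt_nonneg X))) e2 (hτ.trans u1)
    (hc.gb _ τ κ l 51 hl' hκ) hsm (Or.inr ⟨le_rfl, hcr⟩)).trans ?_
  rw [hu, ← mul_assoc C3]
  refine mul_le_mul_of_nonneg_left ?_ (by positivity)
  exact LPS_alg hX hB (by positivity) hs ht (Finset.sum_nonneg fun _ _ => norm_nonneg _) n1 n2 n3 n4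

theorem LPS_nrm {x : Finset P → ℂ} {K R : ℝ} (hK : 0 ≤ K) (hR : 0 ≤ R) (h : ∀ c, ‖x c‖ ≤ K) :
    nrm1 x R ≤ 12 * K * R ∧ nrm2 x R ≤ K * nrm1 x R := by
  constructor
  · refine (Finset.sum_le_card_nsmul _ _ K fun c _ => h c).trans ?_
    rw [nsmul_eq_mul]
    nlinarith [card_sqf_le hR]
  · unfold nrm1 nrm2
    rw [Finset.mul_sum]
    refine Finset.sum_le_sum fun c _ => ?_
    rw [sq]
    exact mul_le_mul_of_nonneg_right (h c) (norm_nonneg _)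

theorem LPS_Y {X T : ℝ} {k0 : ℕ} (hX : 1 ≤ X) (hT : 1 ≤ T) (hT' : T ≤ Real.log X ^ k0)
    (h : Real.log X ^ (2 * k0) ≤ X ^ (1 / 100 : ℝ)) :
    X ^ (0.42 : ℝ) ≤ Y1 X T ∧ Y1 X T ≤ X ^ (0.43 : ℝ) := by
  have hX0 : 0 < X := by linarith
  have e : (0.43 : ℝ) = 43 / 100 := by norm_num
  unfold Y1
  constructor
  · have h1 : T ^ (4 / 3 : ℝ) ≤ X ^ (1 / 100 : ℝ) := by
      refine le_trans ?_ h
      rw [mul_comm, pow_mul]
      refine le_trans ?_ (pow_le_pow_left₀ (by linarith) hT' 2)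
      rw [← Real.rpow_two]
      exact Real.rpow_le_rpow_of_exponent_le hT (by norm_num)
    rw [Real.rpow_neg (by linarith), ← div_eq_mul_inv, le_div_iff₀ (by positivity)]
    refine (mul_le_mul_of_nonneg_left h1 (by positivity)).trans (le_of_eq ?_)
    rw [← Real.rpow_add hX0]
    norm_num
  · rw [e]
    exact mul_le_of_le_one_right (by positivity)
      (Real.rpow_le_one_of_one_le_of_nonpos hT (by norm_num))

end Pat
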