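import Vale.Agent.P006.LPSAux1

noncomputable section
namespace Pat
open QRH Complex MeasureTheory Filter
open scoped ComplexConjugate Classical ContDiff Topology

theorem LPS_q {X B : ℝ} (hX : 0 < X) (hB : 0 < B) (h : X ^ (1 / 3 + 1 / 200 : ℝ) / 3 ^ 51 ≤ B) :
    X ^ (1 / 12 : ℝ) * B ^ (-(1 / 4) : ℝ) * X ^ (1 / 800 : ℝ) ≤ 3 ^ 13 := by
  refine le_of_pow_le_pow_left₀ (n := 4) (by norm_num) (by positivity) ?_
  have e : (X ^ (1 / 12 : ℝ) * B ^ (-(1 / 4) : ℝ) * X ^ (1 / 800 : ℝ)) ^ 4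
      = X ^ (1 / 3 + 1 / 200 : ℝ) / B := by
    rw [mul_right_comm, ← Real.rpow_add hX, mul_pow, ← Real.rpow_natCast, ← Real.rpow_natCast,
      ← Real.rpow_mul hX.le, ← Real.rpow_mul hB.le, div_eq_mul_inv _ B, ← Real.rpow_neg_one]
    norm_num
  rw [e, div_le_iff₀ hB]
  rw [div_le_iff₀ (by positivity)] at h
  nlinarith

/-- The configurations that are not narrow. -/
theorem LPS_wide (hc : CvF) (h1 : LPsp) (h3 : SmB) (h4 : SC) (h5 : CR) {φ : ℝ → ℂ} (hφ : Bump φ)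
    (k0 : ℕ) : ∃ C : ℝ, 0 < C ∧ ∀ᶠ X : ℝ in atTop, ∀ (T Y : ℝ) (l l1 l2 : List ℤ), 1 ≤ T →
      T ≤ Real.log X ^ k0 → 1 ≤ Y → Y ≤ X → l.length ≤ 51 → l.Perm (l1 ++ l2) → l2 ≠ [] →
      Bl l2 ≤ 2 * √X → X ^ (1 / 3 + 1 / 200 : ℝ) / 3 ^ 51 ≤ Bl l2 →
      ‖Cfg dl X T φ Y (wX X) l‖ ≤ C * X ^ (5 / 6 : ℝ) / Real.log X ^ 53 := by
  obtain ⟨kk, C3, hC3, h3⟩ := LPS_bil hc h3 h4 h5 hφ k0
  obtain ⟨C1, hC1, h1⟩ := h1 kk 51
  obtain ⟨K, hK⟩ : ∃ K : ℝ, K = 2 ^ 51 * (Nat.factorial 51 : ℕ) := ⟨_, rfl⟩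
  have hK0 : 0 < K := by rw [hK]; positivity
  obtain ⟨b, hb⟩ : ∃ b : ℝ, b = 12 * 3 ^ 51 := ⟨_, rfl⟩
  have hb1 : 1 ≤ b := by rw [hb]; norm_num
  obtain ⟨D, hD⟩ : ∃ D : ℝ, D = 6 * K * b * (3 ^ 13) ^ 2 + 6 * K * b * 3 ^ 13 + (6 * K + 36 * K) :=
    ⟨_, rfl⟩
  have hD0 : 0 < D := by rw [hD]; positivity
  refine ⟨C1 * 2 * C3 * D, by positivity, ?_⟩
  filter_upwards [h3, eventually_ge_atTop 3, LPS_ev 1 55 (c := 1 / 800) (by norm_num),
    LPS_ev (3 ^ 51) 0 (c := 1 / 12) (by norm_num)] with X h3 hX3 e1 e2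
  intro T Y l l1 l2 hT hT' hY hYX hl hp hne hB2 hB1
  have hX : 0 < X := by linarith
  have hL : 1 ≤ Real.log X := by
    rw [Real.le_log_iff_exp_le hX]
    linarith [Real.exp_one_lt_d9]
  have hB : 0 < Bl l2 := Real.exp_pos _
  have len := hp.length_eq
  rw [List.length_append] at len
  have len1 : l1.length ≤ 51 := by omega
  have len2 : l2.length ≤ 51 := by omega
  rw [one_mul] at e1
  rw [pow_zero, mul_one] at e2
  have hB0 : X ^ (1 / 4 : ℝ) ≤ Bl l2 := by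
    refine le_trans ?_ hB1
    rw [le_div_iff₀ (by positivity)]
    refine (mul_le_mul_of_nonneg_left e2 (by positivity)).trans ?_
    rw [← Real.rpow_add hX]
    exact Real.rpow_le_rpow_of_exponent_le (by linarith) (by norm_num)
  obtain ⟨q, hq⟩ : ∃ q, q = X ^ (1 / 12 : ℝ) * Bl l2 ^ (-(1 / 4) : ℝ) := ⟨_, rfl⟩
  have hq0 : 0 ≤ q := by rw [hq]; positivity
  obtain ⟨M, hM⟩ : ∃ M, M = Real.log X ^ 55 := ⟨_, rfl⟩
  have hM1 : 1 ≤ M := by rw [hM]; exact one_le_pow₀ hL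
  have q1 : q ≤ 3 ^ 13 / M := by
    have := LPS_q hX hB hB1
    rw [← hq] at this
    rw [le_div_iff₀ (by linarith), hM]
    exact (mul_le_mul_of_nonneg_left e1 hq0).trans this
  have q2 : q ^ 2 ≤ (3 ^ 13) ^ 2 / M := by
    refine (pow_le_pow_left₀ hq0 q1 2).trans ?_
    rw [div_pow]
    exact div_le_div_of_nonneg_left (by positivity) (by linarith) (by nlinarith)
  refine ((h1 dl X T Y (wX X) φ l l1 l2 hφ hX hT hY hp len2).1
    (C3 * (X ^ (5 / 6 : ℝ) * (D / M))) (by positivity) fun τ => ?_).trans ?_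
  · have a1 : ∀ c, ‖Cv (l1.map (pu (wX X) τ 1)) c‖ ≤ K := fun c => by
      refine (hc.norm_le _ τ 1 l1 c (by simp)).trans ?_
      rw [hK]
      exact mul_le_mul (pow_le_pow_right₀ (by norm_num) len1)
        (by exact_mod_cast Nat.factorial_le len1) (by positivity) (by positivity)
    have hA : 0 ≤ X / Bl l2 := by positivity
    obtain ⟨a2, a3⟩ := LPS_nrm hK0.le (R := 3 * X / Bl l2) (by positivity) a1
    obtain ⟨a4, a5⟩ := LPS_nrm zero_le_one (R := 3 ^ 51 * Bl l2) (by positivity)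
      (hc.gb (wX X) τ 1 l2 51 len2 (by simp)).bd
    have a6 : nrm1 (Cv (l1.map (pu (wX X) τ 1))) (3 * X / Bl l2) ≤ 36 * K * (X / Bl l2) :=
      a2.trans (le_of_eq (by ring))
    have a7 : nrm1 (nb (wX X) τ 1 l2) (3 ^ 51 * Bl l2) ≤ b * Bl l2 :=
      a4.trans (le_of_eq (by rw [hb]; ring))
    refine (h3 _ T τ 1 l2 (6 * K) b (36 * K) b hT hT' (by simp) hne len2 hB0 hB2 (by positivity)
      (by positivity) (a3.trans ?_) a6 (a5.trans ?_) a7).trans ?_
    · exact (mul_le_mul_of_nonneg_left a6 hK0.le).trans (le_of_eq (by ring))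
    · rw [one_mul]
      exact a7.trans (mul_le_mul_of_nonneg_right (by nlinarith) hB.le)
    · rw [← hq, ← hM]
      calc _ ≤ C3 * (1 + |τ|) ^ kk * (X ^ (5 / 6 : ℝ) * (6 * K * b * ((3 ^ 13) ^ 2 / M)
            + 6 * K * b * (3 ^ 13 / M) + (6 * K + 36 * K) / M)) := by gcongr
        _ = _ := by
          rw [hD]
          ring
  · have l1 : 1 + Real.log Y ≤ 2 * Real.log X := by
      linarith [Real.log_le_log (by linarith) hYX]
    have l2 : Real.log X / M ≤ 1 / Real.log X ^ 53 := by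
      rw [hM, div_le_div_iff₀ (by positivity) (by positivity), one_mul, ← pow_succ']
      exact pow_le_pow_right₀ hL (by norm_num)
    calc _ ≤ C1 * (2 * Real.log X) * (C3 * (X ^ (5 / 6 : ℝ) * (D / M))) := by gcongr
      _ = C1 * 2 * C3 * D * X ^ (5 / 6 : ℝ) * (Real.log X / M) := by ring
      _ ≤ C1 * 2 * C3 * D * X ^ (5 / 6 : ℝ) * (1 / Real.log X ^ 53) := by gcongr
      _ = _ := by ring

/-- The narrow configurations. -/
theorem LPS_narrow (hb : BA) (hc : CvF) (h1 : LPsp) (h3 : SmB) (h4 : SC) (h5 : CR) {φ : ℝ → ℂ}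
    (hφ : Bump φ) (k0 : ℕ) : ∃ C : ℝ, 0 < C ∧ ∀ᶠ X : ℝ in atTop,
      ∀ (T Y : ℝ) (l : List ℤ) (a b m : ℤ), 1 ≤ T → T ≤ Real.log X ^ k0 → 1 ≤ Y →
      l.Perm ([a, b] ++ [m]) → Bl [m] ≤ 2 * √X → a ≤ m + 2 → b ≤ m + 2 →
      (∀ i ∈ [a, b, m], X ^ (0.32 : ℝ) ≤ Real.exp (i / 2)) →
      2 * Real.log X - 6 ≤ a + b + m → (a + b + m : ℝ) ≤ 2 * Real.log (3 * X) →
      (∀ c, Cv (l.map (pu (wX X) 0 0)) c ≠ 0 → nu Y c = -2) →
      ‖Cfg dl X T φ Y (wX X) l‖ ≤ C * X ^ (5 / 6 : ℝ) / Real.log X ^ 53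
        + C * X ^ (5 / 6 : ℝ) * Real.log X ^ (-(3 / 2) : ℝ)
          * Real.exp (-((m - 2 / 3 * Real.log X) / 8)) := by
  obtain ⟨kk, C3, hC3, h3⟩ := LPS_bil hc h3 h4 h5 hφ k0
  obtain ⟨C1, hC1, h1⟩ := h1 kk 51
  obtain ⟨C, hC, hch⟩ := hb.cheb
  obtain ⟨D, hD⟩ : ∃ D : ℝ, D = 300 * C * √(20 * C) + 2000 * C ^ 2 + 100 * C := ⟨_, rfl⟩
  have hD0 : 0 < D := by rw [hD]; positivity
  refine ⟨C1 * C3 * D, by positivity, ?_⟩
  filter_upwards [h3, eventually_ge_atTop 3] with X h3 hX3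
  intro T Y l a b m hT hT' hY hp hB2 ha hb' hi s1 s2 hnu
  have hX : 0 < X := by linarith
  obtain ⟨L, hLe⟩ : ∃ L, L = Real.log X := ⟨_, rfl⟩
  have hL : 1 ≤ L := by
    rw [hLe, Real.le_log_iff_exp_le hX]
    linarith [Real.exp_one_lt_d9]
  have eB : Bl [m] = Real.exp (m / 2) := by simp [Bl]
  have hB : 0 < Bl [m] := Real.exp_pos _
  have hB0 : X ^ (1 / 4 : ℝ) ≤ Bl [m] := by
    rw [eB]
    exact (Real.rpow_le_rpow_of_exponent_le (by linarith) (by norm_num)).trans (hi m (by simp))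
  have ch : ∀ i ∈ [a, b, m], 2 * ((prs (3 * Real.exp (i / 2))).card : ℝ)
      ≤ 20 * C * Real.exp (i / 2) / L := by
    intro i hi'
    have c1 := hi i hi'
    have c0 : 0 < Real.exp (i / 2 : ℝ) := Real.exp_pos _
    have c2 : 1 ≤ X ^ (0.32 : ℝ) := Real.one_le_rpow (by linarith) (by norm_num)
    have c3 : 0.32 * L ≤ Real.log (3 * Real.exp (i / 2)) := by
      rw [hLe, ← Real.log_rpow hX]
      exact Real.log_le_log (by linarith) (by linarith)
    have c4 := hch (3 * Real.exp (i / 2)) (by linarith)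
    have c5 : C * (3 * Real.exp (i / 2)) / (1 + Real.log (3 * Real.exp (i / 2)))
        ≤ 10 * C * Real.exp (i / 2) / L := by
      rw [div_le_div_iff₀ (by linarith) (by linarith)]
      nlinarith [mul_pos hC c0]
    calc _ ≤ 2 * (10 * C * Real.exp (i / 2) / L) := by linarith
      _ = _ := by ring
  have hA : 0 ≤ X / Bl [m] := by positivity
  have ab : Real.exp (a / 2) * Real.exp (b / 2) ≤ 3 * (X / Bl [m]) := by
    rw [eB, ← mul_div_assoc, le_div_iff₀ (Real.exp_pos _), ← Real.exp_add, ← Real.exp_add,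
      ← Real.le_log_iff_exp_le (by linarith)]
    linarith
  have a1 : nrm1 (Cv ([a, b].map (pu (wX X) 0 0))) (3 * X / Bl [m])
      ≤ 1200 * C ^ 2 / L ^ 2 * (X / Bl [m]) := by
    refine (hc.nrm1_le _ 0 0 _ [a, b] (by simp)).trans ?_
    simp only [List.map_cons, List.map_nil, List.prod_cons, List.prod_nil, mul_one]
    calc _ ≤ (20 * C * Real.exp (a / 2) / L) * (20 * C * Real.exp (b / 2) / L) :=
          mul_le_mul (ch a (by simp)) (ch b (by simp)) (by positivity) (by positivity)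
      _ = 400 * C ^ 2 / L ^ 2 * (Real.exp (a / 2) * Real.exp (b / 2)) := by ring
      _ ≤ 400 * C ^ 2 / L ^ 2 * (3 * (X / Bl [m])) := by gcongr
      _ = _ := by ring
  have a2 := (LPS_nrm (K := 8) (R := 3 * X / Bl [m]) (by norm_num) (by positivity)
    fun c => (hc.norm_le (wX X) 0 0 [a, b] c (by simp)).trans (by norm_num [Nat.factorial])).2
  have a3 : nrm1 (nb (wX X) 0 0 [m]) (3 ^ 51 * Bl [m]) ≤ 20 * C / L * Bl [m] := by
    have c1 := hc.nrm1_le (wX X) 0 0 (3 ^ 51 * Bl [m]) [m] (by simp)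
    simp only [List.map_cons, List.map_nil, List.prod_cons, List.prod_nil, mul_one] at c1
    refine le_trans (Finset.sum_le_sum fun c _ => ?_) (c1.trans ((ch m (by simp)).trans ?_))
    · rw [nb, norm_div, Complex.norm_natCast]
      exact div_le_self (norm_nonneg _) (by norm_num)
    · rw [eB]
      exact le_of_eq (by ring)
  have a4 := (LPS_nrm zero_le_one (R := 3 ^ 51 * Bl [m]) (by positivity)
    (hc.gb (wX X) 0 0 [m] 51 (by simp) (by simp)).bd).2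
  have L2 : 1 ≤ L ^ 2 := one_le_pow₀ hL
  have key := h3 (Cv ([a, b].map (pu (wX X) 0 0))) T 0 0 [m] (100 * C / L) (√(20 * C / L))
    (1200 * C ^ 2) (20 * C / L) hT hT' (by simp) (by simp) (by simp) hB0 hB2 (by positivity)
    (by positivity) (a2.trans ((mul_le_mul_of_nonneg_left a1 (by norm_num)).trans (by
      rw [← mul_assoc]
      refine mul_le_mul_of_nonneg_right ?_ hA
      rw [div_pow, ← mul_div_assoc]
      exact div_le_div_of_nonneg_right (by nlinarith) (by positivity))))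
    (a1.trans (mul_le_mul_of_nonneg_right (div_le_self (by positivity) L2) hA))
    (a4.trans (by rw [one_mul, Real.sq_sqrt (by positivity)]; exact a3)) a3
  refine ((h1 dl X T Y (wX X) φ l [a, b] [m] hφ hX hT hY hp (by simp)).2 hnu).trans ?_
  refine (mul_le_mul_of_nonneg_left key hC1.le).trans ?_
  have eq : X ^ (1 / 12 : ℝ) * Bl [m] ^ (-(1 / 4) : ℝ) = Real.exp (-((m - 2 / 3 * L) / 8)) := by
    rw [eB, Real.rpow_def_of_pos hX, ← Real.exp_mul, ← Real.exp_add, hLe]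
    exact congrArg _ (by ring)
  rw [eq, ← hLe, abs_zero, add_zero, one_pow, mul_one]
  rw [← hLe] at s1
  obtain ⟨q, hq⟩ : ∃ q, q = Real.exp (-((m - 2 / 3 * L) / 8)) := ⟨_, rfl⟩
  have hq0 : 0 < q := by rw [hq]; exact Real.exp_pos _
  have hq3 : q ≤ 3 := by
    have c1 : (a : ℝ) ≤ m + 2 := by exact_mod_cast ha
    have c2 : (b : ℝ) ≤ m + 2 := by exact_mod_cast hb'
    have c3 : q ≤ Real.exp 1 := by
      rw [hq]
      exact Real.exp_le_exp.2 (by linarith)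
    linarith [Real.exp_one_lt_d9]
  rw [← hq]
  have sL : 1 ≤ √L := Real.one_le_sqrt.2 hL
  have sL2 : √L ≤ L := Real.sqrt_le_self_iff.2 (Or.inr hL)
  have eL : L ^ (-(3 / 2) : ℝ) = (L * √L)⁻¹ := by
    rw [Real.rpow_neg (by linarith), Real.sqrt_eq_rpow, ← Real.rpow_one_add' (by linarith)
      (by norm_num)]
    norm_num
  have t1 : 100 * C / L * √(20 * C / L) * q ^ 2 ≤ 300 * C * √(20 * C) * ((L * √L)⁻¹ * q) := by
    rw [Real.sqrt_div (by positivity)]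
    calc 100 * C / L * (√(20 * C) / √L) * q ^ 2 = 100 * C * √(20 * C) * ((L * √L)⁻¹ * q) * q := by
          field_simp
      _ ≤ 100 * C * √(20 * C) * ((L * √L)⁻¹ * q) * 3 := by gcongr
      _ = _ := by ring
  have t2 : 100 * C / L * (20 * C / L) * q ≤ 2000 * C ^ 2 * ((L * √L)⁻¹ * q) := by
    calc 100 * C / L * (20 * C / L) * q = 2000 * C ^ 2 * ((L * L)⁻¹ * q) := by
          field_simp
          ring
      _ ≤ _ := by gcongr
  have t3 : (100 * C / L + 1200 * C ^ 2) / L ^ 55 ≤ D / L ^ 53 := by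
    refine div_le_div₀ hD0.le ?_ (by positivity) (pow_le_pow_right₀ hL (by norm_num))
    have c1 : 100 * C / L ≤ 100 * C := div_le_self (by positivity) hL
    have c2 : 0 ≤ 300 * C * √(20 * C) := by positivity
    rw [hD]
    nlinarith
  have t4 : (300 * C * √(20 * C) + 2000 * C ^ 2) * ((L * √L)⁻¹ * q) ≤ D * ((L * √L)⁻¹ * q) :=
    mul_le_mul_of_nonneg_right (by rw [hD]; linarith) (by positivity)
  calc _ ≤ C1 * (C3 * (X ^ (5 / 6 : ℝ) * (D * ((L * √L)⁻¹ * q) + D / L ^ 53))) := by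
        gcongr
        linarith
    _ = _ := by
        rw [eL]
        ring

end Pat
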