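import Vale.Agent.P006.LPspAux

/-! Splitting a product of large primes into two factors. -/

noncomputable section
namespace Pat
open QRH Complex MeasureTheory Filter
open scoped ComplexConjugate Classical ContDiff Topology

theorem lPsp (hb : BA) (hc : CvF) : LPsp := LPsp_main hb hc

theorem LPsp_half {ι : Type} {c s : Finset ι} {g : ι → ℝ} {L a : ℝ} (h2 : L ≤ ∑ p ∈ c, g p)
    (hs : s ⊆ c) (s1 : a ≤ ∑ p ∈ s, g p) (s2 : ∑ p ∈ s, g p ≤ L - a) :
    ∃ b ⊆ c, a ≤ ∑ p ∈ b, g p ∧ 2 * ∑ p ∈ b, g p ≤ ∑ p ∈ c, g p := by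
  rcases le_total (2 * ∑ p ∈ s, g p) (∑ p ∈ c, g p) with h | h
  · exact ⟨s, hs, s1, h⟩
  · have e := Finset.sum_sdiff hs (f := g)
    exact ⟨c \ s, Finset.sdiff_subset, by linarith, by linarith⟩

theorem LPsp_core {ι : Type} (c : Finset ι) (g : ι → ℝ) {L : ℝ} (hL : 1000 ≤ L)
    (h1 : ∀ p ∈ c, L / 50 < g p) (h2 : L ≤ ∑ p ∈ c, g p) (h3 : ∑ p ∈ c, g p ≤ L + 2) :
    (∃ p ∈ c, ∑ p ∈ c, g p ≤ 2 * g p) ∨
    (∃ b ⊆ c, (1 / 3 + 1 / 200) * L ≤ ∑ p ∈ b, g p ∧ 2 * ∑ p ∈ b, g p ≤ ∑ p ∈ c, g p) ∨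
    (c.card = 3 ∧ ∀ q ∈ c, (1 / 3 - 1 / 100) * L < g q ∧ g q < (1 / 3 + 1 / 200) * L) := by
  by_cases a1 : ∃ p ∈ c, ∑ p ∈ c, g p ≤ 2 * g p
  · exact Or.inl a1
  refine Or.inr ?_
  push Not at a1
  by_cases a2 : ∃ p ∈ c, (1 / 3 + 1 / 200) * L ≤ g p
  · obtain ⟨p, hp, a2⟩ := a2
    refine Or.inl ⟨{p}, Finset.singleton_subset_iff.2 hp, ?_⟩
    rw [Finset.sum_singleton]
    exact ⟨a2, (a1 p hp).le⟩
  push Not at a2
  by_cases a3 : ∀ q ∈ c, g q ≤ (1 / 3 - 1 / 100) * L
  · obtain ⟨s, hs, hm⟩ := (c.powerset.filter fun s => (1 / 3 + 1 / 200) * L ≤ ∑ p ∈ s, g p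
      ).exists_min_image Finset.card ⟨c, Finset.mem_filter.2
        ⟨Finset.mem_powerset_self c, by linarith⟩⟩
    obtain ⟨s1, s2⟩ := Finset.mem_filter.1 hs
    rw [Finset.mem_powerset] at s1
    obtain ⟨q, hq⟩ : s.Nonempty := Finset.nonempty_iff_ne_empty.2 fun e => by
      rw [e, Finset.sum_empty] at s2
      linarith
    have s3 : ∑ p ∈ s.erase q, g p < (1 / 3 + 1 / 200) * L := not_le.1 fun h => by
      have := hm _ (Finset.mem_filter.2
        ⟨Finset.mem_powerset.2 ((Finset.erase_subset q s).trans s1), h⟩)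
      exact absurd (Finset.card_erase_lt_of_mem hq) (not_lt.2 this)
    have s4 := Finset.add_sum_erase s g hq
    exact Or.inl (LPsp_half h2 s1 s2 (by linarith [a3 q (s1 hq)]))
  push Not at a3
  obtain ⟨p, hp, a3⟩ := a3
  by_cases a4 : ∃ q ∈ c, g q ≤ (1 / 3 - 1 / 100) * L
  · obtain ⟨q, hq, a4⟩ := a4
    have hne : p ≠ q := fun e => by
      rw [e] at a3
      linarith
    refine Or.inl (LPsp_half (s := {p, q}) h2
      (Finset.insert_subset hp (Finset.singleton_subset_iff.2 hq)) ?_ ?_) <;>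
    rw [Finset.sum_pair hne]
    · linarith [h1 q hq]
    · linarith [a2 p hp]
  push Not at a4
  refine Or.inr ⟨?_, fun q hq => ⟨a4 q hq, a2 q hq⟩⟩
  have b1 := Finset.card_nsmul_le_sum c g _ fun q hq => (a4 q hq).le
  have b2 := Finset.sum_le_card_nsmul c g _ fun q hq => (a2 q hq).le
  rw [nsmul_eq_mul] at b1 b2
  have b3 : (c.card : ℝ) < 4 := by
    by_contra h
    nlinarith [not_lt.1 h]
  have b4 : (2 : ℝ) < c.card := by
    by_contra h
    nlinarith [not_lt.1 h]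
  have b5 : c.card < 4 := by exact_mod_cast b3
  have b6 : 2 < c.card := by exact_mod_cast b4
  omega

theorem LPsp_filter {R : ℤ → P → Prop} {l : List ℤ} {ps : List P} (h : List.Forall₂ R l ps)
    (b : Finset P) : ∃ l1 l2, l.Perm (l1 ++ l2) ∧ List.Forall₂ R l1 (ps.filter (· ∉ b)) ∧
      List.Forall₂ R l2 (ps.filter (· ∈ b)) := by
  induction h with
  | nil => exact ⟨[], [], by simp, by simp, by simp⟩
  | @cons i p l ps h1 _ ih =>
    obtain ⟨l1, l2, a1, a2, a3⟩ := ih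
    by_cases hp : p ∈ b
    · refine ⟨l1, i :: l2, (a1.cons i).trans List.perm_middle.symm, ?_, ?_⟩
      · rwa [List.filter_cons_of_neg (by simpa using hp)]
      · rw [List.filter_cons_of_pos (by simpa using hp)]
        exact List.Forall₂.cons h1 a3
    · refine ⟨i :: l1, l2, a1.cons i, ?_, ?_⟩
      · rw [List.filter_cons_of_pos (by simpa using hp)]
        exact List.Forall₂.cons h1 a2
      · rwa [List.filter_cons_of_neg (by simpa using hp)]

/-- the prime `p` lies in the box `i` -/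
def LPspR (i : ℤ) (p : P) : Prop :=
  (i : ℝ) / 2 < Real.log (nm p.1) ∧ Real.log (nm p.1) < i / 2 + 1

theorem LPsp_sum {l : List ℤ} {ps : List P} (h : List.Forall₂ LPspR l ps) (hn : ps.Nodup) :
    (l.sum : ℝ) / 2 ≤ Real.log (Ns ps.toFinset) ∧
      Real.log (Ns ps.toFinset) ≤ (l.sum : ℝ) / 2 + l.length := by
  rw [LPsp_log_Ns, List.sum_toFinset _ hn]
  clear hn
  induction h with
  | nil => simp
  | cons h1 _ ih =>
    simp only [List.sum_cons, List.map_cons, List.length_cons]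
    push_cast at ih ⊢
    constructor <;> linarith [h1.1, h1.2, ih.1, ih.2]

theorem LPsp_split {l : List ℤ} {ps : List P} (h : List.Forall₂ LPspR l ps) (hn : ps.Nodup)
    {b : Finset P} (hb : b ⊆ ps.toFinset) : ∃ l1 l2 p1 p2, l.Perm (l1 ++ l2) ∧
      List.Forall₂ LPspR l1 p1 ∧ List.Forall₂ LPspR l2 p2 ∧ (∀ q ∈ p1, q ∈ ps.toFinset) ∧
      (∀ q ∈ p2, q ∈ b) ∧ l2.length = b.card ∧ (l2.sum : ℝ) / 2 ≤ Real.log (Ns b) ∧
      Real.log (Ns b) ≤ (l2.sum : ℝ) / 2 + l2.length := by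
  obtain ⟨l1, l2, a1, a2, a3⟩ := LPsp_filter h b
  have e : (ps.filter (· ∈ b)).toFinset = b := by
    ext q
    simp only [List.mem_toFinset, List.mem_filter, decide_eq_true_eq]
    exact ⟨fun h => h.2, fun h => ⟨List.mem_toFinset.1 (hb h), h⟩⟩
  have a4 := LPsp_sum a3 (hn.filter _)
  rw [e] at a4
  refine ⟨l1, l2, _, _, a1, a2, a3, fun q hq => List.mem_toFinset.2 (List.mem_filter.1 hq).1,
    fun q hq => by simpa using (List.mem_filter.1 hq).2, ?_, a4⟩
  rw [a3.length_eq, ← List.toFinset_card_of_nodup (hn.filter _), e]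

theorem LPsp_boxes (hc : CvF) {w : ℝ} {l : List ℤ} {c : Finset P}
    (h : Cv (l.map (pu w 0 0)) c ≠ 0) :
    ∃ ps : List P, ps.Nodup ∧ ps.toFinset = c ∧ List.Forall₂ LPspR l ps := by
  obtain ⟨ps, a1, a2, a3⟩ := hc.boxes _ _ _ _ _ h
  refine ⟨ps, a1, a2, a3.imp fun i p hp => ?_⟩
  have h0 : (0 : ℝ) < nm p.1 := by linarith [one_le_nmR p.ne_zero]
  exact ⟨(Real.lt_log_iff_exp_lt h0).2 hp.2.1, (Real.log_lt_iff_lt_exp h0).2 hp.2.2⟩

theorem LPsp_nu0 (hb : BA) {Y : ℝ} (hY : 0 < Y) {p : P} {b : Finset P} (hp : p ∉ b) (hne : b ≠ ∅)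
    (h1 : Ns b ≤ Y) (h2 : Real.log Y + 1 ≤ Real.log (nm p.1)) : nu Y (insert p b) = 0 := by
  rw [nu, Finset.sum_powerset_insert hp, Finset.sum_congr rfl (g := mu) fun d hd => ?_, sum_mu,
    if_neg hne, zero_add]
  · refine Finset.sum_eq_zero fun d hd => ?_
    have h3 : p ∉ d := fun h => hp (Finset.mem_powerset.1 hd h)
    rw [hb.Vs_zero, ofReal_zero, mul_zero]
    rw [Real.log_div (Ns_pos _).ne' hY.ne', LPsp_log_Ns, Finset.sum_insert h3, ← LPsp_log_Ns]
    linarith [Real.log_nonneg (one_le_Ns d)]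
  · rw [hb.Vs_one, ofReal_one, mul_one]
    exact Real.log_nonpos (div_pos (Ns_pos d) hY).le
      ((div_le_one hY).2 ((Ns_mono (Finset.mem_powerset.1 hd)).trans h1))

theorem LPsp_nu2 (hb : BA) {Y a : ℝ} (hY : 1 ≤ Y) {c : Finset P} (hc : c.card = 3)
    (ha : Real.log Y + 1 ≤ 2 * a)
    (h : ∀ p ∈ c, a ≤ Real.log (nm p.1) ∧ Real.log (nm p.1) ≤ Real.log Y) : nu Y c = -2 := by
  have hL := Real.log_nonneg hY
  rw [nu, Finset.sum_congr rfl (g := fun d => if d.card ≤ 1 then (-1 : ℂ) ^ d.card else 0)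
    fun d hd => ?_,
    Finset.sum_powerset_apply_card fun m : ℕ => if m ≤ 1 then (-1 : ℂ) ^ m else 0, hc]
  · simp [Finset.sum_range_succ]
    norm_num
  · have h1 := Finset.mem_powerset.1 hd
    have b1 := Finset.card_nsmul_le_sum d _ _ fun q hq => (h q (h1 hq)).1
    have b2 := Finset.sum_le_card_nsmul d _ _ fun q hq => (h q (h1 hq)).2
    rw [nsmul_eq_mul, ← LPsp_log_Ns] at b1 b2
    rw [Real.log_div (Ns_pos _).ne' (by linarith)]
    split_ifs with h2
    · have h3 : (d.card : ℝ) ≤ 1 := by exact_mod_cast h2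
      rw [hb.Vs_one _ (by nlinarith), ofReal_one, mul_one, mu]
    · have h3 : (2 : ℝ) ≤ d.card := by exact_mod_cast (by omega : 2 ≤ d.card)
      rw [hb.Vs_zero _ (by nlinarith), ofReal_zero, mul_zero]

theorem LPsp_low {x y s : ℝ} {n : ℕ} (hx : 0 < x) (hy : y ≤ x) (hn : n ≤ 51)
    (h : Real.log x ≤ s + n) : y / 3 ^ 51 ≤ Real.exp s := by
  rw [div_le_iff₀ (by positivity)]
  refine hy.trans (((Real.log_le_iff_le_exp hx).1 h).trans ?_)
  rw [Real.exp_add, ← Real.exp_one_pow]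
  exact mul_le_mul_of_nonneg_left ((pow_le_pow_left₀ (Real.exp_pos 1).le
    (by linarith [Real.exp_one_lt_d9]) n).trans (pow_le_pow_right₀ (by norm_num) hn))
    (Real.exp_pos s).le

theorem comb' (hb : BA) (hc : CvF) : Comb := by
  refine ⟨Real.exp 1000, fun X Y hX hY hY2 => ?_⟩
  have X0 : 0 < X := (Real.exp_pos _).trans_le hX
  have Y0 : 0 < Y := by linarith
  have hL : 1000 ≤ Real.log X := (Real.le_log_iff_exp_le X0).2 hX
  have rp : ∀ a : ℝ, X ^ a = Real.exp (Real.log X * a) := fun a => Real.rpow_def_of_pos X0 a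
  have lY : Real.log Y ≤ Real.log X * 0.43 := by
    rw [Real.log_le_iff_le_exp Y0, ← rp]
    exact hY2
  have l3 : Real.log (3 * X) ≤ Real.log X + 2 * Real.log 2 := by
    have e : Real.log (2 ^ 2 * X) = 2 * Real.log 2 + Real.log X := by
      rw [Real.log_mul (by norm_num) X0.ne', Real.log_pow]
      norm_num
    linarith [Real.log_le_log (by positivity) (show 3 * X ≤ 2 ^ 2 * X by linarith)]
  have l2 := Real.log_two_lt_d9
  have up : ∀ s : ℝ, 2 * s ≤ Real.log (3 * X) → Real.exp s ≤ 2 * √X := fun s hs => by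
    rw [← Real.le_log_iff_exp_le (by positivity), Real.log_mul (by norm_num) (by positivity),
      Real.log_sqrt X0.le]
    linarith
  refine ⟨fun F T φ l hφ hT n1 n2 h0 => ?_, fun l1 l2 w c hN hY3 h0 => ?_⟩
  · obtain ⟨c, c1, c2⟩ := Finset.exists_ne_zero_of_sum_ne_zero h0
    simp only [ne_eq, mul_eq_zero, not_or] at c2
    obtain ⟨⟨⟨c2, c3⟩, -⟩, c4⟩ := c2
    obtain ⟨c5, c6⟩ := LPsp_lw hφ X0 hT (Ns_pos c) c4
    have c7 : Real.log X ≤ Real.log (Ns c) := Real.log_le_log X0 c5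
    have c8 : Real.log (Ns c) ≤ Real.log (3 * X) := Real.log_le_log (Ns_pos c) c6
    have c9 : c.card = l.length := by rw [hc.card _ _ c3, List.length_map]
    obtain ⟨s1, -, s2⟩ := hc.supp _ _ _ _ _ c3
    obtain ⟨ps, p1, rfl, p2⟩ := LPsp_boxes hc c3
    have key : ∀ b ⊆ ps.toFinset, 0 < b.card → min Y (X ^ (1 / 3 + 1 / 200 : ℝ)) ≤ Ns b →
        2 * Real.log (Ns b) ≤ Real.log (Ns ps.toFinset) →
        ∃ l1 l2 : List ℤ, l.Perm (l1 ++ l2) ∧ l1 ≠ [] ∧ l2 ≠ [] ∧ Bl l2 ≤ 2 * √X ∧ Bl l ≤ 3 * X ∧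
          min Y (X ^ (1 / 3 : ℝ)) / 3 ^ 51 ≤ Bl l2 ∧
          (min Y (X ^ (1 / 3 + 1 / 200 : ℝ)) / 3 ^ 51 ≤ Bl l2 ∨ Narrow X l1 l2) := by
      intro b b1 b2 b3 b4
      obtain ⟨l1, l2, -, -, a1, -, -, -, -, a2, a3, a4⟩ := LPsp_split p2 p1 b1
      have a5 := a1.length_eq
      rw [List.length_append] at a5
      have b5 : b.card < ps.toFinset.card :=
        Finset.card_lt_card (Finset.ssubset_iff_subset_ne.2 ⟨b1, fun e => by
          rw [e] at b4
          linarith⟩)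
      have a6 : l2.length ≤ 51 := by omega
      refine ⟨l1, l2, a1, List.ne_nil_of_length_pos (by omega), List.ne_nil_of_length_pos (by omega),
        up _ (by linarith), s1.trans c6, LPsp_low (Ns_pos b) (le_trans (min_le_min_left _ ?_) b3)
          a6 a4, Or.inl (LPsp_low (Ns_pos b) b3 a6 a4)⟩
      rw [rp, rp]
      exact Real.exp_le_exp.2 (by linarith)
    rcases LPsp_core ps.toFinset (fun p => Real.log (nm p.1)) hL (fun p hp => by
        have := s2 p hp
        rw [wX, rp, ← Real.lt_log_iff_exp_lt (by linarith [one_le_nmR p.ne_zero])] at this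
        linarith) (by rwa [← LPsp_log_Ns]) (by rw [← LPsp_log_Ns]; linarith) with
      ⟨p, hp, h1⟩ | ⟨b, b1, b2, b3⟩ | ⟨h1, h2⟩
    · have e := Finset.add_sum_erase _ (fun p : P => Real.log (nm p.1)) hp
      rw [← LPsp_log_Ns] at h1
      rw [← LPsp_log_Ns, ← LPsp_log_Ns] at e
      have h2 : 0 < (ps.toFinset.erase p).card := by
        rw [Finset.card_erase_of_mem hp]
        omega
      refine key _ (Finset.erase_subset p _) h2 ((min_le_left _ _).trans ?_) (by linarith)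
      by_contra h3
      refine c2 ?_
      rw [← Finset.insert_erase hp]
      exact LPsp_nu0 hb Y0 (Finset.notMem_erase _ _) (Finset.card_pos.1 h2).ne_empty
        (not_le.1 h3).le (by linarith)
    · rw [← LPsp_log_Ns] at b2
      rw [← LPsp_log_Ns, ← LPsp_log_Ns] at b3
      refine key b b1 (Finset.card_pos.2 (Finset.nonempty_iff_ne_empty.2 fun e => ?_))
        ((min_le_right _ _).trans ?_) b3
      · rw [e, Ns_empty, Real.log_one] at b2
        linarith
      · rw [rp, ← Real.le_log_iff_exp_le (Ns_pos b)]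
        linarith
    · obtain ⟨p, hp, hm⟩ := ps.toFinset.exists_max_image (fun p : P => Real.log (nm p.1))
        (Finset.card_pos.1 (by omega))
      have h3 := Finset.sum_le_card_nsmul _ _ _ hm
      rw [← LPsp_log_Ns, h1, nsmul_eq_mul] at h3
      push_cast at h3
      obtain ⟨l1, l2, q1, q2, a1, a2, a3, a4, a5, a6, a7, a8⟩ :=
        LPsp_split p2 p1 (Finset.singleton_subset_iff.2 hp)
      obtain ⟨t1, t2⟩ := LPsp_sum p2 p1
      have a9 := a1.length_eq
      rw [Finset.card_singleton] at a6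
      rw [List.length_append] at a9
      rw [LPsp_log_Ns, Finset.sum_singleton] at a7 a8
      obtain ⟨m, rfl⟩ := List.length_eq_one_iff.1 a6
      obtain ⟨a, b, rfl⟩ := List.length_eq_two.1 (show l1.length = 2 by omega)
      obtain ⟨qa, qb, rfl⟩ := List.length_eq_two.1 a2.length_eq.symm
      obtain ⟨qm, rfl⟩ := List.length_eq_one_iff.1 a3.length_eq.symm
      simp only [List.forall₂_cons, List.Forall₂.nil, and_true] at a2 a3
      have e1 : qm = p := Finset.mem_singleton.1 (a5 qm (by simp))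
      subst e1
      have m1 := a4 qa (by simp)
      have m2 := a4 qb (by simp)
      have t3 : (l.sum : ℝ) = a + b + m := by
        rw [a1.sum_eq]
        simp [add_assoc]
      have t4 : (l.length : ℝ) = 3 := by
        rw [← c9, h1]
        norm_num
      have bx1 : ∀ (i : ℤ) (q : P), q ∈ ps.toFinset → LPspR i q → i ≤ m + 2 ∧
          X ^ (0.32 : ℝ) ≤ Real.exp (i / 2) ∧ Real.exp (i / 2) ≤ X ^ (0.34 : ℝ) := by
        intro i q hq hi
        obtain ⟨r1, r2⟩ := h2 q hq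
        have r3 : (i : ℝ) ≤ m + 2 := by linarith [hi.1, hm q hq, a3.2]
        rw [rp, rp, Real.exp_le_exp, Real.exp_le_exp]
        exact ⟨by exact_mod_cast r3, by linarith [hi.2], by linarith [hi.1]⟩
      refine ⟨[a, b], [m], a1, by simp, by simp, up _ (by linarith [(h2 qm hp).2]), s1.trans c6,
        LPsp_low (x := nm qm.1) (by linarith [one_le_nmR qm.ne_zero])
          ((min_le_right _ _).trans ?_) (by simp) a8,
        Or.inr ⟨a, b, m, rfl, rfl, (bx1 a qa m1 a2.1).1, (bx1 b qb m2 a2.2).1, fun i hi => ?_,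
          by linarith, by linarith⟩⟩
      · rw [rp, ← Real.le_log_iff_exp_le (by linarith [one_le_nmR qm.ne_zero])]
        linarith
      · simp only [List.mem_cons, List.not_mem_nil, or_false] at hi
        rcases hi with rfl | rfl | rfl
        exacts [(bx1 _ qa m1 a2.1).2, (bx1 _ qb m2 a2.2).2, (bx1 _ qm hp a3).2]
  · obtain ⟨a, b, m, rfl, rfl, -, -, h1, -⟩ := hN
    have c9 := hc.card _ _ h0
    obtain ⟨ps, -, rfl, p2⟩ := LPsp_boxes hc h0
    have lY2 : Real.log X * 0.4 ≤ Real.log Y := by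
      rw [Real.le_log_iff_exp_le Y0, ← rp]
      exact hY3
    refine LPsp_nu2 hb (a := Real.log X * 0.32) hY (by simpa using c9) (by linarith) fun q hq => ?_
    obtain ⟨i, hi, r1, r2⟩ : ∃ i ∈ [a, b, m], LPspR i q := by
      obtain ⟨k, hk, rfl⟩ := List.mem_iff_getElem.1 (List.mem_toFinset.1 hq)
      have hk2 : k < ([a, b] ++ [m]).length := p2.length_eq ▸ hk
      exact ⟨_, List.getElem_mem hk2, (List.forall₂_iff_get.1 p2).2 k hk2 hk⟩
    obtain ⟨r3, r4⟩ := h1 i hi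
    rw [rp, Real.exp_le_exp] at r3 r4
    constructor <;> linarith

end Pat
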