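import Vale.Agent.P006.IfC
import Vale.Agent.P026.Eis2

/-! From configurations of boxes to bilinear forms. -/

noncomputable section
namespace Pat
open QRH Complex MeasureTheory Filter
open scoped ComplexConjugate Classical ContDiff Topology

theorem LPsp_lw {φ : ℝ → ℂ} (hφ : Bump φ) {X T y : ℝ} (hX : 0 < X) (hT : 1 ≤ T) (hy : 0 < y)
    (h : lw φ T X y ≠ 0) : X ≤ y ∧ y ≤ 3 * X := by
  obtain ⟨h1, h2⟩ := hφ.supp _ h
  have h3 : 0 ≤ Real.log (y / X) := nonneg_of_mul_nonneg_right h1 (by linarith)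
  have h4 : Real.log (y / X) ≤ 1 := by nlinarith
  have h0 : 0 < y / X := by positivity
  rw [Real.log_nonneg_iff h0, one_le_div hX] at h3
  rw [Real.log_le_iff_le_exp h0, div_le_iff₀ hX] at h4
  exact ⟨h3, by nlinarith [Real.exp_one_lt_d9]⟩

theorem LPsp_Bl (l : List ℤ) : 0 < Bl l := Real.exp_pos _

theorem LPsp_bil (hc : CvF) (F : Finset P → ℂ) {X T : ℝ} (w τ κ : ℝ) {φ : ℝ → ℂ}
    {l l1 l2 : List ℤ} {n : ℕ} (hφ : Bump φ) (hX : 0 < X) (hT : 1 ≤ T) (hl : l.Perm (l1 ++ l2))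
    (hn : l2.length ≤ n) :
    ∑ c ∈ sqf (3 * X), Cv (l.map (pu w τ κ)) c * F c * lw φ T X (Ns c)
      = ((2 ^ l2.length * l2.length.factorial : ℕ) : ℂ) *
        Bil F (Cv (l1.map (pu w τ κ))) (nb w τ κ l2) X (Bl l2) (3 ^ n * Bl l2) T φ := by
  have hK : ((2 ^ l2.length * l2.length.factorial : ℕ) : ℂ) ≠ 0 :=
    Nat.cast_ne_zero.2 (by positivity)
  have hB := LPsp_Bl l2
  obtain ⟨G, hG⟩ : ∃ G : Finset P × Finset P → ℂ, G = fun x => Cv (l1.map (pu w τ κ)) x.1 *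
    Cv (l2.map (pu w τ κ)) x.2 * (if Disjoint x.1 x.2 then F (x.1 ∪ x.2) else 0) *
      lw φ T X (Ns x.1 * Ns x.2) := ⟨_, rfl⟩
  have e1 : ∑ c ∈ sqf (3 * X), Cv (l.map (pu w τ κ)) c * F c * lw φ T X (Ns c)
      = ∑ x ∈ (sqf (3 * X)).sigma fun c => c.powerset, G (x.1 \ x.2, x.2) := by
    rw [Finset.sum_sigma, hc.perm _ _ (hl.map _), List.map_append]
    refine Finset.sum_congr rfl fun c _ => ?_
    rw [hc.append, Finset.sum_mul, Finset.sum_mul]
    refine Finset.sum_congr rfl fun b hb => ?_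
    have h1 := Finset.mem_powerset.1 hb
    rw [hG]
    simp only
    rw [if_pos Finset.sdiff_disjoint, ← Ns_union Finset.sdiff_disjoint,
      Finset.sdiff_union_of_subset h1]
  have e2 : ((2 ^ l2.length * l2.length.factorial : ℕ) : ℂ) *
        Bil F (Cv (l1.map (pu w τ κ))) (nb w τ κ l2) X (Bl l2) (3 ^ n * Bl l2) T φ
      = ∑ x ∈ sqf (3 * X / Bl l2) ×ˢ sqf (3 ^ n * Bl l2), G x := by
    rw [Finset.sum_product, Bil, Finset.mul_sum]
    refine Finset.sum_congr rfl fun a _ => ?_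
    rw [Finset.mul_sum]
    refine Finset.sum_congr rfl fun b _ => ?_
    rw [hG, nb]
    field_simp
  have g0 : ∀ x, G x ≠ 0 → Cv (l2.map (pu w τ κ)) x.2 ≠ 0 ∧ Disjoint x.1 x.2 ∧
      lw φ T X (Ns x.1 * Ns x.2) ≠ 0 := fun x hx => by
    rw [hG] at hx
    simp only [ne_eq, mul_eq_zero, not_or] at hx
    refine ⟨hx.1.1.2, ?_, hx.2⟩
    by_contra h
    exact hx.1.2 (if_neg h)
  rw [e1, e2]
  refine Finset.sum_bij_ne_zero (fun x _ _ => (x.1 \ x.2, x.2)) (fun x hx h0 => ?_)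
    (fun x hx _ x' hx' _ e => ?_) (fun x hx h0 => ?_) fun _ _ _ => rfl
  · obtain ⟨a1, a2⟩ := Finset.mem_sigma.1 hx
    obtain ⟨b1, b2, -⟩ := hc.supp _ _ _ _ _ (g0 _ h0).1
    have b3 := Ns_union (Finset.sdiff_disjoint (s := x.2) (t := x.1))
    rw [Finset.sdiff_union_of_subset (Finset.mem_powerset.1 a2)] at b3
    refine Finset.mem_product.2 ⟨mem_sqf.2 ?_, mem_sqf.2 (b2.trans ?_)⟩
    · rw [le_div_iff₀ hB]
      exact (mul_le_mul_of_nonneg_left b1 (Ns_pos _).le).trans (b3 ▸ mem_sqf.1 a1)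
    · gcongr
      norm_num
  · obtain ⟨c, b⟩ := x
    obtain ⟨c', b'⟩ := x'
    have a1 := Finset.mem_powerset.1 (Finset.mem_sigma.1 hx).2
    have a2 := Finset.mem_powerset.1 (Finset.mem_sigma.1 hx').2
    simp only [Prod.mk.injEq] at e a1 a2
    obtain ⟨e1, rfl⟩ := e
    rw [← Finset.sdiff_union_of_subset a1, e1, Finset.sdiff_union_of_subset a2]
  · obtain ⟨-, b2, b3⟩ := g0 x h0
    have b4 : (x.1 ∪ x.2) \ x.2 = x.1 := Finset.union_sdiff_cancel_right b2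
    refine ⟨⟨x.1 ∪ x.2, x.2⟩, Finset.mem_sigma.2 ⟨mem_sqf.2 ?_,
      Finset.mem_powerset.2 Finset.subset_union_right⟩, by rwa [b4], by rw [b4]⟩
    rw [Ns_union b2]
    exact (LPsp_lw hφ hX hT (mul_pos (Ns_pos _) (Ns_pos _)) b3).2

theorem LPsp_log_Ns (s : Finset P) : Real.log (Ns s) = ∑ p ∈ s, Real.log (nm p.1) := by
  rw [Ns_eq_prod, Real.log_prod fun p _ => by linarith [one_le_nmR p.ne_zero]]

theorem LPsp_euler (c : Finset P) {Y : ℝ} (hY : 0 < Y) (τ : ℝ) :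
    ∑ d ∈ c.powerset, mu d * Complex.exp (τ * (Real.log (Ns d / Y) : ℝ) * I)
      = Complex.exp (-(τ * Real.log Y : ℝ) * I) *
        ∏ p ∈ c, (1 - (1 : ℝ) * ((nm p.1 : ℝ) : ℂ) ^ (τ * I)) := by
  simp only [sub_eq_add_neg]
  rw [Finset.prod_one_add, Finset.mul_sum]
  refine Finset.sum_congr rfl fun d _ => ?_
  have e : ∀ p : P, -(((1 : ℝ) : ℂ) * ((nm p.1 : ℝ) : ℂ) ^ (τ * I))
      = -1 * Complex.exp ((Real.log (nm p.1) : ℝ) * (τ * I)) := fun p => by
    have h0 : (0 : ℝ) < nm p.1 := by linarith [one_le_nmR p.ne_zero]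
    rw [cpow_def_of_ne_zero (ofReal_ne_zero.2 h0.ne'), ← ofReal_log h0.le, ofReal_one]
    ring
  simp only [e]
  rw [Finset.prod_mul_distrib, Finset.prod_const, ← Complex.exp_sum, ← Finset.sum_mul,
    ← ofReal_sum, ← LPsp_log_Ns, Real.log_div (Ns_pos d).ne' hY.ne', mu, mul_left_comm,
    ← Complex.exp_add]
  congr 2
  push_cast
  ring

theorem LPsp_main (hb : BA) (hc : CvF) : LPsp := by
  intro k n
  obtain ⟨C, hC, hv⟩ := hb.vr (k + 2)
  have hi := hb.int_pow k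
  obtain ⟨J, hJ⟩ : ∃ J : ℝ, J = ∫ τ : ℝ, (1 + |τ|) ^ (-((k : ℝ) + 2)) * (1 + |τ|) ^ k := ⟨_, rfl⟩
  have J0 : 0 ≤ J := hJ ▸ integral_nonneg fun τ => by positivity
  obtain ⟨K, hK⟩ : ∃ K : ℝ, K = (2 ^ n * n.factorial : ℕ) := ⟨_, rfl⟩
  have K0 : 0 < K := by
    rw [hK]
    positivity
  refine ⟨C * K * J + 2 * K, by positivity, fun F X T Y w φ l l1 l2 hφ hX hT hY hl hn => ?_⟩
  have hK2 : ‖((2 ^ l2.length * l2.length.factorial : ℕ) : ℂ)‖ ≤ K := by
    rw [Complex.norm_natCast, hK]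
    exact_mod_cast Nat.mul_le_mul (Nat.pow_le_pow_right two_pos hn) (Nat.factorial_le hn)
  have hL := Real.log_nonneg hY
  refine ⟨fun M hM hB => ?_, fun h2 => ?_⟩
  · obtain ⟨h, -, h1, h2, h3⟩ := hv _ hL
    have i1 : ∀ v : ℝ, Integrable fun τ : ℝ => h τ * Complex.exp (τ * v * I) := fun v =>
      h2.mul_bdd (c := 1) (by fun_prop) (Eventually.of_forall fun τ => by
        rw [← ofReal_mul, norm_exp_ofReal_mul_I])
    have i2 : ∀ c : Finset P, Integrable fun τ : ℝ => ∑ d ∈ c.powerset,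
        mu d * (h τ * Complex.exp (τ * (Real.log (Ns d / Y) : ℝ) * I)) := fun c =>
      integrable_finsetSum _ fun d _ => (i1 _).const_mul _
    have e1 : ∀ c : Finset P, nu Y c = ∫ τ : ℝ, ∑ d ∈ c.powerset,
        mu d * (h τ * Complex.exp (τ * (Real.log (Ns d / Y) : ℝ) * I)) := fun c => by
      rw [integral_finsetSum _ fun d _ => (i1 _).const_mul _, nu]
      refine Finset.sum_congr rfl fun d _ => ?_
      rw [integral_const_mul, ← h3]
      rw [Real.log_div (Ns_pos d).ne' (by linarith)]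
      linarith [Real.log_nonneg (one_le_Ns d)]
    have e2 : Cfg F X T φ Y w l = ∫ τ : ℝ, ∑ c ∈ sqf (3 * X), (∑ d ∈ c.powerset,
        mu d * (h τ * Complex.exp (τ * (Real.log (Ns d / Y) : ℝ) * I))) *
          (Cv (l.map (pu w 0 0)) c * F c * lw φ T X (Ns c)) := by
      rw [integral_finsetSum _ fun c _ => (i2 c).mul_const _, Cfg]
      refine Finset.sum_congr rfl fun c _ => ?_
      rw [integral_mul_const, ← e1]
      ring
    have e3 : ∀ τ : ℝ, ∑ c ∈ sqf (3 * X), (∑ d ∈ c.powerset,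
        mu d * (h τ * Complex.exp (τ * (Real.log (Ns d / Y) : ℝ) * I))) *
          (Cv (l.map (pu w 0 0)) c * F c * lw φ T X (Ns c))
        = h τ * Complex.exp (-(τ * Real.log Y : ℝ) * I) *
          ∑ c ∈ sqf (3 * X), Cv (l.map (pu w τ 1)) c * F c * lw φ T X (Ns c) := fun τ => by
      rw [Finset.mul_sum]
      refine Finset.sum_congr rfl fun c _ => ?_
      simp only [mul_left_comm _ (h τ)]
      rw [← Finset.mul_sum, LPsp_euler c (by linarith), hc.twist w τ 1]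
      ring
    rw [e2]
    refine (norm_integral_le_of_norm_le (hi.const_mul (C * (1 + Real.log Y) * K * M))
      (Eventually.of_forall fun τ => ?_)).trans ?_
    · rw [e3, LPsp_bil hc F w τ 1 hφ hX hT hl hn, norm_mul, norm_mul, norm_mul, ← ofReal_neg,
        norm_exp_ofReal_mul_I, mul_one]
      have h4 := h1 τ
      push_cast at h4
      calc _ ≤ C * (1 + Real.log Y) * (1 + |τ|) ^ (-((k : ℝ) + 2)) * (K * (M * (1 + |τ|) ^ k)) := by
            gcongr
            exact hB τ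
        _ = _ := by ring
    · rw [integral_const_mul, ← hJ]
      nlinarith [mul_nonneg (mul_nonneg K0.le (by linarith : 0 ≤ 1 + Real.log Y)) hM]
  · have e : Cfg F X T φ Y w l
        = -2 * ∑ c ∈ sqf (3 * X), Cv (l.map (pu w 0 0)) c * F c * lw φ T X (Ns c) := by
      rw [Cfg, Finset.mul_sum]
      refine Finset.sum_congr rfl fun c _ => ?_
      by_cases h0 : Cv (l.map (pu w 0 0)) c = 0
      · simp [h0]
      · rw [h2 c h0]
        ring
    rw [e, LPsp_bil hc F w 0 0 hφ hX hT hl hn, norm_mul, norm_mul, norm_neg, Complex.norm_two,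
      ← mul_assoc]
    refine mul_le_mul_of_nonneg_right ?_ (norm_nonneg _)
    linarith [show 0 ≤ C * K * J by positivity]

end Pat
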