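import Vale.Agent.P006.IfB
import Vale.Agent.P026.Cnt
import Vale.Agent.P026.Sym

/-! Power saving for products of character sums. -/

noncomputable section
namespace Pat
open QRH Complex MeasureTheory Filter
open scoped ComplexConjugate Classical ContDiff Topology

theorem lV_Dn {a : E → ℂ} (ha : ∀ n, ‖a n‖ ≤ 1) {N : ℝ} (hN : 0 ≤ N) (ξ : E) :
    ‖Dn a N ξ‖ ≤ 12 * N := by
  have h1 : ((pball N).card : ℝ) ≤ (ball N).card := by
    exact_mod_cast Finset.card_filter_le _ _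
  refine le_trans ?_ (h1.trans (card_ball_le hN))
  refine (norm_sum_le _ _).trans ?_
  rw [← mul_one ((pball N).card : ℝ), ← nsmul_eq_mul]
  refine Finset.sum_le_card_nsmul _ _ _ fun n _ => ?_
  rw [norm_mul]
  exact mul_le_one₀ (ha n) (norm_nonneg _) (norm_xv_le ch_c3 n ξ)

theorem lV_prod {ι : Type} (J : Finset ι) {m : ℕ} (hJ : J.card ≤ m) (x N : ι → ℝ)
    (hx0 : ∀ i, 0 ≤ x i) (hx : ∀ i ∈ J, x i ≤ 12 * N i) (hN : ∀ i ∈ J, 0 ≤ N i) :
    ∏ i ∈ J, x i ≤ 12 ^ m * ∏ i ∈ J, N i := by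
  refine (Finset.prod_le_prod (fun i _ => hx0 i) hx).trans ?_
  rw [Finset.prod_mul_distrib, Finset.prod_const]
  exact mul_le_mul_of_nonneg_right (pow_le_pow_right₀ (by norm_num) hJ) (Finset.prod_nonneg hN)

theorem lV_hold {ι : Type} (J : Finset ι) (x ν : ι → ℝ) (hx : ∀ i, 0 ≤ x i)
    (hν : ∀ i ∈ J, 0 < ν i) :
    ∏ i ∈ J, x i ^ 2 ≤ (1 + ∑ i ∈ J, x i ^ (2 / ν i)) ^ (∑ i ∈ J, ν i) := by
  have h0 : ∀ i ∈ J, 0 ≤ x i ^ (2 / ν i) := fun i _ => Real.rpow_nonneg (hx i) _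
  have h1 : 0 ≤ ∑ i ∈ J, x i ^ (2 / ν i) := Finset.sum_nonneg h0
  rw [Real.rpow_sum_of_pos (by linarith)]
  refine Finset.prod_le_prod (fun i _ => sq_nonneg _) fun i hi => ?_
  have e : x i ^ 2 = (x i ^ (2 / ν i)) ^ ν i := by
    rw [← Real.rpow_mul (hx i), div_mul_cancel₀ _ (hν i hi).ne', Real.rpow_two]
  rw [e]
  refine Real.rpow_le_rpow (h0 i hi) ?_ (hν i hi).le
  linarith [Finset.single_le_sum h0 hi]

/-- The sum is at most the number of terms times the maximum. -/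
theorem lV_triv {F : Finset E} {B δ M : ℝ} (hB : 1 ≤ B) (hF : F ⊆ ball (B ^ (1 + δ)))
    (f : E → ℝ) (hM : 0 ≤ M) (h : ∀ ξ ∈ F, f ξ ≤ M) : ∑ ξ ∈ F, f ξ ≤ 12 * B ^ (1 + δ) * M := by
  refine (Finset.sum_le_card_nsmul _ _ _ h).trans ?_
  rw [nsmul_eq_mul]
  refine mul_le_mul_of_nonneg_right (le_trans ?_ (card_ball_le (by positivity))) hM
  exact_mod_cast Finset.card_le_card hF

theorem lV_pow {M B Λ s : ℝ} (hM : 1 ≤ M) (hB : 1 < B) (hΛ : 1 ≤ Λ) (h3 : M ≤ B ^ 3)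
    (hs : B ^ s ≤ Λ * B) : M ^ s ≤ Λ ^ 3 * M := by
  have hB0 : 0 < B := by linarith
  have h1 : B ^ (s - 1) ≤ Λ := by
    rw [Real.rpow_sub_one hB0.ne', div_le_iff₀ hB0]
    exact hs
  have e : M ^ s = M ^ (s - 1) * M := by
    rw [← Real.rpow_add_one (by linarith), sub_add_cancel]
  rw [e]
  refine mul_le_mul_of_nonneg_right ?_ (by linarith)
  rcases le_total (s - 1) 0 with h | h
  · exact (Real.rpow_le_one_of_one_le_of_nonpos hM h).trans (one_le_pow₀ hΛ)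
  · refine (Real.rpow_le_rpow (by linarith) h3 h).trans ?_
    rw [← Real.rpow_natCast, ← Real.rpow_mul hB0.le, mul_comm, Real.rpow_mul hB0.le,
      Real.rpow_natCast]
    exact pow_le_pow_left₀ (by positivity) h1 3

theorem lV (hb : BA) (h : LV1) : LV := by
  intro m Λ C1 hΛ hC1
  obtain ⟨η, hη⟩ : ∃ η : ℝ, η = 1 / 100000 / (m + 1) := ⟨_, rfl⟩
  have hη0 : 0 < η := by rw [hη]; positivity
  have hηm : η * m ≤ 1 / 100000 := by
    rw [hη, div_mul_eq_mul_div, div_le_iff₀ (by positivity)]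
    linarith
  obtain ⟨C2, hC2, h2⟩ := h η C1 hη0 hC1
  obtain ⟨K, hK⟩ : ∃ K : ℝ, K = 1 + m * 12 ^ (2 / η) := ⟨_, rfl⟩
  have hK1 : 1 ≤ K := by
    rw [hK]
    exact le_add_of_nonneg_right (by positivity)
  refine ⟨12 * (12 ^ m * Λ) ^ 2 * K + (12 ^ m) ^ 2 * Λ ^ 3 * (12 + m * C2), by positivity,
    fun ι J B δ F a N hJ hB hδ0 hδ hF hH ha hN1 hNp hN => ?_⟩
  have hB0 : 0 < B := by linarith
  have hN0 : ∀ i ∈ J, 0 ≤ N i := fun i hi => by linarith [hN1 i hi]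
  have hD : ∀ ξ, ∀ i ∈ J, ‖Dn (a i) (N i) ξ‖ ≤ 12 * N i := fun ξ i hi => lV_Dn (ha i) (hN0 i hi) ξ
  have mono : ∀ x y : ℝ, x ≤ y → B ^ x ≤ B ^ y := fun x y => Real.rpow_le_rpow_of_exponent_le hB
  have hp : 0 < B ^ (7 / 3 - 1 / 10000 : ℝ) := by positivity
  simp only [norm_prod]
  rw [add_mul]
  by_cases hBK : B ≤ K
  · refine le_trans ?_ (le_add_of_nonneg_right (by positivity))
    refine (lV_triv hB hF _ (M := (12 ^ m * (Λ * B)) ^ 2) (by positivity) fun ξ _ => ?_).trans ?_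
    · refine pow_le_pow_left₀ (Finset.prod_nonneg fun _ _ => norm_nonneg _) ?_ 2
      exact (lV_prod J hJ _ N (fun _ => norm_nonneg _) (hD ξ) hN0).trans (by gcongr)
    · have h3 : B ^ (1 + δ) * B ^ 2 ≤ K * B ^ (7 / 3 - 1 / 10000 : ℝ) := by
        rw [← Real.rpow_natCast, ← Real.rpow_add hB0]
        refine (mono _ (7 / 3 - 1 / 10000 + 1) (by push_cast; linarith)).trans ?_
        rw [Real.rpow_add_one hB0.ne', mul_comm]
        gcongr
      calc 12 * B ^ (1 + δ) * (12 ^ m * (Λ * B)) ^ 2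
          = 12 * (12 ^ m * Λ) ^ 2 * (B ^ (1 + δ) * B ^ 2) := by ring
        _ ≤ 12 * (12 ^ m * Λ) ^ 2 * (K * B ^ (7 / 3 - 1 / 10000 : ℝ)) := by gcongr
        _ = _ := by ring
  have hKB : K < B := not_le.1 hBK
  have hB1 : 1 < B := lt_of_le_of_lt hK1 hKB
  by_cases hL : ∃ i ∈ J, B ^ (0.85 : ℝ) < N i
  · obtain ⟨i0, hi0, hL⟩ := hL
    have h4 := (hN i0 hi0).resolve_left (not_le.2 ((mono _ _ (by norm_num)).trans_lt hL))
    have hq : 0 < B ^ (0.85 : ℝ) := by positivity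
    have h5 : ∏ i ∈ J.erase i0, N i ≤ Λ * B ^ (0.15 : ℝ) := by
      have h6 : 0 ≤ ∏ i ∈ J.erase i0, N i :=
        Finset.prod_nonneg fun i hi => hN0 i (Finset.mem_of_mem_erase hi)
      rw [← Finset.mul_prod_erase J N hi0] at hNp
      have e : B = B ^ (0.85 : ℝ) * B ^ (0.15 : ℝ) := by
        rw [← Real.rpow_add hB0]; norm_num
      refine le_of_mul_le_mul_left ?_ hq
      calc B ^ (0.85 : ℝ) * ∏ i ∈ J.erase i0, N i ≤ N i0 * ∏ i ∈ J.erase i0, N i := by gcongr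
        _ ≤ Λ * B := hNp
        _ = _ := by rw [mul_left_comm, ← e]
    refine le_trans ?_ (le_add_of_nonneg_right (by positivity))
    refine (lV_triv hB hF _ (M := (B ^ (1 / 2 + δ) * (12 ^ m * (Λ * B ^ (0.15 : ℝ)))) ^ 2)
      (by positivity) fun ξ hξ => ?_).trans ?_
    · refine pow_le_pow_left₀ (Finset.prod_nonneg fun _ _ => norm_nonneg _) ?_ 2
      rw [← Finset.mul_prod_erase J _ hi0]
      refine mul_le_mul (h4 ξ hξ) ?_ (Finset.prod_nonneg fun _ _ => norm_nonneg _) (by positivity)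
      exact (lV_prod (J.erase i0) (Finset.card_erase_le.trans hJ) _ N (fun _ => norm_nonneg _)
        (fun i hi => hD ξ i (Finset.mem_of_mem_erase hi))
        fun i hi => hN0 i (Finset.mem_of_mem_erase hi)).trans (by gcongr)
    · have h3 : B ^ (1 + δ) * (B ^ (1 / 2 + δ) * B ^ (0.15 : ℝ)) ^ 2
          ≤ K * B ^ (7 / 3 - 1 / 10000 : ℝ) := by
        rw [← Real.rpow_add hB0, ← Real.rpow_natCast, ← Real.rpow_mul hB0.le, ← Real.rpow_add hB0]
        refine (mono _ (7 / 3 - 1 / 10000) (by push_cast; linarith)).trans ?_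
        exact le_mul_of_one_le_left hp.le hK1
      calc 12 * B ^ (1 + δ) * (B ^ (1 / 2 + δ) * (12 ^ m * (Λ * B ^ (0.15 : ℝ)))) ^ 2
          = 12 * (12 ^ m * Λ) ^ 2 * (B ^ (1 + δ) * (B ^ (1 / 2 + δ) * B ^ (0.15 : ℝ)) ^ 2) := by
            ring
        _ ≤ 12 * (12 ^ m * Λ) ^ 2 * (K * B ^ (7 / 3 - 1 / 10000 : ℝ)) := by gcongr
        _ = _ := by ring
  have hL' : ∀ i ∈ J, N i ≤ B ^ (0.85 : ℝ) := fun i hi => not_lt.1 fun h' => hL ⟨i, hi, h'⟩
  refine le_trans ?_ (le_add_of_nonneg_left (by positivity))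
  obtain ⟨ν, hν⟩ : ∃ ν : ι → ℝ, ν = fun i => Real.logb B (N i) := ⟨_, rfl⟩
  have hνN : ∀ i ∈ J, B ^ ν i = N i := fun i hi => by
    rw [hν]
    exact Real.rpow_logb hB0 hB1.ne' (by linarith [hN1 i hi])
  have hle : ∀ x y : ℝ, B ^ x ≤ B ^ y → x ≤ y := fun x y =>
    (Real.rpow_le_rpow_left_iff hB1).1
  obtain ⟨J2, hJ2⟩ : ∃ J2, J2 = J.filter fun i => η ≤ ν i := ⟨_, rfl⟩
  have hsub : J2 ⊆ J := hJ2 ▸ Finset.filter_subset _ _
  have hη2 : ∀ i ∈ J2, η ≤ ν i := fun i hi => by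
    rw [hJ2] at hi
    exact (Finset.mem_filter.1 hi).2
  have hc2 : (J2.card : ℝ) ≤ m := by exact_mod_cast (Finset.card_le_card hsub).trans hJ
  have hs : B ^ (∑ i ∈ J2, ν i) ≤ Λ * B := by
    rw [Real.rpow_sum_of_pos hB0, Finset.prod_congr rfl fun i hi => hνN i (hsub hi)]
    exact (Finset.prod_le_prod_of_subset_of_one_le hsub (fun i hi => hN0 i (hsub hi))
      fun i hi _ => hN1 i hi).trans hNp
  have pt : ∀ ξ, (∏ i ∈ J, ‖Dn (a i) (N i) ξ‖) ^ 2 ≤ (12 ^ m * B ^ (1 / 100000 : ℝ)) ^ 2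
      * (Λ ^ 3 * (1 + ∑ i ∈ J2, ‖Dn (a i) (N i) ξ‖ ^ (2 / ν i))) := fun ξ => by
    rw [← Finset.prod_filter_not_mul_prod_filter J (fun i => η ≤ ν i), ← hJ2, mul_pow]
    refine mul_le_mul (pow_le_pow_left₀ (Finset.prod_nonneg fun _ _ => norm_nonneg _) ?_ 2) ?_
      (sq_nonneg _) (sq_nonneg _)
    · have hc : (J.filter fun i => ¬ η ≤ ν i).card ≤ m := (Finset.card_filter_le _ _).trans hJ
      refine (lV_prod _ hc _ (fun _ => B ^ η) (fun _ => norm_nonneg _) (fun i hi => ?_)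
        fun _ _ => by positivity).trans ?_
      · obtain ⟨i1, i2⟩ := Finset.mem_filter.1 hi
        refine (hD ξ i i1).trans ?_
        rw [← hνN i i1]
        exact mul_le_mul_of_nonneg_left (mono _ _ (not_le.1 i2).le) (by norm_num)
      · rw [Finset.prod_const, ← Real.rpow_natCast (B ^ η), ← Real.rpow_mul hB0.le]
        refine mul_le_mul_of_nonneg_left (mono _ _ (le_trans ?_ hηm)) (by positivity)
        exact mul_le_mul_of_nonneg_left (by exact_mod_cast hc) hη0.le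
    · rw [← Finset.prod_pow]
      refine (lV_hold J2 _ ν (fun _ => norm_nonneg _) fun i hi => hη0.trans_le (hη2 i hi)).trans ?_
      refine lV_pow (le_add_of_nonneg_right (Finset.sum_nonneg fun _ _ => by positivity)) hB1 hΛ
        ?_ hs
      have h6 : ∀ i ∈ J2, ‖Dn (a i) (N i) ξ‖ ^ (2 / ν i) ≤ 12 ^ (2 / η) * B ^ 2 := fun i hi => by
        have h7 := hη2 i hi
        have h8 : 0 < ν i := hη0.trans_le h7
        refine (Real.rpow_le_rpow (norm_nonneg _) (hD ξ i (hsub hi)) (by positivity)).trans ?_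
        rw [Real.mul_rpow (by norm_num) (hN0 i (hsub hi)), ← hνN i (hsub hi),
          ← Real.rpow_mul hB0.le, mul_div_cancel₀ _ h8.ne', Real.rpow_two]
        refine mul_le_mul_of_nonneg_right ?_ (by positivity)
        exact Real.rpow_le_rpow_of_exponent_le (by norm_num) (by gcongr)
      have h7 := Finset.sum_le_card_nsmul _ _ _ h6
      rw [nsmul_eq_mul] at h7
      have h8 : (J2.card : ℝ) * (12 ^ (2 / η) * B ^ 2) ≤ m * (12 ^ (2 / η) * B ^ 2) := by gcongr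
      have h9 : 1 ≤ B ^ 2 := one_le_pow₀ hB
      have h10 : K * B ^ 2 ≤ B * B ^ 2 := by gcongr
      rw [hK] at h10
      nlinarith
  refine (Finset.sum_le_sum fun ξ _ => pt ξ).trans ?_
  rw [← Finset.mul_sum, ← Finset.mul_sum, Finset.sum_add_distrib, Finset.sum_comm]
  have s1 : ∑ _ξ ∈ F, (1 : ℝ) ≤ 12 * B ^ (7 / 3 - 1.5 / 10000 : ℝ) := by
    refine (lV_triv hB hF _ zero_le_one fun _ _ => le_rfl).trans ?_
    rw [mul_one]
    exact mul_le_mul_of_nonneg_left (mono _ _ (by linarith)) (by norm_num)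
  have s2 : ∑ i ∈ J2, ∑ ξ ∈ F, ‖Dn (a i) (N i) ξ‖ ^ (2 / ν i)
      ≤ m * (C2 * B ^ (7 / 3 - 1.5 / 10000 : ℝ)) := by
    refine (Finset.sum_le_card_nsmul _ _ (C2 * B ^ (7 / 3 - 1.5 / 10000 : ℝ))
      fun i hi => ?_).trans ?_
    · have hi' := hsub hi
      have h6 := h2 B δ (ν i) F (a i) hB hδ0 hδ (hη2 i hi)
        (hle _ _ (by rw [hνN i hi']; exact hL' i hi')) hF hH (ha i)
      rw [hνN i hi'] at h6
      exact h6 ((hN i hi').imp_left fun h7 => hle _ _ (by rwa [hνN i hi']))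
    · rw [nsmul_eq_mul]
      gcongr
  have h3 : (B ^ (1 / 100000 : ℝ)) ^ 2 * B ^ (7 / 3 - 1.5 / 10000 : ℝ)
      ≤ B ^ (7 / 3 - 1 / 10000 : ℝ) := by
    rw [← Real.rpow_natCast, ← Real.rpow_mul hB0.le, ← Real.rpow_add hB0]
    exact mono _ _ (by norm_num)
  calc _ ≤ (12 ^ m * B ^ (1 / 100000 : ℝ)) ^ 2 * (Λ ^ 3 * (12 * B ^ (7 / 3 - 1.5 / 10000 : ℝ)
        + m * (C2 * B ^ (7 / 3 - 1.5 / 10000 : ℝ)))) := by gcongr
    _ = (12 ^ m) ^ 2 * Λ ^ 3 * (12 + m * C2)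
        * ((B ^ (1 / 100000 : ℝ)) ^ 2 * B ^ (7 / 3 - 1.5 / 10000 : ℝ)) := by ring
    _ ≤ _ := by gcongr

end Pat
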