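import Vale.Agent.P006.LV1Aux

/-! P006: large values of one character sum. -/

noncomputable section
namespace Pat
open QRH Complex MeasureTheory Filter
open scoped ComplexConjugate Classical ContDiff Topology

theorem lv1_k {η ν c : ℝ} (m : ℕ) (hη : 0 < η) (hν : η ≤ ν) (hm : m * ν ≤ c) :
    ∃ k : ℕ, m ≤ k ∧ k ≤ ⌈c / η⌉₊ ∧ c - ν ≤ ν * k ∧ ν * k ≤ c := by
  have h0 : 0 < ν := hη.trans_le hν
  have hc : 0 ≤ c := le_trans (by positivity) hm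
  refine ⟨⌊c / ν⌋₊, Nat.le_floor ((le_div_iff₀ h0).2 hm), ?_, ?_, ?_⟩
  · exact (Nat.floor_le_floor (div_le_div_of_nonneg_left hc hη hν)).trans (Nat.floor_le_ceil _)
  · have h1 := Nat.lt_floor_add_one (c / ν)
    rw [div_lt_iff₀ h0] at h1
    linarith
  · have h1 := Nat.floor_le (div_nonneg hc h0.le)
    rw [le_div_iff₀ h0] at h1
    linarith

theorem lv1_V {B ν σ : ℝ} (hB : 0 < B) (hν : 0 < ν) (k : ℕ) :
    (B ^ (ν * σ)) ^ (2 / ν - (2 * k : ℕ)) = B ^ (σ * (2 - 2 * (ν * k))) := by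
  rw [← Real.rpow_mul hB.le]
  congr 1
  push_cast
  field_simp

theorem lv1_small (h : NG) {η : ℝ} (hη : 0 < η) : ∃ C : ℝ, 0 < C ∧
    ∀ (B δ1 ν : ℝ) (S : Finset E) (a : E → ℂ), 1 ≤ B → 0 < δ1 → δ1 ≤ 1 / 40000 → η ≤ ν →
    ν ≤ 0.85 → S ⊆ ball (B ^ (1 + δ1)) → (∀ n, ‖a n‖ ≤ 1) →
    (∀ ξ ∈ S, ‖Dn a (B ^ ν) ξ‖ ≤ B ^ (ν * (247 / 300))) →
    ∑ ξ ∈ S, ‖Dn a (B ^ ν) ξ‖ ^ (2 / ν) ≤ C * B ^ (7 / 3 - 1.5 / 10000 : ℝ) := by
  obtain ⟨C1, hC1, h1⟩ := h (1 / 200000) (by norm_num)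
  obtain ⟨C2, hC2, h2⟩ := lv1_pow ⌈0.99 / η⌉₊ (ε := 1 / 100000) (by norm_num)
  refine ⟨3 * (C2 * C1), by positivity, fun B δ1 ν S a hB hδ hδ1 hν hν1 hS ha hV => ?_⟩
  have hB0 : 0 < B := by linarith
  have hν0 : 0 < ν := hη.trans_le hν
  obtain ⟨k, hk1, hk2, hk3, hk4⟩ := lv1_k (c := 0.99) 1 hη hν (by push_cast; linarith)
  have hk5 : ν ≤ ν * k := le_mul_of_one_le_right hν0.le (by exact_mod_cast hk1)
  have hN : (B ^ ν) ^ k = B ^ (ν * k) := (Real.rpow_mul_natCast hB0.le ν k).symm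
  have hle : ∀ {x y : ℝ}, x ≤ y → B ^ x ≤ B ^ y := fun h =>
    Real.rpow_le_rpow_of_exponent_le hB h
  have h1B : ∀ {x : ℝ}, 0 ≤ x → 1 ≤ B ^ x := fun h => Real.one_le_rpow hB h
  have hsq : B ^ 2 = B ^ (2 : ℝ) := (Real.rpow_two B).symm
  set n := ν * k with hn
  obtain ⟨b, hb, h3⟩ := h2 B (B ^ ν) k a hB (h1B hν0.le) hk1 hk2
    (by rw [hN, hsq]; exact hle (by linarith)) ha
  rw [hN] at h3
  have h4 := h1 b (B ^ n) (B ^ (1 + δ1)) 1 (B ^ (2 : ℝ)) (h1B (by linarith)) (hle (by linarith))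
    (h1B (by linarith)) (hle (by linarith)) le_rfl hb fun n _ => lv1_Nsf n
  have hpt : ∀ ξ ∈ S, ‖Dn a (B ^ ν) ξ‖ ^ (2 / ν) ≤
      C2 * B ^ (1 / 100000 : ℝ) * B ^ (247 / 300 * (2 - 2 * n)) * ‖Dn b (B ^ n) ξ‖ ^ 2 := by
    intro ξ hξ
    have h5 : (0 : ℝ) ≤ 2 / ν - (2 * k : ℕ) := by
      push_cast
      rw [sub_nonneg, le_div_iff₀ hν0]
      linarith
    have h6 : ‖Dn a (B ^ ν) ξ‖ ^ (2 / ν) =
        ‖Dn a (B ^ ν) ξ‖ ^ (2 * k) * ‖Dn a (B ^ ν) ξ‖ ^ (2 / ν - (2 * k : ℕ)) := by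
      rw [← Real.rpow_natCast, ← Real.rpow_add_of_nonneg (norm_nonneg _) (by positivity) h5,
        add_sub_cancel]
    have h7 := Real.rpow_le_rpow (norm_nonneg _) (hV ξ hξ) h5
    rw [lv1_V hB0 hν0] at h7
    rw [h6]
    exact (mul_le_mul (h3 ξ) h7 (by positivity) (by positivity)).trans (le_of_eq (by ring))
  refine (Finset.sum_le_sum hpt).trans ?_
  rw [← Finset.mul_sum]
  refine (mul_le_mul_of_nonneg_left ((Finset.sum_le_sum_of_subset_of_nonneg hS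
    fun _ _ _ => by positivity).trans h4) (by positivity)).trans ?_
  rw [Real.one_rpow, mul_one, ← Real.rpow_add hB0 (1 + δ1) n, ← Real.rpow_mul hB0.le,
    ← Real.rpow_mul hB0.le, ← Real.rpow_mul hB0.le, ← Real.rpow_add hB0]
  have key : ∀ x : ℝ, 1 / 100000 + 247 / 300 * (2 - 2 * n) + 2 * (1 / 200000) + n + x ≤
      7 / 3 - 1.5 / 10000 → B ^ (1 / 100000 : ℝ) * B ^ (247 / 300 * (2 - 2 * n)) *
        B ^ (2 * (1 / 200000) : ℝ) * B ^ n * B ^ x ≤ B ^ (7 / 3 - 1.5 / 10000 : ℝ) := by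
    intro x hx
    rw [← Real.rpow_add hB0, ← Real.rpow_add hB0, ← Real.rpow_add hB0, ← Real.rpow_add hB0]
    exact hle hx
  have k1 := key (1 + δ1) (by linarith)
  have k2 := key ((1 + δ1) * (1 / 3) + n) (by linarith)
  have k3 := key ((1 + δ1 + n) * (2 / 3)) (by linarith)
  have k4 := mul_le_mul_of_nonneg_left (add_le_add (add_le_add k1 k2) k3)
    (by positivity : 0 ≤ C2 * C1)
  linarith

theorem lv1_large {η C1 : ℝ} (hη : 0 < η) (hC1 : 0 < C1) : ∃ C B0 : ℝ, 0 < C ∧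
    ∀ (B δ1 ν : ℝ) (F S : Finset E) (a : E → ℂ), 1 ≤ B → B0 ≤ B → 0 < δ1 → δ1 ≤ 1 / 40000 →
    η ≤ ν → ν ≤ 0.62 → S ⊆ F → HAf F B δ1 (1 / 1000) C1 → (∀ n, ‖a n‖ ≤ 1) →
    (∀ ξ ∈ S, B ^ (ν * (247 / 300)) ≤ ‖Dn a (B ^ ν) ξ‖) →
    ∑ ξ ∈ S, ‖Dn a (B ^ ν) ξ‖ ^ (2 / ν) ≤ C * B ^ (7 / 3 - 1.5 / 10000 : ℝ) := by
  obtain ⟨C2, hC2, h2⟩ := lv1_pow ⌈1.93 / η⌉₊ (ε := 1 / 100000) (by norm_num)
  refine ⟨4 * (C2 * C1), (2 * (C2 * C1)) ^ (200 : ℝ), by positivity,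
    fun B δ1 ν F S a hB hB1 hδ hδ1 hν hν1 hS hH ha hV => ?_⟩
  have hB0 : 0 < B := by linarith
  have hν0 : 0 < ν := hη.trans_le hν
  obtain ⟨k, hk1, hk2, hk3, hk4⟩ := lv1_k (c := 1.93) 3 hη hν (by push_cast; linarith)
  have hk5 : ν * 3 ≤ ν * k := mul_le_mul_of_nonneg_left (by exact_mod_cast hk1) hν0.le
  have hN : (B ^ ν) ^ k = B ^ (ν * k) := (Real.rpow_mul_natCast hB0.le ν k).symm
  have hle : ∀ {x y : ℝ}, x ≤ y → B ^ x ≤ B ^ y := fun h =>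
    Real.rpow_le_rpow_of_exponent_le hB h
  have h1B : ∀ {x : ℝ}, 0 ≤ x → 1 ≤ B ^ x := fun h => Real.one_le_rpow hB h
  have hsq : B ^ 2 = B ^ (2 : ℝ) := (Real.rpow_two B).symm
  have hc : 2 * (C2 * C1) ≤ B ^ (1 / 200 : ℝ) := by
    have h3 := Real.rpow_le_rpow (by positivity) hB1 (by norm_num : (0 : ℝ) ≤ 1 / 200)
    rwa [← Real.rpow_mul (by positivity), show (200 : ℝ) * (1 / 200) = 1 by norm_num,
      Real.rpow_one] at h3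
  have hVk : (B ^ (ν * (247 / 300))) ^ (2 * k) = B ^ (247 / 150 * (ν * k)) := by
    rw [← Real.rpow_mul_natCast hB0.le]
    congr 1; push_cast; ring
  set n := ν * k with hn
  obtain ⟨b, hb, h3⟩ := h2 B (B ^ ν) k a hB (h1B hν0.le) (by omega) hk2
    (by rw [hN, hsq]; exact hle (by linarith)) ha
  rw [hN] at h3
  set g : ℝ := 0.15 * (1.93 - n) with hg
  have h4 := hH S hS (B ^ n) (B ^ g) b (h1B (by linarith)) (by rw [hsq]; exact hle (by linarith))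
    (h1B (by linarith)) (hle (by linarith)) hb
  set X := ∑ ξ ∈ S, ‖Dn a (B ^ ν) ξ‖ ^ (2 * k) with hX
  have hX1 : X ≤ C2 * B ^ (1 / 100000 : ℝ) * ∑ ξ ∈ S, ‖Dn b (B ^ n) ξ‖ ^ 2 := by
    rw [Finset.mul_sum]
    exact Finset.sum_le_sum fun ξ _ => h3 ξ
  have hX2 : S.card * B ^ (247 / 150 * n) ≤ X := by
    rw [← nsmul_eq_mul]
    refine Finset.card_nsmul_le_sum _ _ _ fun ξ hξ => ?_
    rw [← hVk]
    exact pow_le_pow_left₀ (by positivity) (hV ξ hξ) _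
  have hX3 := hX1.trans (mul_le_mul_of_nonneg_left h4 (by positivity))
  rw [← Real.rpow_mul hB0.le, ← Real.rpow_add hB0, mul_div_assoc, ← Real.rpow_sub hB0] at hX3
  have hX4 : 2 * (C2 * C1) * (B ^ (1 / 100000 : ℝ) * B ^ (1 / 1000 : ℝ) * B ^ (1 + δ1 - g) * B ^ n)
      ≤ B ^ (247 / 150 * n) := by
    refine (mul_le_mul_of_nonneg_right hc (by positivity)).trans ?_
    rw [← Real.rpow_add hB0, ← Real.rpow_add hB0, ← Real.rpow_add hB0, ← Real.rpow_add hB0]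
    exact hle (by linarith)
  have hX5 := (mul_le_mul_of_nonneg_left hX4 (Nat.cast_nonneg S.card)).trans hX2
  have hX6 : X ≤ 2 * (C2 * C1) * (B ^ (1 / 100000 : ℝ) * B ^ (1 / 1000 : ℝ) * B ^ g * B ^ n *
      (B ^ n + B ^ (n * (1 / 3) + (1 + δ1)))) := by linarith
  have hpt : ∀ ξ ∈ S, ‖Dn a (B ^ ν) ξ‖ ^ (2 / ν) ≤
      ‖Dn a (B ^ ν) ξ‖ ^ (2 * k) * B ^ (247 / 300 * (2 - 2 * n)) := by
    intro ξ hξ
    have h5 : (2 / ν - (2 * k : ℕ) : ℝ) ≤ 0 := by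
      push_cast
      rw [sub_nonpos, div_le_iff₀ hν0]
      linarith
    have h0 : 0 < ‖Dn a (B ^ ν) ξ‖ := lt_of_lt_of_le (by positivity) (hV ξ hξ)
    have h6 : ‖Dn a (B ^ ν) ξ‖ ^ (2 / ν) =
        ‖Dn a (B ^ ν) ξ‖ ^ (2 * k) * ‖Dn a (B ^ ν) ξ‖ ^ (2 / ν - (2 * k : ℕ)) := by
      rw [← Real.rpow_natCast, ← Real.rpow_add h0, add_sub_cancel]
    have h7 := Real.rpow_le_rpow_of_nonpos (by positivity) (hV ξ hξ) h5
    rw [lv1_V hB0 hν0] at h7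
    rw [h6]
    exact mul_le_mul_of_nonneg_left h7 (by positivity)
  refine (Finset.sum_le_sum hpt).trans ?_
  rw [← Finset.sum_mul]
  refine (mul_le_mul_of_nonneg_right hX6 (by positivity)).trans ?_
  have key : ∀ x : ℝ, 1 / 100000 + 1 / 1000 + g + n + x + 247 / 300 * (2 - 2 * n) ≤
      7 / 3 - 1.5 / 10000 → B ^ (1 / 100000 : ℝ) * B ^ (1 / 1000 : ℝ) * B ^ g * B ^ n * B ^ x *
        B ^ (247 / 300 * (2 - 2 * n)) ≤ B ^ (7 / 3 - 1.5 / 10000 : ℝ) := by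
    intro x hx
    rw [← Real.rpow_add hB0, ← Real.rpow_add hB0, ← Real.rpow_add hB0, ← Real.rpow_add hB0,
      ← Real.rpow_add hB0]
    exact hle hx
  have k1 := key n (by linarith)
  have k2 := key (n * (1 / 3) + (1 + δ1)) (by linarith)
  have k4 := mul_le_mul_of_nonneg_left (add_le_add k1 k2) (by positivity : 0 ≤ 2 * (C2 * C1))
  linarith

theorem lv1_bdd {η : ℝ} (hη : 0 < η) (B0 : ℝ) : ∃ C : ℝ, 0 < C ∧
    ∀ (B δ1 ν : ℝ) (S : Finset E) (a : E → ℂ), 1 ≤ B → B ≤ B0 → δ1 ≤ 1 / 40000 → η ≤ ν →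
    S ⊆ ball (B ^ (1 + δ1)) → (∀ n, ‖a n‖ ≤ 1) →
    ∑ ξ ∈ S, ‖Dn a (B ^ ν) ξ‖ ^ (2 / ν) ≤ C * B ^ (7 / 3 - 1.5 / 10000 : ℝ) := by
  refine ⟨12 * (B0 ^ 2 + 1) * ((12 : ℝ) ^ (2 / η) * (B0 ^ 2 + 1)), by positivity,
    fun B δ1 ν S a hB hB1 hδ1 hν hS ha => ?_⟩
  have hB0 : 0 < B := by linarith
  have hν0 : 0 < ν := hη.trans_le hν
  have hsq : B ^ (2 : ℝ) ≤ B0 ^ 2 + 1 := by
    rw [Real.rpow_two]; nlinarith
  have h1 : (S.card : ℝ) ≤ 12 * (B0 ^ 2 + 1) := by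
    refine le_trans (Nat.cast_le.2 (Finset.card_le_card hS)) ((card_ball_le (by positivity)).trans ?_)
    have := (Real.rpow_le_rpow_of_exponent_le hB (by linarith : 1 + δ1 ≤ 2)).trans hsq
    linarith
  have h2 : ∀ ξ ∈ S, ‖Dn a (B ^ ν) ξ‖ ^ (2 / ν) ≤ (12 : ℝ) ^ (2 / η) * (B0 ^ 2 + 1) := by
    intro ξ _
    refine (Real.rpow_le_rpow (norm_nonneg _) (lv1_triv ha (by positivity) ξ)
      (by positivity)).trans ?_
    rw [Real.mul_rpow (by norm_num) (by positivity), ← Real.rpow_mul hB0.le,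
      mul_div_cancel₀ _ hν0.ne']
    exact mul_le_mul (Real.rpow_le_rpow_of_exponent_le (by norm_num)
      (div_le_div_of_nonneg_left (by norm_num) hη hν)) hsq (by positivity) (by positivity)
  refine (Finset.sum_le_card_nsmul _ _ _ h2).trans ?_
  rw [nsmul_eq_mul]
  refine (mul_le_mul_of_nonneg_right h1 (by positivity)).trans
    (le_mul_of_one_le_right (by positivity) (Real.one_le_rpow hB (by norm_num)))

theorem lV1 (hb : BA) (h : NG) : LV1 := by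
  intro η C1 hη hC1
  obtain ⟨Ca, hCa, ha1⟩ := lv1_small h hη
  obtain ⟨Cb, B0, hCb, hb1⟩ := lv1_large hη hC1
  obtain ⟨Cc, hCc, hc1⟩ := lv1_bdd hη B0
  refine ⟨Ca + Cb + Cc, by positivity, fun B δ1 ν F a hB hδ hδ1 hν hν1 hF hH ha hor => ?_⟩
  have hp : 0 < B ^ (7 / 3 - 1.5 / 10000 : ℝ) := by positivity
  have hA := mul_pos hCa hp
  have hBB := mul_pos hCb hp
  have hCC := mul_pos hCc hp
  rcases le_total B B0 with h0 | h0
  · have := hc1 B δ1 ν F a hB h0 hδ1 hν hF ha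
    linarith
  by_cases hν2 : ν ≤ 0.62
  · rw [← Finset.sum_filter_add_sum_filter_not F
      fun ξ => ‖Dn a (B ^ ν) ξ‖ ≤ B ^ (ν * (247 / 300))]
    have h1 := ha1 B δ1 ν (F.filter fun ξ => ‖Dn a (B ^ ν) ξ‖ ≤ B ^ (ν * (247 / 300))) a hB hδ hδ1
      hν hν1 ((Finset.filter_subset _ _).trans hF) ha fun ξ hξ => (Finset.mem_filter.1 hξ).2
    have h2 := hb1 B δ1 ν F (F.filter fun ξ => ¬ ‖Dn a (B ^ ν) ξ‖ ≤ B ^ (ν * (247 / 300))) a hB h0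
      hδ hδ1 hν hν2 (Finset.filter_subset _ _) hH ha
      fun ξ hξ => (not_le.1 (Finset.mem_filter.1 hξ).2).le
    linarith
  · have h1 := ha1 B δ1 ν F a hB hδ hδ1 hν hν1 hF ha fun ξ hξ =>
      (hor.resolve_left hν2 ξ hξ).trans
        (Real.rpow_le_rpow_of_exponent_le hB (by linarith [not_le.1 hν2]))
    linarith

end Pat
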