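import Vale.Agent.P006.IfB
import Vale.Agent.P026.Cnt
import Vale.Agent.P026.Sym
import Vale.Agent.P026.Dvs

/-! P006: powers of character sums. -/

noncomputable section
namespace Pat
open QRH Complex MeasureTheory Filter
open scoped ComplexConjugate Classical ContDiff Topology

theorem lv1_mem {R : ℝ} {c : E} : c ∈ pball R ↔ (c ≠ 0 ∧ (nm c : ℝ) ≤ R) ∧ Pm c := by
  rw [pball, Finset.mem_filter, mem_ball]

theorem lv1_triv {a : E → ℂ} (ha : ∀ n, ‖a n‖ ≤ 1) {N : ℝ} (hN : 0 ≤ N) (ξ : E) :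
    ‖Dn a N ξ‖ ≤ 12 * N := by
  unfold Dn
  refine (norm_sum_le _ _).trans (le_trans ?_ (card_ball_le hN))
  refine (Finset.sum_le_card_nsmul _ _ 1 fun n _ => ?_).trans ?_
  · rw [norm_mul]
    exact mul_le_one₀ (ha n) (norm_nonneg _) (norm_xv_le ch_c3 n ξ)
  · rw [nsmul_eq_mul, mul_one, Nat.cast_le]
    exact Finset.card_filter_le _ _

theorem lv1_Nsf (n : E) : 1 ≤ Nsf n := by
  unfold Nsf
  exact Finset.one_le_prod fun p _ => one_le_pow₀ (one_le_nmR p.ne_zero)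

/-- Convolution of coefficients. -/
def lv1Cv (a b : E → ℂ) (N M : ℝ) (n : E) : ℂ :=
  ∑ p ∈ (pball N ×ˢ pball M).filter (fun p => p.1 * p.2 = n), a p.1 * b p.2

theorem lv1_mul_mem {N M : ℝ} {p : E × E} (hp : p ∈ pball N ×ˢ pball M) :
    p.1 * p.2 ∈ pball (N * M) := by
  rw [Finset.mem_product, lv1_mem, lv1_mem] at hp
  refine lv1_mem.2 ⟨⟨mul_ne_zero hp.1.1.1 hp.2.1.1, ?_⟩, primary_mul hp.1.2 hp.2.2⟩
  rw [nm_mul, Nat.cast_mul]
  exact mul_le_mul hp.1.1.2 hp.2.1.2 (by positivity) (le_trans (by positivity) hp.1.1.2)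

theorem lv1_Dn_mul (a b : E → ℂ) (N M : ℝ) (ξ : E) :
    Dn a N ξ * Dn b M ξ = Dn (lv1Cv a b N M) (N * M) ξ := by
  unfold Dn lv1Cv
  rw [Finset.sum_mul_sum, ← Finset.sum_product',
    ← Finset.sum_fiberwise_of_maps_to (g := fun p : E × E => p.1 * p.2) fun p hp => lv1_mul_mem hp]
  refine Finset.sum_congr rfl fun n _ => ?_
  rw [Finset.sum_mul]
  refine Finset.sum_congr rfl fun p hp => ?_
  rw [Finset.mem_filter, Finset.mem_product, lv1_mem, lv1_mem] at hp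
  rw [← hp.2, xv_mul_left hp.1.1.1.1 hp.1.2.1.1]
  ring

theorem lv1_Cv_le {a b : E → ℂ} {N M D Cd ε Z : ℝ} (hD : 0 ≤ D) (hCd : 0 ≤ Cd) (hε : 0 ≤ ε)
    (hZ0 : 0 ≤ Z) (hZ : N * M ≤ Z)
    (hd : ∀ x : E, x ≠ 0 → ∀ T : Finset E, (∀ y ∈ T, y ∣ x) → (T.card : ℝ) ≤ Cd * (nm x : ℝ) ^ ε)
    (ha : ∀ n, ‖a n‖ ≤ D) (hb : ∀ n, ‖b n‖ ≤ 1) (n : E) :
    ‖lv1Cv a b N M n‖ ≤ D * (Cd * Z ^ ε) := by
  unfold lv1Cv
  set S := (pball N ×ˢ pball M).filter (fun p => p.1 * p.2 = n) with hS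
  rcases S.eq_empty_or_nonempty with h | ⟨q, hq⟩
  · rw [h, Finset.sum_empty, norm_zero]; positivity
  have hn : n ∈ pball (N * M) := by
    rw [hS, Finset.mem_filter] at hq
    rw [← hq.2]; exact lv1_mul_mem hq.1
  rw [lv1_mem] at hn
  have h1 : (S.card : ℝ) ≤ Cd * Z ^ ε := by
    have h2 : (S.image Prod.fst).card = S.card := by
      refine Finset.card_image_of_injOn fun p hp p' hp' h => ?_
      rw [Finset.mem_coe, hS, Finset.mem_filter, Finset.mem_product, lv1_mem] at hp hp'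
      refine Prod.ext h (mul_left_cancel₀ hp.1.1.1.1 ?_)
      rw [hp.2, h, hp'.2]
    rw [← h2]
    refine (hd n hn.1.1 _ fun y hy => ?_).trans (mul_le_mul_of_nonneg_left
      (Real.rpow_le_rpow (by positivity) (hn.1.2.trans hZ) hε) hCd)
    obtain ⟨p, hp, rfl⟩ := Finset.mem_image.1 hy
    rw [hS, Finset.mem_filter] at hp
    exact ⟨p.2, hp.2.symm⟩
  refine (norm_sum_le _ _).trans ((Finset.sum_le_card_nsmul _ _ D fun p _ => ?_).trans ?_)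
  · rw [norm_mul]
    exact (mul_le_of_le_one_right (norm_nonneg _) (hb _)).trans (ha _)
  · rw [nsmul_eq_mul, mul_comm]
    exact mul_le_mul_of_nonneg_left h1 hD

theorem lv1_pow0 {a : E → ℂ} {N Cd ε Z : ℝ} (hCd : 0 ≤ Cd) (hε : 0 ≤ ε) (hN : 1 ≤ N)
    (hd : ∀ x : E, x ≠ 0 → ∀ T : Finset E, (∀ y ∈ T, y ∣ x) → (T.card : ℝ) ≤ Cd * (nm x : ℝ) ^ ε)
    (ha : ∀ n, ‖a n‖ ≤ 1) : ∀ k : ℕ, N ^ (k + 1) ≤ Z → ∃ b : E → ℂ,
      (∀ n, ‖b n‖ ≤ (Cd * Z ^ ε) ^ k) ∧ ∀ ξ, Dn a N ξ ^ (k + 1) = Dn b (N ^ (k + 1)) ξ := by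
  intro k
  induction k with
  | zero => intro _; exact ⟨a, by simpa using ha, fun ξ => by simp⟩
  | succ k ih =>
    intro hZ
    have hZ0 : 0 ≤ Z := le_trans (by positivity) hZ
    obtain ⟨b, hb, h⟩ := ih ((pow_le_pow_right₀ hN (by omega)).trans hZ)
    refine ⟨lv1Cv b a (N ^ (k + 1)) N, fun n => ?_, fun ξ => ?_⟩
    · rw [pow_succ (Cd * Z ^ ε)]
      exact lv1_Cv_le (by positivity) hCd hε hZ0 (by rw [← pow_succ]; exact hZ) hd hb ha n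
    · rw [pow_succ _ (k + 1), h, lv1_Dn_mul, ← pow_succ]

theorem lv1_pow (K : ℕ) {ε : ℝ} (hε : 0 < ε) : ∃ C : ℝ, 0 < C ∧ ∀ (B N : ℝ) (k : ℕ) (a : E → ℂ),
    1 ≤ B → 1 ≤ N → 1 ≤ k → k ≤ K → N ^ k ≤ B ^ 2 → (∀ n, ‖a n‖ ≤ 1) →
    ∃ b : E → ℂ, (∀ n, ‖b n‖ ≤ 1) ∧
      ∀ ξ, ‖Dn a N ξ‖ ^ (2 * k) ≤ C * B ^ ε * ‖Dn b (N ^ k) ξ‖ ^ 2 := by
  have hε' : 0 < ε / (4 * (K + 1)) := by positivity
  obtain ⟨Cd, hCd, hd⟩ := card_dvd_le hε'
  refine ⟨(Cd + 1) ^ (2 * K), by positivity, fun B N k a hB hN hk hK hZ ha => ?_⟩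
  obtain ⟨k, rfl⟩ := Nat.exists_eq_add_of_le' hk
  obtain ⟨b, hb, h⟩ := lv1_pow0 hCd.le hε'.le hN hd ha k hZ
  set D := (Cd * (B ^ 2) ^ (ε / (4 * (K + 1)))) ^ k with hD
  have hD0 : 0 < D := by positivity
  refine ⟨fun n => b n / D, fun n => ?_, fun ξ => ?_⟩
  · rw [norm_div, Complex.norm_real, Real.norm_of_nonneg hD0.le, div_le_one hD0]
    exact hb n
  have h1 : Dn b (N ^ (k + 1)) ξ = D * Dn (fun n => b n / D) (N ^ (k + 1)) ξ := by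
    unfold Dn
    rw [Finset.mul_sum]
    refine Finset.sum_congr rfl fun n _ => ?_
    have : (D : ℂ) ≠ 0 := by exact_mod_cast hD0.ne'
    field_simp
  have h2 : D ^ 2 ≤ (Cd + 1) ^ (2 * K) * B ^ ε := by
    rw [hD, ← pow_mul, mul_pow]
    refine mul_le_mul ((pow_le_pow_left₀ hCd.le (by linarith) _).trans
      (pow_le_pow_right₀ (by linarith) (by omega))) ?_ (by positivity) (by positivity)
    rw [← Real.rpow_natCast, ← Real.rpow_natCast B, ← Real.rpow_mul (by positivity),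
      ← Real.rpow_mul (by positivity)]
    refine Real.rpow_le_rpow_of_exponent_le hB ?_
    have h3 : (k : ℝ) ≤ K + 1 := by exact_mod_cast (by omega : k ≤ K + 1)
    push_cast
    rw [div_mul_eq_mul_div, ← mul_div_assoc, div_le_iff₀ (by positivity)]
    nlinarith
  rw [mul_comm 2, pow_mul, ← norm_pow, h, h1, norm_mul, Complex.norm_real,
    Real.norm_of_nonneg hD0.le, mul_pow]
  exact mul_le_mul_of_nonneg_right h2 (by positivity)

end Pat
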