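import Vale.Agent.P006.IfB
import Vale.Agent.P026.Rearr

noncomputable section
namespace Pat
open QRH Complex MeasureTheory Filter
open scoped ComplexConjugate Classical ContDiff Topology

theorem LsFin_nrm (x : Finset P → ℂ) (N : ℝ) : 0 ≤ nrm2 x N :=
  Finset.sum_nonneg fun _ _ => by positivity

theorem LsFin_two (hb : BA) (h1 : HM1g) : LSd 2 := by
  intro ε hε
  obtain ⟨C, hC, h⟩ := h1 ε hε
  refine ⟨12 * C, by positivity, fun M N x hM hN => ?_⟩
  have e0 : ∀ s : Finset P, cf0 0 0 s ∅ = pr s := fun s => by simp [cf0, pr_empty]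
  have h2 := h ((sqf M).image pr) M N (ex x) hM hN
    (fun z hz => by
      obtain ⟨s, hs, rfl⟩ := Finset.mem_image.1 hz
      exact ⟨pr_ne_zero s, by rw [fac_pr]; exact mem_sqf.1 hs⟩)
    (fun z hz z' hz' hne hc => by
      obtain ⟨s, -, rfl⟩ := Finset.mem_image.1 hz
      obtain ⟨s', -, rfl⟩ := Finset.mem_image.1 hz'
      rw [← e0 s, ← e0 s'] at hc
      have := hb.cube_ratio 0 0 s ∅ 0 0 s' ∅ (by norm_num) (by norm_num) (by norm_num)
        (by norm_num) (Finset.disjoint_empty_right _) (Finset.disjoint_empty_right _) hc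
      exact hne (by rw [this.2.2.1]))
  rw [Finset.sum_image pr_inj.injOn, Finset.card_image_of_injective _ pr_inj, hb.ex_nrm] at h2
  simp only [hb.ex_Dn] at h2
  refine h2.trans (mul_le_mul_of_nonneg_right ?_ (LsFin_nrm x N))
  have hM0 : 0 < M := by linarith
  have hN0 : 0 < N := by linarith
  have a1 := card_sqf_le hM0.le
  have a2 : 1 ≤ M ^ ε := Real.one_le_rpow hM hε.le
  have a3 : 0 ≤ (M * N) ^ (2 / 3 : ℝ) := by positivity
  rw [Real.mul_rpow hM0.le hN0.le (z := ε), Real.rpow_add hM0, Real.rpow_one, Real.rpow_two]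
  have a4 : N + (sqf M).card * (M * M ^ ε) ≤
      12 * M ^ ε * (N + M ^ 2 + (M * N) ^ (2 / 3 : ℝ)) := by
    have b1 : ((sqf M).card : ℝ) * (M * M ^ ε) ≤ 12 * M * (M * M ^ ε) := by gcongr
    have b2 : N ≤ M ^ ε * N := le_mul_of_one_le_left hN0.le a2
    have b3 : 0 ≤ M ^ ε * (M * N) ^ (2 / 3 : ℝ) := by positivity
    nlinarith
  calc _ ≤ C * N ^ ε * (12 * M ^ ε * (N + M ^ 2 + (M * N) ^ (2 / 3 : ℝ))) := by gcongr
    _ = _ := by ring

theorem LsFin_dual (hb : BA) {α : ℝ} (h : LSb α) : LSd α := by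
  intro ε hε
  obtain ⟨C, hC, h⟩ := h ε hε
  refine ⟨C, hC, fun M N x hM hN => ?_⟩
  have hM0 : 0 < M := by linarith
  have hN0 : 0 < N := by linarith
  have := duality (sqf N) (sqf M) (fun i j => xs c3 j (pr i))
    (K := C * (N * M) ^ ε * (N + M ^ α + (N * M) ^ (2 / 3 : ℝ))) (by positivity)
    (fun y => h N M y hN hM) x
  rw [mul_comm N M] at this
  refine le_of_eq_of_le (Finset.sum_congr rfl fun m _ => ?_) this
  unfold Ds
  simp only [hb.recip2 m]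

theorem LsFin_iter (hb : BA) (h1 : HM1g)
    (h2 : ∀ α : ℝ, 4 / 3 ≤ α → α ≤ 2 → LSd α → LSb ((6 * α - 4) / (3 * α - 1))) (k : ℕ) :
    ∃ α : ℝ, 4 / 3 ≤ α ∧ α ≤ 4 / 3 + (2 / 3) ^ (k + 1) ∧ LSd α ∧ (k ≠ 0 → LSb α) := by
  induction k with
  | zero => exact ⟨2, by norm_num, by norm_num, LsFin_two hb h1, fun h => absurd rfl h⟩
  | succ k ih =>
    obtain ⟨α, a1, a2, a3, -⟩ := ih
    have a4 : (2 / 3 : ℝ) ^ (k + 1) ≤ 2 / 3 := by
      rw [pow_succ]
      exact mul_le_of_le_one_left (by norm_num) (pow_le_one₀ (by norm_num) (by norm_num))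
    have a5 := h2 α a1 (by linarith) a3
    have a6 : 0 < 3 * α - 1 := by linarith
    refine ⟨_, ?_, ?_, LsFin_dual hb a5, fun _ => a5⟩
    · rw [le_div_iff₀ a6]
      linarith
    · rw [div_le_iff₀ a6, pow_succ _ (k + 1)]
      have a7 : 0 ≤ (2 / 3 : ℝ) ^ (k + 1) := by positivity
      nlinarith

theorem LsFin_num {ε α a b C : ℝ} (hε : 0 < ε) (h0 : 0 ≤ α) (hα : α ≤ 4 / 3 + ε) (ha : 1 ≤ a)
    (hab : a ≤ b) (hC : 0 < C) {u : ℝ} (hu : u = a * b) :
    C * u ^ (ε / 2) * (b + a ^ α + u ^ (2 / 3 : ℝ)) ≤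
      2 * C * u ^ ε * (a + b + u ^ (2 / 3 : ℝ)) := by
  have ha0 : 0 < a := by linarith
  have hu1 : 1 ≤ u := hu ▸ one_le_mul_of_one_le_of_one_le ha (ha.trans hab)
  have hu0 : 0 < u := by linarith
  have h1 : a ^ α ≤ u ^ (2 / 3 : ℝ) * u ^ (ε / 2) := by
    rw [← Real.rpow_add hu0]
    calc a ^ α = (a ^ (2 : ℝ)) ^ (α / 2) := by
          rw [← Real.rpow_mul ha0.le]
          congr 1
          ring
      _ ≤ u ^ (α / 2) := by
          refine Real.rpow_le_rpow (by positivity) ?_ (by linarith)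
          rw [Real.rpow_two, hu]
          nlinarith
      _ ≤ _ := Real.rpow_le_rpow_of_exponent_le hu1 (by linarith)
  have h2 : 1 ≤ u ^ (ε / 2) := Real.one_le_rpow hu1 (by linarith)
  have h3 : u ^ ε = u ^ (ε / 2) * u ^ (ε / 2) := by
    rw [← Real.rpow_add hu0]
    congr 1
    ring
  have h4 : 0 ≤ u ^ (2 / 3 : ℝ) := by positivity
  have h5 : b + a ^ α + u ^ (2 / 3 : ℝ) ≤ 2 * u ^ (ε / 2) * (a + b + u ^ (2 / 3 : ℝ)) := by
    have b1 : b ≤ u ^ (ε / 2) * b := le_mul_of_one_le_left (by linarith) h2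
    have b2 : u ^ (2 / 3 : ℝ) ≤ u ^ (ε / 2) * u ^ (2 / 3 : ℝ) := le_mul_of_one_le_left h4 h2
    have b3 : 0 ≤ u ^ (ε / 2) * a := by positivity
    nlinarith
  rw [h3]
  calc _ ≤ C * u ^ (ε / 2) * (2 * u ^ (ε / 2) * (a + b + u ^ (2 / 3 : ℝ))) := by gcongr
    _ = _ := by ring

theorem lsFin (hb : BA) (h1 : HM1g)
    (h2 : ∀ α : ℝ, 4 / 3 ≤ α → α ≤ 2 → LSd α → LSb ((6 * α - 4) / (3 * α - 1))) : LSd 1 := by
  intro ε hε
  obtain ⟨k, hk⟩ := exists_pow_lt_of_lt_one hε (by norm_num : (2 / 3 : ℝ) < 1)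
  obtain ⟨α, a1, a2, a3, a4⟩ := LsFin_iter hb h1 h2 (k + 1)
  have a5 : (2 / 3 : ℝ) ^ (k + 1 + 1) ≤ (2 / 3) ^ k :=
    pow_le_pow_of_le_one (by norm_num) (by norm_num) (by omega)
  obtain ⟨C1, hC1, b1⟩ := a3 (ε / 2) (by linarith)
  obtain ⟨C2, hC2, b2⟩ := a4 k.succ_ne_zero (ε / 2) (by linarith)
  refine ⟨2 * (C1 + C2), by positivity, fun M N x hM hN => ?_⟩
  have hM0 : 0 < M := by linarith
  have hN0 : 0 < N := by linarith
  have hn := LsFin_nrm x N
  rw [Real.rpow_one]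
  rcases le_total N M with h | h
  · refine (b2 M N x hM hN).trans (mul_le_mul_of_nonneg_right ?_ hn)
    refine (LsFin_num hε (by linarith) (by linarith) hN h hC2 (mul_comm M N)).trans ?_
    gcongr
    linarith
  · refine (b1 M N x hM hN).trans (mul_le_mul_of_nonneg_right ?_ hn)
    refine (LsFin_num hε (by linarith) (by linarith) hM h hC1 rfl).trans ?_
    rw [add_comm M N]
    gcongr
    linarith

end Pat
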