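import Vale.Agent.P006.LsStepAux

/-! The recursive step for the cubic large sieve. -/

noncomputable section
namespace Pat
open QRH Complex MeasureTheory Filter
open scoped ComplexConjugate Classical ContDiff Topology

theorem lsStep_nm_two : nm pTwo.1 = 4 := by
  show nm (-2 : E) = 4
  rw [nm_neg, show (2 : E) = ((2 : ℕ) : E) by norm_num, nm_natCast]
  norm_num

theorem lsStep_fac (k : ℕ) : fac (pTwo.1 ^ (k + 1)) = {pTwo} := by
  rw [fac_pow pTwo.ne_zero (Nat.succ_ne_zero k), ← pr_singleton, fac_pr]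

/-- The centres of the boxes. -/
def lsA (M1 : ℝ) (i : ℕ) : ℝ := M1 * Real.exp (i / 4 - 3 / 8)

theorem lsStep_box {M1 y : ℝ} (hM : 0 < M1) (h1 : M1 ≤ y) (h2 : y ≤ 64 * M1) :
    ∃ i ∈ Finset.range 20, y ≤ 3 * lsA M1 i ∧ 3 / 8 ≤ 1 * Real.log (y / lsA M1 i) ∧
      1 * Real.log (y / lsA M1 i) ≤ 5 / 8 := by
  have hy : 0 < y := hM.trans_le h1
  set u := Real.log (y / M1) with hu
  have u0 : 0 ≤ u := Real.log_nonneg ((one_le_div hM).2 h1)
  have u1 : u < 5 := by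
    have a1 : u ≤ Real.log (2 ^ 6) :=
      Real.log_le_log (div_pos hy hM) (by rw [div_le_iff₀ hM]; linarith)
    rw [Real.log_pow] at a1
    have := Real.log_two_lt_d9
    push_cast at a1
    linarith
  have f1 : (⌊4 * u⌋₊ : ℝ) ≤ 4 * u := Nat.floor_le (by linarith)
  have f2 : 4 * u < ⌊4 * u⌋₊ + 1 := Nat.lt_floor_add_one _
  have el : Real.log (y / lsA M1 ⌊4 * u⌋₊) = u - ((⌊4 * u⌋₊ : ℝ) / 4 - 3 / 8) := by
    rw [lsA, ← div_div, Real.log_div (div_pos hy hM).ne' (Real.exp_pos _).ne', Real.log_exp]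
  have hA : 0 < lsA M1 ⌊4 * u⌋₊ := mul_pos hM (Real.exp_pos _)
  refine ⟨⌊4 * u⌋₊, Finset.mem_range.2 ((Nat.floor_lt (by linarith)).2 (by push_cast; linarith)),
    ?_, by rw [el]; linarith, by rw [el]; linarith⟩
  rw [← div_le_iff₀ hA]
  have a1 : Real.log (y / lsA M1 ⌊4 * u⌋₊) ≤ 1 := by rw [el]; linarith
  rw [Real.log_le_iff_le_exp (div_pos hy hA)] at a1
  have := Real.exp_one_lt_d9
  linarith

theorem lsStep_cover (hb : BA) : ∃ C : ℝ, 0 < C ∧ ∀ (x : Finset P → ℂ) (M M1 B : ℝ),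
    0 < M1 → M ≤ M1 → (∀ c, x c ≠ 0 → pTwo ∉ c) →
    ∑ m ∈ sqf M, ‖Ds x (3 * B) (pr m)‖ ^ 2 ≤ C * ∑ i ∈ Finset.range 20, S1 x (lsA M1 i) B 1 := by
  obtain ⟨c, hc, hl⟩ := hb.Om_low
  refine ⟨c⁻¹, inv_pos.2 hc, fun x M M1 B hM1 hM hx => ?_⟩
  have hk : ∀ m : Finset P, ∃ k : ℕ, m ∈ sqf M →
      M1 ≤ Ns m * 64 ^ (k + 1) ∧ Ns m * 64 ^ (k + 1) ≤ 64 * M1 := fun m => by
    by_cases hm : m ∈ sqf M
    · have h0 := Ns_pos m
      obtain ⟨k, h1, h2⟩ := exists_nat_pow_near (x := M1 / Ns m)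
        ((one_le_div h0).2 ((mem_sqf.1 hm).trans hM)) (show (1 : ℝ) < 64 by norm_num)
      rw [le_div_iff₀ h0] at h1
      rw [div_lt_iff₀ h0] at h2
      refine ⟨k, fun _ => ⟨by linarith, ?_⟩⟩
      rw [pow_succ]
      linarith
    · exact ⟨0, fun h => absurd h hm⟩
  choose k hk using hk
  set g : Finset P → E := fun m => pr m * (pTwo.1 ^ (k m + 1)) ^ 3 with hg
  have g0 : ∀ m, pTwo.1 ^ (k m + 1) ≠ 0 := fun m => pow_ne_zero _ pTwo.ne_zero
  have ginj : Function.Injective g := by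
    refine Function.LeftInverse.injective (g := cf1) fun m => ?_
    have := (hb.cf_eq 0 0 m ∅ _ (Finset.disjoint_empty_right _) (g0 m)).1
    simpa [cf0, pr_empty] using this
  have gnm : ∀ m, (nm (g m) : ℝ) = Ns m * 64 ^ (k m + 1) := fun m => by
    rw [hg]
    simp only [nm_mul, nm_pow, lsStep_nm_two, Ns]
    push_cast
    rw [← pow_mul, mul_comm (k m + 1), pow_mul]
    norm_num
  have gP : ∀ m, Pm (g m) := fun m =>
    primary_mul (pr_primary m) (primary_pow (primary_pow pTwo.2.2 _) _)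
  have gD : ∀ m, Ds x (3 * B) (pr m) = Ds x (3 * B) (g m) := fun m => by
    refine Finset.sum_congr rfl fun b _ => ?_
    by_cases h : x b = 0
    · rw [h, zero_mul, zero_mul]
    · rw [hg]
      simp only
      rw [xs_mul ch_c3, hb.xs_cube _ _ (g0 m), lsStep_fac,
        if_pos (Finset.disjoint_singleton_right.2 (hx b h)), mul_one]
  set F : E → ℝ := fun a => ‖Ds x (3 * B) a‖ ^ 2 with hF
  have F0 : ∀ a, 0 ≤ F a := fun a => by positivity
  rw [le_inv_mul_iff₀ hc, Finset.mul_sum]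
  calc _ = ∑ a ∈ (sqf M).image g, c * F a := by
        rw [Finset.sum_image fun a _ b _ h => ginj h]
        exact Finset.sum_congr rfl fun m _ => by rw [gD]
    _ ≤ ∑ a ∈ (sqf M).image g, ∑ i ∈ Finset.range 20, if a ∈ pball (3 * lsA M1 i) then
          Om (1 * Real.log (nm a / lsA M1 i)) * F a else 0 := by
        refine Finset.sum_le_sum fun a ha => ?_
        obtain ⟨m, hm, rfl⟩ := Finset.mem_image.1 ha
        obtain ⟨i, hi, b1, b2, b3⟩ := lsStep_box (y := nm (g m)) hM1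
          (by rw [gnm]; exact (hk m hm).1) (by rw [gnm]; exact (hk m hm).2)
        refine le_trans ?_ (Finset.single_le_sum (f := fun i => if g m ∈ pball (3 * lsA M1 i) then
          Om (1 * Real.log (nm (g m) / lsA M1 i)) * F (g m) else 0) (fun j _ => ?_) hi)
        · rw [if_pos ((hb.mem_pball _ _).2 ⟨gP m, b1⟩)]
          exact mul_le_mul_of_nonneg_right (hl _ b2 b3) (F0 _)
        · split_ifs
          · exact mul_nonneg (hb.Om_nonneg _) (F0 _)
          · exact le_rfl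
    _ ≤ _ := by
        rw [Finset.sum_comm]
        refine Finset.sum_le_sum fun i _ => ?_
        rw [← Finset.sum_filter]
        exact Finset.sum_le_sum_of_subset_of_nonneg (fun a ha => (Finset.mem_filter.1 ha).2)
          fun a _ _ => mul_nonneg (hb.Om_nonneg _) (F0 _)

theorem lsStep_size {α M1 N A B : ℝ} (h2 : 4 / 3 ≤ α) (h3 : α ≤ 2) (hN : 1 ≤ N) (hB : 0 < B)
    (hBN : B ≤ N) (hM : N ^ ((6 * α - 5) / (3 * α - 1)) ≤ M1) (hA1 : M1 * Real.exp (-1) ≤ A)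
    (hA2 : A ≤ M1 * Real.exp 5) :
    A + A / B * lsG α (3 * B) (9 * B ^ 2 / A)
      ≤ 3 * Real.exp 10 * (M1 + (M1 * N) ^ (2 / 3 : ℝ)) := by
  have hN0 : 0 < N := by linarith
  have hM0 : 0 < M1 := (Real.rpow_pos_of_pos hN0 _).trans_le hM
  have hA : 0 < A := (mul_pos hM0 (Real.exp_pos _)).trans_le hA1
  obtain ⟨a, rfl⟩ : ∃ a, A = Real.exp a := ⟨_, (Real.exp_log hA).symm⟩
  obtain ⟨b, rfl⟩ : ∃ a, B = Real.exp a := ⟨_, (Real.exp_log hB).symm⟩
  obtain ⟨m, rfl⟩ : ∃ a, M1 = Real.exp a := ⟨_, (Real.exp_log hM0).symm⟩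
  obtain ⟨n, rfl⟩ : ∃ a, N = Real.exp a := ⟨_, (Real.exp_log hN0).symm⟩
  obtain ⟨t, ht⟩ : ∃ a, (3 : ℝ) = Real.exp a := ⟨_, (Real.exp_log (by norm_num)).symm⟩
  have t0 : 0 ≤ t := by
    rw [← Real.exp_le_exp, ← ht, Real.exp_zero]
    norm_num
  have t2 : t ≤ 2 := by
    rw [← Real.exp_le_exp, ← ht]
    have := Real.add_one_le_exp (2 : ℝ)
    linarith
  rw [← Real.exp_mul, Real.exp_le_exp] at hM
  rw [← Real.exp_add, Real.exp_le_exp] at hA1 hA2
  rw [Real.exp_le_exp] at hBN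
  have n0 : 0 ≤ n := Real.one_le_exp_iff.1 hN
  have hd : 0 < 3 * α - 1 := by linarith
  rw [← mul_div_assoc, div_le_iff₀ hd] at hM
  have nm : n ≤ m := by nlinarith
  have eK : 9 * Real.exp b ^ 2 / Real.exp a = Real.exp (2 * t + 2 * b - a) := by
    rw [Real.exp_sub, Real.exp_add, two_mul, two_mul, Real.exp_add, Real.exp_add, ← ht]
    ring
  have eL : 3 * Real.exp b = Real.exp (t + b) := by rw [Real.exp_add, ← ht]
  unfold lsG
  rw [eK, eL]
  simp only [← Real.exp_sub, ← Real.exp_add, ← Real.exp_mul, mul_add]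
  have q0 : Real.exp a ≤ Real.exp 10 * Real.exp m := by
    rw [← Real.exp_add, Real.exp_le_exp]
    linarith
  have q1 : Real.exp (a - b + ((2 * t + 2 * b - a) * (1 / 3) + (t + b)))
      ≤ Real.exp 10 * Real.exp ((m + n) * (2 / 3)) := by
    rw [← Real.exp_add, Real.exp_le_exp]
    linarith
  have q2 : Real.exp (a - b + (2 * t + 2 * b - a) * α)
      ≤ Real.exp 10 * Real.exp ((m + n) * (2 / 3)) := by
    rw [← Real.exp_add, Real.exp_le_exp]
    have c1 : (α - 1) * (m + -1) ≤ (α - 1) * a := mul_le_mul_of_nonneg_left hA1 (by linarith)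
    have c2 : (2 * α - 1) * b ≤ (2 * α - 1) * n := mul_le_mul_of_nonneg_left hBN (by linarith)
    have c3 : t * α ≤ 2 * 2 := mul_le_mul t2 h3 (by linarith) (by norm_num)
    nlinarith
  have q3 : Real.exp (a - b + (2 * t + 2 * b - a + (t + b)) * (2 / 3))
      ≤ Real.exp 10 * Real.exp ((m + n) * (2 / 3)) := by
    rw [← Real.exp_add, Real.exp_le_exp]
    linarith
  have q4 : 0 < Real.exp 10 * Real.exp m := by positivity
  linarith

/-- The pieces of the coefficients. -/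
def lsX (x : Finset P → ℂ) (N : ℝ) (d : Finset P) (j : ℕ) (c : Finset P) : ℂ :=
  if (Ns c ≤ N / Ns d ∧ Disjoint c {pTwo}) ∧ 2 ^ j ≤ Ns c ∧ Ns c < 2 ^ (j + 1) then x (d ∪ c)
  else 0

theorem lsStep_split (x : Finset P → ℂ) {N : ℝ} {J : ℕ} (hJ : N < 2 ^ (J + 1)) (ξ : E) :
    Ds x N ξ = ∑ d ∈ ({pTwo} : Finset P).powerset, ∑ j ∈ Finset.range (J + 1),
      xs c3 d ξ * Ds (lsX x N d j) (3 * 2 ^ j) ξ := by
  unfold Ds
  rw [sum_sqf_split N {pTwo}]
  refine Finset.sum_congr rfl fun d hd => ?_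
  rw [Finset.mem_powerset] at hd
  rw [sum_dyadic _ Ns _ (J := J) fun c hc =>
    ⟨one_le_Ns c, (mem_sqf.1 (rr_down (Finset.mem_filter.1 hc).1)).trans_lt hJ⟩]
  refine Finset.sum_congr rfl fun j _ => ?_
  rw [Finset.mul_sum]
  symm
  refine (Finset.sum_subset (fun c hc => ?_) fun c _ hc => ?_).symm.trans
    (Finset.sum_congr rfl fun c hc => ?_)
  · rw [Finset.mem_filter] at hc
    have := hc.2.2
    rw [pow_succ] at this
    have h2 : (0 : ℝ) < 2 ^ j := by positivity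
    exact mem_sqf.2 (by linarith)
  · rw [Finset.mem_filter, Finset.mem_filter, mem_sqf] at hc
    rw [lsX, if_neg hc, zero_mul, mul_zero]
  · rw [Finset.mem_filter, Finset.mem_filter, mem_sqf] at hc
    rw [lsX, if_pos hc, xs_union (hc.1.2.mono_right hd).symm]
    ring

theorem lsStep_nrm (x : Finset P → ℂ) (N L : ℝ) {d : Finset P} (hd : d ⊆ {pTwo}) (j : ℕ) :
    nrm2 (lsX x N d j) L ≤ nrm2 x N := by
  calc _ = ∑ c ∈ sqf L with (Ns c ≤ N / Ns d ∧ Disjoint c {pTwo}) ∧ 2 ^ j ≤ Ns c ∧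
        Ns c < 2 ^ (j + 1), ‖x (d ∪ c)‖ ^ 2 := by
        rw [Finset.sum_filter]
        refine Finset.sum_congr rfl fun c _ => ?_
        unfold lsX
        split_ifs <;> simp
    _ ≤ ∑ c ∈ sqf (N / Ns d) with Disjoint c d, ‖x (d ∪ c)‖ ^ 2 := by
        refine Finset.sum_le_sum_of_subset_of_nonneg (fun c hc => ?_) fun _ _ _ => by positivity
        rw [Finset.mem_filter] at hc ⊢
        exact ⟨mem_sqf.2 hc.2.1.1, hc.2.1.2.mono_right hd⟩
    _ = ∑ n ∈ sqf N with d ⊆ n, ‖x n‖ ^ 2 := lsStep_sup N d fun n => ‖x n‖ ^ 2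
    _ ≤ _ := Finset.sum_le_sum_of_subset_of_nonneg (Finset.filter_subset _ _)
        fun _ _ _ => by positivity

theorem lsStep_piece (hb : BA) (h1 : PoiU) {α : ℝ} (h2 : 4 / 3 ≤ α) (h3 : α ≤ 2) (h4 : NB α)
    {ε : ℝ} (hε : 0 < ε) : ∃ C : ℝ, 0 < C ∧ ∀ (x : Finset P → ℂ) (M M1 N B : ℝ), 1 ≤ N → 0 < B →
      B ≤ N → M ≤ M1 → N ^ ((6 * α - 5) / (3 * α - 1)) ≤ M1 → (∀ c, x c ≠ 0 → pTwo ∉ c) →
      Sup x B (B * Real.exp (1 / 1)) →
      ∑ m ∈ sqf M, ‖Ds x (3 * B) (pr m)‖ ^ 2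
        ≤ C * N ^ ε * (M1 + (M1 * N) ^ (2 / 3 : ℝ)) * nrm2 x (3 * B) := by
  obtain ⟨C1, hC1, hc⟩ := lsStep_cover hb
  obtain ⟨C2, hC2, hs⟩ := lsStep_S1 hb h1 (α := α) (by linarith) h3 h4 hε
  refine ⟨C1 * (20 * (C2 * 27 ^ ε * (3 * Real.exp 10))), by positivity,
    fun x M M1 N B hN hB hBN hM hM1 hx hS => ?_⟩
  have hN0 : 0 < N := by linarith
  have hNM : N ≤ M1 := by
    refine le_trans ?_ hM1
    conv_lhs => rw [← Real.rpow_one N]
    refine Real.rpow_le_rpow_of_exponent_le hN ?_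
    rw [le_div_iff₀ (by linarith)]
    linarith
  have hM0 : 0 < M1 := by linarith
  have hn := lsStep_nrm_nonneg x (3 * B)
  have key : ∀ i ∈ Finset.range 20, S1 x (lsA M1 i) B 1 ≤ C2 * 27 ^ ε * (3 * Real.exp 10) *
      (N ^ ε * (M1 + (M1 * N) ^ (2 / 3 : ℝ)) * nrm2 x (3 * B)) := fun i hi => by
    have i0 : (0 : ℝ) ≤ i := Nat.cast_nonneg i
    have i1 : (i : ℝ) ≤ 20 := by exact_mod_cast (Finset.mem_range.1 hi).le
    have a1 : M1 * Real.exp (-1) ≤ lsA M1 i :=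
      mul_le_mul_of_nonneg_left (Real.exp_le_exp.2 (by linarith)) hM0.le
    have a2 : lsA M1 i ≤ M1 * Real.exp 5 :=
      mul_le_mul_of_nonneg_left (Real.exp_le_exp.2 (by linarith)) hM0.le
    have hA : 0 < lsA M1 i := mul_pos hM0 (Real.exp_pos _)
    have a3 : N ≤ 3 * lsA M1 i := by
      have e1 : 1 ≤ 3 * Real.exp (-1) := by
        rw [Real.exp_neg, ← div_eq_mul_inv, one_le_div (Real.exp_pos _)]
        have := Real.exp_one_lt_d9
        linarith
      nlinarith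
    have a4 : 9 * B ^ 2 / lsA M1 i ≤ 27 * N := by
      rw [div_le_iff₀ hA]
      have : B ^ 2 ≤ N ^ 2 := by gcongr
      nlinarith
    have a5 := hs x _ B (27 * N) hA hB (by linarith) (by linarith) a4 hS
    have a6 := lsStep_size h2 h3 hN hB hBN hM1 a1 a2
    rw [Real.mul_rpow (by norm_num) hN0.le] at a5
    calc _ ≤ _ := a5
      _ ≤ C2 * (27 ^ ε * N ^ ε) * (3 * Real.exp 10 * (M1 + (M1 * N) ^ (2 / 3 : ℝ))) *
          nrm2 x (3 * B) := by gcongr
      _ = _ := by ring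
  have h5 := Finset.sum_le_sum key
  rw [Finset.sum_const, Finset.card_range, nsmul_eq_mul] at h5
  calc _ ≤ _ := hc x M M1 B hM0 hM hx
    _ ≤ _ := mul_le_mul_of_nonneg_left h5 hC1.le
    _ = _ := by
        push_cast
        ring

theorem lsStep (hb : BA) (h1 : PoiU) (α : ℝ) (h2 : 4 / 3 ≤ α) (h3 : α ≤ 2) (h4 : NB α) :
    LSb ((6 * α - 4) / (3 * α - 1)) := by
  intro ε hε
  have hε3 : 0 < ε / 3 := by linarith
  obtain ⟨C1, hC1, hp⟩ := lsStep_piece hb h1 h2 h3 h4 hε3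
  obtain ⟨C2, hC2, hl⟩ := log_le_rpow hε3
  refine ⟨8 * C1 * C2 ^ 2, by positivity, fun M N x hM hN => ?_⟩
  obtain ⟨J, hJ1, hJ2⟩ := exists_dyadic hN
  have hN0 : 0 < N := by linarith
  have hM0 : 0 < M := by linarith
  have hd : 0 < 3 * α - 1 := by linarith
  set M1 := max M (N ^ ((6 * α - 5) / (3 * α - 1))) with hM1
  set S := M + N ^ ((6 * α - 4) / (3 * α - 1)) + (M * N) ^ (2 / 3 : ℝ) with hS
  have hS0 : 0 ≤ S := by positivity
  have hM1S : M1 + (M1 * N) ^ (2 / 3 : ℝ) ≤ 2 * S := by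
    have p1 : 0 ≤ N ^ ((6 * α - 4) / (3 * α - 1)) := by positivity
    have p2 : 0 ≤ (M * N) ^ (2 / 3 : ℝ) := by positivity
    rcases max_choice M (N ^ ((6 * α - 5) / (3 * α - 1))) with h | h
    · rw [hM1, h, hS]
      linarith
    · rw [hM1, h, hS]
      have q1 : N ^ ((6 * α - 5) / (3 * α - 1)) ≤ N ^ ((6 * α - 4) / (3 * α - 1)) :=
        Real.rpow_le_rpow_of_exponent_le hN (div_le_div_of_nonneg_right (by linarith) hd.le)
      have q2 : (N ^ ((6 * α - 5) / (3 * α - 1)) * N) ^ (2 / 3 : ℝ)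
          = N ^ ((6 * α - 4) / (3 * α - 1)) := by
        rw [← Real.rpow_add_one hN0.ne', ← Real.rpow_mul hN0.le]
        congr 1
        rw [div_add_one hd.ne', div_mul_eq_mul_div]
        congr 1
        ring
      rw [q2]
      linarith
  have hn := lsStep_nrm_nonneg x N
  set W := C1 * N ^ (ε / 3) * (2 * S) * nrm2 x N with hW
  have hW0 : 0 ≤ W := by positivity
  have key : ∀ d ∈ ({pTwo} : Finset P).powerset, ∀ j ∈ Finset.range (J + 1),
      ∑ m ∈ sqf M, ‖xs c3 d (pr m) * Ds (lsX x N d j) (3 * 2 ^ j) (pr m)‖ ^ 2 ≤ W := by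
    intro d hd j hj
    have hB : (2 : ℝ) ^ j ≤ N :=
      (pow_le_pow_right₀ one_le_two (Nat.lt_succ_iff.1 (Finset.mem_range.1 hj))).trans hJ1
    have a1 := hp (lsX x N d j) M M1 N (2 ^ j) hN (by positivity) hB (le_max_left _ _)
      (le_max_right _ _) (fun c hc => ?_) fun c hc => ?_
    · have a2 := lsStep_nrm x N (3 * 2 ^ j) (Finset.mem_powerset.1 hd) j
      have a3 := lsStep_nrm_nonneg (lsX x N d j) (3 * 2 ^ j)
      calc _ ≤ ∑ m ∈ sqf M, ‖Ds (lsX x N d j) (3 * 2 ^ j) (pr m)‖ ^ 2 := by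
            refine Finset.sum_le_sum fun m _ => pow_le_pow_left₀ (norm_nonneg _) ?_ 2
            rw [norm_mul]
            exact mul_le_of_le_one_left (norm_nonneg _) (norm_xs_le ch_c3 _ _)
        _ ≤ _ := a1
        _ ≤ _ := by
            rw [hW]
            gcongr
    · unfold lsX at hc
      split_ifs at hc with h
      · exact Finset.disjoint_singleton_right.1 h.1.2
      · exact absurd rfl hc
    · unfold lsX at hc
      split_ifs at hc with h
      · refine ⟨h.2.1, h.2.2.le.trans ?_⟩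
        rw [pow_succ, div_one]
        have := Real.add_one_le_exp (1 : ℝ)
        gcongr
        linarith
      · exact absurd rfl hc
  have hc2 : ((({pTwo} : Finset P).powerset.card : ℕ) : ℝ) = 2 := by simp
  have hJ := hl N J hN hJ1
  have e3 : N ^ ε = N ^ (ε / 3) * N ^ (ε / 3) * N ^ (ε / 3) := by
    rw [← Real.rpow_add hN0, ← Real.rpow_add hN0]
    congr 1
    ring
  have e4 : N ^ ε ≤ (M * N) ^ ε := Real.rpow_le_rpow hN0.le (by nlinarith) hε.le
  calc _ ≤ ∑ m ∈ sqf M, 2 * ∑ d ∈ ({pTwo} : Finset P).powerset, (J + 1 : ℝ) *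
        ∑ j ∈ Finset.range (J + 1),
          ‖xs c3 d (pr m) * Ds (lsX x N d j) (3 * 2 ^ j) (pr m)‖ ^ 2 := by
        refine Finset.sum_le_sum fun m _ => ?_
        rw [lsStep_split x hJ2]
        refine (norm_sum_sq_le _ _).trans ?_
        rw [hc2]
        refine mul_le_mul_of_nonneg_left (Finset.sum_le_sum fun d _ =>
          (norm_sum_sq_le _ _).trans (le_of_eq ?_)) (by norm_num)
        rw [Finset.card_range]
        push_cast
        rfl
    _ = 2 * ∑ d ∈ ({pTwo} : Finset P).powerset, (J + 1 : ℝ) * ∑ j ∈ Finset.range (J + 1),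
        ∑ m ∈ sqf M, ‖xs c3 d (pr m) * Ds (lsX x N d j) (3 * 2 ^ j) (pr m)‖ ^ 2 := by
        rw [← Finset.mul_sum, Finset.sum_comm]
        congr 1
        refine Finset.sum_congr rfl fun d _ => ?_
        rw [← Finset.mul_sum, Finset.sum_comm]
    _ ≤ 2 * ∑ _d ∈ ({pTwo} : Finset P).powerset, (J + 1 : ℝ) * ∑ _j ∈ Finset.range (J + 1), W :=
        mul_le_mul_of_nonneg_left (Finset.sum_le_sum fun d hd => mul_le_mul_of_nonneg_left
          (Finset.sum_le_sum fun j hj => key d hd j hj) (by positivity)) (by norm_num)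
    _ = 4 * (J + 1 : ℝ) ^ 2 * W := by
        rw [Finset.sum_const, Finset.sum_const, nsmul_eq_mul, nsmul_eq_mul, hc2, Finset.card_range]
        push_cast
        ring
    _ ≤ 4 * (C2 * N ^ (ε / 3)) ^ 2 * W := by gcongr
    _ = 8 * C1 * C2 ^ 2 * N ^ ε * S * nrm2 x N := by
        rw [hW, e3]
        ring
    _ ≤ _ := by gcongr

end Pat
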