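import Vale.Agent.P006.IfB
import Vale.Agent.P026.Rearr
import Vale.Agent.P026.Sym

/-! Bounds for the dual sums after Poisson summation. -/

noncomputable section
namespace Pat
open QRH Complex MeasureTheory Filter
open scoped ComplexConjugate Classical ContDiff Topology

/-- The size of the dual sums. -/
def lsG (α L K : ℝ) : ℝ := K ^ (1 / 3 : ℝ) * L + K ^ α + (K * L) ^ (2 / 3 : ℝ)

theorem lsStep_G_nonneg (α : ℝ) {L K : ℝ} (hL : 0 ≤ L) (hK : 0 ≤ K) : 0 ≤ lsG α L K := by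
  unfold lsG
  positivity

theorem lsStep_nrm_nonneg (y : Finset P → ℂ) (L : ℝ) : 0 ≤ nrm2 y L :=
  Finset.sum_nonneg fun _ _ => by positivity

theorem lsStep_Qc (ξ : E) : 1 ≤ Qc ξ := by
  unfold Qc
  exact one_le_mul_of_one_le_of_one_le (one_le_Ns _) (one_le_pow₀ (one_le_Ns _))

theorem lsStep_scale {α L K t : ℝ} (hα : 1 ≤ α) (hL : 0 ≤ L) (hK : 0 ≤ K) (ht : 1 ≤ t) :
    lsG α L (t * K) ≤ t ^ α * lsG α L K := by
  have ht0 : 0 ≤ t := by linarith
  have e1 : t ^ (1 / 3 : ℝ) ≤ t ^ α := Real.rpow_le_rpow_of_exponent_le ht (by linarith)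
  have e2 : t ^ (2 / 3 : ℝ) ≤ t ^ α := Real.rpow_le_rpow_of_exponent_le ht (by linarith)
  unfold lsG
  rw [mul_assoc t K L, Real.mul_rpow ht0 hK, Real.mul_rpow ht0 hK,
    Real.mul_rpow ht0 (mul_nonneg hK hL), mul_add, mul_add, mul_assoc]
  have a1 : 0 ≤ K ^ (1 / 3 : ℝ) * L := by positivity
  have a2 : 0 ≤ (K * L) ^ (2 / 3 : ℝ) := by positivity
  gcongr

theorem lsStep_Xi (hb : BA) {α : ℝ} (h2 : 1 ≤ α) (h3 : α ≤ 2) (h4 : NB α) {ε : ℝ} (hε : 0 < ε) :
    ∃ C : ℝ, 0 < C ∧ ∀ (y : Finset P → ℂ) (L K Z : ℝ) (Pr : E → Prop), 1 ≤ Z → 0 ≤ L → L ≤ Z →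
      0 < K → K ≤ Z → Xi y L K 1 Pr ≤ C * Z ^ ε * lsG α L K * nrm2 y L := by
  set e := min ε (1 / 5) with he
  have he0 : 0 < e := lt_min hε (by norm_num)
  have he1 : e ≤ 1 / 5 := min_le_right _ _
  have he2 : e ≤ ε := min_le_left _ _
  obtain ⟨C1, hC1, h1⟩ := h4 e he0
  obtain ⟨C2, hC2, hd⟩ := hb.Xi_dyadic (α + e) (2 * (α + e)) (by linarith) (by linarith)
    (by linarith) (by linarith)
  obtain ⟨hs, hd⟩ := hd 1 le_rfl
  rw [Real.one_rpow, mul_one] at hd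
  refine ⟨C1 * C2, mul_pos hC1 hC2, fun y L K Z Pr hZ hL hLZ hK hKZ => ?_⟩
  have hG := lsStep_G_nonneg α hL hK.le
  have hn := lsStep_nrm_nonneg y L
  have hZ0 : 0 ≤ Z := by linarith
  set W := C1 * Z ^ e * lsG α L K * nrm2 y L with hW
  have hW0 : 0 ≤ W := by positivity
  have hj : ∀ j : ℕ, max 1 (2 ^ (j + 1) * K / K) = (2 : ℝ) ^ (j + 1) := fun j => by
    rw [mul_div_assoc, div_self hK.ne', mul_one, max_eq_right (one_le_pow₀ one_le_two)]
  have key := hb.Xi_split y L K 1 Pr (fun R => W * (max 1 (R / K)) ^ (α + e)) hK le_rfl ?_ ?_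
  · simp only [hj] at key
    rw [div_self hK.ne', max_self, Real.one_rpow, mul_one] at key
    have e3 : ∑' j : ℕ, GM 1 (2 ^ j) * (W * ((2 : ℝ) ^ (j + 1)) ^ (α + e))
        = W * ∑' j : ℕ, GM 1 (2 ^ j) * ((2 : ℝ) ^ (j + 1)) ^ (α + e) := by
      rw [← tsum_mul_left]
      exact tsum_congr fun j => by ring
    rw [e3] at key
    have e4 : Z ^ e ≤ Z ^ ε := Real.rpow_le_rpow_of_exponent_le hZ he2
    calc _ ≤ _ := key
      _ = W * ((1 : ℝ)⁻¹ + ∑' j : ℕ, GM 1 (2 ^ j) * ((2 : ℝ) ^ (j + 1)) ^ (α + e)) := by ring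
      _ ≤ W * C2 := mul_le_mul_of_nonneg_left hd hW0
      _ = C1 * C2 * Z ^ e * lsG α L K * nrm2 y L := by rw [hW]; ring
      _ ≤ _ := by gcongr
  · intro R hR
    set t := max 1 (R / K) with ht
    have ht1 : 1 ≤ t := le_max_left _ _
    have ht0 : 0 ≤ t := by linarith
    have hRt : R ≤ t * K := by
      rw [← div_le_iff₀ hK]
      exact le_max_right _ _
    have h5 := h1 y L (t * K) 1 (t * Z) (by nlinarith) (by nlinarith) (by positivity)
      (by nlinarith) le_rfl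
    rw [Real.one_rpow, mul_one] at h5
    have h6 := lsStep_scale (α := α) h2 hL hK.le ht1
    calc _ ≤ ∑ ξ ∈ ball (t * K) with 1 ≤ Qc ξ, ‖Ds y L ξ‖ ^ 2 := by
          refine Finset.sum_le_sum_of_subset_of_nonneg (fun ξ hξ => ?_) fun _ _ _ => by positivity
          rw [Finset.mem_filter] at hξ ⊢
          exact ⟨ball_mono hRt hξ.1, lsStep_Qc ξ⟩
      _ ≤ C1 * (t * Z) ^ e * lsG α L (t * K) * nrm2 y L := h5
      _ ≤ C1 * (t * Z) ^ e * (t ^ α * lsG α L K) * nrm2 y L := by gcongr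
      _ = W * t ^ (α + e) := by
          rw [Real.mul_rpow ht0 hZ0, Real.rpow_add (by linarith), hW]
          ring
  · simp only [hj]
    refine (hs.mul_left W).congr fun j => ?_
    ring

theorem lsStep_sup (R : ℝ) (d : Finset P) (g : Finset P → ℝ) :
    ∑ c ∈ sqf (R / Ns d) with Disjoint c d, g (d ∪ c) = ∑ n ∈ sqf R with d ⊆ n, g n := by
  have h := rr_sup R d fun c => (g (d ∪ c) : ℂ)
  have h' : ∑ n ∈ sqf R with d ⊆ n, (g (d ∪ (n \ d)) : ℂ) = ∑ n ∈ sqf R with d ⊆ n, (g n : ℂ) :=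
    Finset.sum_congr rfl fun n hn => by
      rw [Finset.union_sdiff_of_subset (Finset.mem_filter.1 hn).2]
  rw [h'] at h
  exact_mod_cast h

/-- Mass of the coefficients on the multiples of `d` and `e`. -/
def lsM (x : Finset P → ℂ) (R : ℝ) (d e : Finset P) : ℝ :=
  ∑ n ∈ sqf R, (if d ⊆ n then 1 else 0) * (if e ⊆ n then 1 else 0) * ‖x n‖ ^ 2

theorem lsStep_M_nonneg (x : Finset P → ℂ) (R : ℝ) (d e : Finset P) : 0 ≤ lsM x R d e :=
  Finset.sum_nonneg fun _ _ => by positivity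

theorem lsStep_yd (hb : BA) (x : Finset P → ℂ) {B : ℝ} (hB : 0 < B) (T : ℝ) (d f e : Finset P)
    (τ : ℝ) : nrm2 (yd x B T d f e τ) (3 * B / Ns d) ≤ 3 * lsM x (3 * B) d e := by
  have h1 := lsStep_sup (3 * B) d fun n => (if e ⊆ n then 1 else 0) * ‖x n‖ ^ 2
  have h2 : lsM x (3 * B) d e
      = ∑ n ∈ sqf (3 * B) with d ⊆ n, (if e ⊆ n then 1 else 0) * ‖x n‖ ^ 2 := by
    rw [Finset.sum_filter]
    exact Finset.sum_congr rfl fun n _ => by split_ifs <;> simp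
  rw [h2, ← h1, Finset.sum_filter, Finset.mul_sum]
  refine Finset.sum_le_sum fun c hc => ?_
  unfold yd
  by_cases h : e ⊆ c ∧ Disjoint c d
  · rw [if_pos h, if_pos h.2, if_pos (h.1.trans Finset.subset_union_right), one_mul]
    have hr : 0 < Ns c * Ns d / B := div_pos (mul_pos (Ns_pos c) (Ns_pos d)) hB
    have hr3 : Ns c * Ns d / B ≤ 3 := by
      rw [div_le_iff₀ hB, ← le_div_iff₀ (Ns_pos d)]
      exact mem_sqf.1 hc
    rw [norm_mul, Complex.norm_conj, norm_mul, norm_mul, hb.norm_gn, mul_one,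
      Complex.norm_cpow_eq_rpow_re_of_pos hr]
    have e1 : (1 / 2 + τ * T * I : ℂ).re = 1 / 2 := by simp
    rw [e1, mul_pow, mul_pow, ← Real.sqrt_eq_rpow, Real.sq_sqrt hr.le]
    have e2 : ‖xs c3 c (pr f)‖ ^ 2 ≤ 1 := pow_le_one₀ (norm_nonneg _) (norm_xs_le ch_c3 _ _)
    calc _ ≤ ‖x (d ∪ c)‖ ^ 2 * 1 * 3 := by gcongr
      _ = _ := by ring
  · rw [if_neg h, norm_zero, zero_pow two_ne_zero]
    split_ifs <;> positivity

theorem lsStep_wt {α A B D F : ℝ} (hα : 1 ≤ α) (hA : 0 < A) (hB : 0 < B) (hF : 1 ≤ F)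
    (hD : F ≤ D) : A * D / (F * B) * lsG α (3 * B / D) (9 * F * B ^ 2 / (A * D ^ 2))
      ≤ A / B * lsG α (3 * B) (9 * B ^ 2 / A) := by
  have hF0 : 0 < F := by linarith
  have hD1 : 1 ≤ D := hF.trans hD
  have hD0 : 0 < D := by linarith
  set K0 := 9 * B ^ 2 / A with hK0
  have hK : 0 < K0 := by positivity
  have eK : 9 * F * B ^ 2 / (A * D ^ 2) = K0 * (F / D ^ 2) := by rw [hK0]; field_simp
  have hu : F / D ^ 2 ≤ 1 := by
    rw [div_le_one (by positivity)]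
    nlinarith
  have hu0 : 0 < F / D ^ 2 := by positivity
  have hle : K0 * (F / D ^ 2) ≤ K0 := mul_le_of_le_one_right hK.le hu
  have ew : A * D / (F * B) = A / B * (D / F) := by field_simp
  rw [eK, ew, mul_assoc]
  refine mul_le_mul_of_nonneg_left ?_ (by positivity)
  unfold lsG
  rw [mul_add, mul_add]
  refine add_le_add (add_le_add ?_ ?_) ?_
  · have a1 : (K0 * (F / D ^ 2)) ^ (1 / 3 : ℝ) ≤ K0 ^ (1 / 3 : ℝ) :=
      Real.rpow_le_rpow (by positivity) hle (by norm_num)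
    calc _ = (K0 * (F / D ^ 2)) ^ (1 / 3 : ℝ) * (3 * B / F) := by field_simp
      _ ≤ K0 ^ (1 / 3 : ℝ) * (3 * B) := by
          gcongr
          exact div_le_self (by positivity) hF
  · have a1 : (K0 * (F / D ^ 2)) ^ (α - 1) ≤ K0 ^ (α - 1) :=
      Real.rpow_le_rpow (by positivity) hle (by linarith)
    have a2 : ∀ u : ℝ, 0 < u → u ^ α = u ^ (α - 1) * u := fun u hu => by
      rw [← Real.rpow_add_one hu.ne', sub_add_cancel]
    rw [a2 _ (by positivity), a2 K0 hK]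
    calc _ = (K0 * (F / D ^ 2)) ^ (α - 1) * (K0 / D) := by field_simp
      _ ≤ K0 ^ (α - 1) * K0 := by
          gcongr
          exact div_le_self hK.le hD1
  · have a0 : K0 * (F / D ^ 2) * (3 * B / D) = K0 * (3 * B) * (F / D ^ 3) := by field_simp
    have ht : F / D ≤ 1 := (div_le_one hD0).2 hD
    have ht0 : 0 < F / D := by positivity
    have a1 : F / D ^ 3 ≤ (F / D) ^ 3 := by
      rw [div_pow]
      gcongr
      exact le_self_pow₀ hF (by norm_num)
    have a2 : (F / D ^ 3) ^ (2 / 3 : ℝ) ≤ F / D := by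
      calc _ ≤ ((F / D) ^ 3) ^ (2 / 3 : ℝ) := Real.rpow_le_rpow (by positivity) a1 (by norm_num)
        _ = (F / D) ^ (2 : ℝ) := by
            rw [← Real.rpow_natCast, ← Real.rpow_mul ht0.le]
            norm_num
        _ ≤ (F / D) ^ (1 : ℝ) := Real.rpow_le_rpow_of_exponent_ge ht0 ht (by norm_num)
        _ = _ := Real.rpow_one _
    rw [a0, Real.mul_rpow (by positivity) (by positivity)]
    calc _ ≤ D / F * ((K0 * (3 * B)) ^ (2 / 3 : ℝ) * (F / D)) := by gcongr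
      _ = _ := by field_simp

theorem lsStep_int : Integrable fun τ : ℝ => (1 + |τ|) ^ (-((2 : ℕ) : ℝ)) := by
  have h := integrable_one_add_norm (E := ℝ) (μ := volume) (r := ((2 : ℕ) : ℝ)) (by simp)
  simpa using h

theorem lsStep_term (hb : BA) {α : ℝ} (h2 : 1 ≤ α) (h3 : α ≤ 2) (h4 : NB α) {ε : ℝ}
    (hε : 0 < ε) : ∃ C : ℝ, 0 < C ∧ ∀ (x : Finset P → ℂ) (A B Z : ℝ) (d f e : Finset P)
      (Pr : E → Prop), 0 < A → 0 < B → 1 ≤ Z → 3 * B ≤ Z → 9 * B ^ 2 / A ≤ Z → f ⊆ d →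
      A * Ns d / (Ns f * B) * ∫ τ : ℝ, (1 + |τ|) ^ (-((2 : ℕ) : ℝ)) *
        Xi (yd x B 1 d f e τ) (3 * B / Ns d) (9 * Ns f * B ^ 2 / (A * Ns d ^ 2)) 1 Pr
      ≤ C * Z ^ ε * (A / B * lsG α (3 * B) (9 * B ^ 2 / A)) * lsM x (3 * B) d e := by
  obtain ⟨C, hC, h⟩ := lsStep_Xi hb h2 h3 h4 hε
  set I2 := ∫ τ : ℝ, (1 + |τ|) ^ (-((2 : ℕ) : ℝ)) with hI
  have hI0 : 0 ≤ I2 := integral_nonneg fun τ => by positivity
  refine ⟨3 * C * (I2 + 1), by positivity, fun x A B Z d f e Pr hA hB hZ h5 h6 hfd => ?_⟩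
  have hd := Ns_pos d
  have hf := Ns_pos f
  have hd1 := one_le_Ns d
  have hfd' := Ns_mono hfd
  have hK : 0 < 9 * Ns f * B ^ 2 / (A * Ns d ^ 2) := by positivity
  have hKZ : 9 * Ns f * B ^ 2 / (A * Ns d ^ 2) ≤ Z := by
    refine le_trans ?_ h6
    rw [div_le_div_iff₀ (by positivity) hA]
    have : Ns f ≤ Ns d ^ 2 := by nlinarith
    calc _ = 9 * B ^ 2 * A * Ns f := by ring
      _ ≤ 9 * B ^ 2 * A * Ns d ^ 2 := by gcongr
      _ = _ := by ring
  have hL : 0 ≤ 3 * B / Ns d := by positivity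
  have hLZ : 3 * B / Ns d ≤ Z := (div_le_self (by positivity) hd1).trans h5
  have hG := lsStep_G_nonneg α hL hK.le
  have hM := lsStep_M_nonneg x (3 * B) d e
  have hZ0 : 0 ≤ Z := by linarith
  set G := lsG α (3 * B / Ns d) (9 * Ns f * B ^ 2 / (A * Ns d ^ 2)) with hGd
  set W := C * Z ^ ε * G * (3 * lsM x (3 * B) d e) with hW
  have hW0 : 0 ≤ W := by positivity
  have hi : ∫ τ : ℝ, (1 + |τ|) ^ (-((2 : ℕ) : ℝ)) *
      Xi (yd x B 1 d f e τ) (3 * B / Ns d) (9 * Ns f * B ^ 2 / (A * Ns d ^ 2)) 1 Pr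
      ≤ ∫ τ : ℝ, (1 + |τ|) ^ (-((2 : ℕ) : ℝ)) * W := by
    refine integral_mono_of_nonneg (Eventually.of_forall fun τ => ?_) (lsStep_int.mul_const W)
      (Eventually.of_forall fun τ => ?_)
    · exact mul_nonneg (by positivity) (hb.Xi_nonneg _ _ _ _ _ hK one_pos)
    · refine mul_le_mul_of_nonneg_left ((h _ _ _ Z Pr hZ hL hLZ hK hKZ).trans ?_) (by positivity)
      exact mul_le_mul_of_nonneg_left (lsStep_yd hb x hB 1 d f e τ) (by positivity)
  rw [integral_mul_const] at hi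
  have hw := lsStep_wt (α := α) h2 hA hB (one_le_Ns f) hfd'
  have hE : 0 ≤ A / B * lsG α (3 * B) (9 * B ^ 2 / A) :=
    mul_nonneg (by positivity) (lsStep_G_nonneg α (by positivity) (by positivity))
  calc _ ≤ A * Ns d / (Ns f * B) * (I2 * W) := mul_le_mul_of_nonneg_left hi (by positivity)
    _ = 3 * C * I2 * Z ^ ε * (A * Ns d / (Ns f * B) * G) * lsM x (3 * B) d e := by rw [hW]; ring
    _ ≤ 3 * C * (I2 + 1) * Z ^ ε * (A / B * lsG α (3 * B) (9 * B ^ 2 / A)) *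
          lsM x (3 * B) d e := by
        gcongr
        linarith

theorem lsStep_count (x : Finset P → ℂ) (R : ℝ) :
    ∑ d ∈ sqf R, ∑ _f ∈ d.powerset, ∑ e ∈ sqf R, lsM x R d e
      ≤ ∑ n ∈ sqf R, 8 ^ n.card * ‖x n‖ ^ 2 := by
  have e1 : ∀ d : Finset P, ∑ e ∈ sqf R, lsM x R d e
      ≤ ∑ n ∈ sqf R, (if d ⊆ n then 1 else 0) * 2 ^ n.card * ‖x n‖ ^ 2 := fun d => by
    unfold lsM
    rw [Finset.sum_comm]
    refine Finset.sum_le_sum fun n _ => ?_
    rw [← Finset.sum_mul, ← Finset.mul_sum]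
    have := rr_card (sqf R) n
    gcongr
  calc _ ≤ ∑ d ∈ sqf R, ∑ n ∈ sqf R, (if d ⊆ n then 1 else 0) * (4 ^ n.card * ‖x n‖ ^ 2) := by
        refine Finset.sum_le_sum fun d _ => ?_
        rw [Finset.sum_const, Finset.card_powerset, nsmul_eq_mul]
        refine (mul_le_mul_of_nonneg_left (e1 d) (by positivity)).trans ?_
        rw [Finset.mul_sum]
        refine Finset.sum_le_sum fun n _ => ?_
        split_ifs with h
        · have : ((2 ^ d.card : ℕ) : ℝ) ≤ 2 ^ n.card := by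
            push_cast
            exact pow_le_pow_right₀ one_le_two (Finset.card_le_card h)
          calc _ ≤ 2 ^ n.card * (1 * 2 ^ n.card * ‖x n‖ ^ 2) := by gcongr
            _ = _ := by
                rw [show (4 : ℝ) = 2 * 2 by norm_num, mul_pow]
                ring
        · simp
    _ ≤ _ := by
        rw [Finset.sum_comm]
        refine Finset.sum_le_sum fun n _ => ?_
        rw [← Finset.sum_mul]
        have := rr_card (sqf R) n
        calc _ ≤ 2 ^ n.card * (4 ^ n.card * ‖x n‖ ^ 2) := by gcongr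
          _ = _ := by
              rw [show (8 : ℝ) = 2 * 4 by norm_num, mul_pow]
              ring

theorem lsStep_S1 (hb : BA) (h1 : PoiU) {α : ℝ} (h2 : 1 ≤ α) (h3 : α ≤ 2) (h4 : NB α) {ε : ℝ}
    (hε : 0 < ε) : ∃ C : ℝ, 0 < C ∧ ∀ (x : Finset P → ℂ) (A B Z : ℝ), 0 < A → 0 < B → 1 ≤ Z →
      3 * B ≤ Z → 9 * B ^ 2 / A ≤ Z → Sup x B (B * Real.exp (1 / 1)) →
      S1 x A B 1 ≤ C * Z ^ ε * (A + A / B * lsG α (3 * B) (9 * B ^ 2 / A)) * nrm2 x (3 * B) := by
  obtain ⟨C1, hC1, h1⟩ := h1 2 le_rfl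
  obtain ⟨C2, hC2, ht⟩ := lsStep_term hb h2 h3 h4 (half_pos hε)
  obtain ⟨C3, hC3, hp⟩ := pow_card_le (A := 8) (by norm_num) (half_pos hε)
  refine ⟨C1 * (1 + C2 + C2 * C3), by positivity, fun x A B Z hA hB hZ h5 h6 hx => ?_⟩
  have h7 := h1 x A B 1 (fun _ => False) hA hB le_rfl hx
  have hm : MainM x A B 1 (fun _ => False) = 0 := by simp [MainM]
  rw [hm, sub_zero, Complex.norm_real, div_one] at h7
  set G := A / B * lsG α (3 * B) (9 * B ^ 2 / A) with hG
  have hE : 0 ≤ G :=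
    mul_nonneg (by positivity) (lsStep_G_nonneg α (by positivity) (by positivity))
  have hn := lsStep_nrm_nonneg x (3 * B)
  have hZ0 : 0 < Z := by linarith
  have z1 : 1 ≤ Z ^ (ε / 2) := Real.one_le_rpow hZ (half_pos hε).le
  have z2 : Z ^ ε = Z ^ (ε / 2) * Z ^ (ε / 2) := by rw [← Real.rpow_add hZ0, add_halves]
  have r0 : Rest0 x A B 1 2 (fun _ => False) ≤ C2 * Z ^ (ε / 2) * G * nrm2 x (3 * B) := by
    have := ht x A B Z ∅ ∅ ∅ (fun ξ => ¬ False) hA hB hZ h5 h6 subset_rfl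
    simpa [Ns_empty, Rest0, lsM, nrm2] using this
  have rN : RestN x A B 1 2 ≤ C2 * Z ^ (ε / 2) * G * (C3 * Z ^ (ε / 2) * nrm2 x (3 * B)) := by
    calc _ ≤ ∑ d ∈ sqf (3 * B), ∑ _f ∈ d.powerset, ∑ e ∈ sqf (3 * B),
          C2 * Z ^ (ε / 2) * G * lsM x (3 * B) d e := by
          refine Finset.sum_le_sum fun d _ => Finset.sum_le_sum fun f hf => ?_
          refine (Finset.sum_le_sum fun e _ =>
            ht x A B Z d f e _ hA hB hZ h5 h6 (Finset.mem_powerset.1 hf)).trans ?_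
          refine Finset.sum_le_sum_of_subset_of_nonneg (Finset.filter_subset _ _) fun e _ _ => ?_
          have := lsStep_M_nonneg x (3 * B) d e
          positivity
      _ = C2 * Z ^ (ε / 2) * G * ∑ d ∈ sqf (3 * B), ∑ _f ∈ d.powerset, ∑ e ∈ sqf (3 * B),
          lsM x (3 * B) d e := by simp only [Finset.mul_sum]
      _ ≤ _ := by
          refine mul_le_mul_of_nonneg_left ((lsStep_count x _).trans ?_) (by positivity)
          unfold nrm2
          rw [Finset.mul_sum]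
          refine Finset.sum_le_sum fun n hn => mul_le_mul_of_nonneg_right ((hp n).trans ?_)
            (by positivity)
          exact mul_le_mul_of_nonneg_left (Real.rpow_le_rpow (Ns_pos n).le
            ((mem_sqf.1 hn).trans h5) (half_pos hε).le) hC3.le
  set z := Z ^ (ε / 2)
  set n := nrm2 x (3 * B)
  have b1 : A * n ≤ z * z * (A + G) * n := by
    have : 1 ≤ z * z := by nlinarith
    gcongr
    nlinarith
  have b2 : C2 * z * G * n ≤ C2 * (z * z * (A + G) * n) := by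
    have : z * G ≤ z * z * (A + G) := by
      have : z ≤ z * z := by nlinarith
      gcongr
      linarith
    calc _ = C2 * (z * G * n) := by ring
      _ ≤ _ := by gcongr
  have b3 : C2 * z * G * (C3 * z * n) ≤ C2 * C3 * (z * z * (A + G) * n) := by
    calc _ = C2 * C3 * (z * z * G * n) := by ring
      _ ≤ _ := by
          gcongr
          linarith
  calc _ ≤ _ := le_abs_self _
    _ ≤ _ := h7
    _ ≤ C1 * (z * z * (A + G) * n + C2 * (z * z * (A + G) * n)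
          + C2 * C3 * (z * z * (A + G) * n)) := by
        gcongr
        · exact r0.trans b2
        · exact rN.trans b3
    _ = _ := by rw [z2]; ring

end Pat
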