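import Vale.Agent.P006.MMEAux

/-! The contribution of the cubes after Poisson summation. -/

noncomputable section
namespace Pat
open QRH Complex MeasureTheory Filter
open scoped ComplexConjugate Classical ContDiff Topology

/-- The terms of the sum over cubes. -/
def mME_g (s : ℝ) (j : E) : ℂ := if j = 0 then 0 else hO 1 (s * (nm j : ℝ) ^ 3)
/-- The constant in the sum over cubes. -/
def mME_k : ℝ := 27 * (9 : ℝ) ^ (-(1 / 3) : ℝ) * rho * kap ^ 2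
/-- The sum of the reciprocal norms. -/
def mME_s (c : Finset P) : ℝ := ∑ p ∈ c, (nm p.1 : ℝ)⁻¹

theorem mME_s_nonneg (c : Finset P) : 0 ≤ mME_s c := Finset.sum_nonneg fun _ _ => by positivity

theorem mME_s_union (c c' : Finset P) : mME_s (c ∪ c') ≤ mME_s c + mME_s c' := by
  have h := Finset.sum_union_inter (s₁ := c) (s₂ := c') (f := fun p : P => (nm p.1 : ℝ)⁻¹)
  have h2 := mME_s_nonneg (c ∩ c')
  unfold mME_s at h2 ⊢
  linarith

theorem mME_norm_g (s : ℝ) (j : E) :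
    ‖mME_g s j‖ = if j = 0 then 0 else ‖hO 1 (s * (nm j : ℝ) ^ 3)‖ := by
  unfold mME_g
  split_ifs <;> simp

theorem mME_g_mul (s : ℝ) (p : P) (j : E) :
    mME_g s (p.1 * j) = mME_g (s * (nm p.1 : ℝ) ^ 3) j := by
  unfold mME_g
  rw [nm_mul, Nat.cast_mul, mul_pow, mul_assoc]
  exact if_congr (by simp [p.ne_zero]) rfl rfl

theorem mME_cop (h : CS) : ∃ C : ℝ, 0 < C ∧ ∀ s : ℝ, 0 < s → ∀ G : Finset P,
    Summable (fun j => if Disjoint G (fac j) then mME_g s j else 0) ∧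
    ‖∑' j, (if Disjoint G (fac j) then mME_g s j else 0)
        - ((mME_k * s ^ (-(1 / 3) : ℝ) : ℝ) : ℂ) * mOm‖
      ≤ C * s ^ (-(1 / 6) : ℝ) + C * s ^ (-(1 / 3) : ℝ) * mME_s G := by
  obtain ⟨C, hC, h⟩ := h
  refine ⟨C, hC, fun s hs G => ?_⟩
  have hu : Summable fun j => ‖mME_g s j‖ := by simpa only [mME_norm_g] using (h s hs).1
  have s1 : Summable fun j => if Disjoint G (fac j) then mME_g s j else 0 :=
    Summable.of_norm_bounded hu fun j => by split_ifs <;> simp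
  have s2 : ∀ p : P, Summable fun j => if p.1 ∣ j then ‖mME_g s j‖ else 0 := fun p =>
    Summable.of_nonneg_of_le (fun j => by positivity) (fun j => by split_ifs <;> simp) hu
  have h3 : ∀ p : P, ∑' j, (if p.1 ∣ j then ‖mME_g s j‖ else 0)
      ≤ C * s ^ (-(1 / 3) : ℝ) * (nm p.1 : ℝ)⁻¹ := fun p => by
    have p0 : (0 : ℝ) < nm p.1 := one_pos.trans_le (one_le_nmR p.ne_zero)
    rw [← (mul_right_injective₀ p.ne_zero).tsum_eq fun j hj => by
      obtain ⟨k, hk⟩ : p.1 ∣ j := by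
        by_contra h'
        exact hj (if_neg h')
      exact ⟨k, hk.symm⟩]
    simp only [dvd_mul_right, if_true, mME_g_mul, mME_norm_g]
    refine (h _ (by positivity)).2.1.trans (le_of_eq ?_)
    rw [Real.mul_rpow hs.le (by positivity), ← Real.rpow_natCast, ← Real.rpow_mul p0.le,
      ← Real.rpow_neg_one, mul_assoc]
    norm_num
  have h4 : ‖∑' j, (if Disjoint G (fac j) then mME_g s j else 0) - ∑' j, mME_g s j‖
      ≤ C * s ^ (-(1 / 3) : ℝ) * mME_s G := by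
    rw [← s1.tsum_sub hu.of_norm]
    refine (tsum_of_norm_bounded (hasSum_sum (s := G) fun p _ => (s2 p).hasSum) fun j => ?_).trans ?_
    · have h0 : 0 ≤ ∑ p ∈ G, (if p.1 ∣ j then ‖mME_g s j‖ else 0) :=
        Finset.sum_nonneg fun _ _ => by positivity
      by_cases hd : Disjoint G (fac j)
      · rwa [if_pos hd, sub_self, norm_zero]
      by_cases hj : j = 0
      · refine le_trans (le_of_eq ?_) h0
        rw [if_neg hd, zero_sub, norm_neg, mME_norm_g, if_pos hj]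
      obtain ⟨p, hp, hp'⟩ := Finset.not_disjoint_iff.1 hd
      rw [if_neg hd, zero_sub, norm_neg]
      refine le_trans (le_of_eq ?_) (Finset.single_le_sum
        (f := fun p : P => if p.1 ∣ j then ‖mME_g s j‖ else 0) (fun _ _ => by positivity) hp)
      exact (if_pos ((mem_fac hj).1 hp')).symm
    · rw [mME_s, Finset.mul_sum]
      exact Finset.sum_le_sum fun p _ => h3 p
  refine ⟨s1, (norm_sub_le_norm_sub_add_norm_sub _ (∑' j, mME_g s j) _).trans ?_⟩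
  rw [add_comm]
  exact add_le_add (h s hs).2.2 h4

theorem mME_inner (hb : BA) {s A : ℝ} {c c' : Finset P} (hs : s = A / (9 * (Ns c * Ns c')))
    (h : Summable fun j => if Disjoint (c ∪ c') (fac j) then mME_g s j else 0) :
    ∑' j, (if Disjoint (c ∪ c') (fac j) then mME_g s j else 0)
      = 3 * ∑' ξ : E, if ξ ≠ 0 ∧ IsCube ξ then psf ξ 3 * conj (xs c3 c ξ) * xs c3 c' ξ
          * hO 1 (nm ξ * A / (9 * (Ns c * Ns c'))) else 0 := by
  have e : ∀ j : E, (if Disjoint (c ∪ c') (fac j) then mME_g s j else 0)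
      = if j = 0 then 0 else psf (j ^ 3) 3 * conj (xs c3 c (j ^ 3)) * xs c3 c' (j ^ 3)
          * hO 1 (nm (j ^ 3) * A / (9 * (Ns c * Ns c'))) := fun j => by
    by_cases hj : j = 0
    · simp [mME_g, hj]
    rw [if_neg hj, hb.psf_cube, hb.xs_cube c j hj, hb.xs_cube c' j hj, mME_g, if_neg hj, nm_pow,
      Nat.cast_pow, mul_div_assoc, ← hs, mul_comm s]
    by_cases h1 : Disjoint c (fac j) <;> by_cases h2 : Disjoint c' (fac j) <;>
      simp [h1, h2, Finset.disjoint_union_left]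
  simp only [e] at h ⊢
  exact hb.tsum_cube (fun ξ => psf ξ 3 * conj (xs c3 c ξ) * xs c3 c' ξ
    * hO 1 (nm ξ * A / (9 * (Ns c * Ns c')))) h

theorem mME_six {y : ℝ} (hy : 0 < y) : ∃ x : ℝ, 0 < x ∧ y = x ^ 6 :=
  ⟨y ^ (1 / 6 : ℝ), by positivity, by
    rw [← Real.rpow_natCast, ← Real.rpow_mul hy.le]; norm_num⟩

theorem mME_pw {x σ : ℝ} (hx : 0 < x) (k : ℕ) (h : 6 * σ = k) : (x ^ 6) ^ σ = x ^ k := by
  rw [← Real.rpow_natCast, ← Real.rpow_mul hx.le, ← Real.rpow_natCast, ← h]; norm_num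

theorem mME_pw' {x σ : ℝ} (hx : 0 < x) (k : ℕ) (h : 6 * σ = k) :
    (x ^ 6) ^ (-σ) = (x ^ k)⁻¹ := by
  rw [Real.rpow_neg (by positivity), mME_pw hx k h]

theorem mME_num {A B n n' : ℝ} (hA : 0 < A) (hB : 0 < B) (hn : B ≤ n) (hn' : B ≤ n') :
    A / (9 * √(n * n')) / 3 * (mME_k * (A / (9 * (n * n'))) ^ (-(1 / 3) : ℝ))
      = rho * A ^ (2 / 3 : ℝ) * ((kap * n ^ (-(1 / 6) : ℝ)) * (kap * n' ^ (-(1 / 6) : ℝ))) ∧
    A / (9 * √(n * n')) / 3 * (A / (9 * (n * n'))) ^ (-(1 / 6) : ℝ)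
      ≤ A ^ (5 / 6 : ℝ) * B ^ (-(2 / 3) : ℝ) ∧
    A / (9 * √(n * n')) / 3 * (A / (9 * (n * n'))) ^ (-(1 / 3) : ℝ)
      ≤ A ^ (2 / 3 : ℝ) * B ^ (-(1 / 3) : ℝ) := by
  obtain ⟨u, hu, rfl⟩ := mME_six (hB.trans_le hn)
  obtain ⟨v, hv, rfl⟩ := mME_six (hB.trans_le hn')
  obtain ⟨a, ha, rfl⟩ := mME_six hA
  obtain ⟨b, hb, rfl⟩ := mME_six hB
  obtain ⟨r, hr, h9⟩ := mME_six (show (0 : ℝ) < 9 by norm_num)
  have h1 : b ≤ u := (pow_le_pow_iff_left₀ hb.le hu.le (by norm_num)).1 hn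
  have h2 : b ≤ v := (pow_le_pow_iff_left₀ hb.le hv.le (by norm_num)).1 hn'
  have h3 : r ≤ 2 := (pow_le_pow_iff_left₀ hr.le (by norm_num) (n := 6) (by norm_num)).1
    (by rw [← h9]; norm_num)
  have e1 : a ^ 6 / (9 * (u ^ 6 * v ^ 6)) = (a / (r * u * v)) ^ 6 := by
    rw [div_pow, mul_pow, mul_pow, ← h9, mul_assoc]
  have e2 : √(u ^ 6 * v ^ 6) = (u * v) ^ 3 := by
    rw [Real.sqrt_eq_iff_mul_self_eq (by positivity) (by positivity)]
    ring
  have e3 : (9 : ℝ) ^ (-(1 / 3) : ℝ) = (r ^ 2)⁻¹ := by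
    rw [h9]
    exact mME_pw' hr 2 (by norm_num)
  have hx : 0 < a / (r * u * v) := by positivity
  rw [mME_k, e1, e2, e3, mME_pw' hx 2 (by norm_num), mME_pw' hx 1 (by norm_num),
    mME_pw' hu 1 (by norm_num), mME_pw' hv 1 (by norm_num), mME_pw ha 4 (by norm_num),
    mME_pw ha 5 (by norm_num), mME_pw' hb 4 (by norm_num), mME_pw' hb 2 (by norm_num)]
  have h4 : b ^ 2 ≤ u * v := by rw [sq]; gcongr
  refine ⟨by field_simp; ring, ?_, ?_⟩
  · have e : a ^ 6 / (9 * (u * v) ^ 3) / 3 * ((a / (r * u * v)) ^ 1)⁻¹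
        = r / 27 * (a ^ 5 * ((u * v) ^ 2)⁻¹) := by field_simp; ring
    rw [e, show b ^ 4 = (b ^ 2) ^ 2 by ring]
    refine (mul_le_of_le_one_left (by positivity) (by linarith)).trans ?_
    gcongr
  · have e : a ^ 6 / (9 * (u * v) ^ 3) / 3 * ((a / (r * u * v)) ^ 2)⁻¹
        = r ^ 2 / 27 * (a ^ 4 * (u * v)⁻¹) := by field_simp; ring
    rw [e]
    refine (mul_le_of_le_one_left (by positivity) (by nlinarith)).trans ?_
    gcongr

theorem mME_pair (hb : BA) (h : CS) : ∃ C : ℝ, 0 < C ∧ ∀ (A B : ℝ) (c c' : Finset P), 0 < A →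
    0 < B → B ≤ Ns c → B ≤ Ns c' →
    ‖((A / (9 * √(Ns c * Ns c')) : ℝ) : ℂ) *
        (∑' ξ : E, if ξ ≠ 0 ∧ IsCube ξ then psf ξ 3 * conj (xs c3 c ξ) * xs c3 c' ξ
          * hO 1 (nm ξ * A / (9 * (Ns c * Ns c'))) else 0)
        - ((rho * A ^ (2 / 3 : ℝ) : ℝ) : ℂ) * (t0 c * t0 c') * mOm‖
      ≤ C * (A ^ (5 / 6 : ℝ) * B ^ (-(2 / 3) : ℝ)
        + A ^ (2 / 3 : ℝ) * B ^ (-(1 / 3) : ℝ) * (mME_s c + mME_s c')) := by
  obtain ⟨C, hC, h⟩ := mME_cop h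
  refine ⟨C, hC, fun A B c c' hA hB hc hc' => ?_⟩
  have p1 := Ns_pos c
  have p2 := Ns_pos c'
  obtain ⟨h1, h2⟩ := h (A / (9 * (Ns c * Ns c'))) (by positivity) (c ∪ c')
  obtain ⟨n1, n2, n3⟩ := mME_num hA hB hc hc'
  rw [mME_inner hb rfl h1] at h2
  rw [t0, t0, ← ofReal_mul, ← ofReal_mul, ← n1]
  have hW : 0 ≤ A / (9 * √(Ns c * Ns c')) := by positivity
  have h3 := mME_s_union c c'
  have h4 := mME_s_nonneg (c ∪ c')
  have q1 : 0 ≤ (A / (9 * (Ns c * Ns c'))) ^ (-(1 / 3) : ℝ) := by positivity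
  generalize (∑' ξ : E, if ξ ≠ 0 ∧ IsCube ξ then psf ξ 3 * conj (xs c3 c ξ) * xs c3 c' ξ
    * hO 1 (nm ξ * A / (9 * (Ns c * Ns c'))) else 0) = J at h2 ⊢
  generalize A / (9 * √(Ns c * Ns c')) = W at n2 n3 hW ⊢
  generalize (A / (9 * (Ns c * Ns c'))) ^ (-(1 / 3) : ℝ) = x at h2 n3 q1 ⊢
  generalize (A / (9 * (Ns c * Ns c'))) ^ (-(1 / 6) : ℝ) = y at h2 n2 ⊢
  have e : (W : ℂ) * J - ((W / 3 * (mME_k * x) : ℝ) : ℂ) * mOm
      = ((W / 3 : ℝ) : ℂ) * (3 * J - ((mME_k * x : ℝ) : ℂ) * mOm) := by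
    push_cast
    ring
  rw [e, norm_mul, norm_real, Real.norm_of_nonneg (by positivity)]
  refine (mul_le_mul_of_nonneg_left h2 (by positivity)).trans ?_
  calc W / 3 * (C * y + C * x * mME_s (c ∪ c'))
      = C * (W / 3 * y + W / 3 * x * mME_s (c ∪ c')) := by ring
    _ ≤ _ := by gcongr

theorem mME_rough (hb : BA) : ∃ C : ℝ, 0 < C ∧ ∀ (β : Finset P → ℂ) (R w : ℝ), 0 ≤ R → 1 ≤ w →
    (∀ b, ‖β b‖ ≤ 1) → (∀ b, β b ≠ 0 → Rough w b) →
    ∑ c ∈ sqf R, ‖β c‖ * mME_s c ≤ C * R / w := by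
  obtain ⟨C, hC, h⟩ := hb.tail_P 2 (by norm_num)
  refine ⟨12 * C, by positivity, fun β R w hR hw h1 h2 => ?_⟩
  obtain ⟨T, hT⟩ : ∃ T, T = (prs R).filter fun p => w < (nm p.1 : ℝ) := ⟨_, rfl⟩
  have h3 : ∀ c ∈ sqf R, ‖β c‖ * mME_s c
      ≤ ∑ p ∈ T, if {p} ⊆ c then (nm p.1 : ℝ)⁻¹ else 0 := fun c hc => by
    by_cases h0 : β c = 0
    · rw [h0, norm_zero, zero_mul]
      exact Finset.sum_nonneg fun _ _ => by positivity
    refine (mul_le_of_le_one_left (mME_s_nonneg c) (h1 c)).trans ?_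
    rw [← Finset.sum_filter]
    refine Finset.sum_le_sum_of_subset_of_nonneg (fun p hp => ?_) fun _ _ _ => by positivity
    rw [hT, Finset.mem_filter, Finset.mem_filter, Finset.singleton_subset_iff]
    exact ⟨⟨Finset.mem_biUnion.2 ⟨c, hc, hp⟩, h2 c h0 p hp⟩, hp⟩
  refine (Finset.sum_le_sum h3).trans ?_
  rw [Finset.sum_comm]
  have h4 := h w T hw fun p hp => by
    rw [hT] at hp
    exact (Finset.mem_filter.1 hp).2
  refine (Finset.sum_le_sum (g := fun p => 12 * R * (nm p.1 : ℝ) ^ (-2 : ℝ)) fun p _ => ?_).trans ?_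
  · have p0 : (0 : ℝ) < nm p.1 := one_pos.trans_le (one_le_nmR p.ne_zero)
    have h5 := hb.card_sup R {p} hR
    rw [Ns_eq_prod, Finset.prod_singleton] at h5
    rw [← Finset.sum_filter, Finset.sum_const, nsmul_eq_mul, Real.rpow_neg p0.le, Real.rpow_two]
    refine (mul_le_mul_of_nonneg_right h5 (by positivity)).trans (le_of_eq ?_)
    field_simp
  · rw [← Finset.mul_sum]
    refine (mul_le_mul_of_nonneg_left h4 (by positivity)).trans (le_of_eq ?_)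
    rw [show (1 - 2 : ℝ) = -1 by norm_num, Real.rpow_neg_one]
    ring

theorem mME (hb : BA) (h : CS) : MME := by
  obtain ⟨C, hC, h1⟩ := mME_pair hb h
  obtain ⟨C2, hC2, h2⟩ := mME_rough hb
  refine ⟨C * (1 + 216 * C2), by positivity, fun β A B w hA hB hw hβ => ?_⟩
  have hB0 : 0 < B := by linarith
  have h3 := h2 β (3 * B) w (by positivity) hw hβ.bd hβ.rough
  have h4 : nrm1 β (3 * B) ≤ 36 * B := by
    refine (Finset.sum_le_card_nsmul _ _ 1 fun c _ => hβ.bd c).trans ?_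
    rw [nsmul_eq_mul, mul_one]
    exact (card_sqf_le (by positivity)).trans (le_of_eq (by ring))
  have h5 : 0 ≤ nrm1 β (3 * B) := Finset.sum_nonneg fun _ _ => norm_nonneg _
  have e1 : ((rho * A ^ (2 / 3 : ℝ) * ‖∑ b ∈ sqf (3 * B), β b * t0 b‖ ^ 2 : ℝ) : ℂ) * mOm
      = ∑ c ∈ sqf (3 * B), ∑ c' ∈ sqf (3 * B), β c * conj (β c')
        * (((rho * A ^ (2 / 3 : ℝ) : ℝ) : ℂ) * (t0 c * t0 c') * mOm) := by
    rw [ofReal_mul, ofReal_pow, ← Complex.mul_conj', map_sum, Finset.sum_mul_sum]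
    simp only [Finset.mul_sum, Finset.sum_mul]
    refine Finset.sum_congr rfl fun c _ => Finset.sum_congr rfl fun c' _ => ?_
    rw [map_mul, t0, t0, conj_ofReal]
    ring
  rw [e1, MainM, ← Finset.sum_sub_distrib]
  simp only [← Finset.sum_sub_distrib]
  obtain ⟨X, hX⟩ : ∃ X, X = A ^ (5 / 6 : ℝ) * B ^ (-(2 / 3) : ℝ) := ⟨_, rfl⟩
  obtain ⟨Y, hY⟩ : ∃ Y, Y = A ^ (2 / 3 : ℝ) * B ^ (-(1 / 3) : ℝ) := ⟨_, rfl⟩
  have X0 : 0 ≤ X := by rw [hX]; positivity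
  have Y0 : 0 ≤ Y := by rw [hY]; positivity
  have e2 : MM A B = Y * B ^ 2 := by
    rw [MM, hY, mul_assoc, ← Real.rpow_natCast B, ← Real.rpow_add hB0]; norm_num
  refine (norm_sum_le_of_le _ (n := fun c => ∑ c' ∈ sqf (3 * B),
    ‖β c‖ * ‖β c'‖ * (C * (X + Y * (mME_s c + mME_s c')))) fun c _ =>
      norm_sum_le_of_le _ fun c' _ => ?_).trans ?_
  · by_cases h0 : β c = 0
    · simp [h0]
    by_cases h0' : β c' = 0
    · simp [h0']
    have h6 := h1 A B c c' hA hB0 (hβ.sup c h0).1 (hβ.sup c' h0').1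
    rw [← hX, ← hY] at h6
    have e3 : β c * tt c * conj (β c' * tt c') * gn c * conj (gn c') = β c * conj (β c') := by
      have t1 := hb.tt_gn c
      have t2 := congrArg conj (hb.tt_gn c')
      rw [map_mul, map_one] at t2
      rw [map_mul]
      linear_combination β c * conj (β c') * (conj (tt c') * conj (gn c')) * t1
        + β c * conj (β c') * t2
    rw [e3, mul_assoc, ← mul_sub, norm_mul, norm_mul, norm_conj]
    gcongr
  · have e4 : ∑ c ∈ sqf (3 * B), ∑ c' ∈ sqf (3 * B),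
        ‖β c‖ * ‖β c'‖ * (C * (X + Y * (mME_s c + mME_s c')))
        = C * (X * nrm1 β (3 * B) ^ 2
          + 2 * Y * nrm1 β (3 * B) * ∑ c ∈ sqf (3 * B), ‖β c‖ * mME_s c) := by
      have e5 : ∀ c c', ‖β c‖ * ‖β c'‖ * (C * (X + Y * (mME_s c + mME_s c')))
          = C * X * (‖β c‖ * ‖β c'‖) + C * Y * (‖β c‖ * mME_s c * ‖β c'‖)
            + C * Y * (‖β c‖ * (‖β c'‖ * mME_s c')) := fun c c' => by ring
      simp only [e5, Finset.sum_add_distrib, ← Finset.mul_sum, ← Finset.sum_mul, nrm1]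
      ring
    rw [e4, ← hX, e2]
    have h6 : 0 ≤ ∑ c ∈ sqf (3 * B), ‖β c‖ * mME_s c :=
      Finset.sum_nonneg fun c _ => mul_nonneg (norm_nonneg _) (mME_s_nonneg c)
    have h7 : 2 * Y * nrm1 β (3 * B) * ∑ c ∈ sqf (3 * B), ‖β c‖ * mME_s c
        ≤ 216 * C2 * (Y * B ^ 2 / w) := by
      refine le_trans (by gcongr) (le_of_eq (a := 2 * Y * (36 * B) * (C2 * (3 * B) / w)) ?_)
      ring
    have h8 : 0 ≤ X * nrm1 β (3 * B) ^ 2 := by positivity
    have h9 : 0 ≤ Y * B ^ 2 / w := by positivity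
    rw [mul_assoc C]
    refine mul_le_mul_of_nonneg_left ?_ hC.le
    nlinarith [mul_nonneg hC2.le h8]

end Pat
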