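import Vale.Agent.P006.IfC
import Vale.Agent.P026.Cnt

/-! The mean square of the theta coefficients. -/

noncomputable section
namespace Pat
open QRH Complex MeasureTheory Filter
open scoped ComplexConjugate Classical ContDiff Topology

/-- Moebius inversion on primary elements. -/
theorem mME_mob (hb : BA) {R : ℝ} (hR : 1 ≤ R) (g : E → ℂ) :
    ∑ e ∈ sqf R, mu e * ∑ n ∈ pball (R / Ns e), g (pr e * n) = g 1 := by
  have h1 : ∀ e : Finset P, ∑ n ∈ pball (R / Ns e), g (pr e * n)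
      = ∑ c ∈ pball R, if pr e ∣ c then g c else 0 := fun e =>
    (hb.sum_dvd R (pr e) g (pr_primary e)).symm
  simp only [h1, Finset.mul_sum]
  have h2 : ∀ c ∈ pball R, ∑ e ∈ sqf R, (mu e * if pr e ∣ c then g c else 0)
      = if c = 1 then g c else 0 := fun c hc => by
    obtain ⟨hp, hn⟩ := (hb.mem_pball R c).1 hc
    have h0 := primary_ne_zero hp
    have h3 : (sqf R).filter (fun e => pr e ∣ c) = (fac c).powerset := by
      ext e
      rw [Finset.mem_filter, Finset.mem_powerset, mem_sqf]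
      refine ⟨fun h p hp => (mem_fac h0).2 (pr_dvd_iff.1 h.2 p hp), fun h => ?_⟩
      exact ⟨((Ns_mono h).trans (Ns_fac_le h0)).trans hn,
        pr_dvd_iff.2 fun p hp => (mem_fac h0).1 (h hp)⟩
    simp only [mul_ite, mul_zero]
    rw [← Finset.sum_filter, h3, ← Finset.sum_mul, sum_mu, ite_mul, one_mul, zero_mul]
    refine if_congr ⟨fun h => ?_, fun h => ?_⟩ rfl rfl
    · rw [primary_factor hp, h, Finset.prod_empty]
    · rw [h]
      exact fac_unit isUnit_one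
  rw [Finset.sum_comm, Finset.sum_congr rfl h2, Finset.sum_ite_eq', if_pos]
  exact (hb.mem_pball R 1).2 ⟨by simp [Pm], by rw [nm_one]; simpa using hR⟩

/-- The weight. -/
def mME_phi (v : ℝ) : ℂ := (Om v : ℝ) * (Real.exp (-(1 / 3) * v) : ℝ)

theorem mME_bump (hb : BA) : Bump mME_phi :=
  ⟨hb.Om_bump.smooth.mul (ofRealCLM.contDiff.comp (Real.contDiff_exp.comp (by fun_prop))),
    fun v hv => hb.Om_bump.supp v (left_ne_zero_of_mul hv)⟩

theorem mME_int : ∫ v : ℝ, mME_phi v * (Real.exp v : ℝ) = mOm := by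
  rw [mOm, mo]
  refine integral_congr_ae (Eventually.of_forall fun v => ?_)
  simp only [mME_phi, one_mul, mul_assoc]
  rw [← ofReal_mul, ← Real.exp_add]
  congr 3
  ring

theorem mME_exp_le {v : ℝ} (hv : v ≤ 1) : Real.exp v ≤ 3 :=
  (Real.exp_le_exp.2 hv).trans (Real.exp_one_lt_d9.le.trans (by norm_num))

theorem mME_zero {φ : ℝ → ℂ} (hφ : Bump φ) {y : ℝ} (hy : 3 < y) : φ (Real.log y) = 0 := by
  by_contra h
  have h1 := mME_exp_le (hφ.supp _ h).2
  rw [Real.exp_log (by linarith)] at h1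
  linarith

theorem mME_phi_eq {A y : ℝ} (hA : 0 < A) (hy : 0 < y) :
    ((Om (Real.log (y / A)) * y ^ (-(1 / 3) : ℝ) : ℝ) : ℂ)
      = ((A ^ (-(1 / 3) : ℝ) : ℝ) : ℂ) * mME_phi (Real.log (y / A)) := by
  rw [mME_phi, mul_comm (-(1 / 3) : ℝ), ← Real.rpow_def_of_pos (by positivity), ← ofReal_mul,
    ← ofReal_mul, Real.div_rpow hy.le hA.le]
  congr 1
  have : A ^ (-(1 / 3) : ℝ) ≠ 0 := by positivity
  field_simp

/-- The inner sum. -/
def mME_in (A m : ℝ) : ℂ := ∑ n ∈ pball (3 * A), mME_phi (Real.log (nm n * m / A))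

theorem mME_in_le (hb : BA) (h : PVu0) : ∃ C : ℝ, 0 < C ∧ ∀ A m : ℝ, 0 < A → 1 ≤ m →
    ‖mME_in A m - ((rho * (A / m) : ℝ) : ℂ) * mOm‖ ≤ C := by
  obtain ⟨n, C, hC, h⟩ := h
  obtain ⟨D, hD, hB⟩ := hb.bump_bd _ (mME_bump hb) n
  refine ⟨C * D, by positivity, fun A m hA hm => ?_⟩
  have h1 := h mME_phi D (A / m) (3 * A) ∅ hB (by positivity) fun v hv => by
    have h2 := mME_exp_le ((mME_bump hb).supp v hv).2
    have h3 : A / m ≤ A := div_le_self hA.le hm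
    rw [mul_comm 3]
    exact mul_le_mul h3 h2 (Real.exp_pos _).le hA.le
  simp only [Finset.disjoint_empty_right, if_true, Finset.prod_empty, mul_one, Finset.card_empty,
    pow_zero, mME_int, div_div_eq_mul_div] at h1
  exact h1

theorem mME_in_zero (hb : BA) {A m : ℝ} (hA : 0 < A) (hm : 3 * A < m) : mME_in A m = 0 :=
  Finset.sum_eq_zero fun n hn => mME_zero (mME_bump hb) (by
    have h1 := one_le_nmR (primary_ne_zero ((hb.mem_pball _ _).1 hn).1)
    rw [lt_div_iff₀ hA]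
    nlinarith)

theorem mME_S3 (hb : BA) {A : ℝ} (hA : 0 < A) :
    ((∑ a ∈ pball (3 * A), Om (Real.log (nm a / A)) * ‖th a‖ ^ 2 * (nm a : ℝ) ^ (-(1 / 3) : ℝ)
      : ℝ) : ℂ) = ∑ e ∈ sqf (3 * A), mu e * ∑ d ∈ pball (3 * A / Ns e),
        (nm d : ℂ) * ((A ^ (-(1 / 3) : ℝ) : ℝ) : ℂ) * mME_in A (Ns e ^ 2 * (nm d : ℝ) ^ 3) := by
  obtain ⟨g, hg⟩ : ∃ g : E → ℝ,
    g = fun c => Om (Real.log (nm c / A)) * (nm c : ℝ) ^ (-(1 / 3) : ℝ) := ⟨_, rfl⟩
  have g0 : ∀ c : E, 3 * A < nm c → g c = 0 := fun c hc => by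
    have h1 := mME_zero hb.Om_bump (y := nm c / A) (by rwa [lt_div_iff₀ hA])
    simp only [hg, ofReal_eq_zero.1 h1, zero_mul]
  have e1 : ∑ a ∈ pball (3 * A), Om (Real.log (nm a / A)) * ‖th a‖ ^ 2
      * (nm a : ℝ) ^ (-(1 / 3) : ℝ) = ∑ a ∈ pball (3 * A), ‖th a‖ ^ 2 * g a :=
    Finset.sum_congr rfl fun a _ => by simp only [hg]; ring
  rw [e1, hb.th_sum_sq _ g g0, ofReal_sum]
  have e2 : ∀ d ∈ pball (3 * A), ((∑ s ∈ sqf (3 * A), nm d * g (pr s * d ^ 3) : ℝ) : ℂ)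
      = ∑ e ∈ sqf (3 * A), mu e * ((nm d : ℂ) * ((A ^ (-(1 / 3) : ℝ) : ℝ) : ℂ)
        * mME_in A (Ns e ^ 2 * (nm d : ℝ) ^ 3)) := fun d hd => by
    have d1 := one_le_nmR (primary_ne_zero ((hb.mem_pball _ _).1 hd).1)
    have h2 := hb.sqf_sum (3 * A) (fun c => (g (c * d ^ 3) : ℂ)) fun c hc => by
      rw [ofReal_eq_zero]
      refine g0 _ (hc.trans_le ?_)
      rw [nm_mul, nm_pow]
      push_cast
      exact le_mul_of_one_le_right (Nat.cast_nonneg _) (one_le_pow₀ d1)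
    rw [← Finset.mul_sum, ofReal_mul, ofReal_sum, h2, Finset.mul_sum]
    refine Finset.sum_congr rfl fun e _ => ?_
    rw [← Finset.mul_sum, mul_left_comm, mul_assoc, mME_in, ofReal_natCast]
    congr 2
    rw [Finset.mul_sum]
    refine Finset.sum_congr rfl fun n hn => ?_
    have n1 := one_le_nmR (primary_ne_zero ((hb.mem_pball _ _).1 hn).1)
    have e3 : (nm (pr e ^ 2 * n * d ^ 3) : ℝ) = nm n * (Ns e ^ 2 * (nm d : ℝ) ^ 3) := by
      rw [nm_mul, nm_mul, nm_pow, nm_pow, Ns]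
      push_cast
      ring
    have := Ns_pos e
    simp only [hg]
    rw [e3, mME_phi_eq hA (by positivity)]
  rw [Finset.sum_congr rfl e2, Finset.sum_comm]
  refine Finset.sum_congr rfl fun e _ => ?_
  rw [← Finset.mul_sum]
  congr 1
  have e1 := one_le_Ns e
  refine (Finset.sum_subset (fun d hd => ?_) fun d hd hd' => ?_).symm
  · rw [hb.mem_pball] at hd ⊢
    exact ⟨hd.1, hd.2.trans (div_le_self (by positivity) e1)⟩
  · rw [hb.mem_pball] at hd hd'
    have d1 := one_le_nmR (primary_ne_zero hd.1)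
    have h2 : 3 * A / Ns e < nm d := not_le.1 fun h => hd' ⟨hd.1, h⟩
    rw [div_lt_iff₀ (by linarith)] at h2
    rw [mME_in_zero hb hA (h2.trans_le ?_), mul_zero]
    rw [mul_comm]
    exact mul_le_mul (le_self_pow₀ e1 (by norm_num)) (le_self_pow₀ d1 (by norm_num))
      (by linarith) (by positivity)

theorem mME_row (hb : BA) (h : PVu0) : ∃ C : ℝ, 0 < C ∧ ∀ (A N : ℝ) (T : Finset E), 0 < A →
    1 ≤ N → (∀ d ∈ T, d ≠ 0) →
    ‖∑ d ∈ T, ((nm d : ℂ) * ((A ^ (-(1 / 3) : ℝ) : ℝ) : ℂ) * mME_in A (N ^ 2 * (nm d : ℝ) ^ 3)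
      - ((rho * A ^ (2 / 3 : ℝ) : ℝ) : ℂ) * mOm * ((((N * nm d) ^ 2)⁻¹ : ℝ) : ℂ))‖
      ≤ C * A ^ (1 / 3 : ℝ) * N ^ (-(4 / 3) : ℝ) := by
  obtain ⟨C1, hC1, h1⟩ := mME_in_le hb h
  obtain ⟨C2, hC2, h2⟩ := tail_nm_rpow (σ := 2) (by norm_num)
  refine ⟨48 * C1 + |rho| * ‖mOm‖ * C2, by positivity, fun A N T hA hN hT => ?_⟩
  obtain ⟨a, ha⟩ : ∃ a, a = A ^ (1 / 3 : ℝ) := ⟨_, rfl⟩
  obtain ⟨t, ht⟩ : ∃ t, t = N ^ (2 / 3 : ℝ) := ⟨_, rfl⟩
  have hN0 : 0 < N := by linarith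
  have a0 : 0 < a := by rw [ha]; positivity
  have t0 : 0 < t := by rw [ht]; positivity
  have a1 : A ^ (-(1 / 3) : ℝ) = a⁻¹ := by rw [ha, Real.rpow_neg hA.le]
  have a2 : A ^ (2 / 3 : ℝ) = a ^ 2 := by
    rw [ha, ← Real.rpow_natCast, ← Real.rpow_mul hA.le]; norm_num
  have a3 : A = a ^ 3 := by
    rw [ha, ← Real.rpow_natCast, ← Real.rpow_mul hA.le]; norm_num
  have t1 : N ^ (-(4 / 3) : ℝ) = (t ^ 2)⁻¹ := by
    rw [ht, ← Real.rpow_natCast, ← Real.rpow_mul hN0.le, ← Real.rpow_neg hN0.le]; norm_num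
  have t3 : N ^ 2 = t ^ 3 := by
    rw [ht, ← Real.rpow_natCast (N ^ _), ← Real.rpow_mul hN0.le, ← Real.rpow_natCast]; norm_num
  rw [a1, a2, t1, ← ha]
  obtain ⟨M, hM⟩ : ∃ M, M = 2 * a / t := ⟨_, rfl⟩
  have M0 : 0 < M := by rw [hM]; positivity
  refine (norm_sum_le _ _).trans ?_
  rw [← Finset.sum_filter_add_sum_filter_not T (fun d => (nm d : ℝ) ≤ M), add_mul, add_mul]
  refine add_le_add ?_ ?_
  · refine (Finset.sum_le_card_nsmul _ _ (M * a⁻¹ * C1) fun d hd => ?_).trans ?_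
    · obtain ⟨d1, d2⟩ := Finset.mem_filter.1 hd
      have d3 := one_le_nmR (hT d d1)
      have h3 := h1 A (N ^ 2 * (nm d : ℝ) ^ 3) hA
        (one_le_mul_of_one_le_of_one_le (one_le_pow₀ hN) (one_le_pow₀ d3))
      have e : ((rho * a ^ 2 : ℝ) : ℂ) * mOm * ((((N * nm d) ^ 2)⁻¹ : ℝ) : ℂ)
          = (nm d : ℂ) * ((a⁻¹ : ℝ) : ℂ)
            * (((rho * (A / (N ^ 2 * (nm d : ℝ) ^ 3)) : ℝ) : ℂ) * mOm) := by
        have e' : rho * a ^ 2 * ((N * nm d) ^ 2)⁻¹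
            = nm d * a⁻¹ * (rho * (A / (N ^ 2 * (nm d : ℝ) ^ 3))) := by
          rw [a3]
          field_simp
        rw [mul_right_comm, ← ofReal_mul, e', ofReal_mul, ofReal_mul, ofReal_natCast]
        ring
      rw [e, ← mul_sub, norm_mul, norm_mul, Complex.norm_natCast, norm_real,
        Real.norm_of_nonneg (by positivity)]
      gcongr
    · have h3 : ((T.filter fun d => (nm d : ℝ) ≤ M).card : ℝ) ≤ 12 * M := by
        refine le_trans ?_ (card_ball_le M0.le)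
        exact_mod_cast Finset.card_le_card fun d hd =>
          mem_ball.2 ⟨hT d (Finset.mem_filter.1 hd).1, (Finset.mem_filter.1 hd).2⟩
      rw [nsmul_eq_mul]
      refine (mul_le_mul_of_nonneg_right h3 (by positivity)).trans (le_of_eq ?_)
      rw [hM]
      field_simp
      norm_num
  · have h3 := h2 M M0 (T.filter fun d => ¬ (nm d : ℝ) ≤ M) fun d hd =>
      (not_le.1 (Finset.mem_filter.1 hd).2).le
    refine (Finset.sum_le_sum (g := fun d => |rho| * ‖mOm‖ * a ^ 2 * (t ^ 3)⁻¹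
      * (nm d : ℝ) ^ (-2 : ℝ)) fun d hd => le_of_eq ?_).trans ?_
    · obtain ⟨d1, d2⟩ := Finset.mem_filter.1 hd
      have d3 := one_le_nmR (hT d d1)
      have d4 : 3 * A < N ^ 2 * (nm d : ℝ) ^ 3 := by
        have d5 : 2 * a < t * nm d := by
          rw [hM, not_le, div_lt_iff₀ t0] at d2
          linarith
        have d6 := pow_lt_pow_left₀ d5 (by positivity) (n := 3) (by norm_num)
        rw [t3, a3, ← mul_pow]
        nlinarith [pow_pos a0 3]
      rw [mME_in_zero hb hA d4, mul_zero, zero_sub, norm_neg, norm_mul, norm_mul, norm_real,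
        norm_real, Real.norm_eq_abs, abs_mul, abs_of_pos (pow_pos a0 2),
        Real.norm_of_nonneg (by positivity), Real.rpow_neg (by linarith), Real.rpow_two, mul_pow, t3]
      ring
    · rw [← Finset.mul_sum]
      refine (mul_le_mul_of_nonneg_left h3 (by positivity)).trans ?_
      rw [show (1 - 2 : ℝ) = -1 by norm_num, Real.rpow_neg_one, hM]
      have e : |rho| * ‖mOm‖ * a ^ 2 * (t ^ 3)⁻¹ * (C2 * (2 * a / t)⁻¹)
          = |rho| * ‖mOm‖ * C2 * a * (t ^ 2)⁻¹ / 2 := by field_simp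
      rw [e]
      exact half_le_self (by positivity)

theorem s3B (hb : BA) (h : PVu0) : S3B := by
  obtain ⟨C, hC, h1⟩ := mME_row hb h
  have hs := summable_Ns_rpow (σ := 4 / 3) (by norm_num)
  have h0 : ∀ s : Finset P, 0 ≤ Ns s ^ (-(4 / 3) : ℝ) := fun s => by
    have := Ns_pos s
    positivity
  refine ⟨C * (∑' s : Finset P, Ns s ^ (-(4 / 3) : ℝ) + 1),
    mul_pos hC (add_pos_of_nonneg_of_pos (tsum_nonneg h0) one_pos), fun A hA => ?_⟩
  have hA0 : 0 < A := by linarith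
  have h2 := mME_mob hb (R := 3 * A) (by linarith) fun c =>
    ((rho * A ^ (2 / 3 : ℝ) : ℝ) : ℂ) * mOm * (((((nm c : ℝ)) ^ 2)⁻¹ : ℝ) : ℂ)
  simp only [nm_one, Nat.cast_one, one_pow, inv_one, ofReal_one, mul_one, nm_mul, Nat.cast_mul]
    at h2
  rw [mME_S3 hb hA0, ← h2, ← Finset.sum_sub_distrib]
  refine (norm_sum_le _ _).trans ((Finset.sum_le_sum (g := fun e =>
    C * A ^ (1 / 3 : ℝ) * Ns e ^ (-(4 / 3) : ℝ)) fun e _ => ?_).trans ?_)
  · rw [← mul_sub, ← Finset.sum_sub_distrib, norm_mul, norm_mu, one_mul]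
    exact h1 A (Ns e) _ hA0 (one_le_Ns e) fun d hd => primary_ne_zero ((hb.mem_pball _ _).1 hd).1
  · rw [← Finset.mul_sum, mul_right_comm]
    have h3 := hs.sum_le_tsum (sqf (3 * A)) fun s _ => h0 s
    gcongr
    linarith

end Pat
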