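import Vale.Agent.P006.IfB
import Vale.Agent.P026.Rearr
import Vale.Agent.P026.Sym

/-! Large sieve for coefficients on all primary elements and for small supports. -/

noncomputable section
namespace Pat
open QRH Complex MeasureTheory Filter
open scoped ComplexConjugate Classical ContDiff Topology

theorem nG_nrm2_nonneg (y : Finset P → ℂ) (L : ℝ) : 0 ≤ nrm2 y L :=
  Finset.sum_nonneg fun _ _ => sq_nonneg _

theorem nG_Qc (z : E) : 1 ≤ Qc z :=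
  one_le_mul_of_one_le_of_one_le (one_le_Ns _) (one_le_pow₀ (one_le_Ns _))

/-- Coefficients attached to a squarefull part. -/
def nGy (a : E → ℂ) (m : E) (r : Finset P) : ℂ := if Disjoint (fac m) r then a (m * pr r) else 0

/-- Squarefull elements in a range. -/
def nGM (N m0 : ℝ) : Finset E := (pball N).filter fun m => Sqf m ∧ m0 ≤ nm m

theorem nG_dec (hb : BA) (a : E → ℂ) (N m0 : ℝ) (ha : ∀ n, a n ≠ 0 → m0 ≤ Nsf n) (ξ : E) :
    Dn a N ξ = ∑ m ∈ nGM N m0, xv c3 m ξ * Ds (nGy a m) (N / nm m) ξ := by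
  have hn : ∀ n, Pm n → (nm n : ℝ) = nm (sfp n) * Ns (sq1 n) := fun n h => by
    conv_lhs => rw [hb.sq_dec1 n h, nm_mul]
    push_cast
    rfl
  rw [Dn, ← Finset.sum_filter_of_ne (p := fun n => m0 ≤ Nsf n)
    fun n _ h => ha n (left_ne_zero_of_mul h),
    ← Finset.sum_fiberwise_of_maps_to (g := sfp) (t := nGM N m0)]
  · refine Finset.sum_congr rfl fun m hm => ?_
    obtain ⟨h1, h2, h3⟩ := Finset.mem_filter.1 hm
    have hm0 := primary_ne_zero h2.1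
    have hm1 : (0 : ℝ) < nm m := one_pos.trans_le (one_le_nmR hm0)
    rw [Ds, Finset.mul_sum, ← Finset.sum_filter_of_ne (s := sqf (N / nm m))
      (p := fun r => Disjoint (fac m) r) fun r _ h => by
        by_contra c
        exact h (by rw [nGy, if_neg c, zero_mul, mul_zero])]
    refine Finset.sum_nbij' sq1 (fun r => m * pr r) (fun n h => ?_) (fun r h => ?_)
      (fun n h => ?_) (fun r h => ?_) (fun n h => ?_)
    · simp only [Finset.mem_filter, hb.mem_pball] at h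
      obtain ⟨⟨⟨a1, a2⟩, -⟩, rfl⟩ := h
      refine Finset.mem_filter.2 ⟨mem_sqf.2 ?_, hb.sfp_disj n⟩
      rw [le_div_iff₀' hm1, ← hn n a1]
      exact a2
    · obtain ⟨a1, a2⟩ := Finset.mem_filter.1 h
      obtain ⟨a3, -⟩ := hb.sfp_eq m r h2 a2
      simp only [Finset.mem_filter, hb.mem_pball]
      refine ⟨⟨⟨primary_mul h2.1 (pr_primary r), ?_⟩, by rwa [← hb.nm_sfp, a3]⟩, a3⟩
      rw [nm_mul]
      push_cast
      exact (le_div_iff₀' hm1).1 (mem_sqf.1 a1)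
    · simp only [Finset.mem_filter, hb.mem_pball] at h
      obtain ⟨⟨⟨a1, -⟩, -⟩, rfl⟩ := h
      exact (hb.sq_dec1 n a1).symm
    · exact (hb.sfp_eq m r h2 (Finset.mem_filter.1 h).2).2
    · simp only [Finset.mem_filter, hb.mem_pball] at h
      obtain ⟨⟨⟨a1, -⟩, -⟩, rfl⟩ := h
      rw [nGy, if_pos (hb.sfp_disj n), ← hb.sq_dec1 n a1, ← xv_pr, mul_left_comm,
        ← xv_mul_left hm0 (pr_ne_zero _), ← hb.sq_dec1 n a1]
  · intro n h
    simp only [Finset.mem_filter, hb.mem_pball] at h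
    obtain ⟨⟨a1, a2⟩, a3⟩ := h
    refine Finset.mem_filter.2 ⟨(hb.mem_pball _ _).2 ⟨(hb.sfp_sqf n).1, ?_⟩, hb.sfp_sqf n,
      by rwa [hb.nm_sfp]⟩
    rw [hn n a1] at a2
    exact (le_mul_of_one_le_right (Nat.cast_nonneg _) (one_le_Ns _)).trans a2

theorem nG_root {K R N x : ℝ} (hK : 0 ≤ K) (hR : 0 < R) (hN : 0 < N) (hx : 0 < x) :
    √(K * (R ^ (1 / 3 : ℝ) * (N / x) + R + (R * (N / x)) ^ (2 / 3 : ℝ)) * (12 * (N / x))) ≤
      √(12 * K) * (R ^ (1 / 6 : ℝ) * N * x ^ (-1 : ℝ) + √(R * N) * x ^ (-(1 / 2) : ℝ) +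
        R ^ (1 / 3 : ℝ) * N ^ (5 / 6 : ℝ) * x ^ (-(5 / 6) : ℝ)) := by
  have h1 : (R ^ (1 / 6 : ℝ) * N * x ^ (-1 : ℝ)) ^ 2 = R ^ (1 / 3 : ℝ) * (N / x) * (N / x) := by
    rw [mul_pow, mul_pow, ← Real.rpow_natCast (R ^ _), ← Real.rpow_mul hR.le, Real.rpow_neg_one]
    norm_num
    field_simp
  have h2 : (√(R * N) * x ^ (-(1 / 2) : ℝ)) ^ 2 = R * (N / x) := by
    rw [mul_pow, Real.sq_sqrt (by positivity), ← Real.rpow_natCast (x ^ _), ← Real.rpow_mul hx.le]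
    norm_num [Real.rpow_neg_one]
    field_simp
  have h3 : (R ^ (1 / 3 : ℝ) * N ^ (5 / 6 : ℝ) * x ^ (-(5 / 6) : ℝ)) ^ 2 =
      (R * (N / x)) ^ (2 / 3 : ℝ) * (N / x) := by
    rw [mul_assoc, Real.rpow_neg hx.le, ← div_eq_mul_inv, ← Real.div_rpow hN.le hx.le, mul_pow,
      ← Real.rpow_natCast (R ^ _), ← Real.rpow_mul hR.le, ← Real.rpow_natCast (_ ^ (5 / 6 : ℝ)),
      ← Real.rpow_mul (by positivity), Real.mul_rpow hR.le (by positivity), mul_assoc,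
      ← Real.rpow_add_one (by positivity)]
    norm_num
  obtain ⟨p, hp⟩ : ∃ p, p = R ^ (1 / 6 : ℝ) * N * x ^ (-1 : ℝ) := ⟨_, rfl⟩
  obtain ⟨q, hq⟩ : ∃ q, q = √(R * N) * x ^ (-(1 / 2) : ℝ) := ⟨_, rfl⟩
  obtain ⟨r, hr⟩ : ∃ r, r = R ^ (1 / 3 : ℝ) * N ^ (5 / 6 : ℝ) * x ^ (-(5 / 6) : ℝ) := ⟨_, rfl⟩
  have p0 : 0 ≤ p := by rw [hp]; positivity
  have q0 : 0 ≤ q := by rw [hq]; positivity
  have r0 : 0 ≤ r := by rw [hr]; positivity
  rw [← hp] at h1 ⊢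
  rw [← hq] at h2 ⊢
  rw [← hr] at h3 ⊢
  rw [← Real.sqrt_sq (show 0 ≤ p + q + r by positivity), ← Real.sqrt_mul (by positivity)]
  refine Real.sqrt_le_sqrt ?_
  calc _ = 12 * K * (p ^ 2 + q ^ 2 + r ^ 2) := by rw [h1, h2, h3]; ring
    _ ≤ _ := mul_le_mul_of_nonneg_left (by nlinarith [mul_nonneg p0 q0, mul_nonneg p0 r0, mul_nonneg q0 r0])
      (by positivity)

theorem nG_log {δ N : ℝ} (hδ : 0 < δ) (hN : 1 ≤ N) : 1 + Real.log N ≤ (1 + 1 / δ) * N ^ δ := by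
  have h1 := Real.log_le_rpow_div (zero_le_one.trans hN) hδ
  have h2 := Real.one_le_rpow hN hδ.le
  rw [add_mul, one_mul, one_div_mul_eq_div]
  linarith

theorem nG (hb : BA) (h : NB 1) : NG := by
  intro ε hε
  obtain ⟨K, hK, h⟩ := h (ε / 2) (half_pos hε)
  obtain ⟨C1, hC1, t1⟩ := hb.sqfull_tail 1 (by norm_num)
  obtain ⟨C2, hC2, t2⟩ := hb.sqfull_half
  obtain ⟨C3, hC3, t3⟩ := hb.sqfull_tail (5 / 6) (by norm_num)
  obtain ⟨C4, hC4⟩ : ∃ C4, C4 = C1 + C2 * (1 + 1 / (ε / 4)) + C3 := ⟨_, rfl⟩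
  have c2 : 0 < C2 * (1 + 1 / (ε / 4)) := by positivity
  have c4 : 0 < C4 := by rw [hC4]; positivity
  refine ⟨36 * K * C4 ^ 2, by positivity, fun a N R m0 Z hN hNZ hR hRZ hm0 ha ha' => ?_⟩
  have hZ : 1 ≤ Z := hN.trans hNZ
  have N0 : 0 < N := one_pos.trans_le hN
  have R0 : 0 < R := one_pos.trans_le hR
  have m00 : 0 < m0 := one_pos.trans_le hm0
  have Z0 : 0 < Z := one_pos.trans_le hZ
  have hM : ∀ m ∈ nGM N m0, Sqf m ∧ m0 ≤ nm m ∧ (nm m : ℝ) ≤ N := fun m hm =>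
    ⟨(Finset.mem_filter.1 hm).2.1, (Finset.mem_filter.1 hm).2.2,
      ((hb.mem_pball _ _).1 (Finset.mem_filter.1 hm).1).2⟩
  have k1 : √(∑ ξ ∈ ball R, ‖Dn a N ξ‖ ^ 2) ≤ ∑ m ∈ nGM N m0, √(12 * (K * Z ^ (ε / 2))) *
      (R ^ (1 / 6 : ℝ) * N * (nm m : ℝ) ^ (-1 : ℝ) + √(R * N) * (nm m : ℝ) ^ (-(1 / 2) : ℝ) +
        R ^ (1 / 3 : ℝ) * N ^ (5 / 6 : ℝ) * (nm m : ℝ) ^ (-(5 / 6) : ℝ)) := by
    simp only [nG_dec hb a N m0 ha']
    refine (minkowski _ _ _).trans (Finset.sum_le_sum fun m hm => ?_)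
    obtain ⟨b1, b2, b3⟩ := hM m hm
    have x1 : (1 : ℝ) ≤ nm m := hm0.trans b2
    have x0 : (0 : ℝ) < nm m := one_pos.trans_le x1
    refine (Real.sqrt_le_sqrt ?_).trans (nG_root (by positivity) R0 N0 x0)
    have b4 := h (nGy a m) (N / nm m) R 1 Z hZ ((div_le_self N0.le x1).trans hNZ) R0 hRZ le_rfl
    rw [Finset.filter_true_of_mem fun ξ _ => nG_Qc ξ, Real.one_rpow, mul_one, Real.rpow_one] at b4
    have b5 : nrm2 (nGy a m) (N / nm m) ≤ 12 * (N / nm m) := by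
      refine le_trans ?_ (card_sqf_le (by positivity))
      rw [nrm2, Finset.card_eq_sum_ones, Nat.cast_sum]
      refine Finset.sum_le_sum fun r _ => ?_
      rw [Nat.cast_one, nGy]
      split_ifs
      · exact pow_le_one₀ (norm_nonneg _) (ha _)
      · simp
    refine le_trans (Finset.sum_le_sum fun ξ _ => ?_)
      (b4.trans (mul_le_mul_of_nonneg_left b5 (by positivity)))
    rw [norm_mul]
    exact pow_le_pow_left₀ (by positivity)
      (mul_le_of_le_one_left (norm_nonneg _) (norm_xv_le ch_c3 _ _)) 2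
  have z1 : 1 ≤ Z ^ (ε / 4) := Real.one_le_rpow hZ (by positivity)
  obtain ⟨μ, hμ⟩ : ∃ μ, μ = m0 ^ (-(1 / 4) : ℝ) := ⟨_, rfl⟩
  have μ0 : 0 < μ := by rw [hμ]; positivity
  have k2 : ∀ {C e : ℝ}, C ≤ C4 → e ≤ -(1 / 4) → C * m0 ^ e ≤ C4 * Z ^ (ε / 4) * μ :=
    fun {C e} a1 a2 => mul_le_mul (a1.trans (le_mul_of_one_le_right c4.le z1))
      (hμ ▸ Real.rpow_le_rpow_of_exponent_le hm0 a2) (by positivity) (by positivity)
  have s1 := (t1 m0 (nGM N m0) m00 fun m hm => ⟨(hM m hm).1, (hM m hm).2.1⟩).trans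
    (k2 (by linarith) (by norm_num))
  have s3 := (t3 m0 (nGM N m0) m00 fun m hm => ⟨(hM m hm).1, (hM m hm).2.1⟩).trans
    (k2 (by linarith) (by norm_num))
  have s2 : ∑ m ∈ nGM N m0, (nm m : ℝ) ^ (-(1 / 2) : ℝ) ≤ C4 * Z ^ (ε / 4) := by
    refine (t2 N (nGM N m0) hN fun m hm => ⟨(hM m hm).1, (hM m hm).2.2⟩).trans
      ((mul_le_mul_of_nonneg_left (nG_log (δ := ε / 4) (by positivity) hN) hC2.le).trans ?_)
    rw [← mul_assoc]
    exact mul_le_mul (by linarith) (Real.rpow_le_rpow N0.le hNZ (by positivity)) (by positivity)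
      c4.le
  rw [← Finset.mul_sum, Finset.sum_add_distrib, Finset.sum_add_distrib, ← Finset.mul_sum,
    ← Finset.mul_sum, ← Finset.mul_sum] at k1
  have k3 := k1.trans (mul_le_mul_of_nonneg_left (add_le_add (add_le_add
    (mul_le_mul_of_nonneg_left s1 (by positivity)) (mul_le_mul_of_nonneg_left s2 (by positivity)))
    (mul_le_mul_of_nonneg_left s3 (by positivity))) (Real.sqrt_nonneg _))
  rw [Real.sqrt_le_left (by positivity), mul_pow, Real.sq_sqrt (by positivity)] at k3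
  refine k3.trans ?_
  have sq : ∀ {x e : ℝ}, 0 < x → (x ^ e) ^ 2 = x ^ (e * 2) := fun {x e} hx => by
    rw [← Real.rpow_natCast (x ^ e), ← Real.rpow_mul hx.le]
    norm_num
  have e1 : (R ^ (1 / 6 : ℝ)) ^ 2 = R ^ (1 / 3 : ℝ) := by rw [sq R0]; norm_num
  have e2 : (R ^ (1 / 3 : ℝ) * N ^ (5 / 6 : ℝ)) ^ 2 = (R * N) ^ (2 / 3 : ℝ) * N := by
    rw [mul_pow, sq R0, sq N0, Real.mul_rpow R0.le N0.le, mul_assoc, ← Real.rpow_add_one N0.ne']
    norm_num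
  have e3 : μ ^ 2 = m0 ^ (-(1 / 2) : ℝ) := by rw [hμ, sq m00]; norm_num
  have e4 : Z ^ (ε / 2) * (Z ^ (ε / 4)) ^ 2 = Z ^ ε := by
    rw [sq Z0, ← Real.rpow_add Z0]
    congr 1
    ring
  have e5 := Real.sq_sqrt (show 0 ≤ R * N by positivity)
  have e6 : ∀ p q r : ℝ, (p + q + r) ^ 2 ≤ 3 * (p ^ 2 + q ^ 2 + r ^ 2) := fun p q r => by
    nlinarith [sq_nonneg (p - q), sq_nonneg (p - r), sq_nonneg (q - r)]
  refine (mul_le_mul_of_nonneg_left (e6 _ _ _) (by positivity)).trans_eq ?_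
  simp only [mul_pow _ (_ * _ * μ), mul_pow (_ * _) μ, mul_pow C4, mul_pow (√_), mul_pow _ N]
  rw [e1, e2, e3, e5, ← e4]
  ring

theorem nS_class (y : Finset P → ℂ) (L : ℝ) (w : E) :
    ∃ y' : Finset P → ℂ, nrm2 y' L ≤ nrm2 y L ∧ ∀ r, Ds y L (w * r) = Ds y' L r := by
  refine ⟨fun c => y c * xs c3 c w, Finset.sum_le_sum fun c _ => ?_, fun r => ?_⟩
  · rw [norm_mul]
    exact pow_le_pow_left₀ (by positivity)
      (mul_le_of_le_one_right (norm_nonneg _) (norm_xs_le ch_c3 _ _)) 2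
  · simp only [Ds, xs_mul ch_c3, mul_assoc]

theorem nS_triv (y : Finset P → ℂ) (L V : ℝ) (S : Finset (Finset P))
    (hy : ∀ c, y c ≠ 0 → c ∈ S) (hV : (S.card : ℝ) ≤ V) (ξ : E) :
    ‖Ds y L ξ‖ ^ 2 ≤ V * nrm2 y L := by
  rw [Ds, ← Finset.sum_filter_of_ne (p := fun c => c ∈ S) fun c _ h => hy c (left_ne_zero_of_mul h)]
  refine (norm_sum_sq_le _ _).trans (mul_le_mul (le_trans ?_ hV) ?_
    (Finset.sum_nonneg fun _ _ => sq_nonneg _) ((Nat.cast_nonneg _).trans hV))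
  · exact Nat.cast_le.2 (Finset.card_le_card fun c hc => (Finset.mem_filter.1 hc).2)
  · refine le_trans (Finset.sum_le_sum fun c _ => ?_) (Finset.sum_le_sum_of_subset_of_nonneg
      (Finset.filter_subset _ _) fun _ _ _ => sq_nonneg _)
    rw [norm_mul]
    exact pow_le_pow_left₀ (by positivity)
      (mul_le_of_le_one_right (norm_nonneg _) (norm_xs_le ch_c3 _ _)) 2

theorem nS_nm (hb : BA) {z : E} (hz : z ≠ 0) :
    (nm z : ℝ) = 3 ^ vp lam z * nm (sfp z) * Ns (sq1 z) := by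
  obtain ⟨u, hu, e⟩ := hb.sq_dec z hz
  conv_lhs => rw [e, nm_mul, nm_mul, nm_mul, isUnit_iff.1 hu, nm_pow, nm_lam, one_mul]
  push_cast
  rfl

theorem nS_count (hb : BA) : ∃ C : ℝ, 0 < C ∧ ∀ R G : ℝ, 0 < R → 0 < G →
    (((ball R).filter fun ξ => ¬ (nm (sfp ξ) : ℝ) ≤ G ^ 2).card : ℝ) ≤ C * (R / G) := by
  obtain ⟨C, hC, t⟩ := hb.sqfull_tail 1 (by norm_num)
  refine ⟨12 * C, by positivity, fun R G hR hG => ?_⟩
  obtain ⟨T, hT⟩ : ∃ T, T = (ball R).filter fun m => Sqf m ∧ G ^ 2 ≤ nm m := ⟨_, rfl⟩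
  have h1 : ((ball R).filter fun ξ => ¬ (nm (sfp ξ) : ℝ) ≤ G ^ 2) ⊆
      T.biUnion fun m => (ball (R / nm m)).image fun k => m * k := fun ξ hξ => by
    obtain ⟨a1, a2⟩ := Finset.mem_filter.1 hξ
    obtain ⟨a3, a4⟩ := mem_ball.1 a1
    obtain ⟨u, -, e⟩ := hb.sq_dec ξ a3
    obtain ⟨k, hk⟩ : sfp ξ ∣ ξ := ⟨u * lam ^ vp lam ξ * pr (sq1 ξ), e.trans (by ring)⟩
    have a5 := primary_ne_zero (hb.sfp_sqf ξ).1
    have a6 : k ≠ 0 := right_ne_zero_of_mul (hk ▸ a3)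
    have a7 : (nm ξ : ℝ) = nm (sfp ξ) * nm k := by
      conv_lhs => rw [hk, nm_mul]
      push_cast
      rfl
    refine Finset.mem_biUnion.2 ⟨sfp ξ, hT ▸ Finset.mem_filter.2 ⟨mem_ball.2 ⟨a5, ?_⟩,
      hb.sfp_sqf ξ, (not_le.1 a2).le⟩, Finset.mem_image.2 ⟨k, mem_ball.2 ⟨a6, ?_⟩, hk.symm⟩⟩
    · exact (le_mul_of_one_le_right (Nat.cast_nonneg _) (one_le_nmR a6)).trans (a7 ▸ a4)
    · rw [le_div_iff₀' (one_pos.trans_le (one_le_nmR a5)), ← a7]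
      exact a4
  have h2 := (Finset.card_le_card h1).trans Finset.card_biUnion_le
  have h3 := t (G ^ 2) T (by positivity) fun m hm => (Finset.mem_filter.1 (hT.le hm)).2
  have h4 : (G ^ 2) ^ (1 / 2 - 1 : ℝ) = G⁻¹ := by
    rw [← Real.rpow_natCast, ← Real.rpow_mul hG.le, ← Real.rpow_neg_one]
    norm_num
  rw [h4] at h3
  refine (Nat.cast_le.2 h2).trans ?_
  rw [Nat.cast_sum]
  calc _ ≤ ∑ m ∈ T, 12 * R * (nm m : ℝ) ^ (-1 : ℝ) := Finset.sum_le_sum fun m _ => by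
        rw [Real.rpow_neg_one, mul_assoc, ← div_eq_mul_inv]
        exact (Nat.cast_le.2 Finset.card_image_le).trans (card_ball_le (by positivity))
    _ ≤ 12 * R * (C * G⁻¹) := by
        rw [← Finset.mul_sum]
        exact mul_le_mul_of_nonneg_left h3 (by positivity)
    _ = _ := by ring

theorem nS (hb : BA) (h : LSd 1) : NS := by
  intro ε hε
  obtain ⟨K, hK, h⟩ := h (ε / 3) (by positivity)
  obtain ⟨C1, hC1, t1⟩ := log_le_rpow (ε := ε / 3) (by positivity)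
  obtain ⟨C2, hC2, t2⟩ := hb.sqfull_card
  obtain ⟨C3, hC3, t3⟩ := nS_count hb
  refine ⟨12 * C1 * C2 * K + C3, by positivity, fun y L R G Z V S hZ hLZ R0 hRZ hG hy hV => ?_⟩
  have V0 : 0 ≤ V := (Nat.cast_nonneg _).trans hV
  have G0 : 0 < G := one_pos.trans_le hG
  have Z0 : 0 < Z := one_pos.trans_le hZ
  have n0 := nG_nrm2_nonneg y L
  rcases lt_or_ge L 1 with hL | hL
  · simp [Ds, nrm2, sqf_eq_empty hL]
  have L0 : 0 < L := one_pos.trans_le hL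
  rcases lt_or_ge R 1 with hR | hR
  · rw [ball_eq_empty hR, Finset.sum_empty]
    positivity
  obtain ⟨J, hJ, hJ'⟩ := exists_dyadic hR
  obtain ⟨T, hT⟩ : ∃ T, T = (ball (G ^ 2)).filter Sqf := ⟨_, rfl⟩
  obtain ⟨W, hW⟩ : ∃ W, W = ball 1 ×ˢ Finset.range (J + 1) ×ˢ T := ⟨_, rfl⟩
  obtain ⟨B, hB⟩ : ∃ B, B = R + L + (R * L) ^ (2 / 3 : ℝ) := ⟨_, rfl⟩
  have B0 : 0 < B := by rw [hB]; positivity
  have z0 : 0 < Z ^ (ε / 3) := by positivity
  have e1 : Z ^ ε = Z ^ (ε / 3) * Z ^ (ε / 3) * Z ^ (ε / 3) := by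
    rw [← Real.rpow_add Z0, ← Real.rpow_add Z0]
    congr 1
    ring
  have w1 : (W.card : ℝ) ≤ 12 * ((C1 * Z ^ (ε / 3)) * (C2 * G)) := by
    have a1 := card_ball_le zero_le_one
    have a2 := t1 Z J hZ (hJ.trans hRZ)
    have a3 := t2 (G ^ 2) T (by positivity) fun m hm =>
      ⟨(Finset.mem_filter.1 (hT ▸ hm)).2, (mem_ball.1 (Finset.mem_filter.1 (hT ▸ hm)).1).2⟩
    rw [Real.sqrt_sq G0.le] at a3
    rw [hW, Finset.card_product, Finset.card_product, Finset.card_range]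
    push_cast
    rw [mul_one] at a1
    gcongr
  have h1 : ((ball R).filter fun ξ => (nm (sfp ξ) : ℝ) ≤ G ^ 2) ⊆
      (W ×ˢ sqf R).image fun x => x.1.1 * lam ^ x.1.2.1 * x.1.2.2 * pr x.2 := fun ξ hξ => by
    obtain ⟨a1, a2⟩ := Finset.mem_filter.1 hξ
    obtain ⟨a3, a4⟩ := mem_ball.1 a1
    obtain ⟨u, hu, e⟩ := hb.sq_dec ξ a3
    have a5 := primary_ne_zero (hb.sfp_sqf ξ).1
    have a6 := one_le_nmR a5
    have a7 := one_le_Ns (sq1 ξ)
    have a8 : (1 : ℝ) ≤ 3 ^ vp lam ξ := one_le_pow₀ (by norm_num)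
    rw [nS_nm hb a3] at a4
    refine Finset.mem_image.2 ⟨((u, vp lam ξ, sfp ξ), sq1 ξ), ?_, e.symm⟩
    simp only [hW, hT, Finset.mem_product, Finset.mem_filter, mem_ball, mem_sqf, Finset.mem_range]
    refine ⟨⟨⟨hu.ne_zero, by rw [isUnit_iff.1 hu, Nat.cast_one]⟩, ?_, ⟨a5, a2⟩, hb.sfp_sqf ξ⟩,
      (le_mul_of_one_le_left (by positivity) (one_le_mul_of_one_le_of_one_le a8 a6)).trans a4⟩
    refine (pow_lt_pow_iff_right₀ (one_lt_two (α := ℝ))).1 (lt_of_le_of_lt ?_ hJ')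
    refine (pow_le_pow_left₀ zero_le_two (by norm_num : (2 : ℝ) ≤ 3) _).trans (le_trans ?_ a4)
    rw [mul_assoc]
    exact le_mul_of_one_le_right (by positivity) (one_le_mul_of_one_le_of_one_le a6 a7)
  have h2 : ∑ ξ ∈ ball R with (nm (sfp ξ) : ℝ) ≤ G ^ 2, ‖Ds y L ξ‖ ^ 2 ≤
      W.card * (K * (Z ^ (ε / 3) * Z ^ (ε / 3)) * B * nrm2 y L) := by
    refine (Finset.sum_le_sum_of_subset_of_nonneg h1 fun _ _ _ => sq_nonneg _).trans
      ((Finset.sum_image_le_of_nonneg fun _ _ => sq_nonneg _).trans ?_)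
    rw [Finset.sum_product, ← nsmul_eq_mul]
    refine Finset.sum_le_card_nsmul _ _ _ fun w _ => ?_
    obtain ⟨y', a1, a2⟩ := nS_class y L (w.1 * lam ^ w.2.1 * w.2.2)
    simp only [a2]
    refine (h R L y' hR hL).trans ?_
    rw [Real.rpow_one, add_comm L R, ← hB, ← Real.mul_rpow Z0.le Z0.le]
    have := nG_nrm2_nonneg y' L
    gcongr
  have h3 : ∑ ξ ∈ ball R with ¬ (nm (sfp ξ) : ℝ) ≤ G ^ 2, ‖Ds y L ξ‖ ^ 2 ≤
      C3 * (R / G) * (V * nrm2 y L) := by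
    refine (Finset.sum_le_card_nsmul _ _ _ fun ξ _ => nS_triv y L V S hy hV ξ).trans ?_
    rw [nsmul_eq_mul]
    exact mul_le_mul_of_nonneg_right (t3 R G R0 G0) (by positivity)
  have h4 := h2.trans (mul_le_mul_of_nonneg_right w1 (by positivity))
  have z1 : 1 ≤ Z ^ ε := Real.one_le_rpow hZ hε.le
  rw [← Finset.sum_filter_add_sum_filter_not (ball R) fun ξ => (nm (sfp ξ) : ℝ) ≤ G ^ 2, ← hB]
  refine (add_le_add h4 h3).trans ?_
  calc _ = 12 * C1 * C2 * K * Z ^ ε * (G * B) * nrm2 y L + C3 * 1 * (V * R / G) * nrm2 y L := by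
        rw [e1]; ring
    _ ≤ (12 * C1 * C2 * K + C3) * Z ^ ε * (G * B) * nrm2 y L +
        (12 * C1 * C2 * K + C3) * Z ^ ε * (V * R / G) * nrm2 y L := by
        have : 0 < 12 * C1 * C2 * K := by positivity
        gcongr <;> linarith
    _ = _ := by ring

end Pat
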