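import Vale.Agent.P006.PCAux2

/-! Primes against characters of small conductor. -/

noncomputable section
namespace Pat
open QRH Complex MeasureTheory Filter
open scoped ComplexConjugate Classical ContDiff Topology

theorem pVs (hb : BA) : PVs := PC_pVs hb

theorem PC_card (hb : BA) {R : ℝ} (hR : 0 ≤ R) : ((prs R).card : ℝ) ≤ 12 * R := by
  refine le_trans ?_ (card_ball_le hR)
  exact_mod_cast Finset.card_le_card_of_injOn (fun p : P => p.1)
    (fun p hp => mem_ball.2 ⟨p.ne_zero, (hb.mem_prs R p).1 hp⟩) Subtype.val_injective.injOn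

theorem PC_c3 (p : P) (z : E) : ‖c3 p z‖ ≤ 1 := (c3_mc p).norm_le z

/-- removing the higher prime powers -/
theorem PC_pow (hb : BA) : ∃ C : ℝ, 0 < C ∧ ∀ (z : E) (y : ℝ), 1 ≤ y →
    ‖∑ n ∈ pball y, (vm n : ℂ) * xv c3 n z - ∑ p ∈ prs y, (Real.log (nm p.1) : ℝ) * c3 p z‖
      ≤ C * √y * Real.log y := by
  obtain ⟨C, hC, h⟩ := hb.sqfull_card
  refine ⟨C, hC, fun z y hy => ?_⟩
  have hsub : (prs y).image (fun p : P => p.1) ⊆ pball y := fun n hn => by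
    obtain ⟨p, hp, rfl⟩ := Finset.mem_image.1 hn
    exact (hb.mem_pball y _).2 ⟨p.2.2, (hb.mem_prs y p).1 hp⟩
  have e : ∑ p ∈ prs y, ((Real.log (nm p.1) : ℝ) : ℂ) * c3 p z
      = ∑ n ∈ (prs y).image (fun p : P => p.1), (vm n : ℂ) * xv c3 n z := by
    rw [Finset.sum_image Subtype.val_injective.injOn]
    refine Finset.sum_congr rfl fun p _ => ?_
    have h1 : fac p.1 = {p} := by rw [← pr_singleton, fac_pr]
    rw [xv_prime, vm, h1, Finset.card_singleton, if_pos rfl, Ns, pr_singleton]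
  rw [e, ← Finset.sum_sdiff_eq_sub hsub, ← Finset.sum_filter_of_ne (p := fun n => Sqf n)]
  · refine (norm_sum_le _ _).trans ((Finset.sum_le_card_nsmul _ _ (Real.log y)
      fun n hn => ?_).trans ?_)
    · obtain ⟨-, a2, a3⟩ := PC_pm (Finset.mem_sdiff.1 (Finset.mem_filter.1 hn).1).1
      rw [norm_mul, norm_real]
      refine (mul_le_of_le_one_right (norm_nonneg _) (norm_xv_le ch_c3 _ _)).trans ?_
      rw [vm]
      split_ifs
      · rw [Real.norm_eq_abs, abs_of_nonneg (Real.log_nonneg (one_le_Ns _))]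
        exact Real.log_le_log (Ns_pos _) ((Ns_fac_le a2).trans a3)
      · rw [norm_zero]
        exact Real.log_nonneg hy
    · rw [nsmul_eq_mul]
      exact mul_le_mul_of_nonneg_right (h y _ (by linarith) fun m hm =>
        ⟨(Finset.mem_filter.1 hm).2,
          (PC_pm (Finset.mem_sdiff.1 (Finset.mem_filter.1 hm).1).1).2.2⟩) (Real.log_nonneg hy)
  · intro n hn hne
    obtain ⟨h1, h2⟩ := Finset.mem_sdiff.1 hn
    obtain ⟨a1, a2, a3⟩ := PC_pm h1
    have h3 : (fac n).card = 1 := by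
      by_contra h3
      rw [vm, if_neg h3] at hne
      simp at hne
    obtain ⟨p, hp⟩ := Finset.card_eq_one.1 h3
    refine ⟨a1, fun q hq => ?_⟩
    have h4 := (dvd_iff_vp q.2.1 a2).1 ((mem_fac a2).1 hq)
    have h5 := primary_factor a1
    rw [hp, Finset.mem_singleton] at hq
    subst hq
    rw [hp, Finset.prod_singleton] at h5
    by_contra h6
    rw [show vp q.1 n = 1 by omega, pow_one] at h5
    exact h2 (Finset.mem_image.2 ⟨q, (hb.mem_prs y q).2 (h5 ▸ a3), h5.symm⟩)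

theorem PC_log {ε : ℝ} (hε : 0 < ε) : ∃ K : ℝ, 0 < K ∧ ∀ y : ℝ, 1 ≤ y →
    (1 + Real.log y) ^ 2 ≤ K * y ^ ε := by
  refine ⟨(1 + 2 / ε) ^ 2, by positivity, fun y hy => ?_⟩
  have h1 := Real.log_le_rpow_div (by linarith : 0 ≤ y) (half_pos hε)
  have h2 : 1 ≤ y ^ (ε / 2) := Real.one_le_rpow hy (by linarith)
  have h3 : y ^ ε = (y ^ (ε / 2)) ^ 2 := by
    rw [sq, ← Real.rpow_add (by linarith), add_halves]
  have h4 : y ^ (ε / 2) / (ε / 2) = 2 / ε * y ^ (ε / 2) := by field_simp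
  rw [h3, ← mul_pow]
  exact pow_le_pow_left₀ (by linarith [Real.log_nonneg hy]) (by linarith) 2

theorem PC_theta (hb : BA) (h1 : MuW) (h2 : PVs) : ∃ c C : ℝ, 0 < c ∧ c ≤ 1 / 2 ∧ 0 < C ∧
    ∀ (z : E) (y t : ℝ), z ≠ 0 → ¬ IsCube z → 1 ≤ y → Rr z ≤ y ^ c → t ≤ y →
      ‖∑ p ∈ prs t, (Real.log (nm p.1) : ℝ) * c3 p z‖ ≤ C * y ^ (1 - c) := by
  obtain ⟨c, C1, hc, hc2, hC1, h1⟩ := PC_psi hb h1 h2
  obtain ⟨C2, hC2, h2⟩ := PC_pow hb
  obtain ⟨K, hK, h3⟩ := PC_log (half_pos hc)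
  refine ⟨c / 2, (C1 + C2 + 12) * K, half_pos hc, by linarith, by positivity,
    fun z y t hz hcu hy hR ht => ?_⟩
  have y0 : 0 < y := by linarith
  have hl := Real.log_nonneg hy
  have s1 : 1 ≤ √y := Real.one_le_sqrt.2 hy
  have s2 : √y ≤ y ^ (1 - c) := by
    rw [Real.sqrt_eq_rpow]
    exact Real.rpow_le_rpow_of_exponent_le hy (by linarith)
  have s3 : Real.log y ≤ (1 + Real.log y) ^ 2 := by nlinarith
  have s4 : √y * Real.log y ≤ y ^ (1 - c) * (1 + Real.log y) ^ 2 :=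
    mul_le_mul s2 s3 hl (by positivity)
  have s5 : y ^ (1 - c) * (1 + Real.log y) ^ 2 ≤ K * y ^ (1 - c / 2) := by
    refine (mul_le_mul_of_nonneg_left (h3 y hy) (by positivity)).trans (le_of_eq ?_)
    rw [mul_left_comm, ← Real.rpow_add y0]
    congr 2
    ring
  have s6 : 0 ≤ y ^ (1 - c) * (1 + Real.log y) ^ 2 := by positivity
  rw [mul_assoc]
  refine le_trans ?_ (mul_le_mul_of_nonneg_left s5 (by positivity))
  rcases le_total t √y with h4 | h4
  · refine (norm_sum_le _ _).trans ((Finset.sum_le_card_nsmul _ _ (Real.log y)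
      fun p hp => ?_).trans ?_)
    · rw [norm_mul, norm_real, Real.norm_eq_abs, abs_of_nonneg (Real.log_natCast_nonneg _)]
      exact (mul_le_of_le_one_right (Real.log_natCast_nonneg _) (PC_c3 p z)).trans
        (Real.log_le_log (by linarith [one_le_nmR p.ne_zero]) (((hb.mem_prs t p).1 hp).trans ht))
    · have h5 : ((prs t).card : ℝ) ≤ 12 * √y := le_trans (by
        exact_mod_cast Finset.card_le_card fun p hp =>
          (hb.mem_prs _ p).2 (((hb.mem_prs t p).1 hp).trans h4)) (PC_card hb (by linarith))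
      rw [nsmul_eq_mul]
      nlinarith [mul_le_mul_of_nonneg_right h5 hl, mul_nonneg hC1.le s6, mul_nonneg hC2.le s6]
  · have t1 : 1 ≤ t := s1.trans h4
    have hRt : Rr z ≤ t ^ c := by
      refine hR.trans (le_trans (le_of_eq ?_) (Real.rpow_le_rpow (by linarith) h4 hc.le))
      rw [Real.sqrt_eq_rpow, ← Real.rpow_mul y0.le]
      congr 1
      ring
    have hlt := Real.log_nonneg t1
    have a1 : C1 * t ^ (1 - c) * (1 + Real.log t) ^ 2
        ≤ C1 * y ^ (1 - c) * (1 + Real.log y) ^ 2 := by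
      gcongr
      linarith
    have a2 : C2 * √t * Real.log t ≤ C2 * √y * Real.log y := by gcongr
    have a3 := norm_sub_norm_le (∑ p ∈ prs t, ((Real.log (nm p.1) : ℝ) : ℂ) * c3 p z)
      (∑ n ∈ pball t, (vm n : ℂ) * xv c3 n z)
    rw [norm_sub_rev] at a3
    nlinarith [h1 z t hz hcu t1 hRt, h2 z t t1, mul_le_mul_of_nonneg_left s4 hC2.le]

theorem pC (hb : BA) (h1 : MuW) (h2 : PVs) : PC := by
  obtain ⟨c, C, hc, hc2, hC, h⟩ := PC_theta hb h1 h2
  refine ⟨c, C, hc, hc2, hC, fun z y hz hcu hy hN => ?_⟩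
  have hR : Rr z ≤ y ^ c := (Ns_fac_le hz).trans hN
  have hS : 0 ≤ C * y ^ (1 - c) := by positivity
  have h3 := PC_abel (prs y) (fun p => nm p.1) (fun p => (Real.log (nm p.1) : ℝ) * c3 p z)
    (fun k => ((Real.log k)⁻¹ : ℝ)) 4 (max 4 ⌊y⌋₊) (S := C * y ^ (1 - c))
    (fun p hp => ⟨p.four_le_nm, (Nat.le_floor ((hb.mem_prs y p).1 hp)).trans (le_max_right _ _)⟩)
    fun k => by
      have e : (prs y).filter (fun p => nm p.1 ≤ k) = prs (min y k) := by
        ext p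
        simp only [Finset.mem_filter, hb.mem_prs, le_min_iff, Nat.cast_le]
      rw [e]
      exact h z y _ hz hcu hy hR (min_le_left _ _)
  have lp : ∀ k : ℕ, 4 ≤ k → 0 < Real.log (k : ℝ) := fun k hk =>
    Real.log_pos (by exact_mod_cast (by omega : 1 < k))
  rw [Finset.sum_congr rfl (g := fun p => c3 p z) fun p _ => by
    rw [← mul_assoc, ← ofReal_mul, inv_mul_cancel₀ (lp _ p.four_le_nm).ne', ofReal_one,
      one_mul]] at h3
  refine h3.trans (mul_le_of_le_one_left hS ?_)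
  have h4 : ∑ k ∈ Finset.Ico 4 (max 4 ⌊y⌋₊),
      ‖(((Real.log ((k + 1 : ℕ) : ℝ))⁻¹ : ℝ) : ℂ) - (((Real.log (k : ℝ))⁻¹ : ℝ) : ℂ)‖
      = (Real.log ((4 : ℕ) : ℝ))⁻¹ - (Real.log ((max 4 ⌊y⌋₊ : ℕ) : ℝ))⁻¹ := by
    rw [Finset.sum_congr rfl
      (g := fun k : ℕ => -(Real.log ((k + 1 : ℕ) : ℝ))⁻¹ - -(Real.log (k : ℝ))⁻¹)
      fun k hk => ?_, Finset.sum_Ico_sub (fun k : ℕ => -(Real.log (k : ℝ))⁻¹) (le_max_left _ _)]
    · ring
    · have h5 := (Finset.mem_Ico.1 hk).1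
      have h6 : (0 : ℝ) < k := by exact_mod_cast (by omega : 0 < k)
      rw [← ofReal_sub, norm_real, Real.norm_eq_abs, abs_of_nonpos]
      · ring
      · exact sub_nonpos.2 (inv_anti₀ (lp k h5) (Real.log_le_log h6 (by push_cast; linarith)))
  rw [h4, norm_real, Real.norm_eq_abs, abs_of_pos (inv_pos.2 (lp _ (le_max_left _ _))),
    add_sub_cancel]
  refine inv_le_one_of_one_le₀ ?_
  rw [Real.le_log_iff_exp_le (by norm_num)]
  push_cast
  linarith [Real.exp_one_lt_d9]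

/-- sums over sets of primes that are intervals up to the end points -/
theorem PC_conv (hb : BA) (z : E) (J : Finset P) {a b S : ℝ} (hS : 0 ≤ S)
    (hJ : ∀ p ∈ J, a ≤ nm p.1 ∧ (nm p.1 : ℝ) ≤ b)
    (hc : ∀ p ∈ J, ∀ q ∈ J, ∀ r : P, nm p.1 < nm r.1 → nm r.1 < nm q.1 → r ∈ J)
    (h : ∀ t, a ≤ t → t ≤ b → ‖∑ p ∈ prs t, c3 p z‖ ≤ S) : ‖∑ p ∈ J, c3 p z‖ ≤ 2 * S + 4 := by
  rcases J.eq_empty_or_nonempty with rfl | hne
  · rw [Finset.sum_empty, norm_zero]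
    linarith
  obtain ⟨p, hp, p1⟩ := J.exists_min_image (fun p => nm p.1) hne
  obtain ⟨q, hq, q1⟩ := J.exists_max_image (fun p => nm p.1) hne
  obtain ⟨K, hK⟩ : ∃ K, K = prs (nm q.1) \ prs (nm p.1) := ⟨_, rfl⟩
  have mK : ∀ r, r ∈ K ↔ nm r.1 ≤ nm q.1 ∧ nm p.1 < nm r.1 := fun r => by
    simp only [hK, Finset.mem_sdiff, hb.mem_prs, Nat.cast_le, not_le]
  have two : ∀ (n : ℕ) (T : Finset P), (∀ r ∈ T, nm r.1 = n) → ‖∑ r ∈ T, c3 r z‖ ≤ 2 :=
    fun n T hT => (norm_sum_le _ _).trans ((Finset.sum_le_card_nsmul _ _ 1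
      fun r _ => PC_c3 r z).trans (by
        rw [nsmul_eq_mul, mul_one]
        exact_mod_cast hb.card_nm n T hT))
  have a1 := two (nm p.1) (J \ K) fun r hr => by
    obtain ⟨b1, b2⟩ := Finset.mem_sdiff.1 hr
    have := p1 r b1
    have := q1 r b1
    rw [mK] at b2
    omega
  have a2 := two (nm q.1) (K \ J) fun r hr => by
    obtain ⟨b1, b2⟩ := Finset.mem_sdiff.1 hr
    rw [mK] at b1
    by_contra b3
    exact b2 (hc p hp q hq r b1.2 (by omega))
  have a3 : ‖∑ r ∈ K, c3 r z‖ ≤ S + S := by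
    rw [hK, Finset.sum_sdiff_eq_sub fun r hr => (hb.mem_prs _ r).2
      (((hb.mem_prs _ r).1 hr).trans (by exact_mod_cast p1 q hq))]
    exact (norm_sub_le _ _).trans
      (add_le_add (h _ (hJ q hq).1 (hJ q hq).2) (h _ (hJ p hp).1 (hJ p hp).2))
  rw [← sub_add_cancel (∑ r ∈ J, c3 r z) (∑ r ∈ K, c3 r z), ← Finset.sum_sdiff_sub_sum_sdiff]
  linarith [norm_add_le (∑ r ∈ J \ K, c3 r z - ∑ r ∈ K \ J, c3 r z) (∑ r ∈ K, c3 r z),
    norm_sub_le (∑ r ∈ J \ K, c3 r z) (∑ r ∈ K \ J, c3 r z)]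

theorem pCw (hb : BA) (h : PC) : PCw := by
  obtain ⟨c, C, hc, hc2, hC, h⟩ := h
  refine ⟨c, 4 * (6 * C + 4), hc, hc2, by positivity, fun z y y' V m g g' hz hcu hy _ hN hg => ?_⟩
  have y0 : 0 < y := by linarith
  have V0 : 0 ≤ V := (norm_nonneg _).trans (hg y le_rfl (by linarith)).2.1
  have y1 : 1 ≤ y ^ (1 - c) := Real.one_le_rpow hy (by linarith)
  have hπ : ∀ t, y ≤ t → t ≤ 3 * y → ‖∑ p ∈ prs t, c3 p z‖ ≤ 3 * C * y ^ (1 - c) := by
    intro t t1 t2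
    refine (h z t hz hcu (by linarith) (hN.trans (Real.rpow_le_rpow y0.le t1 hc.le))).trans ?_
    have a1 : t ^ (1 - c) ≤ (3 * y) ^ (1 - c) := Real.rpow_le_rpow (by linarith) t2 (by linarith)
    have a2 : (3 : ℝ) ^ (1 - c) ≤ 3 := by
      conv_rhs => rw [← Real.rpow_one 3]
      exact Real.rpow_le_rpow_of_exponent_le (by norm_num) (by linarith)
    rw [Real.mul_rpow (by norm_num) y0.le] at a1
    nlinarith [mul_le_mul_of_nonneg_right a2 (by linarith : 0 ≤ y ^ (1 - c))]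
  have B1 : ((⌊3 * y⌋₊ : ℕ) : ℝ) ≤ 3 * y := Nat.floor_le (by linarith)
  have B2 : y ≤ (⌊3 * y⌋₊ : ℕ) := by linarith [Nat.lt_floor_add_one (3 * y)]
  have h3 := PC_abel ((prs (3 * y)).filter fun p => y ≤ nm p.1 ∧ (nm p.1 : ℝ) < y' ∧ m ≤ key p)
    (fun p => nm p.1) (fun p => c3 p z) (fun k => g k) ⌈y⌉₊ ⌊3 * y⌋₊
    (S := (6 * C + 4) * y ^ (1 - c))
    (fun p hp => ⟨Nat.ceil_le.2 (Finset.mem_filter.1 hp).2.1,
      Nat.le_floor ((hb.mem_prs _ p).1 (Finset.mem_filter.1 hp).1)⟩)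
    fun k => by
      refine (PC_conv hb z _ (a := y) (b := 3 * y) (by positivity) (fun p hp => ?_)
        (fun p hp q hq r r1 r2 => ?_) hπ).trans (by linarith)
      · simp only [Finset.mem_filter, hb.mem_prs] at hp
        exact ⟨hp.1.2.1, hp.1.1⟩
      · simp only [Finset.mem_filter, hb.mem_prs] at hp hq ⊢
        have r3 : (nm p.1 : ℝ) < nm r.1 := by exact_mod_cast r1
        have r4 : (nm r.1 : ℝ) < nm q.1 := by exact_mod_cast r2
        exact ⟨⟨by linarith [hq.1.1], by linarith [hp.1.2.1], by linarith [hq.1.2.2.1],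
          hp.1.2.2.2.trans (hb.key_lt p r r1).le⟩, r2.le.trans hq.2⟩
  refine h3.trans ?_
  have h4 : ∑ k ∈ Finset.Ico ⌈y⌉₊ ⌊3 * y⌋₊, ‖g ((k + 1 : ℕ) : ℝ) - g (k : ℝ)‖ ≤ 3 * V := by
    refine (Finset.sum_le_card_nsmul _ _ (V / y) fun k hk => ?_).trans ?_
    · obtain ⟨k1, k2⟩ := Finset.mem_Ico.1 hk
      have k3 : y ≤ k := Nat.ceil_le.1 k1
      have k4 : ((k + 1 : ℕ) : ℝ) ≤ 3 * y := le_trans (by exact_mod_cast k2) B1
      have k5 : ((k + 1 : ℕ) : ℝ) = k + 1 := by push_cast; ring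
      have := Convex.norm_image_sub_le_of_norm_hasDerivWithin_le (𝕜 := ℝ) (f := g) (f' := g')
        (s := Set.Icc y (3 * y)) (x := (k : ℝ)) (y := ((k + 1 : ℕ) : ℝ))
        (fun t ht => (hg t ht.1 ht.2).1.hasDerivWithinAt) (fun t ht => (hg t ht.1 ht.2).2.2)
        (convex_Icc y (3 * y)) ⟨k3, by linarith⟩ ⟨by linarith, k4⟩
      rwa [show ((k + 1 : ℕ) : ℝ) - k = 1 by linarith, norm_one, mul_one] at this
    · rw [nsmul_eq_mul, Nat.card_Ico]
      have a1 : ((⌊3 * y⌋₊ - ⌈y⌉₊ : ℕ) : ℝ) ≤ 3 * y :=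
        le_trans (by exact_mod_cast Nat.sub_le _ _) B1
      refine (mul_le_mul_of_nonneg_right a1 (by positivity)).trans (le_of_eq ?_)
      field_simp
  have h5 := (hg _ B2 B1).2.1
  calc _ ≤ (V + 3 * V) * ((6 * C + 4) * y ^ (1 - c)) := by gcongr
    _ = _ := by ring

end Pat
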