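import Vale.Agent.P006.PDAux2

/-! P006: decomposition of a long prime variable. -/

noncomputable section
namespace Pat
open QRH Complex MeasureTheory Filter
open scoped ComplexConjugate Classical ContDiff Topology

theorem pd_ex (hb : BA) (x : Finset P → ℂ) (N : ℝ) (f : E → ℂ) :
    ∑ n ∈ pball N, ex x n * f n = ∑ s ∈ sqf N, x s * f (pr s) := by
  have h1 : (sqf N).image pr ⊆ pball N := fun n hn => by
    obtain ⟨s, hs, rfl⟩ := Finset.mem_image.1 hn
    exact (hb.mem_pball _ _).2 ⟨pr_primary s, mem_sqf.1 hs⟩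
  rw [← Finset.sum_subset h1 fun n hn hn' => ?_, Finset.sum_image fun _ _ _ _ h => pr_inj h]
  · refine Finset.sum_congr rfl fun s _ => ?_
    rw [ex, fac_pr, if_pos rfl]
  · rw [ex, if_neg, zero_mul]
    intro h
    refine hn' (Finset.mem_image.2 ⟨fac n, mem_sqf.2 ?_, h.symm⟩)
    rw [Ns, ← h]
    exact ((hb.mem_pball _ _).1 hn).2

/-- The truncated Moebius function. -/
def pdμ (y : ℝ) : E → ℂ := ex fun s => if Ns s ≤ 6 * √(Real.exp y) then mu s else 0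
/-- The indicator of one. -/
def pdδ (n : E) : ℂ := if n = 1 then 1 else 0
/-- Affine functions of the logarithm. -/
def pdA (α β : ℝ) (n : E) : ℂ := ((α + β * Real.log (nm n) : ℝ) : ℂ)

theorem pd_z {y : ℝ} (hy : 0 ≤ y) : 1 ≤ √(Real.exp y) ∧ √(Real.exp y) ≤ Real.exp y ∧
    (6 * √(Real.exp y)) ^ 2 = 36 * Real.exp y := by
  have h1 := Real.one_le_exp hy
  have h2 := Real.one_le_sqrt.2 h1
  have h3 := Real.sq_sqrt (Real.exp_pos y).le
  refine ⟨h2, by nlinarith, by rw [mul_pow, h3]; norm_num⟩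

theorem pd_mu (hb : BA) {y : ℝ} (hy : 0 ≤ y) (f : E → ℂ) :
    ∑ n ∈ pball (36 * Real.exp y), pdμ y n * f n
      = ∑ s ∈ sqf (6 * √(Real.exp y)), mu s * f (pr s) := by
  obtain ⟨h1, h2, -⟩ := pd_z hy
  rw [pdμ, pd_ex hb, ← Finset.sum_subset (sqf_mono (R := 6 * √(Real.exp y)) (by linarith))
    fun s _ hs => by rw [if_neg (mt mem_sqf.2 hs), zero_mul]]
  exact Finset.sum_congr rfl fun s hs => by rw [if_pos (mem_sqf.1 hs)]

theorem pd_del (hb : BA) {N : ℝ} (hN : 1 ≤ N) (f : E → ℂ) :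
    ∑ n ∈ pball N, pdδ n * f n = f 1 := by
  rw [Finset.sum_eq_single_of_mem 1 ((hb.mem_pball _ _).2 ⟨by simp [Pm], by simpa [nm_one]⟩)
    fun n _ hn => by rw [pdδ, if_neg hn, zero_mul], pdδ, if_pos rfl, one_mul]

theorem pd_pi4 (B : Finset E) (f : (Fin 4 → E) → ℂ) :
    ∑ n ∈ Fintype.piFinset fun _ : Fin 4 => B, f n
      = ∑ a ∈ B, ∑ b ∈ B, ∑ d ∈ B, ∑ e ∈ B, f ![a, b, d, e] := by
  simp only [← Finset.sum_product']
  refine Finset.sum_nbij' (fun n => (n 0, n 1, n 2, n 3))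
    (fun x => ![x.1, x.2.1, x.2.2.1, x.2.2.2]) (fun n hn => ?_) (fun x hx => ?_) (fun n _ => ?_)
    (fun x _ => rfl) fun n _ => ?_
  · have := Fintype.mem_piFinset.1 hn
    simp only [Finset.mem_product]
    exact ⟨this 0, this 1, this 2, this 3⟩
  · simp only [Finset.mem_product] at hx
    refine Fintype.mem_piFinset.2 fun j => ?_
    fin_cases j
    exacts [hx.1, hx.2.1, hx.2.2.1, hx.2.2.2]
  · funext j
    fin_cases j <;> rfl
  · congr 1
    funext j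
    fin_cases j <;> rfl

/-- The summand. -/
def pdg (Φ : ℝ → ℂ) (y : ℝ) (ξ n : E) : ℂ := Φ (Real.log (nm n) - y) * xv c3 n ξ

theorem pd_T4 (hb : BA) (c0 c1 c2 c3' : E → ℂ) (Φ : ℝ → ℂ) (y : ℝ) (ξ : E) :
    pdT ![c0, c1, c2, c3'] Φ y ξ = ∑ a ∈ pball (36 * Real.exp y), c0 a *
      ∑ b ∈ pball (36 * Real.exp y), c1 b * ∑ d ∈ pball (36 * Real.exp y), c2 d *
        ∑ e ∈ pball (36 * Real.exp y), c3' e * pdg Φ y ξ (a * b * d * e) := by
  rw [pdT, pd_pi4]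
  simp only [Finset.mul_sum]
  refine Finset.sum_congr rfl fun a ha => Finset.sum_congr rfl fun b hb' =>
    Finset.sum_congr rfl fun d hd => Finset.sum_congr rfl fun e he => ?_
  have h0 : ∀ {n : E}, n ∈ pball (36 * Real.exp y) → n ≠ 0 := fun hn =>
    primary_ne_zero ((hb.mem_pball _ _).1 hn).1
  have h1 : ∀ {n : E}, n ≠ 0 → (nm n : ℝ) ≠ 0 := fun hn =>
    (zero_lt_one.trans_le (one_le_nmR hn)).ne'
  have ha0 := h0 ha
  have hb0 := h0 hb'
  have hd0 := h0 hd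
  have he0 := h0 he
  have hab := mul_ne_zero ha0 hb0
  have habd := mul_ne_zero hab hd0
  rw [pdg, xv_mul_left habd he0, xv_mul_left hab hd0, xv_mul_left ha0 hb0, nm_mul, Nat.cast_mul,
    Real.log_mul (h1 habd) (h1 he0), nm_mul, Nat.cast_mul, Real.log_mul (h1 hab) (h1 hd0),
    nm_mul, Nat.cast_mul, Real.log_mul (h1 ha0) (h1 hb0), Fin.prod_univ_four, Fin.sum_univ_four]
  simp only [Matrix.cons_val_zero, Matrix.cons_val_one, Matrix.cons_val]
  ring

theorem pd_g_zero {Φ : ℝ → ℂ} (hs : ∀ v, Φ v ≠ 0 → v ≤ 1) (y : ℝ) (ξ n : E)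
    (h : 3 * Real.exp y < nm n) : pdg Φ y ξ n = 0 := by
  by_contra hne
  have h1 := hs _ (left_ne_zero_of_mul hne)
  have h2 : (nm n : ℝ) ≤ Real.exp (1 + y) :=
    (Real.le_exp_log _).trans (Real.exp_le_exp.2 (by linarith))
  rw [Real.exp_add] at h2
  nlinarith [Real.exp_one_lt_d9, Real.exp_pos y]

theorem pd_hb (hb : BA) (h1 : HBI) {Φ : ℝ → ℂ} (hs : ∀ v, Φ v ≠ 0 → v ≤ 1) {y : ℝ} (hy : 1 ≤ y)
    (ξ : E) : ∑ n ∈ pball (36 * Real.exp y), (vm n : ℂ) * pdg Φ y ξ n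
      = (2 * Real.log (36 * Real.exp y) : ℝ) *
          pdT ![pdμ y, pdδ, pdδ, pdA 0 (Real.log (36 * Real.exp y))⁻¹] Φ y ξ
        - (Real.log (36 * Real.exp y) : ℝ) *
          pdT ![pdμ y, pdμ y, pdA 1 0, pdA 0 (Real.log (36 * Real.exp y))⁻¹] Φ y ξ := by
  have hy0 : 0 ≤ y := by linarith
  obtain ⟨z1, z2, z3⟩ := pd_z hy0
  have hP := Real.exp_pos y
  have hN : 1 ≤ 36 * Real.exp y := by linarith
  have hL : ((Real.log (36 * Real.exp y) : ℝ) : ℂ) ≠ 0 :=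
    Complex.ofReal_ne_zero.2 (by linarith [(pd_log hy).1])
  rw [h1 (6 * √(Real.exp y)) _ _ (by linarith) z3.ge
    fun n hn => pd_g_zero hs y ξ n (by linarith), pd_T4 hb, pd_T4 hb]
  simp only [pd_mu hb hy0, pd_del hb hN]
  generalize Real.log (36 * Real.exp y) = L at hL
  have a1 : ∀ n, pdA 1 0 n = 1 := fun n => by simp [pdA]
  have a2 : ∀ n, (L : ℂ) * pdA 0 L⁻¹ n = (Real.log (nm n) : ℝ) := fun n => by
    rw [pdA, zero_add, Complex.ofReal_mul, Complex.ofReal_inv, ← mul_assoc, mul_inv_cancel₀ hL,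
      one_mul]
  simp only [Finset.mul_sum, a1, mul_one, one_mul, ← a2]
  refine congrArg₂ _ ?_ ?_
  · refine Finset.sum_congr rfl fun m _ => Finset.sum_congr rfl fun k _ => ?_
    rw [Complex.ofReal_mul, Complex.ofReal_ofNat]
    ring
  · refine Finset.sum_congr rfl fun m _ => Finset.sum_congr rfl fun m' _ =>
      Finset.sum_congr rfl fun k _ => Finset.sum_congr rfl fun k' _ => ?_
    ring

/-- The coefficients of the proper prime powers. -/
def pdq (Φ : ℝ → ℂ) (y : ℝ) (n : E) : ℂ :=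
  if n ∈ pball (36 * Real.exp y) ∧ n ≠ pr (fac n) then vm n * Φ (Real.log (nm n) - y) else 0

theorem pd_pp (hb : BA) {Φ : ℝ → ℂ} (hs : ∀ v, Φ v ≠ 0 → v ≤ 1) (y : ℝ) (ξ : E) :
    ∑ p ∈ prs (3 * Real.exp y), (Real.log (nm p.1) : ℝ) * pdg Φ y ξ p.1
      = ∑ n ∈ pball (36 * Real.exp y), (vm n : ℂ) * pdg Φ y ξ n
        - Dn (pdq Φ y) (36 * Real.exp y) ξ := by
  have hP := Real.exp_pos y
  have h1 : prs (3 * Real.exp y) ⊆ prs (36 * Real.exp y) := fun p hp => by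
    rw [hb.mem_prs] at hp ⊢
    linarith
  rw [Finset.sum_subset h1 fun p _ hp => by
    rw [pd_g_zero hs y ξ p.1 (not_le.1 (mt (hb.mem_prs _ _).2 hp)), mul_zero]]
  have h2 := hb.sum_prs (36 * Real.exp y) fun s => (Real.log (Ns s) : ℝ) * pdg Φ y ξ (pr s)
  simp only [Ns, pr_singleton] at h2
  rw [← h2, Finset.sum_filter]
  have h3 := pd_ex hb (fun s => if s.card = 1 then (Real.log (Ns s) : ℝ) else 0)
    (36 * Real.exp y) (pdg Φ y ξ)
  simp only [ite_mul, zero_mul, Ns] at h3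
  rw [← h3, Dn, ← Finset.sum_sub_distrib]
  refine Finset.sum_congr rfl fun n hn => ?_
  by_cases h : n = pr (fac n)
  · have h4 : pdq Φ y n = 0 := if_neg fun h' => h'.2 h
    rw [h4, ex, if_pos h, vm, Ns]
    split_ifs <;> simp
  · have h4 : pdq Φ y n = vm n * Φ (Real.log (nm n) - y) := if_pos ⟨hn, h⟩
    rw [h4, ex, if_neg h, pdg]
    ring

theorem pd_vm {n : E} (hn : n ≠ 0) : |vm n| ≤ Real.log (nm n) := by
  rw [vm]
  split_ifs
  · rw [abs_of_nonneg (Real.log_nonneg (one_le_Ns _))]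
    exact Real.log_le_log (Ns_pos _) (Ns_fac_le hn)
  · rw [abs_zero]
    exact Real.log_natCast_nonneg _

theorem pd_sqf {n : E} (hn : Pm n) (h1 : n ≠ pr (fac n)) (h2 : vm n ≠ 0) : Sqf n := by
  have h0 := primary_ne_zero hn
  have h3 : (fac n).card = 1 := by
    by_contra h
    exact h2 (if_neg h)
  obtain ⟨p, hp⟩ := Finset.card_eq_one.1 h3
  refine ⟨hn, fun q hq => ?_⟩
  by_contra hlt
  refine h1 (eq_pr_of_vp_le hn fun r => ?_)
  by_cases hr : r ∈ fac n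
  · rw [hp, Finset.mem_singleton] at hq hr
    rw [hr, ← hq]
    omega
  · rw [dvs_vp_zero h0 hr]
    exact zero_le_one

theorem pd_ppb (hb : BA) : ∃ C : ℝ, 0 < C ∧
    ∀ (F : Finset E) (ρ : E → ℝ) (y S m D : ℝ) (Φ : ℝ → ℂ), 1 ≤ y → 0 < D → (∀ v, ‖Φ v‖ ≤ D) →
      √(Real.exp y) ≤ S → pdH F ρ y S m →
      pdN F ρ (Dn (pdq Φ y) (36 * Real.exp y)) ≤ C * y * D * m := by
  obtain ⟨C, hC, hcard⟩ := hb.sqfull_card
  refine ⟨(6 * C + 1) * 36, by positivity, fun F ρ y S m D Φ hy hD hΦ hS H => ?_⟩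
  have hy0 : 0 ≤ y := by linarith
  obtain ⟨z1, z2, z3⟩ := pd_z hy0
  have hP := Real.exp_pos y
  have hW : 0 < (6 * C + 1) * 36 * y * D := by positivity
  have hq : ∀ n, ‖pdq Φ y n‖ ≤ 36 * y * D := fun n => by
    rw [pdq]
    split_ifs with h
    · obtain ⟨h1, h2⟩ := (hb.mem_pball _ _).1 h.1
      have h0 := primary_ne_zero h1
      rw [norm_mul, Complex.norm_real, Real.norm_eq_abs]
      have h3 : |vm n| ≤ 36 * y := (pd_vm h0).trans
        ((Real.log_le_log (zero_lt_one.trans_le (one_le_nmR h0)) h2).trans (pd_log hy).2)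
      exact mul_le_mul h3 (hΦ _) (norm_nonneg _) (by positivity)
    · rw [norm_zero]
      positivity
  have hd : ∀ ξ, ‖Dn (pdq Φ y) (36 * Real.exp y) ξ‖ ≤ (6 * C + 1) * 36 * y * D * S := by
    intro ξ
    rw [Dn, ← Finset.sum_filter_of_ne (p := fun n => pdq Φ y n ≠ 0)
      fun n _ h => left_ne_zero_of_mul h]
    refine (norm_sum_le_of_le (n := fun _ => 36 * y * D) _ fun n _ => ?_).trans ?_
    · rw [norm_mul]
      exact (mul_le_of_le_one_right (norm_nonneg _) (norm_xv_le ch_c3 _ _)).trans (hq n)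
    · rw [Finset.sum_const, nsmul_eq_mul]
      have h1 := hcard (36 * Real.exp y)
        ((pball (36 * Real.exp y)).filter fun n => pdq Φ y n ≠ 0) (by positivity) fun n hn => by
          obtain ⟨h1, h2⟩ := Finset.mem_filter.1 hn
          obtain ⟨h3, h4⟩ := (hb.mem_pball _ _).1 h1
          rw [pdq] at h2
          split_ifs at h2 with h
          · exact ⟨pd_sqf h3 h.2 (Complex.ofReal_ne_zero.1 (left_ne_zero_of_mul h2)), h4⟩
          · exact absurd rfl h2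
      rw [← z3, Real.sqrt_sq (by positivity), z3] at h1
      calc _ ≤ C * (6 * S) * (36 * y * D) := by
            gcongr
            exact h1.trans (by gcongr)
        _ ≤ _ := by nlinarith [mul_nonneg (mul_nonneg hy0 hD.le) (zero_le_one.trans (z1.trans hS))]
  have hδ : ∀ n, ‖pdδ n‖ ≤ 1 := fun n => by
    rw [pdδ]
    split_ifs <;> simp
  have h1 := H ![fun n => pdq Φ y n / ((6 * C + 1) * 36 * y * D : ℝ), pdδ, pdδ, pdδ]
    ![36 * Real.exp y, 1, 1, 1] (fun j n => by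
      fin_cases j
      · refine pd_div_le hW ((hq n).trans ?_)
        nlinarith [mul_pos (mul_pos hC (zero_lt_one.trans_le hy)) hD]
      exacts [hδ n, hδ n, hδ n])
    (fun j => by
      fin_cases j
      · change 1 ≤ 36 * Real.exp y
        linarith
      exacts [le_rfl, le_rfl, le_rfl])
    (by
      rw [Fin.prod_univ_four]
      change 36 * Real.exp y * 1 * 1 * 1 ≤ _
      linarith)
    fun j => by
      have h6 : (1 : ℝ) ≤ 6 * √(Real.exp y) := by linarith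
      fin_cases j
      exacts [Or.inr fun ξ _ => pd_div_le' hW (hd ξ), Or.inl h6, Or.inl h6, Or.inl h6]
  have e : ∀ ξ, Dn (pdq Φ y) (36 * Real.exp y) ξ = (((6 * C + 1) * 36 * y * D : ℝ) : ℂ) *
      ∏ j, Dn (![fun n => pdq Φ y n / ((6 * C + 1) * 36 * y * D : ℝ), pdδ, pdδ, pdδ] j)
        (![36 * Real.exp y, 1, 1, 1] j) ξ := fun ξ => by
    have h2 : Dn pdδ 1 ξ = 1 := by rw [Dn, pd_del hb le_rfl, xv_unit isUnit_one]
    rw [Fin.prod_univ_four, pd_div hW]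
    simp only [Matrix.cons_val_zero, Matrix.cons_val_one, Matrix.cons_val, h2, mul_one]
  rw [pd_congr e, pd_mul, Complex.norm_real, Real.norm_of_nonneg hW.le]
  exact mul_le_mul_of_nonneg_left h1 hW.le

/-- The sum over primes with a pure weight. -/
def pdP (y : ℝ) (s : ℂ) (ξ : E) : ℂ := ∑ p ∈ prs (3 * Real.exp y),
  (bx (Real.log (nm p.1) - y) : ℝ) * Complex.exp (s * (Real.log (nm p.1) - y : ℝ)) * c3 p ξ

theorem pd_main (hb : BA) (h1 : HBI) (h2 : PVu1) {ε : ℝ} (hε : 0 < ε) : ∃ (k : ℕ) (C : ℝ),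
    0 < C ∧ ∀ (F : Finset E) (ρ : E → ℝ) (y S R m : ℝ) (s : ℂ), 1 ≤ y → 0 ≤ m → |s.re| ≤ 3 →
      R ^ (1 / 2 + ε) ≤ S → √(Real.exp y) ≤ S → (∀ ξ ∈ F, ξ ∈ ball R ∧ ¬ IsCube ξ) →
      pdH F ρ y S m → pdN F ρ (pdP y s) ≤ C * y ^ 5 * (1 + ‖s‖) ^ k * m := by
  obtain ⟨k, C0, hC0, hsm⟩ := pd_smooth hb h2 hε
  obtain ⟨C1, hC1, hsep⟩ := pd_sep hb k
  obtain ⟨C2, hC2, hwt⟩ := pd_wt hb (4 * k + 2)
  obtain ⟨C3, hC3, hpp⟩ := pd_ppb hb
  refine ⟨4 * k + 2, (108 * C1 * C0 ^ 4 + C3) * C2, by positivity, ?_⟩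
  intro F ρ y S R m s hy hm hs hR hS hF H
  obtain ⟨Φ, hBD, hΦ1, hΦ2⟩ := hwt y s hy hs
  set D := C2 * (1 + ‖s‖) ^ (4 * k + 2) with hD
  have hD0 : 0 < D := by positivity
  have hy0 : 0 ≤ y := by linarith
  obtain ⟨z1, -, -⟩ := pd_z hy0
  obtain ⟨hL1, hL2⟩ := pd_log hy
  have e : ∀ ξ, pdP y s ξ = (2 * Real.log (36 * Real.exp y) : ℝ) *
          pdT ![pdμ y, pdδ, pdδ, pdA 0 (Real.log (36 * Real.exp y))⁻¹] Φ y ξ
        - (Real.log (36 * Real.exp y) : ℝ) *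
          pdT ![pdμ y, pdμ y, pdA 1 0, pdA 0 (Real.log (36 * Real.exp y))⁻¹] Φ y ξ
        - Dn (pdq Φ y) (36 * Real.exp y) ξ := fun ξ => by
    rw [← pd_hb hb h1 hΦ1 hy, ← pd_pp hb hΦ1, pdP]
    refine Finset.sum_congr rfl fun p _ => ?_
    rw [← hΦ2, sub_add_cancel, pdg, xv_prime, mul_assoc]
  have hW : ∀ t : ℝ, 1 ≤ C0 * (1 + |t|) ^ k := fun t =>
    one_le_mul_of_one_le_of_one_le hC0 (one_le_pow₀ (by linarith [abs_nonneg t]))
  have aμ : pdAdm F y S (fun t => C0 * (1 + |t|) ^ k) (pdμ y) := by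
    refine pd_short hb hy0 hW (fun n => ?_) fun n hn => ?_
    · rw [pdμ, ex]
      split_ifs <;> simp [norm_mu]
    · rw [pdμ, ex] at hn
      split_ifs at hn with h3 h4
      · rwa [Ns, ← h3] at h4
      · exact absurd rfl hn
      · exact absurd rfl hn
  have aδ : pdAdm F y S (fun t => C0 * (1 + |t|) ^ k) pdδ := by
    refine pd_short hb hy0 hW (fun n => ?_) fun n hn => ?_
    · rw [pdδ]
      split_ifs <;> simp
    · rw [pdδ] at hn
      split_ifs at hn with h3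
      · rw [h3, nm_one, Nat.cast_one]
        linarith
      · exact absurd rfl hn
  have a1 : pdAdm F y S (fun t => C0 * (1 + |t|) ^ k) (pdA 1 0) :=
    hsm F y S R 1 0 hy hR hF (by simp) (by simp)
  have aL : pdAdm F y S (fun t => C0 * (1 + |t|) ^ k)
      (pdA 0 (Real.log (36 * Real.exp y))⁻¹) :=
    hsm F y S R 0 _ hy hR hF (by simp) (by
      rw [abs_of_pos (inv_pos.2 (by linarith)), inv_mul_cancel₀ (by linarith)])
  have b1 := hsep F ρ y S m C0 D Φ ![pdμ y, pdδ, pdδ, pdA 0 (Real.log (36 * Real.exp y))⁻¹] hy hm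
    (by linarith) hD0.le hBD hΦ1 H fun j => by
      fin_cases j
      exacts [aμ, aδ, aδ, aL]
  have b2 := hsep F ρ y S m C0 D Φ
    ![pdμ y, pdμ y, pdA 1 0, pdA 0 (Real.log (36 * Real.exp y))⁻¹] hy hm
    (by linarith) hD0.le hBD hΦ1 H fun j => by
      fin_cases j
      exacts [aμ, aμ, a1, aL]
  have b3 := hpp F ρ y S m D Φ hy hD0 (fun v => by simpa using hBD.bd 0 (Nat.zero_le _) v) hS H
  rw [pd_congr e]
  refine (pd_sub _ _).trans ((add_le_add (pd_sub _ _) b3).trans ?_)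
  rw [pd_mul, pd_mul, Complex.norm_real, Complex.norm_real, Real.norm_of_nonneg (by linarith),
    Real.norm_of_nonneg (by linarith)]
  have h5 : y ≤ y ^ 5 := le_self_pow₀ hy (by norm_num)
  calc _ ≤ 2 * (36 * y) * (C1 * y ^ 4 * C0 ^ 4 * D * m) + 36 * y * (C1 * y ^ 4 * C0 ^ 4 * D * m)
        + C3 * y ^ 5 * D * m := by
        gcongr
        exact pd_nonneg _
        exact pd_nonneg _
    _ = _ := by
      rw [hD]
      ring

theorem pd_Ap (hb : BA) {w τ κ : ℝ} {i : ℤ} (s : ℂ) (hw : w ≤ Real.exp (i / 2)) (ξ : E) :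
    Ap w τ κ i s ξ = pdP (i / 2) s ξ
      - κ * Complex.exp ((-(τ * (i / 2)) : ℝ) * I) * pdP (i / 2) (s - τ * I) ξ := by
  rw [Ap, pdP, pdP, Finset.mul_sum, ← Finset.sum_sub_distrib]
  refine Finset.sum_congr rfl fun p _ => ?_
  have hp := dvs_nmP_pos p
  by_cases h : bx (Real.log (nm p.1) - i / 2) = 0
  · rw [pu, h]
    simp
  · have h1 := (hb.bx_supp _ h).1
    have h2 : w < nm p.1 := hw.trans_lt ((Real.lt_log_iff_exp_lt hp).1 (by linarith))
    have h3 : 0 < nm p.1 / Real.exp (i / 2) := div_pos hp (Real.exp_pos _)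
    rw [pu, if_pos h2, Complex.cpow_def_of_ne_zero (Complex.ofReal_ne_zero.2 hp.ne'),
      Complex.cpow_def_of_ne_zero (Complex.ofReal_ne_zero.2 h3.ne'), ← Complex.ofReal_log hp.le,
      ← Complex.ofReal_log h3.le, Real.log_div hp.ne' (Real.exp_ne_zero _), Real.log_exp]
    simp only [map_mul, map_sub, map_one, Complex.conj_ofReal, ← Complex.exp_conj, Complex.conj_I]
    have e : Complex.exp ((Real.log (nm p.1) : ℝ) * (τ * -I)) *
        Complex.exp ((Real.log (nm p.1) - i / 2 : ℝ) * s)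
        = Complex.exp ((-(τ * (i / 2)) : ℝ) * I) *
          Complex.exp ((s - τ * I) * (Real.log (nm p.1) - i / 2 : ℝ)) := by
      rw [← Complex.exp_add, ← Complex.exp_add]
      congr 1
      simp only [Complex.ofReal_sub, Complex.ofReal_neg, Complex.ofReal_mul]
      ring
    rw [mul_comm s]
    linear_combination (-(bx (Real.log (nm p.1) - i / 2) : ℂ) * κ * c3 p ξ) * e

theorem pD (hb : BA) (h1 : HBI) (h2 : PVu1) : PD := by
  intro ε hε
  obtain ⟨k, C, hC, hmain⟩ := pd_main hb h1 h2 hε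
  refine ⟨2 * k, 4 * C ^ 2 * (Nat.factorial 10 / ε ^ 10), by positivity, ?_⟩
  intro w τ κ R S M i s F ρ hi hw hκ hs hR hRS hS hF hρ H
  have hy : (1 : ℝ) ≤ i / 2 := by
    have : (2 : ℝ) ≤ i := by exact_mod_cast hi
    linarith
  set y : ℝ := i / 2 with hy'
  obtain ⟨z1, -, -⟩ := pd_z (zero_le_one.trans hy)
  have hM : 0 ≤ M := (Finset.sum_nonneg fun ξ _ => mul_nonneg (hρ ξ) (sq_nonneg _)).trans
    (H (fun _ _ => 0) (fun _ => 1) (by simp) (fun _ => le_rfl)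
      (by
        rw [Finset.prod_const_one]
        linarith [Real.one_le_exp (zero_le_one.trans hy)])
      fun _ => Or.inl (by linarith))
  have H' : pdH F ρ y S √M := fun a N a1 a2 a3 a4 =>
    Real.le_sqrt_of_sq_le (by
      rw [pd_sq hρ]
      exact H a N a1 a2 a3 a4)
  have b1 := hmain F ρ y S R _ s hy (Real.sqrt_nonneg _) (by linarith) hRS hS hF H'
  have b2 := hmain F ρ y S R _ (s - τ * I) hy (Real.sqrt_nonneg _) (by simpa using by linarith)
    hRS hS hF H'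
  have hτ := abs_nonneg τ
  have hn := norm_nonneg s
  have c1 : 1 + ‖s‖ ≤ (1 + |τ|) * (1 + ‖s‖) := by nlinarith
  have c2 : 1 + ‖s - τ * I‖ ≤ (1 + |τ|) * (1 + ‖s‖) := by
    have := norm_sub_le s (τ * I)
    have h3 : ‖(τ : ℂ) * I‖ = |τ| := by simp
    nlinarith [mul_nonneg hτ hn]
  have b3 : pdN F ρ (Ap w τ κ i s) ≤ 2 * (C * y ^ 5 * ((1 + |τ|) * (1 + ‖s‖)) ^ k * √M) := by
    rw [pd_congr (pd_Ap hb s hw)]
    refine (pd_sub _ _).trans ?_
    rw [pd_mul, norm_mul, Complex.norm_exp_ofReal_mul_I, mul_one, Complex.norm_real,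
      Real.norm_eq_abs]
    calc _ ≤ C * y ^ 5 * ((1 + |τ|) * (1 + ‖s‖)) ^ k * √M
          + 1 * (C * y ^ 5 * ((1 + |τ|) * (1 + ‖s‖)) ^ k * √M) := by
          gcongr
          · exact b1.trans (by gcongr)
          · exact pd_nonneg _
          · exact b2.trans (by gcongr)
      _ = _ := by ring
  have b4 : y ^ 10 ≤ Nat.factorial 10 / ε ^ 10 * Real.exp y ^ ε := by
    have h3 := Real.pow_div_factorial_le_exp (y * ε) (by positivity) 10
    rw [Real.exp_mul, mul_pow, div_le_iff₀ (by positivity)] at h3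
    rw [div_mul_eq_mul_div, le_div_iff₀ (by positivity)]
    linarith
  rw [← pd_sq hρ]
  calc _ ≤ (2 * (C * y ^ 5 * ((1 + |τ|) * (1 + ‖s‖)) ^ k * √M)) ^ 2 :=
        pow_le_pow_left₀ (pd_nonneg _) b3 2
    _ = 4 * C ^ 2 * y ^ 10 * ((1 + |τ|) * (1 + ‖s‖)) ^ (2 * k) * √M ^ 2 := by ring
    _ ≤ 4 * C ^ 2 * (Nat.factorial 10 / ε ^ 10 * Real.exp y ^ ε)
        * ((1 + |τ|) * (1 + ‖s‖)) ^ (2 * k) * √M ^ 2 := by gcongr
    _ = _ := by
      rw [Real.sq_sqrt hM]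
      ring

end Pat
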