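import Vale.Agent.P006.BridgeAux
import Vale.Agent.P031.WI

noncomputable section
namespace Pat
open QRH Complex MeasureTheory Filter Asymptotics
open scoped ComplexConjugate Classical ContDiff Topology

theorem pn_abel (c : ℕ → ℝ) (hc : c 0 = 0) {a σ M : ℝ} (h1 : σ < 1)
    (hM : ∀ t : ℝ, 0 < t → |∑ k ∈ Finset.Icc 0 ⌊t⌋₊, c k| ≤ M * t)
    (h : Tendsto (fun x : ℝ => (∑ k ∈ Finset.Icc 0 ⌊x⌋₊, c k) / x) atTop (𝓝 a)) :
    Tendsto (fun x : ℝ => (∑ k ∈ Finset.Icc 0 ⌊x⌋₊, (k : ℝ) ^ (-σ) * c k) / x ^ (1 - σ)) atTop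
      (𝓝 (a / (1 - σ))) := by
  set Θ : ℝ → ℝ := fun t => ∑ k ∈ Finset.Icc 0 ⌊t⌋₊, c k with hΘ
  have hm : Measurable Θ :=
    (measurable_of_countable fun n : ℕ => ∑ k ∈ Finset.Icc 0 n, c k).comp Nat.measurable_floor
  have hD : Tendsto (fun x : ℝ => ∫ u in (0 : ℝ)..1, u ^ (-σ) * (Θ (x * u) / (x * u))) atTop
      (𝓝 (∫ u in (0 : ℝ)..1, u ^ (-σ) * a)) := by
    refine intervalIntegral.tendsto_integral_filter_of_dominated_convergence
      (fun u => u ^ (-σ) * M) (Eventually.of_forall fun x => ?_) ?_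
      ((intervalIntegral.intervalIntegrable_rpow' (by linarith)).mul_const M)
      (Eventually.of_forall fun u hu => ?_)
    · exact ((measurable_id.pow_const _).mul ((hm.comp (measurable_id.const_mul x)).div
        (measurable_id.const_mul x))).aestronglyMeasurable
    · filter_upwards [eventually_gt_atTop 0] with x hx
      refine Eventually.of_forall fun u hu => ?_
      rw [Set.uIoc_of_le zero_le_one] at hu
      have h2 := mul_pos hx hu.1
      rw [norm_mul, Real.norm_of_nonneg (Real.rpow_nonneg hu.1.le _), norm_div,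
        Real.norm_of_nonneg h2.le, Real.norm_eq_abs]
      exact mul_le_mul_of_nonneg_left ((div_le_iff₀ h2).2 (hM _ h2)) (Real.rpow_nonneg hu.1.le _)
    · rw [Set.uIoc_of_le zero_le_one] at hu
      exact (h.comp (tendsto_id.atTop_mul_const hu.1)).const_mul _
  rw [intervalIntegral.integral_mul_const, integral_rpow (Or.inl (by linarith)), Real.one_rpow,
    Real.zero_rpow (by linarith), sub_zero] at hD
  have h3 := h.add (hD.const_mul σ)
  have h4 : (1 - σ) ≠ 0 := by linarith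
  rw [show a + σ * (1 / (-σ + 1) * a) = a / (1 - σ) by
    rw [show -σ + 1 = 1 - σ by ring]; field_simp; ring] at h3
  refine h3.congr' ?_
  filter_upwards [eventually_ge_atTop 1] with x hx
  have hx0 : 0 < x := by linarith
  rw [sum_mul_eq_sub_integral_mul₀ c (f := fun t : ℝ => t ^ (-σ)) hc x
    (fun t ht => Real.differentiableAt_rpow_const_of_ne _ (by linarith [ht.1])) (by
      rw [Real.deriv_rpow_const']
      exact (continuousOn_const.mul (continuousOn_id.rpow_const fun t ht =>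
        Or.inl (by simp only [id]; linarith [ht.1]))).integrableOn_Icc)]
  have e1 : ∫ t in Set.Ioc 1 x, deriv (fun t : ℝ => t ^ (-σ)) t * ∑ k ∈ Finset.Icc 0 ⌊t⌋₊, c k
      = x * ∫ u in (0 : ℝ)..1, -σ * (x * u) ^ (-σ - 1) * Θ (x * u) := by
    rw [← smul_eq_mul, intervalIntegral.smul_integral_comp_mul_left
      (fun t => -σ * t ^ (-σ - 1) * Θ t), mul_zero, mul_one, intervalIntegral.integral_of_le hx0.le,
      ← integral_Icc_eq_integral_Ioc, Real.deriv_rpow_const']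
    refine (setIntegral_eq_of_subset_of_forall_diff_eq_zero measurableSet_Ioc
      (fun t ht => ⟨by linarith [ht.1], ht.2⟩) fun t ht => ?_).symm
    have h5 : t < 1 := by
      by_contra h6
      exact ht.2 ⟨not_lt.1 h6, ht.1.2⟩
    simp [hΘ, Nat.floor_eq_zero.2 h5, hc]
  have e2 : x * ∫ u in (0 : ℝ)..1, -σ * (x * u) ^ (-σ - 1) * Θ (x * u)
      = -(x ^ (1 - σ) * (σ * ∫ u in (0 : ℝ)..1, u ^ (-σ) * (Θ (x * u) / (x * u)))) := by
    rw [← intervalIntegral.integral_const_mul, ← intervalIntegral.integral_const_mul,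
      ← intervalIntegral.integral_const_mul, ← intervalIntegral.integral_neg]
    refine intervalIntegral.integral_congr_ae (Eventually.of_forall fun u hu => ?_)
    rw [Set.uIoc_of_le zero_le_one] at hu
    have h2 := mul_pos hx0 hu.1
    rw [Real.rpow_sub_one h2.ne', Real.mul_rpow hx0.le hu.1.le,
      show 1 - σ = -σ + 1 by ring, Real.rpow_add_one hx0.ne']
    ring
  rw [e1, e2, show 1 - σ = -σ + 1 by ring, Real.rpow_add_one hx0.ne']
  have h7 : 0 < x ^ (-σ) := Real.rpow_pos_of_pos hx0 _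
  field_simp
  ring

/-- The logarithm on primes that are one modulo three. -/
def pnC (n : ℕ) : ℝ := if n.Prime ∧ n % 3 = 1 then Real.log n else 0

theorem pn_nonneg (n : ℕ) : 0 ≤ pnC n := by
  unfold pnC
  split_ifs
  · exact Real.log_natCast_nonneg n
  · exact le_rfl

theorem pn_bd (t : ℝ) (ht : 0 < t) :
    |∑ k ∈ Finset.Icc 0 ⌊t⌋₊, pnC k| ≤ Real.log 4 * t := by
  rw [abs_of_nonneg (Finset.sum_nonneg fun k _ => pn_nonneg k)]
  refine le_trans ?_ (Chebyshev.theta_le_log4_mul_x ht.le)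
  rw [Chebyshev.theta_eq_sum_Icc, Finset.sum_filter]
  refine Finset.sum_le_sum fun k _ => ?_
  unfold pnC
  split_ifs with h1 h2 h2
  · exact le_rfl
  · exact absurd h1.1 h2
  · exact Real.log_natCast_nonneg k
  · exact le_rfl

theorem pn_theta :
    Tendsto (fun x : ℝ => (∑ k ∈ Finset.Icc 0 ⌊x⌋₊, pnC k) / x) atTop (𝓝 (1 / 2)) := by
  have h1 := Vale.Agent.P031.pnt_residueClass (q := 3) (a := 1) isUnit_one
  rw [Nat.totient_prime Nat.prime_three] at h1
  have h2 := Vale.Agent.P031.pnt_psi.sub Vale.Agent.P031.pnt_theta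
  rw [sub_self] at h2
  have h3 : Tendsto (fun x : ℝ => (∑ k ∈ Finset.Icc 1 ⌊x⌋₊,
      ArithmeticFunction.vonMangoldt.residueClass (1 : ZMod 3) k) / x
      - (∑ k ∈ Finset.Icc 0 ⌊x⌋₊, pnC k) / x) atTop (𝓝 0) := by
    have key : ∀ k : ℕ, 0 ≤ ArithmeticFunction.vonMangoldt.residueClass (1 : ZMod 3) k - pnC k ∧
        ArithmeticFunction.vonMangoldt.residueClass (1 : ZMod 3) k - pnC k
          ≤ if ¬ k.Prime then ArithmeticFunction.vonMangoldt k else 0 := fun k => by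
      have e : ((k : ZMod 3) = 1) ↔ k % 3 = 1 := by
        rw [show (1 : ZMod 3) = ((1 : ℕ) : ZMod 3) by norm_num, ZMod.natCast_eq_natCast_iff']
      have hv := ArithmeticFunction.vonMangoldt_nonneg (n := k)
      simp only [Set.indicator_apply, Set.mem_setOf_eq, e, pnC]
      by_cases hp : k.Prime <;> by_cases h3 : k % 3 = 1 <;>
        simp [hp, h3, ArithmeticFunction.vonMangoldt_apply_prime, hv]
    have e : ∀ x : ℝ, ∑ k ∈ Finset.Icc 0 ⌊x⌋₊, pnC k = ∑ k ∈ Finset.Icc 1 ⌊x⌋₊, pnC k := fun x => by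
      rw [Finset.Icc_eq_cons_Ioc (Nat.zero_le _), Finset.sum_cons, ← Finset.Icc_add_one_left_eq_Ioc]
      simp [pnC, Nat.not_prime_zero]
    refine tendsto_of_tendsto_of_tendsto_of_le_of_le' tendsto_const_nhds h2 ?_ ?_
    · filter_upwards [eventually_gt_atTop 0] with x hx
      rw [e, ← sub_div, ← Finset.sum_sub_distrib]
      exact div_nonneg (Finset.sum_nonneg fun k _ => (key k).1) hx.le
    · filter_upwards [eventually_gt_atTop 0] with x hx
      rw [e, ← sub_div, ← sub_div, ← Finset.sum_sub_distrib,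
        Chebyshev.psi_sub_theta_eq_sum_not_prime, Finset.sum_filter,
        ← Finset.Icc_add_one_left_eq_Ioc, zero_add]
      exact div_le_div_of_nonneg_right (Finset.sum_le_sum fun k _ => (key k).2) hx.le
  have h4 := h1.sub h3
  norm_num at h4 ⊢
  exact h4

theorem pn_term {x : ℝ} (hx : 1 < x) {k : ℕ} (hk : k ∈ Finset.Icc 0 ⌊x⌋₊) :
    0 ≤ (if k.Prime ∧ k % 3 = 1 then (k : ℝ) ^ (-(1 / 6) : ℝ) else 0) * Real.log x
      - (k : ℝ) ^ (-(1 / 6) : ℝ) * pnC k ∧
    (if k.Prime ∧ k % 3 = 1 then (k : ℝ) ^ (-(1 / 6) : ℝ) else 0) * Real.log x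
      - (k : ℝ) ^ (-(1 / 6) : ℝ) * pnC k ≤ 12 * x ^ (1 / 12 : ℝ) *
        ((if k ∈ Finset.Icc 1 ⌊√x⌋₊ then 1 else 0)
          + 2 / Real.log x * ((k : ℝ) ^ (-(1 / 4) : ℝ) * pnC k)) := by
  have hx0 : 0 < x := by linarith
  have hl := Real.log_pos hx
  have hC := pn_nonneg k
  by_cases hp : k.Prime ∧ k % 3 = 1
  swap
  · rw [if_neg hp, pnC, if_neg hp]
    simp only [zero_mul, mul_zero, sub_zero, le_refl, true_and, add_zero]
    positivity
  have hk0 : (0 : ℝ) < k := by exact_mod_cast hp.1.pos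
  have hk1 : (1 : ℝ) ≤ k := by exact_mod_cast hp.1.pos
  have hkx : (k : ℝ) ≤ x := (Nat.le_floor_iff hx0.le).1 (Finset.mem_Icc.1 hk).2
  rw [if_pos hp, pnC, if_pos hp, ← mul_sub, ← Real.log_div hx0.ne' hk0.ne']
  refine ⟨mul_nonneg (by positivity) (Real.log_nonneg ((one_le_div hk0).2 hkx)), ?_⟩
  have h1 := Real.log_le_rpow_div (x := x / k) (ε := 1 / 12) (by positivity) (by norm_num)
  have h2 : (k : ℝ) ^ (-(1 / 6) : ℝ) * Real.log (x / k)
      ≤ 12 * x ^ (1 / 12 : ℝ) * (k : ℝ) ^ (-(1 / 4) : ℝ) := by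
    refine (mul_le_mul_of_nonneg_left h1 (by positivity)).trans (le_of_eq ?_)
    rw [Real.div_rpow hx0.le hk0.le, show (-(1 / 4) : ℝ) = -(1 / 6) - 1 / 12 by norm_num,
      Real.rpow_sub hk0]
    ring
  refine h2.trans (mul_le_mul_of_nonneg_left ?_ (by positivity))
  have h3 : 0 ≤ Real.log k := Real.log_nonneg hk1
  split_ifs with h4
  · have : (k : ℝ) ^ (-(1 / 4) : ℝ) ≤ 1 := Real.rpow_le_one_of_one_le_of_nonpos hk1 (by norm_num)
    have : 0 ≤ 2 / Real.log x * ((k : ℝ) ^ (-(1 / 4) : ℝ) * Real.log k) := by positivity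
    linarith
  · have h5 : √x < k := by
      by_contra h6
      exact h4 (Finset.mem_Icc.2 ⟨hp.1.pos, Nat.le_floor (not_lt.1 h6)⟩)
    have h6 := Real.log_le_log (Real.sqrt_pos.2 hx0) h5.le
    rw [Real.log_sqrt hx0.le] at h6
    have h7 : 0 < (k : ℝ) ^ (-(1 / 4) : ℝ) := by positivity
    rw [zero_add, div_mul_eq_mul_div, le_div_iff₀ hl]
    nlinarith

theorem pn_B : Tendsto (fun x : ℝ => (∑ k ∈ Finset.Icc 1 ⌊x⌋₊ with k.Prime ∧ k % 3 = 1,
    (k : ℝ) ^ (-(1 / 6) : ℝ)) * Real.log x / x ^ (5 / 6 : ℝ)) atTop (𝓝 (3 / 5)) := by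
  have c0 : pnC 0 = 0 := by simp [pnC, Nat.not_prime_zero]
  have h1 := pn_abel pnC c0 (σ := 1 / 6) (by norm_num) pn_bd pn_theta
  have h2 := pn_abel pnC c0 (σ := 1 / 4) (by norm_num) pn_bd pn_theta
  rw [show (1 - 1 / 6 : ℝ) = 5 / 6 by norm_num, show (1 / 2 / (5 / 6) : ℝ) = 3 / 5 by norm_num] at h1
  rw [show (1 - 1 / 4 : ℝ) = 3 / 4 by norm_num] at h2
  have h3 := ((tendsto_rpow_neg_atTop (y := 1 / 4) (by norm_num)).add
    ((Real.tendsto_log_atTop.const_div_atTop 2).mul h2)).const_mul 12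
  rw [zero_mul, add_zero, mul_zero] at h3
  have h4 : Tendsto (fun x : ℝ => (∑ k ∈ Finset.Icc 1 ⌊x⌋₊ with k.Prime ∧ k % 3 = 1,
      (k : ℝ) ^ (-(1 / 6) : ℝ)) * Real.log x / x ^ (5 / 6 : ℝ)
      - (∑ k ∈ Finset.Icc 0 ⌊x⌋₊, (k : ℝ) ^ (-(1 / 6) : ℝ) * pnC k) / x ^ (5 / 6 : ℝ)) atTop
      (𝓝 0) := by
    have e : ∀ x : ℝ, ∑ k ∈ Finset.Icc 1 ⌊x⌋₊ with k.Prime ∧ k % 3 = 1, (k : ℝ) ^ (-(1 / 6) : ℝ)
        = ∑ k ∈ Finset.Icc 0 ⌊x⌋₊,
          if k.Prime ∧ k % 3 = 1 then (k : ℝ) ^ (-(1 / 6) : ℝ) else 0 := fun x => by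
      rw [Finset.Icc_eq_cons_Ioc (Nat.zero_le _), Finset.sum_cons, ← Finset.Icc_add_one_left_eq_Ioc,
        Finset.sum_filter]
      simp [Nat.not_prime_zero]
    refine tendsto_of_tendsto_of_tendsto_of_le_of_le' tendsto_const_nhds h3 ?_ ?_
    · filter_upwards [eventually_gt_atTop 1] with x hx
      rw [e, ← sub_div, Finset.sum_mul, ← Finset.sum_sub_distrib]
      exact div_nonneg (Finset.sum_nonneg fun k hk => (pn_term hx hk).1) (by positivity)
    · filter_upwards [eventually_gt_atTop 1] with x hx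
      have hx0 : 0 < x := by linarith
      have hl := Real.log_pos hx
      rw [e, ← sub_div, Finset.sum_mul, ← Finset.sum_sub_distrib, div_le_iff₀ (by positivity)]
      refine (Finset.sum_le_sum fun k hk => (pn_term hx hk).2).trans ?_
      rw [← Finset.mul_sum, Finset.sum_add_distrib, ← Finset.mul_sum]
      have h5 : ∑ k ∈ Finset.Icc 0 ⌊x⌋₊, (if k ∈ Finset.Icc 1 ⌊√x⌋₊ then (1 : ℝ) else 0)
          ≤ x ^ (1 / 2 : ℝ) := by
        rw [Finset.sum_ite_mem, Finset.sum_const, nsmul_eq_mul, mul_one, ← Real.sqrt_eq_rpow]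
        refine le_trans ?_ (Nat.floor_le (Real.sqrt_nonneg x))
        exact_mod_cast (Finset.card_le_card Finset.inter_subset_right).trans (by simp)
      refine (mul_le_mul_of_nonneg_left (add_le_add h5 le_rfl) (by positivity)).trans (le_of_eq ?_)
      rw [show (5 / 6 : ℝ) = 1 / 12 + 3 / 4 by norm_num, Real.rpow_add hx0,
        show (1 / 2 : ℝ) = -(1 / 4) + 3 / 4 by norm_num, Real.rpow_add hx0]
      have : 0 < x ^ (3 / 4 : ℝ) := by positivity
      field_simp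
  have h5 := h4.add h1
  rw [zero_add] at h5
  exact h5.congr fun x => sub_add_cancel _ _

theorem pNTK (hb : BA) : PNTK := by
  have h1 : Tendsto (fun x : ℝ => (∑ p ∈ prs x with ¬ (nm p.1).Prime,
      (nm p.1 : ℝ) ^ (-(1 / 6) : ℝ)) * Real.log x / x ^ (5 / 6 : ℝ)) atTop (𝓝 0) := by
    refine tendsto_of_tendsto_of_tendsto_of_le_of_le' tendsto_const_nhds
      (isLittleO_log_rpow_atTop (r := 1 / 3) (by norm_num)).tendsto_div_nhds_zero ?_ ?_
    · filter_upwards [eventually_gt_atTop 1] with x hx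
      have hl := Real.log_pos hx
      positivity
    · filter_upwards [eventually_gt_atTop 1] with x hx
      have hx0 : 0 < x := by linarith
      have hl := Real.log_pos hx
      have h2 : ∑ p ∈ prs x with ¬ (nm p.1).Prime, (nm p.1 : ℝ) ^ (-(1 / 6) : ℝ)
          ≤ x ^ (1 / 2 : ℝ) := by
        rw [← Real.sqrt_eq_rpow]
        refine le_trans ?_ (br_inert hb x)
        rw [Finset.card_eq_sum_ones, Nat.cast_sum]
        refine Finset.sum_le_sum fun p _ => ?_
        rw [Nat.cast_one]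
        exact Real.rpow_le_one_of_one_le_of_nonpos (one_le_nmR p.ne_zero) (by norm_num)
      rw [div_le_iff₀ (by positivity)]
      refine (mul_le_mul_of_nonneg_right h2 hl.le).trans (le_of_eq ?_)
      rw [show (5 / 6 : ℝ) = 1 / 2 + 1 / 3 by norm_num, Real.rpow_add hx0]
      field_simp
  have h2 := ((pn_B.const_mul 2).add h1).const_mul (5 / 6)
  rw [show (5 / 6 * (2 * (3 / 5) + 0) : ℝ) = 1 by norm_num] at h2
  refine isEquivalent_of_tendsto_one (h2.congr' ?_)
  filter_upwards [eventually_gt_atTop 1] with x hx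
  have hx0 : 0 < x := by linarith
  have hl := Real.log_pos hx
  have e : ∑ l ∈ Finset.Icc 1 ⌊x⌋₊ with l.Prime ∧ l % 3 = 1,
      ((nm (brSp l).1 : ℝ) ^ (-(1 / 6) : ℝ) + (nm (brSp l).bar.1 : ℝ) ^ (-(1 / 6) : ℝ))
      = 2 * ∑ l ∈ Finset.Icc 1 ⌊x⌋₊ with l.Prime ∧ l % 3 = 1, (l : ℝ) ^ (-(1 / 6) : ℝ) := by
    rw [Finset.mul_sum]
    refine Finset.sum_congr rfl fun l hl => ?_
    obtain ⟨-, h3, h4⟩ := Finset.mem_filter.1 hl
    rw [br_nm_bar, br_sp h3 h4, two_mul]
  rw [Pi.div_apply, br_split hb x fun p => (nm p.1 : ℝ) ^ (-(1 / 6) : ℝ), e]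
  have : 0 < x ^ (5 / 6 : ℝ) := by positivity
  field_simp

end Pat
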