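import Vale.Agent.P006.IfA
import Vale.Agent.P026.FtD
import Vale.Agent.P026.Wt
import Vale.Agent.P026.Gauss

/-! Smooth character sums over primary elements (P006). -/

noncomputable section
namespace Pat
open QRH Complex MeasureTheory Filter
open scoped ComplexConjugate Classical ContDiff Topology

/-- The radial profile. -/
def PVf (φ : ℝ → ℂ) (a : ℝ) (z : ℂ) : ℂ := if z = 0 then 0 else φ (Real.log (‖z‖ ^ 2) + a)

theorem PV_cs {n : ℕ} {φ : ℝ → ℂ} {D : ℝ} (h : BD n φ D) : HasCompactSupport φ :=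
  HasCompactSupport.intro (isCompact_Icc (a := (-3 : ℝ)) (b := 3)) fun v hv => by
    by_contra h0
    exact hv (h.supp v h0)

theorem PV_D {n : ℕ} {φ : ℝ → ℂ} {D : ℝ} (h : BD n φ D) (v : ℝ) : ‖φ v‖ ≤ D := by
  simpa using h.bd 0 (Nat.zero_le _) v

theorem PV_supp {n : ℕ} {φ : ℝ → ℂ} {D : ℝ} (h : BD n φ D) {z : ℂ} (hz : PVf φ 3 z ≠ 0) :
    ‖z‖ ≤ 1 := by
  unfold PVf at hz
  split_ifs at hz with h0
  · exact absurd rfl hz
  have h1 := (h.supp _ hz).2
  have h2 : Real.log (‖z‖ ^ 2) ≤ 0 := by linarith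
  have h3 := (Real.log_nonpos_iff (by positivity)).1 h2
  nlinarith [norm_nonneg z]

theorem PV_cont {z : ℂ} (hz : z ≠ 0) :
    ContinuousAt (fun w : ℂ => |Real.log (‖w‖ ^ 2) + 3|) z := by
  have h : ‖z‖ ^ 2 ≠ 0 := by positivity
  exact (((continuous_norm.pow 2).continuousAt.log h).add continuousAt_const).abs

theorem PV_db (hb : BA) : ∃ C : ℝ, 0 < C ∧ ∀ (φ : ℝ → ℂ) (D : ℝ), BD 3 φ D →
    DB 3 (PVf φ 3) (C * D) := by
  let χ : ContDiffBump (0 : ℝ) := ⟨4, 5, by norm_num, by norm_num⟩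
  have hψ : ContDiff ℝ ∞ fun v : ℝ => ((χ v * v : ℝ) : ℂ) :=
    ofRealCLM.contDiff.comp (χ.contDiff.mul contDiff_id)
  have hψ0 : ∀ v : ℝ, χ v ≠ 0 → |v| < 5 := by
    intro v hv
    have : v ∈ Function.support χ := hv
    rw [χ.support_eq, Metric.mem_ball, Real.dist_eq, sub_zero] at this
    exact this
  have hψc : HasCompactSupport fun v : ℝ => ((χ v * v : ℝ) : ℂ) :=
    HasCompactSupport.intro (isCompact_Icc (a := (-5 : ℝ)) (b := 5)) fun v hv => by
      by_contra h0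
      have := abs_lt.1 (hψ0 v (left_ne_zero_of_mul (ofReal_ne_zero.1 h0)))
      exact hv ⟨this.1.le, this.2.le⟩
  have hg0 : ContDiff ℝ ∞ (PVf (fun v : ℝ => ((χ v * v : ℝ) : ℂ)) 3) := hb.rad_smooth _ 3 hψ hψc
  set g : ℂ → ℝ := fun z => (PVf (fun v : ℝ => ((χ v * v : ℝ) : ℂ)) 3 z).re with hgd
  have hg : ContDiff ℝ ∞ g := reCLM.contDiff.comp hg0
  have hgs : ∀ z, g z ≠ 0 → ‖z‖ ≤ 3 := by
    intro z hz
    simp only [hgd, PVf] at hz
    split_ifs at hz with h0
    · simp at hz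
    rw [ofReal_re] at hz
    have h1 := (abs_lt.1 (hψ0 _ (left_ne_zero_of_mul hz))).2
    have h2 : Real.log (‖z‖ ^ 2) < 2 := by linarith
    rw [Real.log_lt_iff_lt_exp (by positivity)] at h2
    have h3 : Real.exp 2 = Real.exp 1 ^ 2 := by rw [← Real.exp_nat_mul]; norm_num
    have h4 := Real.exp_one_lt_d9
    have h5 := Real.exp_pos 1
    nlinarith [norm_nonneg z]
  obtain ⟨W, hW, h2⟩ := wt_bound hg hgs 3
  refine ⟨6 * W ^ 3, by positivity, fun φ D hφ j hj z => ?_⟩
  have hD : 0 ≤ D := (norm_nonneg _).trans (PV_D hφ 0)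
  by_cases hz : z ≠ 0 ∧ |Real.log (‖z‖ ^ 2) + 3| < 4
  · have he : PVf φ 3 =ᶠ[𝓝 z] φ ∘ g := by
      filter_upwards [isOpen_ne.mem_nhds hz.1, (PV_cont hz.1).eventually_lt continuousAt_const hz.2]
        with w hw0 hw
      have h1 : χ (Real.log (‖w‖ ^ 2) + 3) = 1 := χ.one_of_mem_closedBall (by
        rw [Metric.mem_closedBall, Real.dist_eq, sub_zero]
        exact hw.le)
      simp only [Function.comp_apply, hgd, PVf, if_neg hw0, ofReal_re, h1, one_mul]
    rw [(he.iteratedFDeriv ℝ j).eq_of_nhds]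
    refine (norm_iteratedFDeriv_comp_le hφ.smooth hg (by exact_mod_cast le_top) z
      (C := D) (D := W) (fun i hi => ?_) fun i h hi =>
        (h2 i (hi.trans hj) z).trans (le_self_pow₀ hW (by omega))).trans ?_
    · rw [norm_iteratedFDeriv_eq_norm_iteratedDeriv]
      exact hφ.bd i (hi.trans hj) _
    · have h3 : (j.factorial : ℝ) ≤ 6 := by
        exact_mod_cast (Nat.factorial_le hj).trans (by norm_num [Nat.factorial])
      calc _ ≤ 6 * D * W ^ 3 := by gcongr
        _ = _ := by ring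
  · have he : PVf φ 3 =ᶠ[𝓝 z] fun _ => 0 := by
      by_cases h0 : z = 0
      · subst h0
        filter_upwards [Metric.ball_mem_nhds (0 : ℂ) (Real.exp_pos (-3))] with w hw
        rw [mem_ball_zero_iff] at hw
        unfold PVf
        split_ifs with hw0
        · rfl
        by_contra h1
        have h3 := (hφ.supp _ h1).1
        have h4 : 0 < ‖w‖ := norm_pos_iff.2 hw0
        have h5 := Real.log_lt_log h4 hw
        rw [Real.log_exp] at h5
        rw [Real.log_pow] at h3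
        push_cast at h3
        linarith
      · have h1 : 3 < |Real.log (‖z‖ ^ 2) + 3| := by
          by_contra h1
          exact hz ⟨h0, by linarith [not_lt.1 h1]⟩
        filter_upwards [continuousAt_const.eventually_lt (PV_cont h0) h1] with w hw
        unfold PVf
        split_ifs with hw0
        · rfl
        by_contra h3
        exact absurd (abs_le.2 (hφ.supp _ h3)) (not_le.2 hw)
    rw [(he.iteratedFDeriv ℝ j).eq_of_nhds, iteratedFDeriv_fun_zero]
    simp only [Pi.zero_apply, norm_zero]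
    positivity

theorem PV_ft0 (hb : BA) (φ : ℝ → ℂ) {L : ℝ} (hL : 0 < L) :
    ft (PVf φ (-Real.log L)) 0
      = ((2 / √3 * Real.pi * L : ℝ) : ℂ) * ∫ v : ℝ, φ v * (Real.exp v : ℝ) := by
  have h1 : ∀ z : ℂ, PVf φ (-Real.log L) z * psi (-(z * 0))
      = (fun y : ℝ => if y = 0 then 0 else φ (Real.log y + -Real.log L)) (‖z‖ ^ 2) := by
    intro z
    simp only [mul_zero, neg_zero, psi_zero, mul_one, PVf, pow_eq_zero_iff two_ne_zero,
      norm_eq_zero]
  unfold ft
  simp only [h1]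
  rw [hb.polar (fun y : ℝ => if y = 0 then 0 else φ (Real.log y + -Real.log L)), hb.polar_log,
    ← integral_add_right_eq_self _ (Real.log L)]
  have h2 : ∀ v : ℝ, (if Real.exp (v + Real.log L) = 0 then 0
        else φ (Real.log (Real.exp (v + Real.log L)) + -Real.log L))
      * ((Real.exp (v + Real.log L) : ℝ) : ℂ) = (L : ℂ) * (φ v * (Real.exp v : ℝ)) := by
    intro v
    rw [if_neg (Real.exp_pos _).ne', Real.log_exp, add_neg_cancel_right, Real.exp_add,
      Real.exp_log hL]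
    push_cast
    ring
  simp only [h2]
  rw [integral_const_mul]
  push_cast
  ring

theorem PV_scale (φ : ℝ → ℂ) {L : ℝ} (hL : 0 < L) :
    PVf φ (-Real.log L) = fun z => PVf φ 3 (z / ((√(L * Real.exp 3) : ℝ) : ℂ)) := by
  funext z
  have h0 : 0 < L * Real.exp 3 := by positivity
  have h1 : 0 < √(L * Real.exp 3) := Real.sqrt_pos.2 h0
  unfold PVf
  by_cases hz : z = 0
  · simp [hz]
  have h2 : z / ((√(L * Real.exp 3) : ℝ) : ℂ) ≠ 0 := div_ne_zero hz (ofReal_ne_zero.2 h1.ne')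
  have h3 : 0 < ‖z‖ := norm_pos_iff.2 hz
  rw [if_neg hz, if_neg h2, norm_div, norm_real, Real.norm_of_nonneg h1.le, div_pow,
    Real.sq_sqrt h0.le, Real.log_div (by positivity) h0.ne', Real.log_mul hL.ne' (by positivity),
    Real.log_exp]
  congr 1
  ring

/-- Poisson summation for one periodic function supported on primary elements. -/
theorem PV_core (hb : BA) (h : PS1) : ∃ C : ℝ, 0 < C ∧
    ∀ (φ : ℝ → ℂ) (D L R B : ℝ) (q : E) (ρ : E → ℂ), BD 3 φ D → 0 < L →
      (∀ v, φ v ≠ 0 → L * Real.exp v ≤ R) → q ≠ 0 → Per q ρ → (∀ x, ¬ Pm x → ρ x = 0) →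
      (∀ ξ, ‖rsum q fun y => ρ y * psf (y * ξ) q‖ ≤ B) →
      ‖∑ c ∈ pball R, ρ c * φ (Real.log (nm c / L)) - (nm q : ℂ)⁻¹ * rsum q ρ *
        (((2 / √3 * Real.pi * L : ℝ) : ℂ) * ∫ v : ℝ, φ v * (Real.exp v : ℝ))‖ ≤ C * D * B := by
  obtain ⟨C1, hC1, h1⟩ := PV_db hb
  obtain ⟨C2, hC2, h2⟩ := ft_le 3
  obtain ⟨C3, hC3, h3⟩ := lattice_decay (σ := 3) (by norm_num)
  refine ⟨C2 * C1 * C3, by positivity, fun φ D L R B q ρ hφ hL hR hq hρ hρ0 hB => ?_⟩
  have hD : 0 ≤ D := (norm_nonneg _).trans (PV_D hφ 0)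
  have hB0 : 0 ≤ B := (norm_nonneg _).trans (hB 0)
  set s : ℝ := √(L * Real.exp 3) with hs
  have hs0 : 0 < s := Real.sqrt_pos.2 (by positivity)
  have hsC : (s : ℂ) ≠ 0 := ofReal_ne_zero.2 hs0.ne'
  have hsn : ‖(s : ℂ)‖ = s := by rw [norm_real, Real.norm_of_nonneg hs0.le]
  have hF0 : ContDiff ℝ ∞ (PVf φ 3) := hb.rad_smooth φ 3 hφ.smooth (PV_cs hφ)
  have hF : ContDiff ℝ ∞ (PVf φ (-Real.log L)) := hb.rad_smooth φ _ hφ.smooth (PV_cs hφ)
  have hft : ∀ η, ‖ft (PVf φ (-Real.log L)) η‖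
      ≤ s ^ 2 * (C2 * (C1 * D)) * (1 + ‖(s : ℂ) * η‖) ^ (-3 : ℝ) := by
    intro η
    rw [PV_scale φ hL, ← hs, ft_scale _ hsC, norm_mul, norm_real, hsn,
      Real.norm_of_nonneg (by positivity), mul_assoc]
    refine mul_le_mul_of_nonneg_left ?_ (by positivity)
    have := h2 _ _ hF0 (fun z hz => (PV_supp hφ hz).trans (by norm_num)) (h1 φ D hφ) ((s : ℂ) * η)
    simpa using this
  have hf0 : ∀ z, ‖PVf φ 3 z‖ ≤ 8 * D * (1 + ‖z‖) ^ (-3 : ℝ) := by
    intro z
    by_cases hz : PVf φ 3 z = 0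
    · rw [hz, norm_zero]
      positivity
    have h4 := PV_supp hφ hz
    have h5 : ‖PVf φ 3 z‖ ≤ D := by
      unfold PVf
      split_ifs
      · simpa using hD
      · exact PV_D hφ _
    have h6 : (2 : ℝ) ^ (-3 : ℝ) ≤ (1 + ‖z‖) ^ (-3 : ℝ) :=
      Real.rpow_le_rpow_of_nonpos (by positivity) (by linarith) (by norm_num)
    have h7 : (2 : ℝ) ^ (-3 : ℝ) = 1 / 8 := by
      rw [Real.rpow_neg (by norm_num), show (3 : ℝ) = (3 : ℕ) by norm_num, Real.rpow_natCast]
      norm_num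
    rw [h7] at h6
    linarith [mul_le_mul_of_nonneg_left h6 hD]
  obtain ⟨A1, hA1, ha1⟩ := decay_affine (inv_ne_zero hsC) 0 (σ := 3) (by norm_num)
  obtain ⟨A2, hA2, ha2⟩ := decay_affine hsC 0 (σ := 3) (by norm_num)
  have hP := h q ρ (PVf φ (-Real.log L)) (8 * D * A1 + s ^ 2 * (C2 * (C1 * D)) * A2) hq hρ
    hF.continuous (fun z => by
      have h4 := ha1 z
      rw [add_zero, mul_comm, ← div_eq_mul_inv] at h4
      have h5 : 0 ≤ (1 + ‖z‖) ^ (-3 : ℝ) := by positivity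
      rw [PV_scale φ hL, ← hs]
      refine (hf0 _).trans ?_
      calc _ ≤ 8 * D * (A1 * (1 + ‖z‖) ^ (-3 : ℝ)) := by gcongr
        _ ≤ _ := by
          rw [← mul_assoc]
          exact mul_le_mul_of_nonneg_right (le_add_of_nonneg_right (by positivity)) h5)
    (fun z => by
      have h4 := ha2 z
      rw [add_zero] at h4
      have h5 : 0 ≤ (1 + ‖z‖) ^ (-3 : ℝ) := by positivity
      refine (hft z).trans ?_
      calc _ ≤ s ^ 2 * (C2 * (C1 * D)) * (A2 * (1 + ‖z‖) ^ (-3 : ℝ)) := by gcongr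
        _ ≤ _ := by
          rw [← mul_assoc]
          exact mul_le_mul_of_nonneg_right (le_add_of_nonneg_left (by positivity)) h5)
  have hval : ∀ c : E, Pm c → PVf φ (-Real.log L) (toC c) = φ (Real.log (nm c / L)) := by
    intro c hc
    have hc0 : c ≠ 0 := primary_ne_zero hc
    rw [PVf, if_neg (toC_ne_zero hc0), ← QRH.nm_eq,
      Real.log_div (zero_lt_one.trans_le (one_le_nmR hc0)).ne' hL.ne', sub_eq_add_neg]
  have hsum : ∑' x : E, ρ x * PVf φ (-Real.log L) (toC x)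
      = ∑ c ∈ pball R, ρ c * φ (Real.log (nm c / L)) := by
    rw [tsum_eq_sum (s := pball R)]
    · exact Finset.sum_congr rfl fun c hc => by rw [hval c ((hb.mem_pball R c).1 hc).1]
    · intro c hc
      by_contra h0
      have hc1 : Pm c := by
        by_contra h4
        exact left_ne_zero_of_mul h0 (hρ0 c h4)
      have h4 := hR _ (by
        have := right_ne_zero_of_mul h0
        rwa [hval c hc1] at this)
      have h5 : (0 : ℝ) < nm c := zero_lt_one.trans_le (one_le_nmR (primary_ne_zero hc1))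
      rw [Real.exp_log (by positivity), mul_div_cancel₀ _ hL.ne'] at h4
      exact hc ((hb.mem_pball R c).2 ⟨hc1, h4⟩)
  have hqn : 0 < ‖toC q‖ := norm_pos_iff.2 (toC_ne_zero hq)
  obtain ⟨hS, hS1⟩ := h3 (‖toC q‖ / s) (by positivity)
  set K : ℝ := B * (s ^ 2 * (C2 * (C1 * D))) with hK
  have hK0 : 0 ≤ K := by positivity
  set Gf : E → ℂ := fun ξ => rsum q (fun y => ρ y * psf (y * ξ) q)
    * ft (PVf φ (-Real.log L)) (toC ξ / toC q) with hGf
  have hG : ∀ ξ, ‖Gf ξ‖ ≤ K * (1 + ‖toC ξ‖ / (‖toC q‖ / s)) ^ (-3 : ℝ) := by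
    intro ξ
    rw [hGf, norm_mul, hK, mul_assoc]
    refine mul_le_mul (hB ξ) ((hft _).trans (le_of_eq ?_)) (norm_nonneg _) hB0
    rw [norm_mul, norm_div, hsn]
    congr 3
    field_simp
  have hGs : Summable Gf := Summable.of_norm_bounded (hS.mul_left K) hG
  have hG0 : Gf 0 = rsum q ρ *
      (((2 / √3 * Real.pi * L : ℝ) : ℂ) * ∫ v : ℝ, φ v * (Real.exp v : ℝ)) := by
    simp only [hGf, mul_zero, psf_zero, mul_one, map_zero, zero_div]
    rw [PV_ft0 hb φ hL]
  rw [← hsum, hP, hGs.tsum_eq_add_tsum_ite 0, hG0, mul_add, ← mul_assoc, add_sub_cancel_left,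
    norm_mul, norm_inv, Complex.norm_natCast, QRH.nm_eq]
  have h4 := (hS.mul_left K).tsum_eq_add_tsum_ite 0
  rw [tsum_mul_left] at h4
  simp only [map_zero, norm_zero, zero_div, add_zero, Real.one_rpow, mul_one] at h4
  have h5 : ‖∑' ξ : E, if ξ = 0 then 0 else Gf ξ‖ ≤
      ∑' ξ : E, if ξ = 0 then 0 else K * (1 + ‖toC ξ‖ / (‖toC q‖ / s)) ^ (-3 : ℝ) := by
    refine tsum_of_norm_bounded (Summable.hasSum ?_) fun ξ => ?_
    · refine Summable.of_nonneg_of_le (fun ξ => ?_) (fun ξ => ?_) (hS.mul_left K)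
      · split_ifs
        · rfl
        · positivity
      · split_ifs
        · positivity
        · rfl
    · split_ifs
      · simp
      · exact hG ξ
  have h6 : ‖∑' ξ : E, if ξ = 0 then 0 else Gf ξ‖ ≤ K * (C3 * (‖toC q‖ / s) ^ 2) := by
    have := mul_le_mul_of_nonneg_left hS1 hK0
    linarith
  refine (mul_le_mul_of_nonneg_left h6 (by positivity)).trans (le_of_eq ?_)
  rw [hK]
  field_simp

/-- Removing a coprimality condition. -/
theorem PV_mob (hb : BA) (R : ℝ) (G : Finset P) (g : E → ℂ) :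
    ∑ c ∈ pball R, (if Disjoint (fac c) G then g c else 0)
      = ∑ f ∈ G.powerset, mu f * ∑ n ∈ pball (R / Ns f), g (pr f * n) := by
  have h1 : ∀ c ∈ pball R, (if Disjoint (fac c) G then g c else 0)
      = ∑ f ∈ G.powerset, mu f * if pr f ∣ c then g c else 0 := by
    intro c hc
    have hc0 : c ≠ 0 := primary_ne_zero ((hb.mem_pball R c).1 hc).1
    have h2 : Disjoint (fac c) G ↔ ∀ p ∈ G, ¬ p.1 ∣ c := by
      rw [Finset.disjoint_right]
      exact forall₂_congr fun p _ => not_congr (mem_fac hc0)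
    have h3 := congrArg (· * g c) (sum_mu_dvd G c)
    simp only [Finset.sum_mul, ite_mul, zero_mul, one_mul] at h3
    simp only [h2, mul_ite, mul_zero]
    exact h3.symm
  rw [Finset.sum_congr rfl h1, Finset.sum_comm]
  refine Finset.sum_congr rfl fun f _ => ?_
  rw [← Finset.mul_sum, hb.sum_dvd R (pr f) g (pr_primary f)]
  rfl

theorem PV_log (f : Finset P) (n : E) (L : ℝ) :
    ((nm (pr f * n) : ℝ) / L) = nm n / (L / Ns f) := by
  have := (Ns_pos f).ne'
  rw [nm_mul, Nat.cast_mul, show (nm (pr f) : ℝ) = Ns f from rfl, div_div_eq_mul_div, mul_comm]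

theorem PV_R {φ : ℝ → ℂ} {L R : ℝ} (hR : ∀ v, φ v ≠ 0 → L * Real.exp v ≤ R) (f : Finset P) :
    ∀ v, φ v ≠ 0 → L / Ns f * Real.exp v ≤ R / Ns f := fun v hv => by
  rw [div_mul_eq_mul_div]
  exact div_le_div_of_nonneg_right (hR v hv) (Ns_pos f).le

theorem PV_nm3 : nm 3 = 9 := by simpa using nm_natCast 3

theorem PV_three : (3 : E) ≠ 0 := fun h => by
  have := PV_nm3
  rw [h, nm_zero] at this
  omega

theorem PV_per3 : Per 3 fun c => if Pm c then (1 : ℂ) else 0 := fun x y hxy => by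
  have : Pm x ↔ Pm y := by
    unfold Pm
    constructor
    · intro h
      simpa using dvd_sub h hxy
    · intro h
      simpa using dvd_add h hxy
  simp only [this]

theorem PV_sum_mu (G : Finset P) :
    ∑ f ∈ G.powerset, mu f * ((Ns f : ℝ) : ℂ)⁻¹ = ((∏ p ∈ G, (1 - (nm p.1 : ℝ)⁻¹) : ℝ) : ℂ) := by
  push_cast
  simp only [sub_eq_add_neg]
  rw [Finset.prod_one_add]
  refine Finset.sum_congr rfl fun f _ => ?_
  rw [Finset.prod_neg, Ns_eq_prod, mu]
  push_cast
  rw [Finset.prod_inv_distrib]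

theorem pVu0 (hb : BA) (h : PS1) : PVu0 := by
  obtain ⟨C, hC, h1⟩ := PV_core hb h
  refine ⟨3, C * 9, by positivity, fun φ D L R G hφ hL hR => ?_⟩
  have hr : rsum 3 (fun c => if Pm c then (1 : ℂ) else 0) = 1 := by
    rw [rsum_single PV_three PV_per3 1 fun x hx => if_neg hx, if_pos (by simp [Pm])]
  have h2 : ((rho * L * ∏ p ∈ G, (1 - (nm p.1 : ℝ)⁻¹) : ℝ) : ℂ) * ∫ v : ℝ, φ v * (Real.exp v : ℝ)
      = ∑ f ∈ G.powerset, mu f * ((nm 3 : ℂ)⁻¹ * rsum 3 (fun c => if Pm c then (1 : ℂ) else 0) *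
        (((2 / √3 * Real.pi * (L / Ns f) : ℝ) : ℂ) * ∫ v : ℝ, φ v * (Real.exp v : ℝ))) := by
    rw [ofReal_mul, ← PV_sum_mu, Finset.mul_sum, Finset.sum_mul]
    refine Finset.sum_congr rfl fun f _ => ?_
    rw [hr, PV_nm3, rho]
    push_cast
    ring
  rw [PV_mob hb, h2, ← Finset.sum_sub_distrib]
  refine (norm_sum_le_of_le _ (n := fun _ => C * D * 9) fun f _ => ?_).trans (le_of_eq ?_)
  · rw [← mul_sub, norm_mul, norm_mu, one_mul]
    have h3 := h1 φ D (L / Ns f) (R / Ns f) 9 3 (fun c => if Pm c then (1 : ℂ) else 0) hφ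
      (div_pos hL (Ns_pos f)) (PV_R hR f) PV_three PV_per3 (fun x hx => if_neg hx) fun ξ => by
        refine (norm_rsum_le PV_three (M := 1) fun x => ?_).trans (by rw [PV_nm3]; norm_num)
        rw [norm_mul, norm_psf]
        split_ifs <;> simp
    rwa [Finset.sum_congr rfl fun c hc => by
      rw [if_pos ((hb.mem_pball _ c).1 hc).1, one_mul, ← PV_log]] at h3
  · rw [Finset.sum_const, Finset.card_powerset, nsmul_eq_mul]
    push_cast
    ring

/-- The mixed family of characters. -/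
def PVc (S : Finset P) (p : P) (x : E) : ℂ := if p ∈ S then c3 p x else conj (c3 p x)

theorem PVc_nt (S : Finset P) (p : P) : Mc p (PVc S p) ∧ Nt p (PVc S p) := by
  by_cases hp : p ∈ S
  · have : PVc S p = c3 p := funext fun x => if_pos hp
    rw [this]
    exact ⟨c3_mc p, c3_nt p⟩
  · have : PVc S p = fun x => conj (c3 p x) := funext fun x => if_neg hp
    rw [this]
    exact ⟨(c3_mc p).conj, (c3_nt p).conj⟩

theorem PVc_ch (S : Finset P) : Ch (PVc S) := ⟨fun p => (PVc_nt S p).1, fun p _ => (PVc_nt S p).2⟩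

theorem PVc_xs {S T : Finset P} (h : Disjoint S T) (c : E) :
    xs (PVc S) (S ∪ T) c = xs c3 S c * conj (xs c3 T c) := by
  rw [xs_union h, xs, xs, xs, xs, map_prod]
  congr 1
  · exact Finset.prod_congr rfl fun p hp => if_pos hp
  · exact Finset.prod_congr rfl fun p hp => if_neg (Finset.disjoint_right.1 h hp)

theorem PV_nm9 : nm 9 = 81 := by simpa using nm_natCast 9

theorem PV_nine : (9 : E) ≠ 0 := fun h => by
  have := PV_nm9
  rw [h, nm_zero] at this
  omega

theorem PV_cop9 {c : E} (hc : Pm c) : IsCoprime c 9 := by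
  have := (isCoprime_three.2 (not_lam_dvd_of_primary hc)).pow_right (n := 2)
  norm_num at this
  exact this

/-- The size of the Fourier coefficients. -/
theorem PV_coef {A : E → ℂ} (hA : Per 9 A) (hA1 : ∀ x, ‖A x‖ ≤ 1) (S T : Finset P) (ξ : E) :
    ‖rsum (9 * pr T) fun y => A y * xs (PVc S) T y * psf (y * ξ) (9 * pr T)‖ ≤ 81 * √(Ns T) := by
  have hc : IsCoprime (pr T) 9 := PV_cop9 (pr_primary T)
  have h1 : ∀ y, A y * xs (PVc S) T y * psf (y * ξ) (9 * pr T)
      = (A y * psf (y * (ξ * inv 9 (pr T))) 9)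
        * (xs (PVc S) T y * psf (y * (ξ * inv (pr T) 9)) (pr T)) := by
    intro y
    rw [psf_crt PV_nine (pr_ne_zero T) hc.symm (inv_spec hc.symm) (inv_spec hc), mul_assoc y,
      mul_assoc y]
    ring
  simp only [h1]
  rw [rsum_crt PV_nine (pr_ne_zero T) hc.symm (hA.mul (per_psf _ _))
    ((xs_per (PVc_ch S) T).mul (per_psf _ _)), gs_twist (PVc_ch S) fun p _ => (PVc_nt S p).2,
    norm_mul, norm_mul, norm_gs (PVc_ch S) fun p _ => (PVc_nt S p).2, norm_toC, RCLike.norm_conj]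
  refine mul_le_mul ((norm_rsum_le PV_nine (M := 1) fun x => ?_).trans ?_)
    (mul_le_of_le_one_left (by positivity) (norm_xs_le (PVc_ch S) _ _)) (by positivity)
    (by norm_num)
  · rw [norm_mul, norm_psf, mul_one]
    exact hA1 x
  · rw [PV_nm9]
    norm_num

theorem pVu1 (hb : BA) (h : PS1) : PVu1 := by
  obtain ⟨C, hC, h1⟩ := PV_core hb h
  refine ⟨3, C * 81, by positivity, fun φ D L R G z hφ hL hR hz hcube => ?_⟩
  have hD : 0 ≤ D := (norm_nonneg _).trans (PV_D hφ 0)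
  obtain ⟨i, -, hi⟩ := hb.char_dec z hz
  obtain ⟨c0, hc0, hc1, hc2⟩ := hb.char_nt z hz hcube
  set T := cf1 z ∪ cf2 z with hT
  set u : E := om ^ i * lam ^ vp lam z with hu
  have hu0 : u ≠ 0 := mul_ne_zero (pow_ne_zero _ isUnit_om.ne_zero) (pow_ne_zero _ lam_prime.ne_zero)
  have hfu : fac u = ∅ := by
    refine Finset.eq_empty_of_forall_notMem fun p hp => ?_
    rcases p.2.1.dvd_or_dvd ((mem_fac hu0).1 hp) with h2 | h2
    · exact p.not_dvd_unit isUnit_om (p.2.1.dvd_of_dvd_pow h2)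
    · exact p.not_dvd_lam (p.2.1.dvd_of_dvd_pow h2)
  set A : E → ℂ := fun c => if Pm c then xv c3 c u else 0 with hA
  have hAp : Per 9 A := by
    have := hb.char_per u hu0
    rwa [hfu, pr_empty, mul_one] at this
  have hA1 : ∀ x, ‖A x‖ ≤ 1 := fun x => by
    simp only [hA]
    split_ifs
    · exact norm_xv_le ch_c3 _ _
    · simp
  set ρ : E → ℂ := fun c => A c * xs (PVc (cf1 z)) T c with hρ
  have hρ1 : ∀ x, ‖ρ x‖ ≤ 1 := fun x => by
    rw [hρ, norm_mul]
    exact mul_le_one₀ (hA1 x) (norm_nonneg _) (norm_xs_le (PVc_ch _) _ _)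
  have hρ0 : ∀ x, ¬ Pm x → ρ x = 0 := fun x hx => by simp only [hρ, hA, if_neg hx, zero_mul]
  have hdec : ∀ c, Pm c → xv c3 c z = if Disjoint (fac c) (fac z) then ρ c else 0 := by
    intro c hc
    rw [hi c hc]
    simp only [hρ, hA, if_pos hc, hT, PVc_xs (hb.cf_disj z), hu, xv_mul ch_c3, xv_pow ch_c3,
      mul_assoc]
  have hmul : ∀ c x, Pm c → ρ (c * x) = ρ c * ρ x := by
    intro c x hc
    by_cases hx : Pm x
    · have hcx : Pm (c * x) := primary_mul hc hx
      simp only [hρ, hA, if_pos hc, if_pos hx, if_pos hcx, xs_mul (PVc_ch _),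
        xv_mul_left (primary_ne_zero hc) (primary_ne_zero hx)]
      ring
    · rw [hρ0 x hx, hρ0 _ fun h2 => hx (primary_of_mul hc h2), mul_zero]
  have hq : 9 * pr T ≠ 0 := mul_ne_zero PV_nine (pr_ne_zero T)
  have hper : Per (9 * pr T) ρ :=
    (hAp.mono (dvd_mul_right _ _)).mul ((xs_per (PVc_ch _) T).mono (dvd_mul_left _ _))
  have hmean : rsum (9 * pr T) ρ = 0 := by
    have h2 : xv c3 c0 z = ρ c0 := by
      have := hdec c0 hc0
      split_ifs at this
      · exact this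
      · exact absurd this hc1
    rw [h2] at hc1 hc2
    have h3 : IsCoprime c0 (9 * pr T) := (PV_cop9 hc0).mul_right (coprime_pr_iff.2 fun p hp h4 =>
      right_ne_zero_of_mul hc1 ((xs_eq_zero_iff (PVc_ch _)).2 ⟨p, hp, h4⟩))
    have h4 := rsum_mul_unit hq hper h3
    simp only [hmul c0 _ hc0] at h4
    rw [rsum_mul_left] at h4
    have h5 : (ρ c0 - 1) * rsum (9 * pr T) ρ = 0 := by rw [sub_mul, h4, one_mul, sub_self]
    exact (mul_eq_zero.1 h5).resolve_left (sub_ne_zero.2 hc2)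
  have h2 : ∑ c ∈ pball R, (if Disjoint (fac c) G then xv c3 c z * φ (Real.log (nm c / L)) else 0)
      = ∑ c ∈ pball R,
        if Disjoint (fac c) (G ∪ fac z) then ρ c * φ (Real.log (nm c / L)) else 0 := by
    refine Finset.sum_congr rfl fun c hc => ?_
    rw [hdec c ((hb.mem_pball _ c).1 hc).1]
    simp only [Finset.disjoint_union_right, ite_and, ite_mul, zero_mul]
  have hTz : √(Ns T) ≤ √(Ns (fac z)) := Real.sqrt_le_sqrt (Ns_mono (Finset.union_subset
    (Finset.filter_subset _ _) (Finset.filter_subset _ _)))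
  rw [h2, PV_mob hb]
  refine (norm_sum_le_of_le _ (n := fun _ => C * D * (81 * √(Ns (fac z)))) fun f _ => ?_).trans
    (le_of_eq ?_)
  · have h3 := h1 φ D (L / Ns f) (R / Ns f) (81 * √(Ns (fac z))) _ ρ hφ
      (div_pos hL (Ns_pos f)) (PV_R hR f) hq hper hρ0 fun ξ =>
        (PV_coef hAp hA1 _ T ξ).trans (by gcongr)
    rw [hmean, mul_zero, zero_mul, sub_zero] at h3
    simp only [hmul _ _ (pr_primary f), PV_log, mul_assoc]
    rw [← Finset.mul_sum, norm_mul, norm_mul, norm_mu, one_mul]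
    refine (mul_le_of_le_one_left (norm_nonneg _) (hρ1 _)).trans (h3.trans (le_of_eq ?_))
    ring
  · rw [Finset.sum_const, Finset.card_powerset, nsmul_eq_mul]
    push_cast
    ring

end Pat
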