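import Vale.Agent.P006.IfB
import Vale.Agent.P026.FtD
import Vale.Agent.P026.Sym

/-! P006: Poisson summation for one pair. -/

noncomputable section
namespace Pat
open QRH Complex MeasureTheory Filter
open scoped ComplexConjugate Classical ContDiff Topology

theorem poiP_zero (hb : BA) : Om 0 = 0 := by
  unfold Om
  refine (integral_congr_ae (Eventually.of_forall fun v => ?_)).trans (integral_zero _ _)
  by_contra h
  have h1 := (hb.bt_supp v (left_ne_zero_of_mul h)).1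
  have h2 := (hb.om0_supp _ (right_ne_zero_of_mul h)).1
  linarith

theorem poiP_unit (hb : BA) {T v : ℝ} (hT : 1 ≤ T) (h : Om (T * v) ≠ 0) : 0 ≤ v ∧ v ≤ 1 := by
  obtain ⟨h1, h2⟩ := hb.Om_bump.supp (T * v) (Complex.ofReal_ne_zero.2 h)
  have h3 : 0 ≤ v := nonneg_of_mul_nonneg_right h1 (by linarith)
  exact ⟨h3, (le_mul_of_one_le_left h3 hT).trans h2⟩

theorem poiP_le (hb : BA) {T y : ℝ} (hT : 1 ≤ T) (h : Om (T * Real.log y) ≠ 0) : y ≤ 3 := by
  by_contra h1
  have h2 := (Real.log_le_iff_le_exp (by linarith)).1 (poiP_unit hb hT h).2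
  linarith [Real.exp_one_lt_d9]

/-- The radial profile. -/
def poiPF (T : ℝ) (z : ℂ) : ℂ := (Om (T * Real.log (‖z‖ ^ 2)) : ℝ)

theorem poiP_smooth (hb : BA) {T : ℝ} (hT : 1 ≤ T) : ContDiff ℝ ∞ (poiPF T) := by
  have h := hb.rad_smooth (fun v => (Om (T * v) : ℝ)) 0
    (hb.Om_bump.smooth.comp (contDiff_const.mul contDiff_id))
    (HasCompactSupport.intro (isCompact_Icc (a := (0 : ℝ)) (b := 1)) fun v hv => by
      by_contra h
      exact hv (poiP_unit hb hT (Complex.ofReal_ne_zero.1 h)))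
  have e : poiPF T = fun z : ℂ =>
      if z = 0 then 0 else ((Om (T * (Real.log (‖z‖ ^ 2) + 0)) : ℝ) : ℂ) := by
    funext z
    unfold poiPF
    split_ifs with hz
    · simp [hz, poiP_zero hb]
    · rw [add_zero]
  rw [e]
  exact h

theorem poiP_supp (hb : BA) {T : ℝ} (hT : 1 ≤ T) (z : ℂ) (h : poiPF T z ≠ 0) : ‖z‖ ≤ 2 := by
  have h1 := poiP_le hb hT (Complex.ofReal_ne_zero.1 h)
  exact le_of_sq_le_sq (by linarith) zero_le_two

theorem poiP_dec (hb : BA) {T : ℝ} (hT : 1 ≤ T) (z : ℂ) :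
    ‖poiPF T z‖ ≤ 27 * (1 + ‖z‖) ^ (-3 : ℝ) := by
  by_cases h : poiPF T z = 0
  · rw [h, norm_zero]
    positivity
  · have h1 := poiP_supp hb hT z h
    have h2 : ‖poiPF T z‖ ≤ 1 := by
      unfold poiPF
      rw [Complex.norm_real, Real.norm_of_nonneg (hb.Om_nonneg _)]
      exact hb.Om_le _
    have h3 : (3 : ℝ) ^ (-3 : ℝ) ≤ (1 + ‖z‖) ^ (-3 : ℝ) :=
      Real.rpow_le_rpow_of_nonpos (by positivity) (by linarith) (by norm_num)
    have h4 : (3 : ℝ) ^ (-3 : ℝ) = 1 / 27 := by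
      rw [Real.rpow_neg (by norm_num), Real.rpow_ofNat]
      norm_num
    rw [h4] at h3
    linarith

theorem poiP_rad (T : ℝ) (η : ℂ) : ft (poiPF T) η = hO T (‖η‖ ^ 2) := by
  have e : hO T (‖η‖ ^ 2) = ft (poiPF T) (‖η‖ : ℝ) := by
    unfold hO
    rw [Real.sqrt_sq (norm_nonneg η)]
    rfl
  rw [e]
  by_cases hz : η = 0
  · rw [hz, norm_zero, Complex.ofReal_zero]
  · have hn : (‖η‖ : ℂ) ≠ 0 := Complex.ofReal_ne_zero.2 (norm_ne_zero_iff.2 hz)
    have hu : ‖η / ‖η‖‖ = 1 := by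
      rw [norm_div, Complex.norm_real, norm_norm, div_self (norm_ne_zero_iff.2 hz)]
    have h := ft_rot (f := poiPF T) (k := 1) hu (fun z => by
      unfold poiPF
      rw [norm_mul, hu, one_mul, one_mul]) ‖η‖
    rw [div_mul_cancel₀ _ hn, one_mul] at h
    exact h

theorem poiP_per (c c' : Finset P) : Per (3 * pr c * pr c')
    fun y => if Pm y then xs c3 c y * conj (xs c3 c' y) else 0 := by
  intro x y h
  have h1 : (3 : E) ∣ x - y := ((dvd_mul_right _ _).mul_right _).trans h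
  have h2 : pr c ∣ x - y := ((dvd_mul_left _ _).mul_right _).trans h
  have h3 : pr c' ∣ x - y := (dvd_mul_left _ _).trans h
  have e : Pm x ↔ Pm y := by
    unfold Pm
    rw [← sub_add_sub_cancel x y 1]
    exact dvd_add_right h1
  simp only [e, xs_per ch_c3 c x y h2, xs_per ch_c3 c' x y h3]

theorem poiP_one (hb : BA) (h : PS1) {L T : ℝ} (hL : 0 < L) (hT : 1 ≤ T) {c c' : Finset P}
    (hd : Disjoint c c') :
    ∑ n ∈ pball (3 * L), (Om (T * Real.log (nm n / L)) : ℝ) * (xs c3 c n * conj (xs c3 c' n))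
      = gn c * conj (gn c') * ((L / (9 * √(Ns c * Ns c')) : ℝ) : ℂ) *
        ∑' ξ : E, psf ξ 3 * conj (xs c3 c ξ) * xs c3 c' ξ
          * hO T (nm ξ * L / (9 * (Ns c * Ns c'))) := by
  have hs := Real.sqrt_pos.2 hL
  have ha : ((√L : ℝ) : ℂ) ≠ 0 := Complex.ofReal_ne_zero.2 hs.ne'
  have hn : ‖((√L : ℝ) : ℂ)‖ ^ 2 = L := by
    rw [Complex.norm_real, Real.norm_of_nonneg hs.le, Real.sq_sqrt hL.le]
  have h3 : (3 : E) ≠ 0 := fun e => by
    have h1 := nm_natCast 3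
    rw [Nat.cast_ofNat, e, nm_zero] at h1
    omega
  have hq : 3 * pr c * pr c' ≠ 0 := mul_ne_zero (mul_ne_zero h3 (pr_ne_zero c)) (pr_ne_zero c')
  have hN : (nm (3 * pr c * pr c') : ℝ) = 9 * (Ns c * Ns c') := by
    have h1 := nm_natCast 3
    rw [Nat.cast_ofNat] at h1
    rw [nm_mul, nm_mul, h1, Ns, Ns]
    push_cast
    ring
  have hsm := poiP_smooth hb hT
  obtain ⟨C1, hC1, d1⟩ := decay_affine (inv_ne_zero ha) 0 (σ := 3) (by norm_num)
  obtain ⟨C2, hC2, d2⟩ := decay_affine ha 0 (σ := 3) (by norm_num)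
  obtain ⟨C, hC, hft⟩ := ft_le 3
  obtain ⟨W, hW, hD⟩ := exists_DB hsm (poiP_supp hb hT) 3
  have key := h _ _ (fun z => poiPF T (z / (√L : ℝ))) (27 * C1 + L * (C * W) * C2) hq
    (poiP_per c c') (hsm.continuous.comp (continuous_id.div_const _)) (fun z => ?_) fun z => ?_
  rotate_left
  · have h1 := d1 z
    rw [add_zero, ← div_eq_inv_mul] at h1
    have h2 : 0 ≤ L * (C * W) * C2 * (1 + ‖z‖) ^ (-3 : ℝ) := by positivity
    linarith [poiP_dec hb hT (z / (√L : ℝ))]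
  · have h1 := d2 z
    rw [add_zero] at h1
    have h2 := hft _ W hsm (poiP_supp hb hT) hD ((√L : ℝ) * z)
    rw [Nat.cast_ofNat] at h2
    have h4 := mul_le_mul_of_nonneg_left
      (h2.trans (mul_le_mul_of_nonneg_left h1 (by positivity))) hL.le
    have h5 : 0 ≤ 27 * C1 * (1 + ‖z‖) ^ (-3 : ℝ) := by positivity
    rw [ft_scale _ ha, hn, norm_mul, Complex.norm_real, Real.norm_of_nonneg hL.le]
    linarith
  have e1 : ∀ x : E, poiPF T (toC x / (√L : ℝ)) = (Om (T * Real.log (nm x / L)) : ℝ) := fun x => by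
    unfold poiPF
    rw [norm_div, div_pow, hn, ← nm_eq]
  have e2 : ∀ ξ : E, ft (fun z => poiPF T (z / (√L : ℝ))) (toC ξ / toC (3 * pr c * pr c'))
      = L * hO T (nm ξ * L / (9 * (Ns c * Ns c'))) := fun ξ => by
    rw [ft_scale _ ha, poiP_rad, norm_mul, mul_pow, hn, norm_div, div_pow, ← nm_eq, ← nm_eq, hN,
      mul_div_assoc', mul_comm L (nm ξ : ℝ)]
  simp only [e1, e2, hb.gauss_pair c c' _ hd] at key
  rw [tsum_eq_sum (s := pball (3 * L)) fun x hx => ?_] at key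
  rotate_left
  · by_cases h1 : Pm x
    · have h2 : Om (T * Real.log (nm x / L)) = 0 := by
        by_contra h2
        exact hx ((hb.mem_pball _ _).2 ⟨h1, (div_le_iff₀ hL).1 (poiP_le hb hT h2)⟩)
      rw [h2, Complex.ofReal_zero, mul_zero]
    · rw [if_neg h1, zero_mul]
  have hp : 0 < Ns c * Ns c' := mul_pos (Ns_pos c) (Ns_pos c')
  have e3 : ((L / (9 * √(Ns c * Ns c')) : ℝ) : ℂ)
      = (nm (3 * pr c * pr c') : ℂ)⁻¹ * ((√(Ns c * Ns c') : ℝ) * L) := by
    have h1 : L / (9 * √(Ns c * Ns c')) = (9 * (Ns c * Ns c'))⁻¹ * (√(Ns c * Ns c') * L) := by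
      have h2 := Real.sqrt_pos.2 hp
      have h4 := Real.mul_self_sqrt hp.le
      generalize √(Ns c * Ns c') = r at h2 h4
      rw [← h4]
      field_simp
    rw [h1, ← hN]
    push_cast
    rfl
  refine (Finset.sum_congr rfl fun n hn => ?_).trans (key.trans ?_)
  · rw [if_pos ((hb.mem_pball _ _).1 hn).1, mul_comm]
  · rw [← tsum_mul_left, ← tsum_mul_left, e3]
    exact tsum_congr fun ξ => by ring

theorem poiP (hb : BA) (h : PS1) : PoiP := by
  intro A T d c c' hA hT hd h1 h2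
  have e : ∀ a : E, ((Om (T * Real.log (nm a / A)) : ℝ) : ℂ) *
      (xs c3 (d ∪ c) a * conj (xs c3 (d ∪ c') a)) = ∑ f ∈ d.powerset, mu f *
        if pr f ∣ a then ((Om (T * Real.log (nm a / A)) : ℝ) : ℂ) *
          (xs c3 c a * conj (xs c3 c' a)) else 0 := fun a => by
    have h3 := (xs_mul_conj ch_c3 d a).trans (sum_mu_dvd d a).symm
    have h4 : ∀ f : Finset P, (mu f * if pr f ∣ a then ((Om (T * Real.log (nm a / A)) : ℝ) : ℂ) *
        (xs c3 c a * conj (xs c3 c' a)) else 0) = (if pr f ∣ a then mu f else 0) *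
        (((Om (T * Real.log (nm a / A)) : ℝ) : ℂ) * (xs c3 c a * conj (xs c3 c' a))) := fun f => by
      split_ifs
      · rfl
      · rw [mul_zero, zero_mul]
    simp only [h4]
    rw [← Finset.sum_mul, ← h3, xs_union h1, xs_union h2, map_mul]
    ring
  simp only [e]
  rw [Finset.sum_comm]
  refine Finset.sum_congr rfl fun f _ => ?_
  have hf := Ns_pos f
  have key := poiP_one hb h (div_pos hA hf) hT hd
  have e1 : 3 * A / (nm (pr f) : ℝ) = 3 * (A / Ns f) := mul_div_assoc _ _ _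
  have e2 : ∀ n : E, (nm (pr f * n) : ℝ) / A = nm n / (A / Ns f) := fun n => by
    rw [nm_mul, Nat.cast_mul, div_div_eq_mul_div, mul_comm]
    rfl
  have e3 : A / (9 * Ns f * √(Ns c * Ns c')) = A / Ns f / (9 * √(Ns c * Ns c')) := by ring
  have e4 : ∀ y : ℝ, y * A / (9 * Ns f * (Ns c * Ns c'))
      = y * (A / Ns f) / (9 * (Ns c * Ns c')) := fun y => by ring
  have e5 : ∀ n : E, ((Om (T * Real.log (nm (pr f * n) / A)) : ℝ) : ℂ) *
      (xs c3 c (pr f * n) * conj (xs c3 c' (pr f * n))) =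
      xs c3 c (pr f) * conj (xs c3 c' (pr f)) *
        (((Om (T * Real.log (nm n / (A / Ns f))) : ℝ) : ℂ) *
          (xs c3 c n * conj (xs c3 c' n))) := fun n => by
    rw [e2, xs_mul ch_c3, xs_mul ch_c3, map_mul]
    ring
  rw [← Finset.mul_sum, hb.sum_dvd _ _ _ (pr_primary f), e1]
  simp only [e4, e5]
  rw [← Finset.mul_sum, key, e3, map_mul]
  ring

end Pat
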