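import Vale.Agent.P006.IfB
import Vale.Agent.P026.Sym
import Vale.Agent.P026.Wt
import Vale.Agent.P026.Rearr

/-! Poisson summation in the mean square. -/

noncomputable section
namespace Pat
open QRH Complex MeasureTheory Filter
open scoped ComplexConjugate Classical ContDiff Topology

theorem pu_int {n : ℕ} (hn : 2 ≤ n) : Integrable fun τ : ℝ => (1 + |τ|) ^ (-(n : ℝ)) :=
  integrable_one_add_norm (E := ℝ) (r := n) (by
    rw [Module.finrank_self]
    exact_mod_cast hn)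

theorem pu_GM (hb : BA) {K T : ℝ} (hK : 0 < K) (hT : 0 < T) (Pr : E → Prop) :
    Summable fun ξ : E => if ξ ≠ 0 ∧ Pr ξ then GM T (nm ξ / K) else 0 := by
  refine (hb.Xi_summable (fun c => if c = ∅ then 1 else 0) 1 K T Pr hK hT).congr fun ξ => ?_
  have h : Ds (fun c => if c = ∅ then 1 else 0) 1 ξ = 1 := by
    simp only [Ds, ite_mul, one_mul, zero_mul]
    rw [Finset.sum_ite_eq', if_pos (mem_sqf.2 Ns_empty.le), xs_empty]
  rw [h, norm_one, one_pow, mul_one]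

theorem pu_hO (h2 : HSep) : ∃ C : ℝ, 0 ≤ C ∧ ∀ T y : ℝ, 1 ≤ T → 0 ≤ y →
    ‖hO T y‖ ≤ C * GM T y := by
  obtain ⟨C, hC, h⟩ := h2 2
  refine ⟨C * ∫ τ : ℝ, (1 + |τ|) ^ (-((2 : ℕ) : ℝ)),
    mul_nonneg hC.le (integral_nonneg fun τ => by positivity), fun T y hT hy => ?_⟩
  obtain ⟨g, -, h1, -, h3⟩ := h T y hT hy
  have h4 := h3 1 le_rfl (Real.one_le_exp (by positivity))
  simp only [div_one, ofReal_one, one_cpow, mul_one] at h4
  rw [h4, mul_right_comm, ← integral_const_mul]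
  exact norm_integral_le_of_norm_le ((pu_int le_rfl).const_mul _) (ae_of_all _ h1)

/-- One dual term. -/
def puT (T A : ℝ) (f c c' : Finset P) (ξ : E) : ℂ :=
  psf ξ 3 * conj (xs c3 c ξ) * xs c3 c' ξ * hO T (nm ξ * A / (9 * Ns f * (Ns c * Ns c')))
def puG (x : Finset P → ℂ) (d f c : Finset P) : ℂ := x (d ∪ c) * gn c * xs c3 c (pr f)
def puK (x : Finset P → ℂ) (A : ℝ) (d f c c' : Finset P) : ℂ :=
  puG x d f c * conj (puG x d f c') * ((A / (9 * Ns f * √(Ns c * Ns c')) : ℝ) : ℂ)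
def puS (B : ℝ) (d e : Finset P) : Finset (Finset P) :=
  (sqf (3 * B / Ns d)).filter fun c => Disjoint c d ∧ e ⊆ c
def puW (T A : ℝ) (f c c' : Finset P) (Pr : E → Prop) : ℂ :=
  ∑' ξ : E, if ξ ≠ 0 ∧ Pr ξ then puT T A f c c' ξ else 0
def puU (x : Finset P → ℂ) (A B T : ℝ) (d f e : Finset P) (Pr : E → Prop) : ℂ :=
  ∑ c ∈ puS B d e, ∑ c' ∈ puS B d e, puK x A d f c c' * puW T A f c c' Pr
def puP (a T τ : ℝ) : ℂ := (a : ℂ) ^ (1 / 2 + τ * T * I)

theorem pu_T_sum (hb : BA) (h2 : HSep) {T A : ℝ} (hT : 1 ≤ T) (hA : 0 < A) (f c c' : Finset P)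
    (Pr : E → Prop) : Summable fun ξ : E => if ξ ≠ 0 ∧ Pr ξ then puT T A f c c' ξ else 0 := by
  obtain ⟨C, hC, h⟩ := pu_hO h2
  have := Ns_pos f
  have := Ns_pos c
  have := Ns_pos c'
  refine ((pu_GM hb (K := 9 * Ns f * (Ns c * Ns c') / A) (by positivity) (by linarith : 0 < T)
    Pr).mul_left C).of_norm_bounded fun ξ => ?_
  split_ifs
  · rw [puT, norm_mul, norm_mul, norm_mul, norm_psf, one_mul, norm_conj, div_div_eq_mul_div]
    refine (mul_le_of_le_one_left (norm_nonneg _) ?_).trans (h _ _ hT (by positivity))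
    exact mul_le_one₀ (norm_xs_le ch_c3 _ _) (norm_nonneg _) (norm_xs_le ch_c3 _ _)
  · simp

theorem pu_P_norm {a : ℝ} (ha : 0 < a) (T τ : ℝ) : ‖puP a T τ‖ = √a := by
  rw [puP, norm_cpow_eq_rpow_re_of_pos ha, Real.sqrt_eq_rpow]
  simp

theorem pu_P_cont {a : ℝ} (ha : 0 < a) (T : ℝ) : Continuous (puP a T) :=
  Continuous.const_cpow (by fun_prop) (Or.inl (ofReal_ne_zero.2 ha.ne'))

theorem pu_P_conj {a : ℝ} (ha : 0 < a) (T τ : ℝ) : conj (puP a T (-τ)) = puP a T τ := by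
  rw [puP, conj_cpow_ofReal ha, puP]
  congr 1
  apply Complex.ext <;> simp

theorem pu_P_mul {a b : ℝ} (ha : 0 < a) (hb : 0 < b) (T τ : ℝ) :
    ((a * b : ℝ) : ℂ) ^ (1 + τ * T * I) = (√(a * b) : ℝ) * (puP a T τ * puP b T τ) := by
  rw [puP, puP, ← mul_cpow_ofReal_nonneg ha.le hb.le, ← ofReal_mul a b, Real.sqrt_eq_rpow,
    ofReal_cpow (by positivity), ← cpow_add _ _ (ofReal_ne_zero.2 (by positivity))]
  congr 1
  push_cast
  ring

theorem pu_D (x : Finset P → ℂ) (B T : ℝ) (d f e : Finset P) (τ : ℝ) (ξ : E) :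
    Ds (yd x B T d f e τ) (3 * B / Ns d) ξ =
      ∑ c ∈ puS B d e, conj (puG x d f c) * puP (Ns c * Ns d / B) T τ * xs c3 c ξ := by
  rw [Ds, puS, Finset.sum_filter]
  refine Finset.sum_congr rfl fun c _ => ?_
  simp only [yd, and_comm (a := e ⊆ c), ite_mul, zero_mul, puG, puP]

theorem pu_a_pos {B : ℝ} (hB : 0 < B) (c d : Finset P) : 0 < Ns c * Ns d / B :=
  div_pos (mul_pos (Ns_pos c) (Ns_pos d)) hB

theorem pu_D_cont (x : Finset P → ℂ) {B : ℝ} (hB : 0 < B) (T : ℝ) (d f e : Finset P) (ξ : E) :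
    Continuous fun τ => Ds (yd x B T d f e τ) (3 * B / Ns d) ξ := by
  simp only [pu_D]
  exact continuous_finsetSum _ fun c _ =>
    (continuous_const.mul (pu_P_cont (pu_a_pos hB c d) T)).mul continuous_const

theorem pu_D_bd (x : Finset P → ℂ) {B : ℝ} (hB : 0 < B) (T : ℝ) (d f e : Finset P) :
    ∃ M : ℝ, ∀ τ ξ, ‖Ds (yd x B T d f e τ) (3 * B / Ns d) ξ‖ ≤ M := by
  refine ⟨∑ c ∈ puS B d e, ‖puG x d f c‖ * √(Ns c * Ns d / B), fun τ ξ => ?_⟩
  rw [pu_D]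
  refine norm_sum_le_of_le _ fun c _ => ?_
  rw [norm_mul, norm_mul, norm_conj, pu_P_norm (pu_a_pos hB c d)]
  exact mul_le_of_le_one_right (by positivity) (norm_xs_le ch_c3 _ _)

theorem pu_fix {x : Finset P → ℂ} {A B T : ℝ} (hA : 0 < A) (hB : 0 < B)
    (hs : Sup x B (B * Real.exp (1 / T))) (d f e : Finset P) (ξ : E) {h : ℝ → ℂ}
    (hh : Integrable h) (hr : ∀ u : ℝ, 1 ≤ u → u ≤ Real.exp (2 / T) →
      hO T (nm ξ / (9 * Ns f * B ^ 2 / (A * Ns d ^ 2)) / u) = ∫ τ, h τ * (u : ℂ) ^ (1 + τ * T * I)) :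
    ∑ c ∈ puS B d e, ∑ c' ∈ puS B d e, puK x A d f c c' * puT T A f c c' ξ =
      ((A * Ns d / (9 * Ns f * B) : ℝ) : ℂ) * psf ξ 3 * ∫ τ, h τ *
        (conj (Ds (yd x B T d f e (-τ)) (3 * B / Ns d) ξ) *
          Ds (yd x B T d f e τ) (3 * B / Ns d) ξ) := by
  have hi : ∀ (c c' : Finset P) (z : ℂ), Integrable fun τ =>
      z * (h τ * (puP (Ns c * Ns d / B) T τ * puP (Ns c' * Ns d / B) T τ)) := fun c c' z =>
    (hh.mul_bdd ((pu_P_cont (pu_a_pos hB c d) T).mul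
      (pu_P_cont (pu_a_pos hB c' d) T)).aestronglyMeasurable (ae_of_all _ fun τ => by
        rw [Pi.mul_apply, norm_mul, pu_P_norm (pu_a_pos hB c d),
          pu_P_norm (pu_a_pos hB c' d)])).const_mul z
  have e1 : ∀ τ, h τ * (conj (Ds (yd x B T d f e (-τ)) (3 * B / Ns d) ξ) *
      Ds (yd x B T d f e τ) (3 * B / Ns d) ξ) = ∑ c ∈ puS B d e, ∑ c' ∈ puS B d e,
        puG x d f c * conj (puG x d f c') * (conj (xs c3 c ξ) * xs c3 c' ξ) *
          (h τ * (puP (Ns c * Ns d / B) T τ * puP (Ns c' * Ns d / B) T τ)) := fun τ => by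
    rw [pu_D, pu_D, map_sum, Finset.sum_mul_sum, Finset.mul_sum]
    refine Finset.sum_congr rfl fun c _ => ?_
    rw [Finset.mul_sum]
    refine Finset.sum_congr rfl fun c' _ => ?_
    rw [map_mul, map_mul, conj_conj, pu_P_conj (pu_a_pos hB c d)]
    ring
  simp only [e1]
  rw [integral_finsetSum _ fun c _ => integrable_finsetSum _ fun c' _ => hi c c' _, Finset.mul_sum]
  refine Finset.sum_congr rfl fun c hc => ?_
  rw [integral_finsetSum _ fun c' _ => hi c c' _, Finset.mul_sum]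
  refine Finset.sum_congr rfl fun c' hc' => ?_
  rw [integral_const_mul, puK, puT]
  by_cases h1 : x (d ∪ c) = 0
  · simp [puG, h1]
  by_cases h2 : x (d ∪ c') = 0
  · simp [puG, h2]
  have key : ∀ c ∈ puS B d e, x (d ∪ c) ≠ 0 →
      1 ≤ Ns c * Ns d / B ∧ Ns c * Ns d / B ≤ Real.exp (1 / T) := fun c hc h => by
    have h3 := hs _ h
    rw [Ns_union (Finset.mem_filter.1 hc).2.1.symm, mul_comm] at h3
    rw [one_le_div hB, div_le_iff₀' hB]
    exact h3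
  obtain ⟨a1, a2⟩ := key c hc h1
  obtain ⟨b1, b2⟩ := key c' hc' h2
  have h3 := hr _ (one_le_mul_of_one_le_of_one_le a1 b1) (by
    rw [show 2 / T = 1 / T + 1 / T by ring, Real.exp_add]
    exact mul_le_mul a2 b2 (by linarith) (Real.exp_pos _).le)
  have := Ns_pos f
  have := Ns_pos c
  have := Ns_pos c'
  have := Ns_pos d
  simp only [pu_P_mul (pu_a_pos hB c d) (pu_a_pos hB c' d),
    mul_left_comm (h _) ((√_ : ℝ) : ℂ)] at h3
  rw [integral_const_mul, show nm ξ / (9 * Ns f * B ^ 2 / (A * Ns d ^ 2)) /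
    (Ns c * Ns d / B * (Ns c' * Ns d / B)) = nm ξ * A / (9 * Ns f * (Ns c * Ns c')) by
      field_simp] at h3
  have h4 : A * Ns d / (9 * Ns f * B) = A / (9 * Ns f * √(Ns c * Ns c')) *
      √(Ns c * Ns d / B * (Ns c' * Ns d / B)) := by
    rw [show Ns c * Ns d / B * (Ns c' * Ns d / B) = Ns c * Ns c' * (Ns d / B) ^ 2 by ring,
      Real.sqrt_mul (by positivity) ((Ns d / B) ^ 2), Real.sqrt_sq (by positivity)]
    field_simp
  rw [h3, h4, ofReal_mul]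
  ring

theorem pu_U (hb : BA) (h2 : HSep) {n : ℕ} (hn : 2 ≤ n) : ∃ C : ℝ, 0 < C ∧
    ∀ (x : Finset P → ℂ) (A B T : ℝ) (d f e : Finset P) (Pr : E → Prop), 0 < A → 0 < B → 1 ≤ T →
      Sup x B (B * Real.exp (1 / T)) → ‖puU x A B T d f e Pr‖ ≤ C * (A * Ns d / (Ns f * B) *
        ∫ τ : ℝ, (1 + |τ|) ^ (-(n : ℝ)) * Xi (yd x B T d f e τ) (3 * B / Ns d)
          (9 * Ns f * B ^ 2 / (A * Ns d ^ 2)) T Pr) := by
  obtain ⟨C, hC, hsep⟩ := h2 n
  refine ⟨C, hC, fun x A B T d f e Pr hA hB hT hs => ?_⟩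
  have := Ns_pos f
  have := Ns_pos d
  have hT0 : 0 < T := by linarith
  obtain ⟨K, hK⟩ : ∃ K, K = 9 * Ns f * B ^ 2 / (A * Ns d ^ 2) := ⟨_, rfl⟩
  have hK0 : 0 < K := by rw [hK]; positivity
  choose h _ h4 h5 h6 using fun ξ : E => hsep T (nm ξ / K) hT (by positivity)
  obtain ⟨M, hM⟩ := pu_D_bd x hB T d f e
  have hD := pu_D_cont x hB T d f e
  have hG := fun ξ : E => (hb.GM_pos T (nm ξ / K) hT0 (by positivity)).le
  obtain ⟨D, hDe⟩ : ∃ D : ℝ → E → ℂ, D = fun τ ξ => Ds (yd x B T d f e τ) (3 * B / Ns d) ξ :=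
    ⟨_, rfl⟩
  have e0 : ∀ τ ξ, Ds (yd x B T d f e τ) (3 * B / Ns d) ξ = D τ ξ := fun _ _ => by rw [hDe]
  simp only [e0] at hM hD
  have hM2 : ∀ τ ξ, ‖D τ ξ‖ ^ 2 ≤ M ^ 2 := fun τ ξ => pow_le_pow_left₀ (norm_nonneg _) (hM τ ξ) 2
  have i1 : ∀ ξ, Integrable fun τ : ℝ => (1 + |τ|) ^ (-(n : ℝ)) * ‖D τ ξ‖ ^ 2 := fun ξ =>
    (pu_int hn).mul_bdd ((hD ξ).norm.pow 2).aestronglyMeasurable (ae_of_all _ fun τ => by
      rw [Real.norm_of_nonneg (by positivity)]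
      exact hM2 τ ξ)
  have e1 : ∀ (ξ : E) (τ : ℝ), (1 + |τ|) ^ (-(n : ℝ)) *
      (if ξ ≠ 0 ∧ Pr ξ then GM T (nm ξ / K) * ‖D τ ξ‖ ^ 2 else 0) =
      (if ξ ≠ 0 ∧ Pr ξ then GM T (nm ξ / K) else 0) * ((1 + |τ|) ^ (-(n : ℝ)) * ‖D τ ξ‖ ^ 2) :=
    fun ξ τ => by split_ifs <;> ring
  have hg : ∀ ξ : E, 0 ≤ if ξ ≠ 0 ∧ Pr ξ then GM T (nm ξ / K) else 0 := fun ξ => by
    split_ifs
    exacts [hG ξ, le_rfl]
  have s1 := hasSum_integral_of_summable_integral_norm (μ := volume)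
    (F := fun (ξ : E) (τ : ℝ) => (1 + |τ|) ^ (-(n : ℝ)) *
      if ξ ≠ 0 ∧ Pr ξ then GM T (nm ξ / K) * ‖D τ ξ‖ ^ 2 else 0)
    (fun ξ => by simpa only [e1] using (i1 ξ).const_mul _) (by
      refine Summable.of_nonneg_of_le (fun ξ => integral_nonneg fun _ => norm_nonneg _)
        (fun ξ => ?_) ((pu_GM hb hK0 hT0 Pr).mul_right
          (∫ τ : ℝ, (1 + |τ|) ^ (-(n : ℝ)) * M ^ 2))
      rw [← integral_const_mul]
      refine integral_mono_of_nonneg (ae_of_all _ fun _ => norm_nonneg _)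
        (((pu_int hn).mul_const _).const_mul _) (ae_of_all _ fun τ => ?_)
      simp only [e1]
      rw [Real.norm_of_nonneg (mul_nonneg (hg ξ) (by positivity))]
      exact mul_le_mul_of_nonneg_left (mul_le_mul_of_nonneg_left (hM2 τ ξ) (by positivity)) (hg ξ))
  have s2 : HasSum (fun ξ : E => ∑ c ∈ puS B d e, ∑ c' ∈ puS B d e, puK x A d f c c' *
      if ξ ≠ 0 ∧ Pr ξ then puT T A f c c' ξ else 0) (puU x A B T d f e Pr) :=
    hasSum_sum fun c _ => hasSum_sum fun c' _ => (pu_T_sum hb h2 hT hA f c c' Pr).hasSum.mul_left _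
  simp only [tsum_mul_left] at s1
  simp only [Xi, e0, ← hK]
  refine s2.norm_le_of_bounded ((s1.mul_left _).mul_left C) fun ξ => ?_
  simp only [e1]
  split_ifs with hξ
  swap
  · simp
  rw [pu_fix hA hB hs d f e ξ (h5 ξ) (hK ▸ h6 ξ), norm_mul, norm_mul, norm_psf, mul_one, norm_real,
    Real.norm_of_nonneg (by positivity), integral_const_mul, mul_left_comm C]
  refine mul_le_mul (div_le_div_of_nonneg_left (by positivity) (by positivity)
    (by nlinarith [mul_pos (Ns_pos f) hB])) ?_ (norm_nonneg _) (by positivity)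
  have i2 : Integrable fun τ : ℝ => (1 + |τ|) ^ (-(n : ℝ)) * ‖D (-τ) ξ‖ ^ 2 := by
    simpa only [abs_neg] using (i1 ξ).comp_neg
  have e2 : ∫ τ : ℝ, (1 + |τ|) ^ (-(n : ℝ)) * ‖D (-τ) ξ‖ ^ 2 =
      ∫ τ : ℝ, (1 + |τ|) ^ (-(n : ℝ)) * ‖D τ ξ‖ ^ 2 := by
    rw [← integral_neg_eq_self]
    simp only [abs_neg, neg_neg]
  refine (norm_integral_le_of_norm_le ((i2.add (i1 ξ)).const_mul (C * GM T (nm ξ / K) / 2))
    (ae_of_all _ fun τ => ?_)).trans_eq ?_
  · simp only [e0, norm_mul, norm_conj, Pi.add_apply]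
    refine (mul_le_mul (h4 ξ τ) (show _ ≤ (‖D (-τ) ξ‖ ^ 2 + ‖D τ ξ‖ ^ 2) / 2 by
      nlinarith [sq_nonneg (‖D (-τ) ξ‖ - ‖D τ ξ‖)]) (by positivity)
      (mul_nonneg (mul_nonneg hC.le (hG ξ)) (by positivity))).trans_eq (by ring)
  · simp only [Pi.add_apply]
    rw [integral_const_mul, integral_add i2 (i1 ξ), e2]
    ring

theorem pu_mu (d : Finset P) : ‖∑ f ∈ d.powerset, mu f * ((Ns f)⁻¹ : ℝ)‖ ≤ 1 := by
  have h : ∑ f ∈ d.powerset, mu f * ((Ns f)⁻¹ : ℝ) =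
      ∏ p ∈ d, (1 + -(((nm p.1 : ℝ)⁻¹ : ℝ) : ℂ)) := by
    rw [Finset.prod_one_add]
    refine Finset.sum_congr rfl fun f _ => ?_
    rw [Finset.prod_neg, mu, Ns_eq_prod, ← Finset.prod_inv_distrib, ofReal_prod]
  rw [h, norm_prod]
  refine Finset.prod_le_one (fun _ _ => norm_nonneg _) fun p _ => ?_
  have h1 : (1 : ℝ) ≤ nm p.1 := by exact_mod_cast (by linarith [p.four_le_nm] : 1 ≤ nm p.1)
  have h2 := inv_le_one_of_one_le₀ h1
  have h3 : (0 : ℝ) ≤ (nm p.1 : ℝ)⁻¹ := by positivity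
  rw [← ofReal_neg, ← ofReal_one, ← ofReal_add, norm_real, Real.norm_of_nonneg (by linarith)]
  linarith

theorem pu_zero (hb : BA) (x : Finset P → ℂ) {A : ℝ} (hA : 0 < A) (T R : ℝ) :
    ‖∑ n ∈ sqf R, ∑ n' ∈ sqf R, ∑ f ∈ (n ∩ n').powerset, mu f *
      (puK x A (n ∩ n') f (n \ n') (n' \ n) * puT T A f (n \ n') (n' \ n) 0)‖
      ≤ A * ‖hO T 0‖ * nrm2 x R := by
  rw [nrm2, Finset.mul_sum]
  refine norm_sum_le_of_le _ fun n hn => ?_
  have h0 : ∀ c : Finset P, c ≠ ∅ → xs c3 c 0 = 0 := fun c hc => by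
    obtain ⟨p, hp⟩ := Finset.nonempty_iff_ne_empty.2 hc
    exact (xs_eq_zero_iff ch_c3).2 ⟨p, hp, dvd_zero _⟩
  rw [Finset.sum_eq_single_of_mem n hn fun n' _ h => Finset.sum_eq_zero fun f _ => by
    by_cases h1 : n \ n' = ∅
    · rw [puT, h0 (n' \ n) fun h2 => h (Finset.Subset.antisymm
        (Finset.sdiff_eq_empty_iff_subset.1 h2) (Finset.sdiff_eq_empty_iff_subset.1 h1))]
      simp
    · rw [puT, h0 _ h1]
      simp]
  have e : ∀ f : Finset P, mu f * (puK x A (n ∩ n) f (n \ n) (n \ n) * puT T A f (n \ n) (n \ n) 0)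
      = x n * gn ∅ * conj (x n * gn ∅) * ((A / 9 : ℝ) : ℂ) * hO T 0 * (mu f * ((Ns f)⁻¹ : ℝ)) :=
    fun f => by
      simp only [puK, puG, puT, Finset.inter_self, Finset.sdiff_self, Finset.union_empty, xs_empty,
        Ns_empty, psf_zero, nm_zero, mul_one, Real.sqrt_one, map_one, Nat.cast_zero, zero_mul,
        zero_div]
      push_cast
      ring
  simp only [e]
  rw [← Finset.mul_sum, norm_mul]
  refine (mul_le_of_le_one_right (norm_nonneg _) (pu_mu _)).trans ?_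
  simp only [norm_mul, norm_conj, hb.norm_gn, mul_one, norm_real]
  rw [Real.norm_of_nonneg (by positivity)]
  nlinarith [mul_nonneg (mul_nonneg hA.le (norm_nonneg (hO T 0))) (sq_nonneg ‖x n‖)]

theorem pu_expand (hb : BA) (h2 : HSep) (h3 : PoiP) (x : Finset P → ℂ) {A T : ℝ} (B : ℝ)
    (hA : 0 < A) (hT : 1 ≤ T) : (S1 x A B T : ℂ) =
      ∑ n ∈ sqf (3 * B), ∑ n' ∈ sqf (3 * B), ∑ f ∈ (n ∩ n').powerset, mu f *
        (puK x A (n ∩ n') f (n \ n') (n' \ n) * puT T A f (n \ n') (n' \ n) 0) +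
      ∑ d ∈ sqf (3 * B), ∑ f ∈ d.powerset, ∑ e ∈ sqf (3 * B),
        mu e * mu f * puU x A B T d f e fun _ => True := by
  have h := rearr2 (3 * B) fun d c c' => ∑ f ∈ d.powerset, mu f * (puK x A d f c c' *
    puW T A f c c' fun _ => True)
  have e1 : ∑ d ∈ sqf (3 * B), ∑ f ∈ d.powerset, ∑ e ∈ sqf (3 * B),
      mu e * mu f * puU x A B T d f e (fun _ => True) = _ := Eq.trans (by
    refine Finset.sum_congr rfl fun d _ => ?_
    rw [Finset.sum_comm]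
    refine Finset.sum_congr rfl fun e _ => ?_
    simp only [puU, puS, Finset.mul_sum, mul_assoc]
    rw [Finset.sum_comm]
    refine Finset.sum_congr rfl fun c _ => ?_
    rw [Finset.sum_comm]) h.symm
  rw [e1, ← Finset.sum_add_distrib]
  simp only [S1, ofReal_sum, ofReal_mul, ofReal_pow, ← mul_conj', map_sum, Finset.sum_mul_sum]
  simp only [Finset.mul_sum]
  rw [Finset.sum_comm]
  refine Finset.sum_congr rfl fun n _ => ?_
  rw [Finset.sum_comm, ← Finset.sum_add_distrib]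
  refine Finset.sum_congr rfl fun n' _ => ?_
  have e2 : n ∩ n' ∪ n \ n' = n := by
    rw [Finset.union_comm, Finset.sdiff_union_inter]
  have e3 : n ∩ n' ∪ n' \ n = n' := by
    rw [Finset.union_comm, Finset.inter_comm, Finset.sdiff_union_inter]
  have h4 := h3 A T (n ∩ n') (n \ n') (n' \ n) hA hT disjoint_sdiff_sdiff
    (Finset.disjoint_sdiff_inter n n').symm
    (Finset.inter_comm n n' ▸ (Finset.disjoint_sdiff_inter n' n).symm)
  rw [e2, e3] at h4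
  calc _ = x n * conj (x n') * ∑ a ∈ pball (3 * A), (Om (T * Real.log (nm a / A)) : ℝ) *
        (xs c3 n a * conj (xs c3 n' a)) := by
        rw [Finset.mul_sum]
        refine Finset.sum_congr rfl fun a _ => ?_
        rw [map_mul]
        ring
    _ = _ := by
        rw [h4, Finset.mul_sum, ← Finset.sum_add_distrib]
        refine Finset.sum_congr rfl fun f _ => ?_
        have h5 : ∑' ξ, puT T A f (n \ n') (n' \ n) ξ = puT T A f (n \ n') (n' \ n) 0 +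
            puW T A f (n \ n') (n' \ n) fun _ => True := by
          rw [Summable.tsum_eq_add_tsum_ite' 0 ((pu_T_sum hb h2 hT hA f (n \ n') (n' \ n)
            fun _ => True).congr fun ξ => by by_cases h : ξ = 0 <;> simp [h])]
          simp only [puW, and_true, ite_not]
        rw [show (∑' ξ : E, psf ξ 3 * conj (xs c3 (n \ n') ξ) * xs c3 (n' \ n) ξ * hO T (nm ξ * A /
          (9 * Ns f * (Ns (n \ n') * Ns (n' \ n))))) = _ from h5]
        simp only [puK, puG, e2, e3, map_mul]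
        ring

theorem pu_split (B : ℝ) (G : Finset P → Finset P → Finset P → ℂ)
    (h0 : sqf (3 * B) = ∅ → G ∅ ∅ ∅ = 0) :
    ∑ d ∈ sqf (3 * B), ∑ f ∈ d.powerset, ∑ e ∈ sqf (3 * B), G d f e = G ∅ ∅ ∅ +
      ∑ d ∈ sqf (3 * B), ∑ f ∈ d.powerset, ∑ e ∈ sqf (3 * B) with d ∪ e ≠ ∅, G d f e := by
  by_cases h : ∅ ∈ sqf (3 * B)
  · have e : ∀ d f, ∑ e ∈ sqf (3 * B), G d f e = ∑ e ∈ sqf (3 * B) with ¬ d ∪ e ≠ ∅, G d f e +
        ∑ e ∈ sqf (3 * B) with d ∪ e ≠ ∅, G d f e := fun d f => by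
      rw [add_comm, Finset.sum_filter_add_sum_filter_not]
    simp only [e, Finset.sum_add_distrib]
    rw [Finset.sum_eq_single_of_mem ∅ h fun d _ hd => by simp [hd]]
    simp [Finset.filter_eq', h]
  · have h1 : sqf (3 * B) = ∅ := Finset.eq_empty_of_forall_notMem fun s hs =>
      h (rr_sub (Finset.empty_subset s) hs)
    simp [h1, h0 h1]

theorem poiU (hb : BA) (h1 : HK) (h2 : HSep) (h3 : PoiP) : PoiU := by
  intro n hn
  obtain ⟨C, hC, hU⟩ := pu_U hb h2 hn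
  obtain ⟨C1, hC1, h1⟩ := h1
  refine ⟨C + C1, by positivity, fun x A B T Pr hA hB hT hs => ?_⟩
  have hT0 : 0 < T := by linarith
  have e1 : MainM x A B T Pr = puU x A B T ∅ ∅ ∅ Pr := by
    simp only [MainM, puU, puW, puS, puK, puG, puT, Ns_empty, div_one, mul_one, Finset.empty_union,
      pr_empty, xs_one ch_c3, Finset.disjoint_empty_right, Finset.empty_subset, and_self,
      Finset.filter_true, map_mul]
    refine Finset.sum_congr rfl fun c _ => Finset.sum_congr rfl fun c' _ => ?_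
    ring
  have e2 : puU x A B T ∅ ∅ ∅ (fun _ => True) =
      puU x A B T ∅ ∅ ∅ Pr + puU x A B T ∅ ∅ ∅ fun ξ => ¬ Pr ξ := by
    simp only [puU, puW, ← Finset.sum_add_distrib, ← mul_add]
    refine Finset.sum_congr rfl fun c _ => Finset.sum_congr rfl fun c' _ => ?_
    rw [← (pu_T_sum hb h2 hT hA ∅ c c' _).tsum_add (pu_T_sum hb h2 hT hA ∅ c c' _)]
    refine congrArg _ (tsum_congr fun ξ => ?_)
    by_cases h : ξ = 0 <;> by_cases h' : Pr ξ <;> simp [h, h']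
  have b1 := (pu_zero hb x hA T (3 * B)).trans (mul_le_mul_of_nonneg_right
    (mul_le_mul_of_nonneg_left (h1 T hT).2 hA.le) (Finset.sum_nonneg fun _ _ => sq_nonneg _))
  have b2 : ‖puU x A B T ∅ ∅ ∅ fun ξ => ¬ Pr ξ‖ ≤ C * Rest0 x A B T n Pr := by
    simpa only [Rest0, Ns_empty, mul_one, one_mul, div_one, one_pow] using
      hU x A B T ∅ ∅ ∅ (fun ξ => ¬ Pr ξ) hA hB hT hs
  have b3 : ‖∑ d ∈ sqf (3 * B), ∑ f ∈ d.powerset, ∑ e ∈ sqf (3 * B) with d ∪ e ≠ ∅,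
      mu e * mu f * puU x A B T d f e fun _ => True‖ ≤ C * RestN x A B T n := by
    simp only [RestN, Finset.mul_sum]
    refine norm_sum_le_of_le _ fun d _ => norm_sum_le_of_le _ fun f _ =>
      norm_sum_le_of_le _ fun e _ => ?_
    rw [norm_mul, norm_mul, norm_mu, norm_mu, one_mul, one_mul]
    exact hU x A B T d f e _ hA hB hT hs
  have p1 : 0 ≤ A / T * nrm2 x (3 * B) :=
    mul_nonneg (by positivity) (Finset.sum_nonneg fun _ _ => sq_nonneg _)
  have p2 : 0 ≤ Rest0 x A B T n Pr := nonneg_of_mul_nonneg_right ((norm_nonneg _).trans b2) hC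
  have p3 : 0 ≤ RestN x A B T n := nonneg_of_mul_nonneg_right ((norm_nonneg _).trans b3) hC
  rw [pu_expand hb h2 h3 x B hA hT, pu_split B _ fun h => by simp [puU, puS, Ns_empty, h], e1, e2,
    mu_empty, one_mul, one_mul, add_sub_assoc, add_assoc, add_sub_cancel_left]
  refine (norm_add_le_of_le b1 (norm_add_le_of_le b2 b3)).trans ?_
  have e3 : A * (C1 / T) * nrm2 x (3 * B) = C1 * (A / T * nrm2 x (3 * B)) := by ring
  nlinarith [mul_nonneg hC.le p1, mul_nonneg hC1.le p2, mul_nonneg hC1.le p3]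

end Pat
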