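import Vale.Agent.P006.IfC
import Vale.Agent.P006.BL

/-! P006: the non-cube frequencies in the smooth range. -/

noncomputable section
namespace Pat
open QRH Complex MeasureTheory Filter
open scoped ComplexConjugate Classical ContDiff Topology

/-- Sum of the reciprocals of the large prime factors. -/
def r0B_E (w : ℝ) (j : E) : ℝ := ∑ p ∈ fac j with w < nm p.1, (nm p.1 : ℝ)⁻¹

theorem r0B_E_nonneg (w : ℝ) (j : E) : 0 ≤ r0B_E w j :=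
  Finset.sum_nonneg fun _ _ => by positivity

theorem r0B_diff (hb : BA) {y : Finset P → ℂ} {L w : ℝ} (hL : 0 ≤ L) (h3 : ∀ c, ‖y c‖ ≤ 3)
    (hr : ∀ c, y c ≠ 0 → Rough w c) (z : E) {j : E} (hj : j ≠ 0) :
    ‖Ds y L (z * j ^ 3)‖ ^ 2 ≤ 2 * ‖Ds y L z‖ ^ 2 + 2 * (36 * L) ^ 2 * r0B_E w j := by
  have h1 : Ds y L z - Ds y L (z * j ^ 3)
      = ∑ c ∈ sqf L, (if Disjoint c (fac j) then 0 else y c) * xs c3 c z := by
    rw [bL_cube hb y L z hj, Ds, Ds, ← Finset.sum_sub_distrib]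
    refine Finset.sum_congr rfl fun c _ => ?_
    by_cases h : Disjoint c (fac j) <;> simp [h]
  have h2 : ∀ c, ‖(if Disjoint c (fac j) then 0 else y c) * xs c3 c z‖
      ≤ ‖if Disjoint c (fac j) then 0 else y c‖ := fun c => by
    rw [norm_mul]
    exact mul_le_of_le_one_right (norm_nonneg _) (norm_xs_le ch_c3 _ _)
  have h4 : ‖Ds y L z - Ds y L (z * j ^ 3)‖ ≤ 36 * L := by
    rw [h1]
    refine (norm_sum_le _ _).trans ((Finset.sum_le_card_nsmul _ _ 3 fun c _ =>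
      (h2 c).trans ?_).trans ?_)
    · split_ifs
      · simp
      · exact h3 c
    · rw [nsmul_eq_mul]
      linarith [card_sqf_le hL]
  have h5 : ‖Ds y L z - Ds y L (z * j ^ 3)‖ ≤ 36 * L * r0B_E w j := by
    rw [h1]
    refine (norm_sum_le _ _).trans ((Finset.sum_le_sum (g := fun c =>
      ∑ p ∈ fac j with w < nm p.1, if {p} ⊆ c then (3 : ℝ) else 0) fun c _ =>
        (h2 c).trans ?_).trans ?_)
    · have a0 : ∀ p ∈ (fac j).filter fun p => w < nm p.1,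
          (0 : ℝ) ≤ if {p} ⊆ c then (3 : ℝ) else 0 := fun p _ => by split_ifs <;> norm_num
      by_cases h : Disjoint c (fac j)
      · rw [if_pos h, norm_zero]
        exact Finset.sum_nonneg a0
      by_cases h' : y c = 0
      · rw [if_neg h, h', norm_zero]
        exact Finset.sum_nonneg a0
      obtain ⟨p, hp, hp'⟩ := Finset.not_disjoint_iff.1 h
      refine le_trans ?_ (Finset.single_le_sum a0 (Finset.mem_filter.2 ⟨hp', hr c h' p hp⟩))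
      rw [if_neg h, if_pos (Finset.singleton_subset_iff.2 hp)]
      exact h3 c
    · rw [Finset.sum_comm, r0B_E, Finset.mul_sum]
      refine Finset.sum_le_sum fun p _ => ?_
      rw [← Finset.sum_filter, Finset.sum_const, nsmul_eq_mul]
      have a1 := hb.card_sup L {p} hL
      rw [Ns, pr_singleton, div_eq_mul_inv] at a1
      linarith
  have h6 : ‖Ds y L (z * j ^ 3)‖ ≤ ‖Ds y L z‖ + ‖Ds y L z - Ds y L (z * j ^ 3)‖ := by
    have := norm_sub_le (Ds y L z) (Ds y L z - Ds y L (z * j ^ 3))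
    rwa [sub_sub_cancel] at this
  have h7 := mul_le_mul h4 h5 (norm_nonneg _) (by positivity)
  have h8 := pow_le_pow_left₀ (norm_nonneg _) h6 2
  nlinarith [sq_nonneg (‖Ds y L z‖ - ‖Ds y L z - Ds y L (z * j ^ 3)‖)]

theorem r0B_card (p : P) {M : ℝ} (hM : 0 ≤ M) :
    (((ball M).filter fun j => p ∈ fac j).card : ℝ) ≤ 12 * M * (nm p.1 : ℝ)⁻¹ := by
  have hp : (0 : ℝ) < nm p.1 := lt_of_lt_of_le one_pos (one_le_nmR p.ne_zero)
  have h1 : ((ball M).filter fun j => p ∈ fac j) ⊆ (ball (M / nm p.1)).image fun k => p.1 * k := by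
    intro j hj
    obtain ⟨a1, a2⟩ := Finset.mem_filter.1 hj
    obtain ⟨a0, a1⟩ := mem_ball.1 a1
    obtain ⟨k, rfl⟩ := (mem_fac a0).1 a2
    refine Finset.mem_image.2 ⟨k, mem_ball.2 ⟨right_ne_zero_of_mul a0, ?_⟩, rfl⟩
    rw [nm_mul, Nat.cast_mul] at a1
    rwa [le_div_iff₀' hp]
  refine (Nat.cast_le.2 ((Finset.card_le_card h1).trans Finset.card_image_le)).trans ?_
  rw [mul_assoc, ← div_eq_mul_inv]
  exact card_ball_le (by positivity)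

theorem r0B_sumE (hb : BA) : ∃ C : ℝ, 0 < C ∧ ∀ M w : ℝ, 0 ≤ M → 1 ≤ w →
    ∑ j ∈ ball M, r0B_E w j ≤ C * M * (1 / w) := by
  obtain ⟨C, hC, h⟩ := hb.tail_P 2 one_lt_two
  refine ⟨12 * C, by positivity, fun M w hM hw => ?_⟩
  set T := ((ball M).biUnion fac).filter fun p => w < nm p.1 with hT
  have h1 : ∀ j ∈ ball M, r0B_E w j = ∑ p ∈ T, if p ∈ fac j then (nm p.1 : ℝ)⁻¹ else 0 := by
    intro j hj
    rw [r0B_E, ← Finset.sum_filter]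
    refine Finset.sum_congr ?_ fun _ _ => rfl
    ext p
    simp only [hT, Finset.mem_filter, Finset.mem_biUnion]
    exact ⟨fun a => ⟨⟨⟨j, hj, a.1⟩, a.2⟩, a.1⟩, fun a => ⟨a.2, a.1.2⟩⟩
  rw [Finset.sum_congr rfl h1, Finset.sum_comm]
  have h2 := mul_le_mul_of_nonneg_left (h w T hw fun p hp => (Finset.mem_filter.1 hp).2)
    (by positivity : 0 ≤ 12 * M)
  rw [Finset.mul_sum, show (1 - 2 : ℝ) = -1 by norm_num, Real.rpow_neg_one] at h2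
  refine le_trans (Finset.sum_le_sum fun p _ => ?_) (h2.trans (le_of_eq (by ring)))
  rw [← Finset.sum_filter, Finset.sum_const, nsmul_eq_mul, Real.rpow_neg (by positivity),
    Real.rpow_two, ← inv_pow, sq, ← mul_assoc]
  exact mul_le_mul_of_nonneg_right (r0B_card p hM) (by positivity)

theorem r0B_small (hb : BA) : ∃ C : ℝ, 0 < C ∧ ∀ (y : Finset P → ℂ) (L w Q0 D R : ℝ), 0 ≤ L →
    1 ≤ w → 1 ≤ Q0 → 0 < R → (∀ c, ‖y c‖ ≤ 3) → (∀ c, y c ≠ 0 → Rough w c) →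
    (∀ z : E, z ≠ 0 → ¬ IsCube z → (nm z : ℝ) ≤ 9 * Q0 → ‖Ds y L z‖ ≤ D) →
    ∑ ξ ∈ ball R with ¬ IsCube ξ ∧ Qc ξ < Q0, ‖Ds y L ξ‖ ^ 2
      ≤ C * Q0 ^ (2 / 3 : ℝ) * (D ^ 2 + L ^ 2 * (1 / w)) * R ^ (1 / 3 : ℝ) := by
  obtain ⟨C1, hC1, h1⟩ := r0B_sumE hb
  obtain ⟨C2, hC2, h2⟩ := sum_ball_rpow (θ := -(1 / 3)) (by norm_num)
  refine ⟨(24 + 2 * 36 ^ 2 * C1) * (C2 * 9), by positivity,
    fun y L w Q0 D R hL hw hQ hR h3 hr hD => ?_⟩
  set Z := (ball (9 * Q0)).filter fun z => ¬ IsCube z with hZ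
  have h4 : ((ball R).filter fun ξ => ¬ IsCube ξ ∧ Qc ξ < Q0) ⊆
      (Z.sigma fun z => ball ((R / nm z) ^ (1 / 3 : ℝ))).image fun x => x.1 * x.2 ^ 3 := by
    intro ξ hξ
    obtain ⟨a1, a2, a3⟩ := Finset.mem_filter.1 hξ
    obtain ⟨a0, a1⟩ := mem_ball.1 a1
    obtain ⟨i, hi, u, -, e⟩ := hb.cube_dec ξ a0
    have hk : vp lam ξ % 3 < 3 := Nat.mod_lt _ (by norm_num)
    generalize vp lam ξ % 3 = k at e hk
    generalize u * lam ^ (vp lam ξ / 3) * jc ξ = j at e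
    have b1 : (nm (cf0 i k (cf1 ξ) (cf2 ξ)) : ℝ) = 3 ^ k * Qc ξ := by
      rw [hb.nm_cf0, Qc, mul_assoc]
    generalize cf0 i k (cf1 ξ) (cf2 ξ) = z at e b1
    have b3 : (3 : ℝ) ^ k ≤ 3 ^ 2 := pow_le_pow_right₀ (by norm_num) (by omega)
    have hz : z ≠ 0 := fun h => a0 (by rw [e, h, zero_mul])
    have hj : j ≠ 0 := fun h => a0 (by rw [e, h]; simp)
    have b4 := one_le_nmR hz
    have b5 := bL_Qc ξ
    refine Finset.mem_image.2 ⟨⟨z, j⟩, Finset.mem_sigma.2 ⟨Finset.mem_filter.2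
      ⟨mem_ball.2 ⟨hz, ?_⟩, fun hc => a2 ?_⟩, mem_ball.2 ⟨hj, ?_⟩⟩, e.symm⟩
    · simp only
      rw [b1]; nlinarith
    · rw [e]
      exact (hb.cube_mul z j hj).2 hc
    · simp only
      rw [e, nm_mul, nm_pow] at a1
      push_cast at a1
      rw [one_div]
      refine (Real.le_rpow_inv_iff_of_pos (by positivity) (by positivity) (by norm_num)).2 ?_
      rw [le_div_iff₀' (by linarith)]
      exact_mod_cast a1
  refine (Finset.sum_le_sum_of_subset_of_nonneg h4 fun _ _ _ => sq_nonneg _).trans ?_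
  refine (Finset.sum_image_le_of_nonneg fun _ _ => sq_nonneg _).trans ?_
  rw [Finset.sum_sigma]
  have hU : 0 ≤ D ^ 2 + L ^ 2 * (1 / w) := by positivity
  have h5 : ∀ z ∈ Z, ∑ j ∈ ball ((R / nm z) ^ (1 / 3 : ℝ)), ‖Ds y L (z * j ^ 3)‖ ^ 2 ≤
      (24 + 2 * 36 ^ 2 * C1) * (D ^ 2 + L ^ 2 * (1 / w)) * R ^ (1 / 3 : ℝ) *
        (nm z : ℝ) ^ (-(1 / 3) : ℝ) := by
    intro z hz
    obtain ⟨a1, a2⟩ := Finset.mem_filter.1 hz
    obtain ⟨a0, a1⟩ := mem_ball.1 a1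
    have a3 := pow_le_pow_left₀ (norm_nonneg _) (hD z a0 a2 a1) 2
    rw [mul_assoc, Real.rpow_neg (by positivity), ← div_eq_mul_inv,
      ← Real.div_rpow hR.le (by positivity)]
    have hM : 0 ≤ (R / nm z) ^ (1 / 3 : ℝ) := by positivity
    generalize (R / nm z) ^ (1 / 3 : ℝ) = M at hM ⊢
    refine (Finset.sum_le_sum fun j hj => r0B_diff hb hL h3 hr z (mem_ball.1 hj).1).trans ?_
    rw [Finset.sum_add_distrib, Finset.sum_const, nsmul_eq_mul, ← Finset.mul_sum]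
    have a4 := h1 M w hM hw
    have a5 := card_ball_le hM
    have a6 : 0 ≤ L ^ 2 * (1 / w) * M := by positivity
    have a7 : 0 ≤ C1 * D ^ 2 * M := by positivity
    calc _ ≤ 12 * M * (2 * D ^ 2) + 2 * (36 * L) ^ 2 * (C1 * M * (1 / w)) := by gcongr
      _ ≤ _ := by nlinarith
  refine (Finset.sum_le_sum h5).trans ?_
  rw [← Finset.mul_sum]
  have h6 : ∑ z ∈ Z, (nm z : ℝ) ^ (-(1 / 3) : ℝ) ≤ C2 * (9 * Q0 ^ (2 / 3 : ℝ)) := by
    refine (Finset.sum_le_sum_of_subset_of_nonneg (Finset.filter_subset _ _)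
      fun _ _ _ => by positivity).trans ((h2 _ (by positivity)).trans ?_)
    rw [show (1 + -(1 / 3) : ℝ) = 2 / 3 by norm_num, Real.mul_rpow (by norm_num) (by positivity)]
    have : (9 : ℝ) ^ (2 / 3 : ℝ) ≤ 9 :=
      (Real.rpow_le_rpow_of_exponent_le (by norm_num) (by norm_num)).trans_eq (Real.rpow_one _)
    gcongr
  calc _ ≤ (24 + 2 * 36 ^ 2 * C1) * (D ^ 2 + L ^ 2 * (1 / w)) * R ^ (1 / 3 : ℝ) *
        (C2 * (9 * Q0 ^ (2 / 3 : ℝ))) := by gcongr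
    _ = _ := by ring

theorem r0B_tw {β : Finset P → ℂ} {B w : ℝ} (hB : 0 < B) (h : GB β B 3 w) {s : ℂ} (hs : s.re ≤ 1) :
    (∀ c, ‖tw β B s c‖ ≤ 3) ∧ ∀ c, tw β B s c ≠ 0 → β c ≠ 0 := by
  refine ⟨fun c => ?_, fun c hc h0 => hc (by simp [tw, h0])⟩
  by_cases h0 : β c = 0
  · simp [tw, h0]
  obtain ⟨a1, a2⟩ := h.sup c h0
  have a3 : 1 ≤ Ns c / B := (one_le_div hB).2 a1
  rw [tw, norm_mul, Complex.norm_conj, Complex.norm_cpow_eq_rpow_re_of_pos (by linarith)]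
  have a4 : (Ns c / B) ^ s.re ≤ 3 :=
    ((Real.rpow_le_rpow_of_exponent_le a3 hs).trans_eq (Real.rpow_one _)).trans
      ((div_le_iff₀ hB).2 a2)
  calc _ ≤ 1 * 3 := mul_le_mul (h.bd c) a4 (by positivity) zero_le_one
    _ = 3 := one_mul _

theorem r0B_MM {A B : ℝ} (hA : 0 < A) (hB : 0 < B) :
    A / B * ((9 * B ^ 2 / A) ^ (1 / 3 : ℝ) * B ^ 2) ≤ 3 * MM A B := by
  obtain ⟨a, ha, rfl⟩ : ∃ a : ℝ, 0 < a ∧ A = a ^ 3 := ⟨A ^ (3⁻¹ : ℝ), by positivity,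
    by exact_mod_cast (Real.rpow_inv_natCast_pow hA.le three_ne_zero).symm⟩
  obtain ⟨b, hb, rfl⟩ : ∃ b : ℝ, 0 < b ∧ B = b ^ 3 := ⟨B ^ (3⁻¹ : ℝ), by positivity,
    by exact_mod_cast (Real.rpow_inv_natCast_pow hB.le three_ne_zero).symm⟩
  have h1 : MM (a ^ 3) (b ^ 3) = a ^ 2 * b ^ 5 := by
    rw [MM, ← Real.rpow_natCast_mul ha.le, ← Real.rpow_natCast_mul hb.le, ← Real.rpow_natCast a 2,
      ← Real.rpow_natCast b 5]
    norm_num
  have h2 : (9 * (b ^ 3) ^ 2 / a ^ 3) ^ (1 / 3 : ℝ) ≤ 3 * b ^ 2 / a := by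
    rw [one_div]
    refine (Real.rpow_inv_le_iff_of_pos (by positivity) (by positivity) (by norm_num)).2 ?_
    rw [show (3 : ℝ) = (3 : ℕ) from rfl, Real.rpow_natCast, div_pow]
    push_cast
    gcongr
    nlinarith [pow_pos hb 6]
  rw [h1]
  calc _ ≤ a ^ 3 / b ^ 3 * (3 * b ^ 2 / a * (b ^ 3) ^ 2) := by gcongr
    _ = _ := by field_simp

theorem r0B_xi (hb : BA) (hx : XlF) (h : BL1) : ∃ C : ℝ, 0 < C ∧
    ∀ (β : Finset P → ℂ) (K B w Q0 Z1 e τ : ℝ), 0 < K → 1 ≤ B → 1 ≤ w → 1 ≤ Q0 → Z1 ^ 3 ≤ 3 * B →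
    GB β B 3 w → Small β B (3 * B) (9 * Q0) e →
    Xi (tw β B (1 / 2 + τ * I)) (3 * B) K 1 (fun ξ => ¬ IsCube ξ) ≤
      C * (K ^ (1 / 3 : ℝ) * B ^ 2) * (Q0 ^ (2 / 3 : ℝ) * (e ^ 2 + 1 / w) + Q0 ^ (-(1 / 3) : ℝ))
        * (1 + |τ|) ^ 2 + Xi (tw β B (1 / 2 + τ * I)) (3 * B) K 1 fun ξ => Z1 ≤ Qc ξ := by
  obtain ⟨C1, hC1, h1⟩ := h
  obtain ⟨C2, hC2, h2⟩ := r0B_small hb
  obtain ⟨C3, hC3, h3⟩ := hb.Xi_dyadic (1 / 3) (1 / 5) (by norm_num) (by norm_num) (by norm_num)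
    (by norm_num)
  refine ⟨C2 * C3 * 9 + C1 * 972, by positivity, fun β K B w Q0 Z1 e τ hK hB hw hQ hZ hg hs => ?_⟩
  have hB0 : 0 < B := by linarith
  have hre : (1 / 2 + τ * I : ℂ).re = 1 / 2 := by simp
  have hre' : |(1 / 2 + τ * I : ℂ).re| ≤ 1 := by rw [hre, abs_of_pos] <;> norm_num
  have hτ : 1 ≤ 1 + |τ| := by linarith [abs_nonneg τ]
  have hns : 1 + ‖(1 / 2 + τ * I : ℂ)‖ ≤ 2 * (1 + |τ|) := by
    have a1 := norm_add_le (1 / 2 : ℂ) (τ * I)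
    simp only [norm_mul, Complex.norm_real, Complex.norm_I, mul_one, Real.norm_eq_abs, one_div,
      norm_inv, Complex.norm_ofNat] at a1
    rw [one_div]
    linarith [abs_nonneg τ]
  obtain ⟨y3, y0⟩ := r0B_tw hB0 hg (s := 1 / 2 + τ * I) (by rw [hre]; norm_num)
  have hnr := hx.tw_nrm β B (3 * B) _ hB0 hg.sup hre'
  have hD := fun z a b c => hs z a b c _ hre'
  generalize (1 / 2 + τ * I : ℂ) = s at *
  generalize tw β B s = y at *
  have a1 := hb.Xi_le y (3 * B) K 1 (fun ξ => ¬ IsCube ξ) (fun ξ => ¬ IsCube ξ ∧ Qc ξ < Q0)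
    (fun ξ => Q0 ≤ Qc ξ) hK one_pos fun ξ _ hξ => (lt_or_ge (Qc ξ) Q0).imp (fun a => ⟨hξ, a⟩) id
  have a2 := hb.Xi_le y (3 * B) K 1 (fun ξ => Q0 ≤ Qc ξ) (fun ξ => Q0 ≤ Qc ξ ∧ Qc ξ < Z1)
    (fun ξ => Z1 ≤ Qc ξ) hK one_pos fun ξ _ hξ => (lt_or_ge (Qc ξ) Z1).imp (fun a => ⟨hξ, a⟩) id
  have a3 := h1 y (3 * B) K 1 Q0 Z1
    (fun c hc => by simpa using hg.sup c (y0 c hc)) hK le_rfl hQ hZ
  have a4 : nrm2 β (3 * B) ≤ 36 * B := by
    refine (Finset.sum_le_card_nsmul _ _ 1 fun c _ =>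
      pow_le_one₀ (norm_nonneg _) (hg.bd c)).trans ?_
    rw [nsmul_eq_mul]
    linarith [card_sqf_le (R := 3 * B) (by linarith)]
  obtain ⟨s1, b1⟩ := h3 1 le_rfl
  rw [Real.one_rpow, mul_one] at b1
  have a5 := bL_gen hb y (L := 3 * B) (fun ξ => ¬ IsCube ξ ∧ Qc ξ < Q0) hK le_rfl
    (C2 * Q0 ^ (2 / 3 : ℝ) * ((e * B * (1 + ‖s‖)) ^ 2 + (3 * B) ^ 2 * (1 / w)) * K ^ (1 / 3 : ℝ))
    0 0 _ _ _ s1 s1 s1 fun m hm => by
      have c1 := h2 y (3 * B) w Q0 _ (m * K) (by linarith) hw hQ (by positivity) y3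
        (fun c hc => hg.rough c (y0 c hc)) hD
      rw [Real.mul_rpow (by positivity) hK.le] at c1
      refine le_trans (le_of_eq ?_) (c1.trans (le_of_eq (by ring)))
      refine Finset.sum_congr ?_ fun _ _ => rfl
      ext ξ
      simp only [Finset.mem_filter]
  rw [zero_mul, add_zero, add_zero] at a5
  have a6 : (e * B * (1 + ‖s‖)) ^ 2 + (3 * B) ^ 2 * (1 / w)
      ≤ 9 * B ^ 2 * (e ^ 2 + 1 / w) * (1 + |τ|) ^ 2 := by
    have c1 : (1 + ‖s‖) ^ 2 ≤ (2 * (1 + |τ|)) ^ 2 := by gcongr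
    have c2 : 1 ≤ (1 + |τ|) ^ 2 := one_le_pow₀ hτ
    have c3 := mul_le_mul_of_nonneg_left c1 (sq_nonneg (e * B))
    have c4 := mul_le_mul_of_nonneg_left c2 (by positivity : 0 ≤ B ^ 2 * (1 / w))
    have c5 : 0 ≤ e ^ 2 * B ^ 2 * (1 + |τ|) ^ 2 := by positivity
    nlinarith
  have a7 : Xi y (3 * B) K 1 (fun ξ => ¬ IsCube ξ ∧ Qc ξ < Q0) ≤
      C2 * Q0 ^ (2 / 3 : ℝ) * (9 * B ^ 2 * (e ^ 2 + 1 / w) * (1 + |τ|) ^ 2) * K ^ (1 / 3 : ℝ)
        * C3 := by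
    refine a5.trans ((mul_le_mul_of_nonneg_left (show bL_S 1 (1 / 3) ≤ C3 from b1)
      (by positivity)).trans ?_)
    gcongr
  have a8 : Xi y (3 * B) K 1 (fun ξ => Q0 ≤ Qc ξ ∧ Qc ξ < Z1) ≤
      C1 * (K ^ (1 / 3 : ℝ) * Q0 ^ (-(1 / 3) : ℝ)) * (3 * B) * (9 * (36 * B)) * (1 + |τ|) ^ 2 := by
    rw [Real.one_rpow, mul_one, Real.div_rpow hK.le (by linarith), div_eq_mul_inv,
      ← Real.rpow_neg (by linarith)] at a3
    refine a3.trans (le_trans ?_ (le_mul_of_one_le_right (by positivity) (one_le_pow₀ hτ)))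
    exact mul_le_mul_of_nonneg_left (by linarith) (by positivity)
  have a9 : 0 ≤ C1 * (K ^ (1 / 3 : ℝ) * B ^ 2) * (Q0 ^ (2 / 3 : ℝ) * (e ^ 2 + 1 / w))
      * (1 + |τ|) ^ 2 := by positivity
  have a10 : 0 ≤ C2 * C3 * (K ^ (1 / 3 : ℝ) * B ^ 2) * Q0 ^ (-(1 / 3) : ℝ) * (1 + |τ|) ^ 2 := by
    positivity
  nlinarith

theorem r0B (hb : BA) (hx : XlF) (h : BL1) : R0B := by
  intro n hn
  obtain ⟨C, hC, h1⟩ := r0B_xi hb hx h
  have hI := hb.int_pow n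
  set J := ∫ τ : ℝ, (1 + |τ|) ^ (-((n : ℝ) + 2)) * (1 + |τ|) ^ n with hJ
  have hJ0 : 0 ≤ J := integral_nonneg fun τ => by positivity
  refine ⟨(3 * C + 1) * (J + 1), by positivity,
    fun β A B w Q0 Z1 e V hA hB hw hQ hZ hV hg hs hXi => ?_⟩
  have hB0 : 0 < B := by linarith
  have hK : 0 < 9 * B ^ 2 / A := by positivity
  set U := Q0 ^ (2 / 3 : ℝ) * (e ^ 2 + 1 / w) + Q0 ^ (-(1 / 3) : ℝ) with hU
  have hU0 : 0 ≤ U := by positivity
  set G := C * ((9 * B ^ 2 / A) ^ (1 / 3 : ℝ) * B ^ 2) * U + V with hG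
  have h2 : ∫ τ : ℝ, (1 + |τ|) ^ (-((n + 2 : ℕ) : ℝ)) *
      Xi (yd (fun b => β b * tt b) B 1 ∅ ∅ ∅ τ) (3 * B) (9 * B ^ 2 / A) 1 (fun ξ => ¬ IsCube ξ)
      ≤ G * J := by
    rw [hJ, ← integral_const_mul]
    refine integral_mono_of_nonneg (Eventually.of_forall fun τ => mul_nonneg (by positivity)
      (hb.Xi_nonneg _ _ _ _ _ hK one_pos)) (hI.const_mul G) (Eventually.of_forall fun τ => ?_)
    have a1 := h1 β _ B w Q0 Z1 e τ hK hB hw hQ hZ hg hs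
    have a2 := hXi τ
    have a3 : (1 + |τ|) ^ 2 ≤ (1 + |τ|) ^ n := pow_le_pow_right₀ (by linarith [abs_nonneg τ]) hn
    have a4 := mul_le_mul_of_nonneg_left a3
      (by positivity : 0 ≤ C * ((9 * B ^ 2 / A) ^ (1 / 3 : ℝ) * B ^ 2) * U)
    simp only [hx.yd_eq, Complex.ofReal_one, mul_one, Nat.cast_add, Nat.cast_ofNat]
    rw [mul_left_comm]
    refine mul_le_mul_of_nonneg_left ?_ (by positivity)
    rw [hG]
    linarith
  have h3 := r0B_MM hA hB0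
  have hM : 0 ≤ MM A B := by unfold MM; positivity
  have h4 : A / B * G ≤ (3 * C + 1) * (MM A B * U + A / B * V) := by
    have a1 := mul_le_mul_of_nonneg_left h3 (by positivity : 0 ≤ C * U)
    have a2 : 0 ≤ MM A B * U := by positivity
    have a3 : 0 ≤ C * (A / B * V) := by positivity
    rw [hG]
    nlinarith
  have h5 : 0 ≤ (3 * C + 1) * (MM A B * U + A / B * V) := by positivity
  calc _ ≤ A / B * (G * J) := mul_le_mul_of_nonneg_left h2 (by positivity)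
    _ = A / B * G * J := by ring
    _ ≤ (3 * C + 1) * (MM A B * U + A / B * V) * J := by gcongr
    _ ≤ _ := by nlinarith

end Pat
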