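import Vale.Agent.P006.RNAux

/-! The terms with common factors. -/

noncomputable section
namespace Pat
open QRH Complex MeasureTheory Filter
open scoped ComplexConjugate Classical ContDiff Topology

/-- The size of one term. -/
def rNG (ε A B T Z N : ℝ) : ℝ :=
  T ^ (-(4 / 5) : ℝ) * (A ^ (2 / 3 : ℝ) * B ^ (2 / 3 : ℝ) * N ^ (-(2 / 3) : ℝ)) + Z ^ ε *
    (T ^ (-(4 / 5) : ℝ) * (A ^ (2 / 3 : ℝ) * B ^ (2 / 3 : ℝ) * B ^ (-(1 / 9) : ℝ)
        * N ^ (-(5 / 9) : ℝ))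
      + T ^ (-(1 / 7) : ℝ) * (A ^ (1 / 3 : ℝ) * B * N ^ (-(2 / 3) : ℝ)) + T ^ (3 / 5 : ℝ) * B)

theorem rN_int (hb : BA) {n : ℕ} (hn : 2 ≤ n) : ∃ C : ℝ, 0 < C ∧ ∀ (g : ℝ → ℝ) (W M : ℝ),
    0 ≤ W → 0 ≤ M → (∀ τ, 0 ≤ g τ) → (∀ τ, W * g τ ≤ M) →
      W * ∫ τ : ℝ, (1 + |τ|) ^ (-(n : ℝ)) * g τ ≤ C * M := by
  have hi := hb.int_pow 0
  have h0 : 0 ≤ ∫ τ : ℝ, (1 + |τ|) ^ (-(((0 : ℕ) : ℝ) + 2)) * (1 + |τ|) ^ (0 : ℕ) :=
    integral_nonneg fun τ => by positivity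
  refine ⟨(∫ τ : ℝ, (1 + |τ|) ^ (-(((0 : ℕ) : ℝ) + 2)) * (1 + |τ|) ^ (0 : ℕ)) + 1,
    by linarith, ?_⟩
  intro g W M hW hM hg hWM
  rw [← integral_const_mul]
  have h1 : ∫ τ : ℝ, W * ((1 + |τ|) ^ (-(n : ℝ)) * g τ)
      ≤ ∫ τ : ℝ, ((1 + |τ|) ^ (-(((0 : ℕ) : ℝ) + 2)) * (1 + |τ|) ^ (0 : ℕ)) * M := by
    refine integral_mono_of_nonneg (Eventually.of_forall fun τ => ?_) (hi.mul_const M)
      (Eventually.of_forall fun τ => ?_)
    · have := hg τ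
      beta_reduce
      positivity
    · beta_reduce
      have h2 : (1 + |τ|) ^ (-(n : ℝ)) ≤ (1 + |τ|) ^ (-(((0 : ℕ) : ℝ) + 2)) := by
        refine Real.rpow_le_rpow_of_exponent_le (by linarith [abs_nonneg τ]) ?_
        have : (2 : ℝ) ≤ n := by exact_mod_cast hn
        push_cast
        linarith
      rw [pow_zero, mul_one, mul_left_comm]
      exact mul_le_mul h2 (hWM τ) (mul_nonneg hW (hg τ)) (by positivity)
  rw [integral_mul_const] at h1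
  nlinarith

theorem rN_G_nonneg {ε A B T Z N : ℝ} (hA : 0 ≤ A) (hB : 0 ≤ B) (hT : 0 ≤ T) (hZ : 0 ≤ Z)
    (hN : 0 ≤ N) : 0 ≤ rNG ε A B T Z N := by
  rw [rNG]
  positivity

theorem rN_term (hb : BA) (h1 : BL1) (h2 : BL2) {ε Λ : ℝ} {n : ℕ} (hε : 0 < ε) (hΛ : 1 ≤ Λ)
    (hn : 2 ≤ n) : ∃ C : ℝ, 0 < C ∧ ∀ (x : Finset P → ℂ) (a b A B T Z : ℝ), 1 ≤ A → 1 ≤ B →
      B ≤ Z → 1 ≤ T → T ≤ Z → A / Λ ≤ a → a ≤ Λ * A → B / Λ ≤ b → b ≤ Λ * B →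
      Sup x b (3 * b) → ∀ d f e : Finset P, f ⊆ d →
      a * Ns d / (Ns f * b) * (∫ τ : ℝ, (1 + |τ|) ^ (-(n : ℝ)) *
          Xi (yd x b T d f e τ) (3 * b / Ns d) (9 * Ns f * b ^ 2 / (a * Ns d ^ 2)) T fun _ => True)
        ≤ if Disjoint d e then
            C * (rNG ε A B T Z (Ns (d ∪ e)) * rNm x (3 * (Λ * B)) (d ∪ e)) else 0 := by
  obtain ⟨C1, hC1, H1⟩ := rN_all hb h1 h2 (half_pos hε)
  obtain ⟨C2, hC2, H2⟩ := rN_int hb hn
  have hΛ0 : 0 < Λ := by linarith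
  have hq : 1 ≤ (9 * Λ ^ 3) ^ (ε / 2) :=
    Real.one_le_rpow (by nlinarith [one_le_pow₀ (n := 3) hΛ]) (half_pos hε).le
  refine ⟨C2 * (C1 * ((9 * Λ ^ 3) ^ (ε / 2) * (9 * Λ ^ 2)) * 3), by positivity, ?_⟩
  intro x a b A B T Z hA hB hBZ hT hTZ ha1 ha2 hb1 hb2 hx d f e hfd
  have hA0 : 0 < A := by linarith
  have hB0 : 0 < B := by linarith
  have hT0 : 0 < T := by linarith
  have hZ : 1 ≤ Z := hB.trans hBZ
  have hZ0 : 0 < Z := by linarith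
  have ha : 0 < a := (div_pos hA0 hΛ0).trans_le ha1
  have hb0 : 0 < b := (div_pos hB0 hΛ0).trans_le hb1
  have hD := one_le_Ns d
  have hF := one_le_Ns f
  have hG := one_le_Ns e
  have hFD : Ns f ≤ Ns d := Ns_mono hfd
  have hD0 := Ns_pos d
  have hF0 := Ns_pos f
  have hG0 := Ns_pos e
  obtain ⟨n1, n2, n3, n4⟩ := rN_num ha hb0 hA0 hB0 hF hD hG hΛ ha2 hb2
  set K := 9 * Ns f * b ^ 2 / (a * Ns d ^ 2) with hK
  set L := 3 * b / Ns d / Ns e with hL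
  set W := a * Ns d / (Ns f * b) with hW
  have hK0 : 0 < K := by positivity
  have hL0 : 0 < L := by positivity
  have hW0 : 0 < W := by positivity
  have hΛ2 : Λ ≤ Λ ^ 3 := le_self_pow₀ hΛ (by norm_num)
  have hΛ3 : 1 ≤ Λ ^ 3 := one_le_pow₀ hΛ
  have hZ2 : Z ≤ Z ^ 2 := le_self_pow₀ hZ (by norm_num)
  have hbZ : b ≤ Λ * Z := hb2.trans (mul_le_mul_of_nonneg_left hBZ hΛ0.le)
  have hLZ : L ≤ 9 * Λ ^ 3 * Z ^ 2 := by
    have h3 : L ≤ 3 * b := by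
      rw [hL]
      exact (div_le_self (by positivity) hG).trans (div_le_self (by positivity) hD)
    have h4 : Λ * Z ≤ Λ ^ 3 * Z ^ 2 := mul_le_mul hΛ2 hZ2 hZ0.le (by positivity)
    have h5 : 0 ≤ Λ ^ 3 * Z ^ 2 := by positivity
    linarith
  have hKZ : K ≤ 9 * Λ ^ 3 * Z ^ 2 := by
    rw [hK, div_le_iff₀ (by positivity)]
    have h3 : 1 ≤ Λ * a := by
      rw [div_le_iff₀ hΛ0] at ha1
      linarith
    have h4 : Ns f ≤ Ns d ^ 2 := hFD.trans (le_self_pow₀ hD (by norm_num))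
    have h5 : b ^ 2 ≤ (Λ * Z) ^ 2 := pow_le_pow_left₀ hb0.le hbZ 2
    have h6 : Ns f * b ^ 2 ≤ Ns d ^ 2 * (Λ * Z) ^ 2 :=
      mul_le_mul h4 h5 (by positivity) (by positivity)
    have h7 : Ns d ^ 2 * (Λ * Z) ^ 2 ≤ Ns d ^ 2 * (Λ * Z) ^ 2 * (Λ * a) :=
      le_mul_of_one_le_right (by positivity) h3
    have h8 : 9 * Λ ^ 3 * Z ^ 2 * (a * Ns d ^ 2) = 9 * (Ns d ^ 2 * (Λ * Z) ^ 2 * (Λ * a)) := by
      ring
    rw [h8]
    linarith
  have hTZ' : T ≤ 9 * Λ ^ 3 * Z ^ 2 := by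
    have h4 : Z ^ 2 ≤ Λ ^ 3 * Z ^ 2 := le_mul_of_one_le_left (by positivity) hΛ3
    have h5 : 0 ≤ Λ ^ 3 * Z ^ 2 := by positivity
    linarith
  have hZe : (9 * Λ ^ 3 * Z ^ 2) ^ (ε / 2) = (9 * Λ ^ 3) ^ (ε / 2) * Z ^ ε := by
    rw [Real.mul_rpow (by positivity) (by positivity), ← Real.rpow_natCast Z,
      ← Real.rpow_mul hZ0.le]
    congr 2
    push_cast
    ring
  set q := (9 * Λ ^ 3) ^ (ε / 2) with hqd
  set m := if Disjoint d e then rNm x (3 * (Λ * B)) (d ∪ e) else 0 with hm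
  have hm0 : 0 ≤ m := by
    rw [hm]
    split_ifs
    · exact rN_m_nonneg _ _ _
    · exact le_rfl
  have hG0' : 0 ≤ rNG ε A B T Z (Ns d * Ns e) :=
    rN_G_nonneg hA0.le hB0.le hT0.le hZ0.le (by positivity)
  have key : ∀ τ : ℝ, W * Xi (yd x b T d f e τ) (3 * b / Ns d) K T (fun _ => True)
      ≤ C1 * (q * (9 * Λ ^ 2)) * 3 * (rNG ε A B T Z (Ns d * Ns e) * m) := by
    intro τ
    have k1 := rN_Xi hb (yd x b T d f e τ) e (fun c hc => (rN_yd_ne hc).1) (3 * b / Ns d) K T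
      hK0 hT0 fun _ => True
    have k2 := H1 _ L K T _ (rN_sup hx T τ d f e) hL0 hLZ hK0 hKZ hT hTZ'
    have k3 := rN_nrm hb hb0 hx (R := 3 * (Λ * B)) (by linarith) T τ L d f e
    rw [hZe] at k2
    rw [← hm] at k3
    set u := T ^ (-(4 / 5) : ℝ) * (K ^ (1 / 3 : ℝ) * L) + q * Z ^ ε *
        (T ^ (-(4 / 5) : ℝ) * (K ^ (1 / 3 : ℝ) * L * (L ^ (1 / 3 : ℝ)) ^ (-(1 / 3) : ℝ))
          + T ^ (-(1 / 7) : ℝ) * (K * L) ^ (2 / 3 : ℝ) + T ^ (3 / 5 : ℝ) * K) with hu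
    have hu0 : 0 ≤ u := by positivity
    have k4 : W * u ≤ q * (9 * Λ ^ 2) * rNG ε A B T Z (Ns d * Ns e) := by
      have t1 : 0 ≤ T ^ (-(4 / 5) : ℝ) := by positivity
      have t2 : 0 ≤ T ^ (-(1 / 7) : ℝ) := by positivity
      have t3 : 0 ≤ T ^ (3 / 5 : ℝ) := by positivity
      have t4 : 0 ≤ q * Z ^ ε := by positivity
      have p1 := mul_le_mul_of_nonneg_left n1 t1
      have p1' : T ^ (-(4 / 5) : ℝ) * (9 * Λ ^ 2 * (A ^ (2 / 3 : ℝ) * B ^ (2 / 3 : ℝ)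
          * (Ns d * Ns e) ^ (-(2 / 3) : ℝ))) ≤ q * (T ^ (-(4 / 5) : ℝ) * (9 * Λ ^ 2 *
            (A ^ (2 / 3 : ℝ) * B ^ (2 / 3 : ℝ) * (Ns d * Ns e) ^ (-(2 / 3) : ℝ)))) :=
        le_mul_of_one_le_left (by positivity) hq
      have p2 := mul_le_mul_of_nonneg_left (mul_le_mul_of_nonneg_left n2 t1) t4
      have p3 := mul_le_mul_of_nonneg_left (mul_le_mul_of_nonneg_left n3 t2) t4
      have p4 := mul_le_mul_of_nonneg_left (mul_le_mul_of_nonneg_left n4 t3) t4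
      rw [hu, rNG]
      linarith
    calc W * Xi (yd x b T d f e τ) (3 * b / Ns d) K T (fun _ => True)
        ≤ W * (C1 * u * (3 * m)) := by
          refine mul_le_mul_of_nonneg_left (k1.trans (k2.trans ?_)) hW0.le
          exact mul_le_mul_of_nonneg_left k3 (by positivity)
      _ = C1 * 3 * m * (W * u) := by ring
      _ ≤ C1 * 3 * m * (q * (9 * Λ ^ 2) * rNG ε A B T Z (Ns d * Ns e)) :=
          mul_le_mul_of_nonneg_left k4 (by positivity)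
      _ = _ := by ring
  refine (H2 _ W _ hW0.le (by positivity) (fun τ => hb.Xi_nonneg _ _ _ _ _ hK0 hT0) key).trans
    (le_of_eq ?_)
  rw [hm]
  split_ifs with hde
  · rw [Ns_union hde]
    ring
  · simp

theorem rN_split {ε A B T Z N R : ℝ} (hB : 0 < B) (hN : 0 < N) (c : ℝ) :
    c * (rNG ε A B T Z N * (12 * (R * B) / N)) = 12 * R *
      (T ^ (-(4 / 5) : ℝ) * MM A B * (c * N ^ (-(5 / 3) : ℝ)) + Z ^ ε *
        (T ^ (-(4 / 5) : ℝ) * MM A B * B ^ (-(1 / 9) : ℝ) * (c * N ^ (-(14 / 9) : ℝ))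
          + T ^ (-(1 / 7) : ℝ) * A ^ (1 / 3 : ℝ) * B ^ 2 * (c * N ^ (-(5 / 3) : ℝ))
          + T ^ (3 / 5 : ℝ) * B ^ 2 * (c / N))) := by
  have h1 : N ^ (-(5 / 3) : ℝ) = N ^ (-(2 / 3) : ℝ) / N := by
    rw [← Real.rpow_sub_one hN.ne']
    norm_num
  have h2 : N ^ (-(14 / 9) : ℝ) = N ^ (-(5 / 9) : ℝ) / N := by
    rw [← Real.rpow_sub_one hN.ne']
    norm_num
  have h3 : B ^ (5 / 3 : ℝ) = B ^ (2 / 3 : ℝ) * B := by
    rw [← Real.rpow_add_one hB.ne']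
    norm_num
  rw [rNG, MM, h1, h2, h3]
  ring

theorem rN (hb : BA) (h1 : BL1) (h2 : BL2) : RN := by
  intro ε Λ n hε hΛ hn
  obtain ⟨C1, hC1, H1⟩ := rN_term hb h1 h2 (half_pos hε) hΛ hn
  obtain ⟨C2, hC2, H2⟩ := hb.tail_rough 3 (5 / 3) (7 / 6) (by norm_num) (by norm_num)
    (by norm_num)
  obtain ⟨C3, hC3, H3⟩ := hb.tail_rough 3 (14 / 9) (14 / 9) (by norm_num) (by norm_num) le_rfl
  obtain ⟨C4, hC4, H4⟩ := sum_pow_card_div (A := 3) (by norm_num) (half_pos hε)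
  have hΛ0 : 0 < Λ := by linarith
  set c := C2 + C3 + C4 * (3 * Λ) ^ (ε / 2) with hc
  have hq : 0 < C4 * (3 * Λ) ^ (ε / 2) := by positivity
  have hc0 : 0 < c := by positivity
  refine ⟨C1 * (12 * (3 * Λ)) * c, by positivity, ?_⟩
  intro J x Ai Bj A B T w Z hA hB hBZ hT hTZ hw hJ hx
  have hA0 : 0 < A := by linarith
  have hB0 : 0 < B := by linarith
  have hT0 : 0 < T := by linarith
  have hZ : 1 ≤ Z := hB.trans hBZ
  have hZ0 : 0 < Z := by linarith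
  have hw0 : 0 < w := by linarith
  have hM : 0 ≤ MM A B := by
    rw [MM]
    positivity
  set R := 3 * (Λ * B) with hR
  have hR1 : 1 ≤ R := by nlinarith
  set S := (sqf R).filter fun s => s ≠ ∅ ∧ Rough w s with hS
  have hG : ∀ s : Finset P, 0 ≤ rNG (ε / 2) A B T Z (Ns s) := fun s =>
    rN_G_nonneg hA0.le hB0.le hT0.le hZ0.le (Ns_pos s).le
  have step1 : ∀ i ∈ J, RestN (x i) (Ai i) (Bj i) T n
      ≤ ∑ s ∈ S, 3 ^ s.card * (C1 * (rNG (ε / 2) A B T Z (Ns s) * rNm (x i) R s)) := by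
    intro i hi
    obtain ⟨a1, a2, b1, b2, hs, hr⟩ := hJ i hi
    refine le_trans ?_ (rN_group (sqf (3 * Bj i)) (sqf (3 * Bj i)) S
      (fun s => C1 * (rNG (ε / 2) A B T Z (Ns s) * rNm (x i) R s)) (fun s => ?_) ?_)
    · rw [RestN]
      refine Finset.sum_le_sum fun d _ => Finset.sum_le_sum fun f hf =>
        Finset.sum_le_sum fun e _ => ?_
      exact H1 (x i) _ _ A B T Z hA hB hBZ hT hTZ a1 a2 b1 b2 hs d f e (Finset.mem_powerset.1 hf)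
    · exact mul_nonneg hC1.le (mul_nonneg (hG s) (rN_m_nonneg _ _ _))
    · intro s hs0 hs1
      have h3 : rNm (x i) R s ≠ 0 := by
        intro h0
        apply hs1
        rw [h0, mul_zero, mul_zero]
      obtain ⟨h4, h5⟩ := rN_m_ne hr h3
      exact Finset.mem_filter.2 ⟨h4, hs0, h5⟩
  have step2 : ∑ i ∈ J, RestN (x i) (Ai i) (Bj i) T n
      ≤ C1 * ∑ s ∈ S, 3 ^ s.card * (rNG (ε / 2) A B T Z (Ns s) * (12 * (3 * Λ * B) / Ns s)) := by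
    refine (Finset.sum_le_sum step1).trans ?_
    rw [Finset.sum_comm, Finset.mul_sum]
    refine Finset.sum_le_sum fun s _ => ?_
    rw [← Finset.mul_sum, ← Finset.mul_sum, ← Finset.mul_sum, mul_left_comm]
    refine mul_le_mul_of_nonneg_left (mul_le_mul_of_nonneg_left
      (mul_le_mul_of_nonneg_left ?_ (hG s)) (by positivity)) hC1.le
    rw [mul_assoc 3 Λ B]
    exact rN_m_sum hb J x (by linarith) hx s
  have hS' : ∀ s ∈ S, s ≠ ∅ ∧ Rough w s := fun s hs => (Finset.mem_filter.1 hs).2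
  have s1 := H2 w S hw hS'
  have s2 := H3 w S hw hS'
  have e1 : (7 / 6 - 5 / 3 : ℝ) = -(1 / 2) := by norm_num
  rw [e1] at s1
  rw [sub_self, Real.rpow_zero, mul_one] at s2
  have s3 : ∑ s ∈ S, (3 : ℝ) ^ s.card / Ns s ≤ C4 * (3 * Λ) ^ (ε / 2) * Z ^ (ε / 2) := by
    have h3 : ∑ s ∈ S, (3 : ℝ) ^ s.card / Ns s ≤ ∑ s ∈ sqf R, (3 : ℝ) ^ s.card / Ns s :=
      Finset.sum_le_sum_of_subset_of_nonneg (Finset.filter_subset _ _) fun s _ _ =>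
        div_nonneg (by positivity) (Ns_pos s).le
    refine h3.trans ((H4 R hR1).trans ?_)
    rw [mul_assoc, ← Real.mul_rpow (by positivity) hZ0.le]
    refine mul_le_mul_of_nonneg_left (Real.rpow_le_rpow (by linarith) ?_ (half_pos hε).le) hC4.le
    rw [hR, mul_assoc]
    exact mul_le_mul_of_nonneg_left (mul_le_mul_of_nonneg_left hBZ hΛ0.le) (by norm_num)
  refine step2.trans ?_
  rw [Finset.sum_congr rfl fun s _ => rN_split hB0 (Ns_pos s) _, ← Finset.mul_sum,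
    Finset.sum_add_distrib, ← Finset.mul_sum, ← Finset.mul_sum, Finset.sum_add_distrib,
    Finset.sum_add_distrib, ← Finset.mul_sum, ← Finset.mul_sum, ← Finset.mul_sum, mul_assoc C1,
    mul_assoc C1, mul_assoc (12 * (3 * Λ))]
  refine mul_le_mul_of_nonneg_left (mul_le_mul_of_nonneg_left ?_ (by positivity)) hC1.le
  have c2 : C2 ≤ c := by linarith
  have c3' : C3 ≤ c := by linarith
  have c4 : C4 * (3 * Λ) ^ (ε / 2) ≤ c := by linarith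
  have z1 : Z ^ (ε / 2) ≤ Z ^ ε := Real.rpow_le_rpow_of_exponent_le hZ (by linarith)
  have z2 : Z ^ (ε / 2) * Z ^ (ε / 2) = Z ^ ε := by
    rw [← Real.rpow_add hZ0, add_halves]
  have z3 : B ^ (-(1 / 9) : ℝ) ≤ B ^ (-(1 / 30) : ℝ) :=
    Real.rpow_le_rpow_of_exponent_le hB (by norm_num)
  have s1' := s1.trans (mul_le_mul_of_nonneg_right c2 (by positivity))
  have s2' := s2.trans c3'
  have s3' := s3.trans (mul_le_mul_of_nonneg_right c4 (by positivity))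
  set S1 := ∑ s ∈ S, (3 : ℝ) ^ s.card * Ns s ^ (-(5 / 3) : ℝ)
  set S2 := ∑ s ∈ S, (3 : ℝ) ^ s.card * Ns s ^ (-(14 / 9) : ℝ)
  set S3 := ∑ s ∈ S, (3 : ℝ) ^ s.card / Ns s
  have p1 : T ^ (-(4 / 5) : ℝ) * MM A B * S1
      ≤ T ^ (-(4 / 5) : ℝ) * MM A B * (c * w ^ (-(1 / 2) : ℝ)) :=
    mul_le_mul_of_nonneg_left s1' (by positivity)
  have p2 : Z ^ (ε / 2) * (T ^ (-(4 / 5) : ℝ) * MM A B * B ^ (-(1 / 9) : ℝ) * S2)
      ≤ Z ^ ε * (T ^ (-(4 / 5) : ℝ) * MM A B * B ^ (-(1 / 30) : ℝ) * c) := by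
    refine le_trans (mul_le_mul_of_nonneg_left (mul_le_mul_of_nonneg_left s2' (by positivity))
      (by positivity)) ?_
    refine mul_le_mul z1 (mul_le_mul_of_nonneg_right
      (mul_le_mul_of_nonneg_left z3 (by positivity)) hc0.le) (by positivity) (by positivity)
  have p3 : Z ^ (ε / 2) * (T ^ (-(1 / 7) : ℝ) * A ^ (1 / 3 : ℝ) * B ^ 2 * S1)
      ≤ Z ^ ε * (T ^ (-(1 / 7) : ℝ) * A ^ (1 / 3 : ℝ) * B ^ 2 * (c * w ^ (-(1 / 2) : ℝ))) := by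
    refine le_trans (mul_le_mul_of_nonneg_left (mul_le_mul_of_nonneg_left s1' (by positivity))
      (by positivity)) ?_
    exact mul_le_mul_of_nonneg_right z1 (by positivity)
  have p4 : Z ^ (ε / 2) * (T ^ (3 / 5 : ℝ) * B ^ 2 * S3)
      ≤ Z ^ ε * (T ^ (3 / 5 : ℝ) * B ^ 2 * c) := by
    refine le_trans (mul_le_mul_of_nonneg_left (mul_le_mul_of_nonneg_left s3' (by positivity))
      (by positivity)) (le_of_eq ?_)
    rw [← z2]
    ring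
  linarith

end Pat
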