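import Vale.Agent.P006.IfA

/-! The radial weight `wphi` and its Mellin transform. -/

noncomputable section
namespace Pat
open QRH Complex MeasureTheory Filter
open scoped ComplexConjugate Classical ContDiff Topology

namespace RadWA

theorem cs {φ : ℝ → ℂ} (h : Bump φ) : HasCompactSupport φ :=
  HasCompactSupport.intro (isCompact_Icc (a := (0 : ℝ)) (b := 1)) fun v hv => by
    by_contra h0
    exact hv (h.supp v h0)

theorem bump_deriv {φ : ℝ → ℂ} (h : Bump φ) : Bump (deriv φ) := by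
  refine ⟨(contDiff_infty_iff_deriv.mp h.smooth).2, fun v hv => ?_⟩
  have h1 : v ∈ tsupport φ := support_deriv_subset hv
  have h2 : tsupport φ ⊆ Set.Icc 0 1 :=
    closure_minimal (fun x hx => h.supp x hx) isClosed_Icc
  exact h2 h1

/-- Laplace transform of a bump. -/
def J (φ : ℝ → ℂ) (w : ℂ) : ℂ := ∫ u : ℝ, φ u * Complex.exp (w * u)

theorem cont_exp (w : ℂ) : Continuous fun u : ℝ => Complex.exp (w * u) := by fun_prop

theorem int_J {φ : ℝ → ℂ} (h : Bump φ) (w : ℂ) :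
    Integrable fun u : ℝ => φ u * Complex.exp (w * u) :=
  (h.smooth.continuous.mul (cont_exp w)).integrable_of_hasCompactSupport (cs h).mul_right

theorem J_deriv {φ : ℝ → ℂ} (h : Bump φ) (w : ℂ) : J (deriv φ) w = -w * J φ w := by
  have hd : ∀ u : ℝ, HasDerivAt (fun u : ℝ => φ u * Complex.exp (w * u))
      (deriv φ u * Complex.exp (w * u) + w * (φ u * Complex.exp (w * u))) u := by
    intro u
    have h1 : HasDerivAt φ (deriv φ u) u :=
      ((h.smooth.differentiable (by simp)) u).hasDerivAt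
    have h2 : HasDerivAt (fun u : ℝ => Complex.exp (w * u)) (Complex.exp (w * u) * (w * 1)) u :=
      (((hasDerivAt_id (u : ℂ)).const_mul w).cexp).comp_ofReal
    refine (h1.mul h2).congr_deriv ?_
    ring
  have hi1 := int_J (bump_deriv h) w
  have hi2 := (int_J h w).const_mul w
  have h0 := integral_eq_zero_of_hasDerivAt_of_integrable hd (hi1.add hi2) (int_J h w)
  rw [integral_add hi1 hi2, integral_const_mul] at h0
  unfold J
  linear_combination h0

theorem J_bd0 {φ : ℝ → ℂ} (h : Bump φ) :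
    ∃ C : ℝ, 0 < C ∧ ∀ w : ℂ, |w.re| ≤ 4 → ‖J φ w‖ ≤ C := by
  have hi : Integrable fun u : ℝ => ‖φ u‖ :=
    (h.smooth.continuous.integrable_of_hasCompactSupport (cs h)).norm
  refine ⟨(∫ u : ℝ, ‖φ u‖) * Real.exp 4 + 1, ?_, fun w hw => ?_⟩
  · have : 0 ≤ ∫ u : ℝ, ‖φ u‖ := integral_nonneg fun u => norm_nonneg _
    positivity
  · have h1 : ‖J φ w‖ ≤ ∫ u : ℝ, ‖φ u‖ * Real.exp 4 := by
      refine norm_integral_le_of_norm_le (hi.mul_const _) (Eventually.of_forall fun u => ?_)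
      by_cases hu : φ u = 0
      · simp [hu]
      · obtain ⟨hu0, hu1⟩ := h.supp u hu
        rw [norm_mul, Complex.norm_exp]
        refine mul_le_mul_of_nonneg_left (Real.exp_le_exp.mpr ?_) (norm_nonneg _)
        have : (w * u).re = w.re * u := by simp
        rw [this]
        have h3 := le_abs_self w.re
        nlinarith [abs_nonneg w.re]
    rw [integral_mul_const] at h1
    linarith

theorem J_bd (n : ℕ) : ∀ {φ : ℝ → ℂ}, Bump φ →
    ∃ C : ℝ, 0 < C ∧ ∀ w : ℂ, |w.re| ≤ 4 → ‖w‖ ^ n * ‖J φ w‖ ≤ C := by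
  induction n with
  | zero =>
    intro φ h
    obtain ⟨C, hC, hb⟩ := J_bd0 h
    exact ⟨C, hC, fun w hw => by simpa using hb w hw⟩
  | succ n ih =>
    intro φ h
    obtain ⟨C, hC, hb⟩ := ih (bump_deriv h)
    refine ⟨C, hC, fun w hw => ?_⟩
    have h1 := hb w hw
    rw [J_deriv h, norm_mul, norm_neg] at h1
    rw [pow_succ, mul_assoc]
    exact h1

theorem J_decay (n : ℕ) {φ : ℝ → ℂ} (h : Bump φ) :
    ∃ C : ℝ, 0 < C ∧ ∀ w : ℂ, |w.re| ≤ 4 → ‖J φ w‖ ≤ C * (1 + |w.im|) ^ (-n : ℝ) := by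
  obtain ⟨C0, hC0, h0⟩ := J_bd0 h
  obtain ⟨C1, hC1, h1⟩ := J_bd n h
  refine ⟨2 ^ n * (C0 + C1), by positivity, fun w hw => ?_⟩
  have hp : 0 < 1 + |w.im| := by positivity
  rw [Real.rpow_neg hp.le, Real.rpow_natCast, ← div_eq_mul_inv, le_div_iff₀ (by positivity)]
  have h2 := h0 w hw
  have h3 := h1 w hw
  have hJ := norm_nonneg (J φ w)
  have him : |w.im| ≤ ‖w‖ := Complex.abs_im_le_norm w
  rcases le_total ‖w‖ 1 with hw1 | hw1
  · have h4 : (1 + |w.im|) ^ n ≤ 2 ^ n := pow_le_pow_left₀ hp.le (by linarith) n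
    calc ‖J φ w‖ * (1 + |w.im|) ^ n ≤ C0 * 2 ^ n := mul_le_mul h2 h4 (by positivity) hC0.le
      _ ≤ 2 ^ n * (C0 + C1) := by
        have : (0 : ℝ) < 2 ^ n := by positivity
        nlinarith
  · have h4 : (1 + |w.im|) ^ n ≤ (2 * ‖w‖) ^ n := pow_le_pow_left₀ hp.le (by linarith) n
    calc ‖J φ w‖ * (1 + |w.im|) ^ n ≤ ‖J φ w‖ * (2 * ‖w‖) ^ n :=
          mul_le_mul_of_nonneg_left h4 hJ
      _ = 2 ^ n * (‖w‖ ^ n * ‖J φ w‖) := by rw [mul_pow]; ring
      _ ≤ 2 ^ n * (C0 + C1) := mul_le_mul_of_nonneg_left (by linarith) (by positivity)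

theorem dphi_int {φ : ℝ → ℂ} (h : Bump φ) {T : ℝ} (hT : 0 < T) (s : ℂ) :
    ∫ v : ℝ, dphi φ T v * Complex.exp ((7 / 6 - s) * v)
      = (T⁻¹ : ℝ) * (s * J φ ((7 / 6 - s) / T)) := by
  set w : ℂ := (7 / 6 - s) / T with hw
  have hT' : (T : ℂ) ≠ 0 := by exact_mod_cast hT.ne'
  let g : ℝ → ℂ := fun u => T * (deriv φ u * Complex.exp (w * u))
    + 7 / 6 * (φ u * Complex.exp (w * u))
  have h1 : ∀ v : ℝ, dphi φ T v * Complex.exp ((7 / 6 - s) * v) = g (T * v) := by
    intro v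
    have : w * ((T * v : ℝ) : ℂ) = (7 / 6 - s) * v := by
      rw [hw]; push_cast; field_simp
    simp only [g, dphi, this]
    ring
  simp_rw [h1]
  rw [Measure.integral_comp_mul_left g T, abs_of_pos (inv_pos.mpr hT), Complex.real_smul]
  congr 1
  have h2 : ∫ u, g u = T * J (deriv φ) w + 7 / 6 * J φ w := by
    simp only [g]
    rw [integral_add ((int_J (bump_deriv h) w).const_mul _) ((int_J h w).const_mul _),
      integral_const_mul, integral_const_mul]
    rfl
  rw [h2, J_deriv h]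
  have : (T : ℂ) * w = 7 / 6 - s := by rw [hw]; field_simp
  linear_combination (-J φ w) * this

theorem mel (hb : BA) {φ : ℝ → ℂ} (h : Bump φ) {T : ℝ} (hT : 0 < T) (s : ℂ) :
    ∫ y : ℂ, wphi φ T y * ((‖y‖ ^ 2 : ℝ) : ℂ) ^ (-s)
      = Real.pi * ((T⁻¹ : ℝ) * (s * J φ ((7 / 6 - s) / T))) := by
  let f : ℝ → ℂ := fun y => ((y ^ (1 / 6 : ℝ) : ℝ) : ℂ) * dphi φ T (Real.log y) * (y : ℂ) ^ (-s)
  have h1 : ∀ y : ℂ, wphi φ T y * ((‖y‖ ^ 2 : ℝ) : ℂ) ^ (-s) = f (‖y‖ ^ 2) := by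
    intro y
    have : (‖y‖ ^ 2) ^ (1 / 6 : ℝ) = ‖y‖ ^ (1 / 3 : ℝ) := by
      rw [← Real.rpow_natCast, ← Real.rpow_mul (norm_nonneg _)]
      norm_num
    simp only [f, wphi, this]
  simp_rw [h1]
  rw [hb.polar, hb.polar_log, ← dphi_int h hT s]
  congr 1
  refine integral_congr_ae (Eventually.of_forall fun v => ?_)
  have h2 : ((Real.exp v : ℝ) : ℂ) ^ (-s) = Complex.exp (v * -s) := by
    rw [Complex.cpow_def_of_ne_zero (by exact_mod_cast (Real.exp_pos v).ne'),
      ← Complex.ofReal_log (Real.exp_pos v).le, Real.log_exp]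
  have h3 : (Real.exp v) ^ (1 / 6 : ℝ) = Real.exp (v * (1 / 6)) := by
    rw [Real.exp_mul]
  simp only [f, h2, h3, Real.log_exp]
  have h4 : Complex.exp ((7 / 6 - s) * v)
      = Complex.exp (v * (1 / 6)) * Complex.exp (v * -s) * Complex.exp v := by
    rw [← Complex.exp_add, ← Complex.exp_add]
    congr 1
    ring
  rw [h4]
  push_cast
  ring

theorem dphi_supp {φ : ℝ → ℂ} (h : Bump φ) {T : ℝ} (hT : 1 ≤ T) {v : ℝ}
    (hv : dphi φ T v ≠ 0) : 0 ≤ v ∧ v ≤ 1 := by
  have h1 : 0 ≤ T * v ∧ T * v ≤ 1 := by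
    by_contra hn
    have h2 : φ (T * v) = 0 := by
      by_contra h0
      exact hn (h.supp _ h0)
    have h3 : deriv φ (T * v) = 0 := by
      by_contra h0
      exact hn ((bump_deriv h).supp _ h0)
    exact hv (by simp [dphi, h2, h3])
  have h2 : 0 ≤ v := by
    by_contra hn
    have : T * v < 0 := mul_neg_of_pos_of_neg (by linarith) (not_le.mp hn)
    linarith [h1.1]
  exact ⟨h2, by nlinarith [h1.2]⟩

theorem dphi_smooth {φ : ℝ → ℂ} (h : Bump φ) (T : ℝ) : ContDiff ℝ ∞ (dphi φ T) := by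
  have h0 : ContDiff ℝ ∞ fun v : ℝ => T * v := contDiff_const.mul contDiff_id
  exact (contDiff_const.mul ((bump_deriv h).smooth.comp h0)).add
    (contDiff_const.mul (h.smooth.comp h0))

end RadWA

open RadWA in
theorem radW (hb : BA) : RadW := by
  intro φ T h hT
  refine ⟨?_, fun z hz => ?_, fun u z hu => ?_, ?_⟩
  · let g : ℝ → ℂ := fun v => ((Real.exp (v * (1 / 6)) : ℝ) : ℂ) * dphi φ T v
    have hg : ContDiff ℝ ∞ g := by
      refine ContDiff.mul ?_ (dphi_smooth h T)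
      exact Complex.ofRealCLM.contDiff.comp
        (Real.contDiff_exp.comp (contDiff_id.mul contDiff_const))
    have hc : HasCompactSupport g :=
      HasCompactSupport.intro (isCompact_Icc (a := (0 : ℝ)) (b := 1)) fun v hv => by
        have : dphi φ T v = 0 := by
          by_contra h0
          exact hv (dphi_supp h hT h0)
        simp [g, this]
    have h1 := hb.rad_smooth g 0 hg hc
    have h2 : wphi φ T = fun z : ℂ => if z = 0 then 0 else g (Real.log (‖z‖ ^ 2) + 0) := by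
      funext z
      by_cases hz : z = 0
      · simp [wphi, hz]
      · have hz' : 0 < ‖z‖ := norm_pos_iff.mpr hz
        have h3 : Real.exp (Real.log (‖z‖ ^ 2) * (1 / 6)) = ‖z‖ ^ (1 / 3 : ℝ) := by
          rw [Real.rpow_def_of_pos hz', Real.log_pow]
          congr 1
          push_cast
          ring
        simp only [wphi, hz, if_false, g, add_zero, h3]
    rw [h2]
    exact h1
  · have hz0 : z ≠ 0 := by
      rintro rfl
      exact hz (by simp [wphi])
    have hz' : 0 < ‖z‖ := norm_pos_iff.mpr hz0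
    obtain ⟨h1, h2⟩ := dphi_supp h hT (right_ne_zero_of_mul hz)
    have hp : 0 < ‖z‖ ^ 2 := by positivity
    have h3 : 1 ≤ ‖z‖ ^ 2 := (Real.log_nonneg_iff hp).mp h1
    have h4 : ‖z‖ ^ 2 ≤ Real.exp 1 := by
      rw [← Real.exp_log hp]
      exact Real.exp_le_exp.mpr h2
    have h5 := Real.exp_one_lt_d9
    constructor <;> nlinarith
  · simp only [wphi, norm_mul, hu, one_mul]
  · have h1 := mel hb h (by linarith : 0 < T) 0
    simp only [neg_zero, Complex.cpow_zero, mul_one, zero_mul, mul_zero] at h1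
    simp [ft, psi, h1]

open RadWA in
theorem melW (hb : BA) : MelW := by
  intro φ A h
  obtain ⟨C, hC, hJ⟩ := J_decay A h
  refine ⟨Real.pi * 2 * C, by positivity, fun T σ t hT hσ => ?_⟩
  have hT0 : 0 < T := by linarith
  rw [mel hb h hT0]
  have hre : ((7 / 6 - (σ + t * I)) / T : ℂ).re = (7 / 6 - σ) / T := by
    rw [Complex.div_ofReal_re]
    simp
  have him : ((7 / 6 - (σ + t * I)) / T : ℂ).im = -t / T := by
    rw [Complex.div_ofReal_im]
    simp
  have h1 := hJ ((7 / 6 - (σ + t * I)) / T) (by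
    rw [hre, abs_div, abs_of_pos hT0, div_le_iff₀ hT0]
    have := abs_le.mp hσ
    rw [abs_le]
    constructor <;> linarith [this.1, this.2])
  rw [him, abs_div, abs_neg, abs_of_pos hT0] at h1
  have h2 : ‖(σ + t * I : ℂ)‖ ≤ 2 * (1 + |t|) := by
    have h3 := norm_add_le (σ : ℂ) (t * I)
    simp only [norm_mul, Complex.norm_real, Real.norm_eq_abs, Complex.norm_I, mul_one] at h3
    linarith [abs_nonneg t]
  rw [norm_mul, norm_mul, norm_mul, Complex.norm_real, Complex.norm_real,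
    Real.norm_of_nonneg Real.pi_pos.le, Real.norm_of_nonneg (inv_pos.mpr hT0).le]
  have h4 : ‖(σ + t * I : ℂ)‖ * ‖J φ ((7 / 6 - (σ + t * I)) / T)‖
      ≤ 2 * (1 + |t|) * (C * (1 + |t| / T) ^ (-A : ℝ)) :=
    mul_le_mul h2 h1 (norm_nonneg _) (by positivity)
  calc _ ≤ Real.pi * (T⁻¹ * (2 * (1 + |t|) * (C * (1 + |t| / T) ^ (-A : ℝ)))) :=
        mul_le_mul_of_nonneg_left (mul_le_mul_of_nonneg_left h4 (inv_pos.mpr hT0).le)
          Real.pi_pos.le
    _ = _ := by ring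

end Pat
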