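import Vale.Agent.P006.IfA
import Vale.Agent.P026.Sym

/-! Rational integers inside the Eisenstein integers, part B. -/

noncomputable section
namespace Pat
open QRH Complex MeasureTheory Filter
open scoped ComplexConjugate Classical ContDiff Topology

theorem RatB_nm_int (h : ℤ) : nm (h : E) = h.natAbs ^ 2 := by
  have h1 := nm_int (h : E)
  simp only [QuadraticAlgebra.re_intCast, QuadraticAlgebra.im_intCast, Int.cast_id] at h1
  have h2 : ((h.natAbs ^ 2 : ℕ) : ℤ) = h ^ 2 := by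
    push_cast
    exact sq_abs h
  have h3 : (nm (h : E) : ℤ) = ((h.natAbs ^ 2 : ℕ) : ℤ) := by
    rw [h1, h2]; ring
  exact_mod_cast h3

theorem RatB_ne {h : ℤ} (hh : h ≠ 0) : (h : E) ≠ 0 := by
  intro h0
  have h1 := RatB_nm_int h
  rw [h0, nm_zero] at h1
  exact hh (Int.natAbs_eq_zero.1 ((pow_eq_zero_iff two_ne_zero).1 h1.symm))

theorem RatB_cast_dvd {l : ℕ} {h : ℤ} (hd : (l : ℤ) ∣ h) : (l : E) ∣ (h : E) := by
  obtain ⟨t, rfl⟩ := hd
  exact ⟨(t : E), by push_cast; rfl⟩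

theorem RatB_nm {p : P} {l : ℕ} (hl : l.Prime) (hp : p.1 ∣ (l : E)) :
    nm p.1 = l ∨ nm p.1 = l ^ 2 := by
  have h1 := nm_dvd hp
  rw [nm_natCast] at h1
  obtain ⟨k, hk, he⟩ := (Nat.dvd_prime_pow hl).1 h1
  have h4 := p.four_le_nm
  interval_cases k
  · rw [pow_zero] at he
    omega
  · left; simpa using he
  · right; exact he

theorem RatB_l_dvd {p : P} {l : ℕ} (hl : l.Prime) (hp : p.1 ∣ (l : E)) : l ∣ nm p.1 := by
  rcases RatB_nm hl hp with h | h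
  · rw [h]
  · rw [h]; exact dvd_pow_self l two_ne_zero

theorem RatB_dvd_iff {p : P} {l : ℕ} (hl : l.Prime) (hp : p.1 ∣ (l : E)) (h : ℤ) :
    p.1 ∣ (h : E) ↔ (l : ℤ) ∣ h := by
  refine ⟨fun hd => ?_, fun hd => hp.trans (RatB_cast_dvd hd)⟩
  have h1 := (RatB_l_dvd hl hp).trans (nm_dvd hd)
  rw [RatB_nm_int] at h1
  exact Int.natCast_dvd.2 (hl.dvd_of_dvd_pow h1)

theorem RatB_bar_dvd {p : P} {x : E} (hp : p.1 ∣ x) : p.bar.1 ∣ star x := sy_star_dvd hp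

theorem RatB_bar_nat {p : P} {l : ℕ} (hp : p.1 ∣ (l : E)) : p.bar.1 ∣ (l : E) := by
  have h := RatB_bar_dvd hp
  rwa [star_natCast] at h

theorem RatB_vp_l {p : P} {l : ℕ} (hl : l.Prime) (hp : p.1 ∣ (l : E)) : vp p.1 (l : E) = 1 := by
  have hl0 : (l : E) ≠ 0 := by
    have h := RatB_ne (h := (l : ℤ)) (by exact_mod_cast hl.ne_zero)
    rwa [Int.cast_natCast] at h
  have h1 : vp p.1 (l : E) ≠ 0 := (dvd_iff_vp p.2.1 hl0).1 hp
  have h2 : ¬ 2 ≤ vp p.1 (l : E) := by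
    intro h2
    have h3 := (pow_dvd_iff p.2.1 hl0 2).2 h2
    have h4 := nm_dvd h3
    rw [nm_pow, nm_natCast, Nat.pow_dvd_pow_iff two_ne_zero] at h4
    have h5 := p.four_le_nm
    have h6 : nm p.1 = l := by
      rcases (Nat.dvd_prime hl).1 h4 with h | h
      · omega
      · exact h
    rw [← h6, ← mul_star_eq, sq] at h3
    have h7 : p.1 ∣ p.bar.1 := (mul_dvd_mul_iff_left p.ne_zero).1 h3
    have h8 : p = p.bar := (P.dvd_iff _ _).1 h7
    rcases p.nm_cases with h | ⟨m, hm, -, he⟩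
    · exact h.2 h8.symm
    · rw [he, nm_neg, nm_natCast] at h6
      rw [← h6] at hl
      exact absurd hl.eq_one_of_pow (by norm_num)
  omega

theorem RatB_vp_int (h : ℤ) (p : P) (l : ℕ) (hh : h ≠ 0) (hl : l.Prime) (hp : p.1 ∣ (l : E)) :
    vp p.1 (h : E) = padicValInt l h := by
  have := Fact.mk hl
  obtain ⟨t, ht⟩ := padicValInt_dvd (p := l) h
  have ht0 : t ≠ 0 := by
    rintro rfl
    exact hh (by rw [ht, mul_zero])
  have hn : ¬ (l : ℤ) ∣ t := by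
    rintro ⟨u, hu⟩
    have h1 : (l : ℤ) ^ (padicValInt l h + 1) ∣ h := ⟨u, by
      rw [pow_succ, mul_assoc, ← hu]; exact ht⟩
    rcases (padicValInt_dvd_iff _ _).1 h1 with h2 | h2
    · exact hh h2
    · omega
  have hl0 : (l : E) ≠ 0 := by
    have h := RatB_ne (h := (l : ℤ)) (by exact_mod_cast hl.ne_zero)
    rwa [Int.cast_natCast] at h
  generalize padicValInt l h = k at ht
  have he : (h : E) = (l : E) ^ k * (t : E) := by
    rw [ht]; push_cast; rfl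
  rw [he, vp_mul p.2.1 (pow_ne_zero _ hl0) (RatB_ne ht0), vp_pow p.2.1 hl0, RatB_vp_l hl hp,
    vp_of_not_dvd fun hd => hn ((RatB_dvd_iff hl hp t).1 hd)]
  omega

theorem RatB_vp_bar {h : ℤ} (hh : h ≠ 0) (p : P) : vp p.bar.1 (h : E) = vp p.1 (h : E) := by
  obtain ⟨l, hl, hp⟩ := e1_exists p
  rw [RatB_vp_int h p l hh hl hp, RatB_vp_int h p.bar l hh hl (RatB_bar_nat hp)]

theorem RatB_bar_fac {h : ℤ} (hh : h ≠ 0) {p : P} (hp : p ∈ fac (h : E)) :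
    p.bar ∈ fac (h : E) := by
  rw [mem_fac (RatB_ne hh)] at hp ⊢
  have h1 := RatB_bar_dvd hp
  rwa [star_intCast] at h1

theorem RatB_fac_int (h : ℤ) (hh : h ≠ 0) :
    SelfC (fac (h : E)) ∧ SelfC (cf1 (h : E)) ∧ SelfC (cf2 (h : E)) := by
  refine ⟨fun p hp => ⟨p.bar, RatB_bar_fac hh hp, rfl⟩, fun p hp => ⟨p.bar, ?_, rfl⟩,
    fun p hp => ⟨p.bar, ?_, rfl⟩⟩
  · rw [cf1, Finset.mem_filter] at hp ⊢
    exact ⟨RatB_bar_fac hh hp.1, by rw [RatB_vp_bar hh]; exact hp.2⟩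
  · rw [cf2, Finset.mem_filter] at hp ⊢
    exact ⟨RatB_bar_fac hh hp.1, by rw [RatB_vp_bar hh]; exact hp.2⟩

theorem RatB_under (p : P) : ∃ l : ℕ, l.Prime ∧ l ≠ 3 ∧ p.1 ∣ (l : E) ∧
    (nm p.1 = l ∨ nm p.1 = l ^ 2) ∧ ∀ h : ℤ, p.1 ∣ (h : E) ↔ (l : ℤ) ∣ h := by
  obtain ⟨l, hl, hp⟩ := e1_exists p
  refine ⟨l, hl, ?_, hp, RatB_nm hl hp, RatB_dvd_iff hl hp⟩
  rintro rfl
  exact p.not_dvd_three (by exact_mod_cast hp)

theorem RatB_over (l : ℕ) (hl : l.Prime) (h3 : l ≠ 3) : ∃ p : P, p.1 ∣ (l : E) := by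
  have h0 : l % 3 ≠ 0 := by
    intro h0
    exact h3 ((Nat.prime_dvd_prime_iff_eq Nat.prime_three hl).1 (Nat.dvd_of_mod_eq_zero h0)).symm
  by_cases h1 : l % 3 = 1
  · obtain ⟨p, hp⟩ := exists_P_split hl h1
    exact ⟨p, star p.1, by rw [mul_star_eq, hp]⟩
  · obtain ⟨p, hp⟩ := exists_P_inert hl (by omega)
    exact ⟨p, -1, by rw [hp]; ring⟩

theorem RatB_cop (h : ℤ) (d : E) (hd : Pm d) (hh : h ≠ 0) :
    Disjoint (fac d) (fac (h : E)) ↔ Int.gcd h (nm d) = 1 := by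
  have hd0 : d ≠ 0 := primary_ne_zero hd
  rw [Finset.disjoint_left]
  constructor
  · intro H
    by_contra hg
    obtain ⟨l, hl, hlg⟩ := Nat.exists_prime_and_dvd hg
    have h1 : (l : ℤ) ∣ h := (Int.natCast_dvd_natCast.2 hlg).trans (Int.gcd_dvd_left _ _)
    have h2 : l ∣ nm d := Int.natCast_dvd_natCast.1
      ((Int.natCast_dvd_natCast.2 hlg).trans (Int.gcd_dvd_right _ _))
    have h3 : l ≠ 3 := by
      rintro rfl
      exact not_lam_dvd_of_primary hd (lam_dvd_iff.2 h2)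
    obtain ⟨p, hp⟩ := RatB_over l hl h3
    have h4 : p.1 ∣ d * star d := by
      rw [mul_star_eq]
      exact hp.trans (natCast_dvd_natCast.2 h2)
    rcases p.2.1.dvd_or_dvd h4 with h5 | h5
    · exact H ((mem_fac hd0).2 h5) ((mem_fac (RatB_ne hh)).2 (hp.trans (RatB_cast_dvd h1)))
    · have h6 := RatB_bar_dvd h5
      rw [star_star] at h6
      exact H ((mem_fac hd0).2 h6)
        ((mem_fac (RatB_ne hh)).2 ((RatB_bar_nat hp).trans (RatB_cast_dvd h1)))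
  · intro hg p hp1 hp2
    obtain ⟨l, hl, hp⟩ := e1_exists p
    have h1 : (l : ℤ) ∣ h := (RatB_dvd_iff hl hp h).1 ((mem_fac (RatB_ne hh)).1 hp2)
    have h2 : l ∣ nm d := (RatB_l_dvd hl hp).trans (nm_dvd ((mem_fac hd0).1 hp1))
    have h3 := Int.dvd_gcd h1 (Int.natCast_dvd_natCast.2 h2)
    rw [hg] at h3
    exact hl.not_dvd_one h3

theorem RatB_xv_dec (z γ : E) (H : ∀ p ∈ fac z, ¬ p.1 ∣ γ) :
    xv c3 z γ = xs c3 (cf1 z) γ * conj (xs c3 (cf2 z) γ) := by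
  rw [xv, xs, xs, map_prod, cf1, cf2, Finset.prod_filter, Finset.prod_filter,
    ← Finset.prod_mul_distrib]
  refine Finset.prod_congr rfl fun p hp => ?_
  rw [c3_pow_mod (H p hp), conj_c3]
  have h3 : vp p.1 z % 3 < 3 := Nat.mod_lt _ (by norm_num)
  generalize vp p.1 z % 3 = r at h3
  interval_cases r <;> simp

theorem RatB_xv_pm (hb : BA) (z γ : E) (hz : Pm z) (hγ : Pm γ) : xv c3 γ z =
    if Disjoint (fac γ) (fac z) then xs c3 (cf1 z) γ * conj (xs c3 (cf2 z) γ) else 0 := by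
  have hz0 : z ≠ 0 := primary_ne_zero hz
  have hγ0 : γ ≠ 0 := primary_ne_zero hγ
  split_ifs with H
  · rw [hb.recip γ z hγ hz]
    exact RatB_xv_dec z γ fun p hp hd => Finset.disjoint_left.1 H ((mem_fac hγ0).2 hd) hp
  · obtain ⟨p, h1, h2⟩ := Finset.not_disjoint_iff.1 H
    exact (xv_eq_zero_iff ch_c3 hγ0).2 ⟨p, (mem_fac hγ0).1 h1, (mem_fac hz0).1 h2⟩

theorem RatB_fac_neg {z : E} (hz : z ≠ 0) : fac (-z) = fac z := by
  ext p
  rw [mem_fac hz, mem_fac (neg_ne_zero.2 hz), dvd_neg]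

theorem RatB_xv_int (hb : BA) (h : ℤ) (γ : E) (h3 : ¬ (3 : ℤ) ∣ h) (hγ : Pm γ) :
    xv c3 γ (h : E) = if Disjoint (fac γ) (fac (h : E)) then
      xs c3 (cf1 (h : E)) γ * conj (xs c3 (cf2 (h : E)) γ) else 0 := by
  have hh : h ≠ 0 := by
    rintro rfl
    exact h3 (dvd_zero _)
  by_cases h1 : (3 : ℤ) ∣ h - 1
  · refine RatB_xv_pm hb _ γ ?_ hγ
    have h2 := RatB_cast_dvd (l := 3) (h := h - 1) (by exact_mod_cast h1)
    rw [Pm]
    exact_mod_cast h2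
  · have h2 := RatB_cast_dvd (l := 3) (h := -h - 1) (by omega)
    have h4 : Pm (-(h : E)) := by
      rw [Pm]
      exact_mod_cast h2
    have h5 := RatB_xv_pm hb _ γ h4 hγ
    have h6 : cf1 (-(h : E)) = cf1 (h : E) := by
      rw [cf1, cf1, RatB_fac_neg (RatB_ne hh)]
      exact Finset.filter_congr fun p _ => by rw [vp_neg p.2.1 (RatB_ne hh)]
    have h7 : cf2 (-(h : E)) = cf2 (h : E) := by
      rw [cf2, cf2, RatB_fac_neg (RatB_ne hh)]
      exact Finset.filter_congr fun p _ => by rw [vp_neg p.2.1 (RatB_ne hh)]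
    rw [h6, h7, RatB_fac_neg (RatB_ne hh)] at h5
    rw [← h5, xv, xv]
    exact Finset.prod_congr rfl fun p _ => by rw [c3_neg]

theorem RatB_sq_cube {t u : ℤ} (h : t ^ 2 = u ^ 3) : ∃ j : ℤ, t = j ^ 3 := by
  by_cases hu : u = 0
  · refine ⟨0, ?_⟩
    rw [hu] at h
    simpa using h
  have h1 : u ^ 2 ∣ t ^ 2 := ⟨u, by rw [h]; ring⟩
  obtain ⟨j, rfl⟩ := (Int.pow_dvd_pow_iff two_ne_zero).1 h1
  have h2 : j ^ 2 = u := mul_left_cancel₀ (pow_ne_zero 2 hu) (by linear_combination h)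
  exact ⟨j, by rw [← h2]; ring⟩

theorem RatB_cube_int (h : ℤ) : IsCube (h : E) ↔ ∃ j : ℤ, h = j ^ 3 := by
  constructor
  · rintro ⟨j, hj⟩
    have h1 := RatB_nm_int h
    rw [hj, nm_pow] at h1
    refine RatB_sq_cube (u := nm j) ?_
    have h2 : ((nm j ^ 3 : ℕ) : ℤ) = ((h.natAbs ^ 2 : ℕ) : ℤ) := by rw [h1]
    push_cast at h2
    rw [h2, sq_abs]
  · rintro ⟨j, rfl⟩
    exact ⟨(j : E), by push_cast; rfl⟩

theorem RatB_cube_mn (m n : ℤ) (hm : m ≠ 0) (hc : ∀ l : ℕ, l.Prime → ¬ (l : ℤ) ^ 3 ∣ m) :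
    IsCube ((m * n ^ 2 : ℤ) : E) ↔ ∃ j : ℤ, n = m * j ^ 3 := by
  rw [RatB_cube_int]
  constructor
  · rintro ⟨k, hk⟩
    by_cases hn : n = 0
    · exact ⟨0, by simp [hn]⟩
    have hm' : m.natAbs ≠ 0 := Int.natAbs_ne_zero.2 hm
    have hn' : n.natAbs ≠ 0 := Int.natAbs_ne_zero.2 hn
    have h1 : m.natAbs * n.natAbs ^ 2 = k.natAbs ^ 3 := by
      rw [← Int.natAbs_pow, ← Int.natAbs_mul, hk, Int.natAbs_pow]
    have h2 : m.natAbs ∣ n.natAbs := by
      refine (Nat.factorization_prime_le_iff_dvd hm' hn').1 fun l hl => ?_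
      have h3 := congrArg (fun x : ℕ => x.factorization l) h1
      simp only [Nat.factorization_mul hm' (pow_ne_zero 2 hn'), Nat.factorization_pow,
        Finsupp.add_apply, Finsupp.smul_apply, smul_eq_mul] at h3
      have h4 : ¬ 3 ≤ m.natAbs.factorization l := by
        intro h4
        have h5 := (hl.pow_dvd_iff_le_factorization hm').2 h4
        refine hc l hl ?_
        have h6 := Int.natCast_dvd.2 h5
        exact_mod_cast h6
      omega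
    obtain ⟨t, rfl⟩ := Int.natAbs_dvd_natAbs.1 h2
    have h3 : m ^ 3 ∣ k ^ 3 := ⟨t ^ 2, by rw [← hk]; ring⟩
    obtain ⟨u, rfl⟩ := (Int.pow_dvd_pow_iff three_ne_zero).1 h3
    have h4 : t ^ 2 = u ^ 3 := mul_left_cancel₀ (pow_ne_zero 3 hm) (by linear_combination hk)
    obtain ⟨j, rfl⟩ := RatB_sq_cube h4
    exact ⟨j, rfl⟩
  · rintro ⟨j, rfl⟩
    exact ⟨m * j ^ 2, by ring⟩

theorem RatB_rough (w : ℕ) (p : P) (hp : p ∉ fac (primorial w : E)) : (w : ℝ) < nm p.1 := by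
  obtain ⟨l, hl, hd⟩ := e1_exists p
  have h0 : ((primorial w : ℕ) : E) ≠ 0 := by
    have h := RatB_ne (h := (primorial w : ℤ)) (by exact_mod_cast (primorial_pos w).ne')
    rwa [Int.cast_natCast] at h
  have h1 : w < l := by
    by_contra h1
    refine hp ((mem_fac h0).2 (hd.trans (natCast_dvd_natCast.2 ?_)))
    exact Finset.dvd_prod_of_mem (fun q => q)
      (Finset.mem_filter.2 ⟨Finset.mem_range.2 (by omega), hl⟩)
  have h2 : l ≤ nm p.1 := Nat.le_of_dvd (one_le_nm p.ne_zero) (RatB_l_dvd hl hd)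
  exact_mod_cast h1.trans_le h2

theorem RatB_not_prim (γ : E) (hγ : Pm γ) (H : ¬ (γ = pr (fac γ) ∧ Prim (fac γ))) :
    ∃ p ∈ fac γ, p.1 ^ 2 ∣ γ ∨ p.1 * star p.1 ∣ γ ∨ (star p.1 = p.1) := by
  have hγ0 : γ ≠ 0 := primary_ne_zero hγ
  by_contra hc
  refine H ⟨eq_pr_of_vp_le hγ fun p => ?_, fun p hp q hq he => ?_⟩
  · by_contra h1
    have h2 := (pow_dvd_iff p.2.1 hγ0 2).2 (by omega)
    exact hc ⟨p, (mem_fac hγ0).2 ((dvd_pow_self _ two_ne_zero).trans h2), Or.inl h2⟩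
  · by_cases h1 : p = q
    · exact hc ⟨p, hp, Or.inr (Or.inr (by rw [← he, h1]))⟩
    · refine hc ⟨p, hp, Or.inr (Or.inl ?_)⟩
      rw [← he]
      exact (P.coprime h1).mul_dvd ((mem_fac hγ0).1 hp) ((mem_fac hγ0).1 hq)

theorem ratB (hb : BA) : RatB where
  fac_int := RatB_fac_int
  vp_int := RatB_vp_int
  under := RatB_under
  over_P := RatB_over
  cop_int := RatB_cop
  xv_int := RatB_xv_int hb
  cube_int := RatB_cube_int
  cube_mn := RatB_cube_mn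
  rough_P := RatB_rough
  not_prim := RatB_not_prim

end Pat
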