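import Vale.Agent.P006.IfC
import Vale.Agent.P026.Rearr

noncomputable section
namespace Pat
open QRH Complex MeasureTheory Filter
open scoped ComplexConjugate Classical ContDiff Topology

theorem S2B_kap : 0 < kap := by
  unfold kap
  have := Real.Gamma_pos_of_pos (show (0 : ℝ) < 2 / 3 by norm_num)
  have := Real.pi_pos
  positivity

theorem S2B_rho : 0 < rho := by
  unfold rho
  have := Real.pi_pos
  positivity

theorem S2B_pm_ne {a : E} (h : Pm a) : a ≠ 0 := by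
  rintro rfl
  have h1 : (3 : E) ∣ 1 := by
    have h2 : (3 : E) ∣ -(0 - 1) := (dvd_neg).2 h
    simpa using h2
  have h3 := nm_dvd h1
  have h4 : nm (3 : E) = 9 := by decide
  have h5 : nm (1 : E) = 1 := by decide
  rw [h4, h5] at h3
  norm_num at h3

theorem S2B_prod (s : Finset P) :
    0 ≤ 1 - ∏ p ∈ s, (1 - (nm p.1 : ℝ)⁻¹) ∧
      1 - ∏ p ∈ s, (1 - (nm p.1 : ℝ)⁻¹) ≤ ∑ p ∈ s, (nm p.1 : ℝ)⁻¹ := by
  have h0 : ∀ p : P, 0 ≤ (nm p.1 : ℝ)⁻¹ ∧ (nm p.1 : ℝ)⁻¹ ≤ 1 := fun p =>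
    ⟨by positivity, inv_le_one_of_one_le₀ (one_le_nmR p.ne_zero)⟩
  induction s using Finset.induction_on with
  | empty => simp
  | insert p s hp ih =>
    rw [Finset.prod_insert hp, Finset.sum_insert hp]
    have h1 : 0 ≤ ∏ p ∈ s, (1 - (nm p.1 : ℝ)⁻¹) :=
      Finset.prod_nonneg fun q _ => by linarith [(h0 q).2]
    obtain ⟨h2, h3⟩ := h0 p
    obtain ⟨h4, h5⟩ := ih
    constructor
    · nlinarith
    · nlinarith

theorem S2B_rough (hb : BA) : ∃ C : ℝ, 0 < C ∧ ∀ (β : Finset P → ℂ) (B w : ℝ), 1 ≤ B → 1 ≤ w →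
    GB β B 3 w → ∑ b ∈ sqf (3 * B), ‖β b‖ * ∑ p ∈ b, (nm p.1 : ℝ)⁻¹ ≤ C * B / w := by
  obtain ⟨C, hC, h⟩ := hb.tail_P 2 (by norm_num)
  refine ⟨36 * C, by positivity, fun β B w hB hw hβ => ?_⟩
  set T : Finset P := (prs (3 * B)).filter fun p => w < nm p.1 with hT
  have h1 : ∀ b ∈ sqf (3 * B), ‖β b‖ * ∑ p ∈ b, (nm p.1 : ℝ)⁻¹
      ≤ ∑ p ∈ T, if {p} ⊆ b then (nm p.1 : ℝ)⁻¹ else 0 := by
    intro b hb'
    by_cases h0 : β b = 0
    · rw [h0, norm_zero, zero_mul]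
      exact Finset.sum_nonneg fun p _ => by split_ifs <;> positivity
    · have h2 : b ⊆ T := fun p hp => by
        rw [hT, Finset.mem_filter, hb.mem_prs]
        refine ⟨?_, hβ.rough b h0 p hp⟩
        have h3 : Ns {p} ≤ Ns b := Ns_mono (Finset.singleton_subset_iff.2 hp)
        rw [Ns_eq_prod, Finset.prod_singleton] at h3
        exact h3.trans (mem_sqf.1 hb')
      have h3 : ∑ p ∈ T, (if {p} ⊆ b then (nm p.1 : ℝ)⁻¹ else 0) = ∑ p ∈ b, (nm p.1 : ℝ)⁻¹ := by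
        rw [← Finset.sum_filter]
        refine Finset.sum_congr ?_ fun _ _ => rfl
        ext p
        rw [Finset.mem_filter, Finset.singleton_subset_iff]
        exact ⟨fun h => h.2, fun h => ⟨h2 h, h⟩⟩
      rw [h3]
      exact mul_le_of_le_one_left (Finset.sum_nonneg fun p _ => by positivity) (hβ.bd b)
  refine (Finset.sum_le_sum h1).trans ?_
  rw [Finset.sum_comm]
  have h2 : ∀ p ∈ T, ∑ b ∈ sqf (3 * B), (if {p} ⊆ b then (nm p.1 : ℝ)⁻¹ else 0)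
      ≤ 36 * B * (nm p.1 : ℝ) ^ (-(2 : ℝ)) := by
    intro p _
    rw [← Finset.sum_filter, Finset.sum_const, nsmul_eq_mul]
    have h3 := hb.card_sup (3 * B) {p} (by positivity)
    rw [Ns_eq_prod, Finset.prod_singleton] at h3
    have h4 : (0 : ℝ) < nm p.1 := lt_of_lt_of_le one_pos (one_le_nmR p.ne_zero)
    refine (mul_le_mul_of_nonneg_right h3 (by positivity)).trans (le_of_eq ?_)
    rw [Real.rpow_neg h4.le, Real.rpow_two]
    field_simp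
    ring
  refine (Finset.sum_le_sum h2).trans ?_
  rw [← Finset.mul_sum]
  have h3 := h w T hw fun p hp => (Finset.mem_filter.1 hp).2
  have h4 : w ^ ((1 : ℝ) - 2) = w⁻¹ := by
    rw [show (1 : ℝ) - 2 = -1 by norm_num, Real.rpow_neg_one]
  rw [h4] at h3
  refine (mul_le_mul_of_nonneg_left h3 (by positivity)).trans (le_of_eq ?_)
  rw [div_eq_mul_inv]
  ring

theorem S2B_t0 {β : Finset P → ℂ} {B w : ℝ} (hB : 1 ≤ B) (hβ : GB β B 3 w) (b : Finset P) :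
    ‖β b * t0 b‖ ≤ kap * B ^ (-(1 / 6) : ℝ) * ‖β b‖ := by
  by_cases h0 : β b = 0
  · simp [h0]
  · rw [norm_mul, mul_comm]
    refine mul_le_mul_of_nonneg_right ?_ (norm_nonneg _)
    have h1 := Ns_pos b
    have h2 := S2B_kap
    rw [t0, Complex.norm_real, Real.norm_of_nonneg (by positivity)]
    exact mul_le_mul_of_nonneg_left
      (Real.rpow_le_rpow_of_nonpos (by linarith) (hβ.sup b h0).1 (by norm_num)) h2.le

theorem S2B_S0 {β : Finset P → ℂ} {B w : ℝ} (hB : 1 ≤ B) (hβ : GB β B 3 w) :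
    ‖∑ b ∈ sqf (3 * B), β b * t0 b‖ ≤ 36 * kap * B ^ (5 / 6 : ℝ) := by
  have h2 := S2B_kap
  have h1 : ∀ b ∈ sqf (3 * B), ‖β b * t0 b‖ ≤ kap * B ^ (-(1 / 6) : ℝ) := fun b _ =>
    (S2B_t0 hB hβ b).trans (mul_le_of_le_one_right (by positivity) (hβ.bd b))
  refine (norm_sum_le _ _).trans ((Finset.sum_le_sum h1).trans ?_)
  rw [Finset.sum_const, nsmul_eq_mul]
  have h3 := card_sqf_le (show 0 ≤ 3 * B by positivity)
  refine (mul_le_mul_of_nonneg_right h3 (by positivity)).trans (le_of_eq ?_)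
  have h4 : B ^ (5 / 6 : ℝ) = B * B ^ (-(1 / 6) : ℝ) := by
    rw [show (5 / 6 : ℝ) = 1 + -(1 / 6) by norm_num, Real.rpow_add (by linarith), Real.rpow_one]
  rw [h4]
  ring

/-- The weight. -/
def S2B_phi (v : ℝ) : ℂ := (Om v : ℂ) * ((Real.exp (-(1 / 6) * v) : ℝ) : ℂ)

theorem S2B_bump (hb : BA) : Bump S2B_phi := by
  constructor
  · refine hb.Om_bump.smooth.mul ?_
    exact Complex.ofRealCLM.contDiff.comp
      (Real.contDiff_exp.comp (contDiff_const.mul contDiff_id))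
  · intro v hv
    exact hb.Om_bump.supp v (left_ne_zero_of_mul hv)

theorem S2B_mo : mo S2B_phi 1 (5 / 6) = mOm := by
  unfold mOm mo S2B_phi
  refine integral_congr_ae (Eventually.of_forall fun v => ?_)
  simp only [one_mul]
  rw [mul_assoc, ← Complex.ofReal_mul, ← Real.exp_add]
  congr 3
  ring

theorem S2B_lw {A y : ℝ} (hA : 0 < A) (hy : 0 < y) :
    ((Om (Real.log (y / A)) : ℝ) : ℂ) * ((y ^ (-(1 / 6) : ℝ) : ℝ) : ℂ)
      = ((A ^ (-(1 / 6) : ℝ) : ℝ) : ℂ) * lw S2B_phi 1 A y := by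
  unfold lw S2B_phi
  have h1 : y ^ (-(1 / 6) : ℝ)
      = A ^ (-(1 / 6) : ℝ) * Real.exp (-(1 / 6) * Real.log (y / A)) := by
    rw [mul_comm (-(1 / 6) : ℝ), ← Real.rpow_def_of_pos (by positivity),
      ← Real.mul_rpow hA.le (by positivity), mul_div_cancel₀ _ hA.ne']
  rw [one_mul, h1]
  push_cast
  ring

theorem s2B (hb : BA) (h : TwS ((rho * kap : ℝ) : ℂ)) : S2B := by
  intro ε hε
  obtain ⟨C1, hC1, h1⟩ := h S2B_phi ε (S2B_bump hb) hε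
  obtain ⟨C2, hC2, h2⟩ := S2B_rough hb
  have hk := S2B_kap
  have hr := S2B_rho
  refine ⟨36 * 3 ^ (1 / 2 + ε) * C1 + rho * ‖mOm‖ * kap * C2, by positivity,
    fun β A B w hA hB hw hβ => ?_⟩
  set G : Finset P → ℂ := fun b => ∑ γ ∈ pball (3 * A), th γ * xs c3 b γ * lw S2B_phi 1 A (nm γ)
    with hG
  set Pi : Finset P → ℝ := fun b => ∏ p ∈ b, (1 - (nm p.1 : ℝ)⁻¹) with hPi
  set Er : Finset P → ℂ := fun b => G b - conj (tt b) * ((rho * kap : ℝ) : ℂ) * mOm *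
    ((A ^ (5 / 6 : ℝ) * Ns b ^ (-(1 / 6) : ℝ) * Pi b : ℝ) : ℂ) with hEr
  have h3 : ∀ b, ‖Er b‖ ≤ C1 * Ns b ^ (1 / 2 + ε) := by
    intro b
    have h4 := h1 b ∅ ∅ A (Finset.disjoint_empty_right _) hA
    have h5 : ∀ γ : E, xs c3 ∅ γ = 1 := fun γ => by simp [xs]
    simp only [Finset.disjoint_empty_right, if_true, h5, map_one, mul_one, Finset.union_empty,
      Finset.empty_sdiff, Ns_empty, Real.one_rpow, S2B_mo] at h4
    exact h4
  have h4 : ∑ a ∈ pball (3 * A), (Om (Real.log (nm a / A)) : ℝ) *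
        (∑ b ∈ sqf (3 * B), β b * tt b * xs c3 b a) * th a
          * (((nm a : ℝ) ^ (-(1 / 6) : ℝ) : ℝ) : ℂ)
      = ∑ b ∈ sqf (3 * B), β b * tt b * ((A ^ (-(1 / 6) : ℝ) : ℝ) : ℂ) * G b := by
    simp only [hG, Finset.mul_sum, Finset.sum_mul]
    rw [Finset.sum_comm]
    refine Finset.sum_congr rfl fun b _ => Finset.sum_congr rfl fun a ha => ?_
    have h5 : (0 : ℝ) < nm a :=
      lt_of_lt_of_le one_pos (one_le_nmR (S2B_pm_ne ((hb.mem_pball _ _).1 ha).1))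
    have h6 := S2B_lw hA h5
    linear_combination (β b * tt b * xs c3 b a * th a) * h6
  have h5 : A ^ (-(1 / 6) : ℝ) * A ^ (5 / 6 : ℝ) = A ^ (2 / 3 : ℝ) := by
    rw [← Real.rpow_add hA]
    norm_num
  have h6 : ∀ b, β b * tt b * ((A ^ (-(1 / 6) : ℝ) : ℝ) : ℂ) * G b
      - ((rho * A ^ (2 / 3 : ℝ) : ℝ) : ℂ) * mOm * (β b * t0 b)
      = β b * tt b * ((A ^ (-(1 / 6) : ℝ) : ℝ) : ℂ) * Er b
        - ((rho * A ^ (2 / 3 : ℝ) : ℝ) : ℂ) * mOm * (β b * t0 b) * ((1 - Pi b : ℝ) : ℂ) := by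
    intro b
    have h7 : tt b * conj (tt b) = 1 := by
      rw [Complex.mul_conj, Complex.normSq_eq_norm_sq, hb.norm_tt]
      norm_num
    rw [← h5]
    simp only [hEr, t0]
    push_cast
    linear_combination (β b * ((A ^ (-(1 / 6) : ℝ) : ℝ) : ℂ) * rho * kap * mOm
      * ((A ^ (5 / 6 : ℝ) : ℝ) : ℂ) * ((Ns b ^ (-(1 / 6) : ℝ) : ℝ) : ℂ) * (Pi b : ℂ)) * h7
  rw [h4, Finset.mul_sum, ← Finset.sum_sub_distrib]
  simp only [h6]
  have hB0 : 0 < B := by linarith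
  have h7 : ∀ b ∈ sqf (3 * B), ‖β b * tt b * ((A ^ (-(1 / 6) : ℝ) : ℝ) : ℂ) * Er b
        - ((rho * A ^ (2 / 3 : ℝ) : ℝ) : ℂ) * mOm * (β b * t0 b) * ((1 - Pi b : ℝ) : ℂ)‖
      ≤ A ^ (-(1 / 6) : ℝ) * (C1 * (3 * B) ^ (1 / 2 + ε))
        + rho * A ^ (2 / 3 : ℝ) * ‖mOm‖ * (kap * B ^ (-(1 / 6) : ℝ))
          * (‖β b‖ * ∑ p ∈ b, (nm p.1 : ℝ)⁻¹) := by
    intro b hb'
    refine (norm_sub_le _ _).trans (add_le_add ?_ ?_)
    · rw [norm_mul, norm_mul, norm_mul, hb.norm_tt, mul_one, Complex.norm_real,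
        Real.norm_of_nonneg (by positivity), mul_assoc]
      refine (mul_le_of_le_one_left (by positivity) (hβ.bd b)).trans ?_
      refine mul_le_mul_of_nonneg_left ((h3 b).trans ?_) (by positivity)
      exact mul_le_mul_of_nonneg_left
        (Real.rpow_le_rpow (Ns_pos b).le (mem_sqf.1 hb') (by positivity)) hC1.le
    · obtain ⟨h8, h9⟩ := S2B_prod b
      rw [norm_mul, norm_mul, norm_mul, Complex.norm_real, Complex.norm_real,
        Real.norm_of_nonneg (by positivity), Real.norm_of_nonneg h8]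
      have h10 := S2B_t0 hB hβ b
      calc rho * A ^ (2 / 3 : ℝ) * ‖mOm‖ * ‖β b * t0 b‖ * (1 - Pi b)
          ≤ rho * A ^ (2 / 3 : ℝ) * ‖mOm‖ * (kap * B ^ (-(1 / 6) : ℝ) * ‖β b‖)
            * ∑ p ∈ b, (nm p.1 : ℝ)⁻¹ :=
            mul_le_mul (mul_le_mul_of_nonneg_left h10 (by positivity)) h9 h8 (by positivity)
        _ = _ := by ring
  refine (norm_sum_le _ _).trans ((Finset.sum_le_sum h7).trans ?_)
  rw [Finset.sum_add_distrib, Finset.sum_const, nsmul_eq_mul, ← Finset.mul_sum]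
  have h8 := card_sqf_le (show 0 ≤ 3 * B by positivity)
  have h9 := h2 β B w hB hw hβ
  have h10 : B ^ (5 / 6 : ℝ) = B * B ^ (-(1 / 6) : ℝ) := by
    rw [show (5 / 6 : ℝ) = 1 + -(1 / 6) by norm_num, Real.rpow_add hB0, Real.rpow_one]
  have h11 : B ^ (3 / 2 + ε) = B * B ^ (1 / 2 + ε) := by
    rw [show (3 / 2 + ε) = 1 + (1 / 2 + ε) by ring, Real.rpow_add hB0, Real.rpow_one]
  have h12 : (3 * B) ^ (1 / 2 + ε) = 3 ^ (1 / 2 + ε) * B ^ (1 / 2 + ε) :=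
    Real.mul_rpow (by norm_num) hB0.le
  have hw0 : 0 < w := by linarith
  calc _ ≤ 12 * (3 * B) * (A ^ (-(1 / 6) : ℝ) * (C1 * (3 * B) ^ (1 / 2 + ε)))
        + rho * A ^ (2 / 3 : ℝ) * ‖mOm‖ * (kap * B ^ (-(1 / 6) : ℝ)) * (C2 * B / w) :=
        add_le_add (mul_le_mul_of_nonneg_right h8 (by positivity))
          (mul_le_mul_of_nonneg_left h9 (by positivity))
    _ = 36 * 3 ^ (1 / 2 + ε) * C1 * (A ^ (-(1 / 6) : ℝ) * B ^ (3 / 2 + ε))
        + rho * ‖mOm‖ * kap * C2 * (A ^ (2 / 3 : ℝ) * B ^ (5 / 6 : ℝ) / w) := by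
        rw [h10, h11, h12]
        ring
    _ ≤ _ := by
        have h13 : 0 ≤ A ^ (-(1 / 6) : ℝ) * B ^ (3 / 2 + ε) := by positivity
        have h14 : 0 ≤ A ^ (2 / 3 : ℝ) * B ^ (5 / 6 : ℝ) / w := by positivity
        have h15 : 0 ≤ 36 * 3 ^ (1 / 2 + ε) * C1 := by positivity
        have h16 : 0 ≤ rho * ‖mOm‖ * kap * C2 := by positivity
        nlinarith [mul_nonneg h15 h14, mul_nonneg h16 h13]

theorem S2B_sq (u t S : ℂ) (r : ℝ) :
    ‖u - conj t * (r : ℂ) * S‖ ^ 2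
      = ‖u‖ ^ 2 - 2 * (u * t * (r : ℂ) * conj S).re + ‖S‖ ^ 2 * (‖t‖ ^ 2 * r ^ 2) := by
  simp only [← Complex.normSq_eq_norm_sq, Complex.normSq_apply, Complex.sub_re, Complex.sub_im,
    Complex.mul_re, Complex.mul_im, Complex.conj_re, Complex.conj_im, Complex.ofReal_re,
    Complex.ofReal_im]
  ring

theorem S2B_comb (s1 s3 c : ℝ) (M s2 S m : ℂ) :
    s1 - 2 * (s2 * conj S).re + ‖S‖ ^ 2 * s3
      ≤ ‖(s1 : ℂ) - M‖ + ‖M - ((c * ‖S‖ ^ 2 : ℝ) : ℂ) * m‖ + 2 * (‖s2 - (c : ℂ) * m * S‖ * ‖S‖)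
        + ‖S‖ ^ 2 * ‖(s3 : ℂ) - (c : ℂ) * m‖ := by
  have h1 := Complex.re_le_norm ((s1 : ℂ) - M)
  have h2 := Complex.re_le_norm (M - ((c * ‖S‖ ^ 2 : ℝ) : ℂ) * m)
  have h3 := Complex.re_le_norm (-((s2 - (c : ℂ) * m * S) * conj S))
  have h4 := mul_le_mul_of_nonneg_left (Complex.re_le_norm ((s3 : ℂ) - (c : ℂ) * m))
    (sq_nonneg ‖S‖)
  rw [norm_neg, norm_mul, Complex.norm_conj] at h3
  have h5 : (-((s2 - (c : ℂ) * m * S) * conj S)).re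
      = -(s2 * conj S).re + c * ‖S‖ ^ 2 * m.re := by
    simp only [← Complex.normSq_eq_norm_sq, Complex.normSq_apply, Complex.sub_re, Complex.sub_im,
      Complex.neg_re, Complex.mul_re, Complex.mul_im, Complex.conj_re, Complex.conj_im,
      Complex.ofReal_re, Complex.ofReal_im]
    ring
  rw [h5] at h3
  rw [Complex.sub_re, Complex.re_ofReal_mul] at h2
  rw [Complex.sub_re, Complex.re_ofReal_mul, Complex.ofReal_re] at h4
  rw [Complex.sub_re, Complex.ofReal_re] at h1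
  nlinarith

theorem S2B_dsp (β : Finset P → ℂ) (A B : ℝ) :
    Dsp β A B = S1 (fun b => β b * tt b) A B 1
      - 2 * ((∑ a ∈ pball (3 * A), (Om (Real.log (nm a / A)) : ℝ) *
        (∑ b ∈ sqf (3 * B), β b * tt b * xs c3 b a) * th a
          * (((nm a : ℝ) ^ (-(1 / 6) : ℝ) : ℝ) : ℂ)) * conj (∑ b ∈ sqf (3 * B), β b * t0 b)).re
      + ‖∑ b ∈ sqf (3 * B), β b * t0 b‖ ^ 2 * ∑ a ∈ pball (3 * A),
        Om (Real.log (nm a / A)) * ‖th a‖ ^ 2 * (nm a : ℝ) ^ (-(1 / 3) : ℝ) := by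
  unfold Dsp S1
  generalize ∑ b ∈ sqf (3 * B), β b * t0 b = S
  rw [Finset.sum_mul, Complex.re_sum, Finset.mul_sum, Finset.mul_sum, ← Finset.sum_sub_distrib,
    ← Finset.sum_add_distrib]
  refine Finset.sum_congr rfl fun a ha => ?_
  have h5 : (0 : ℝ) ≤ nm a := by positivity
  have h6 : ((nm a : ℝ) ^ (-(1 / 6) : ℝ)) ^ 2 = (nm a : ℝ) ^ (-(1 / 3) : ℝ) := by
    rw [← Real.rpow_two, ← Real.rpow_mul h5]
    norm_num
  rw [S2B_sq, h6, one_mul]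
  generalize ∑ b ∈ sqf (3 * B), β b * tt b * xs c3 b a = u
  rw [mul_assoc ((Om _ : ℝ) : ℂ), mul_assoc ((Om _ : ℝ) : ℂ), mul_assoc ((Om _ : ℝ) : ℂ),
    Complex.re_ofReal_mul]
  ring

theorem S2B_rest0 (hb : BA) (x : Finset P → ℂ) {A B : ℝ} (hA : 0 < A) (hB : 0 < B) (n : ℕ)
    (Pr : E → Prop) : 0 ≤ Rest0 x A B 1 n Pr :=
  mul_nonneg (by positivity) (integral_nonneg fun τ => mul_nonneg (by positivity)
    (hb.Xi_nonneg _ _ _ _ _ (by positivity) one_pos))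

theorem S2B_restN (hb : BA) (x : Finset P → ℂ) {A B : ℝ} (hA : 0 < A) (hB : 0 < B) (n : ℕ) :
    0 ≤ RestN x A B 1 n := by
  refine Finset.sum_nonneg fun d _ => Finset.sum_nonneg fun f _ => Finset.sum_nonneg fun e _ => ?_
  have h1 := Ns_pos d
  have h2 := Ns_pos f
  exact mul_nonneg (by positivity) (integral_nonneg fun τ => mul_nonneg (by positivity)
    (hb.Xi_nonneg _ _ _ _ _ (by positivity) one_pos))

theorem S2B_fin {c1 c2 c3 c4 t1 t2 t3 t4 t5 t6 t7 : ℝ} (h1 : 0 ≤ c1) (h2 : 0 ≤ c2) (h3 : 0 ≤ c3)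
    (h4 : 0 ≤ c4) (k1 : 0 ≤ t1) (k2 : 0 ≤ t2) (k3 : 0 ≤ t3) (k4 : 0 ≤ t4) (k5 : 0 ≤ t5)
    (k6 : 0 ≤ t6) (k7 : 0 ≤ t7) :
    c1 * (t1 + t2 + t3) + c2 * (t4 + t5) + c3 * (t5 + t7) + c4 * t6
      ≤ (c1 + c2 + c3 + c4) * (t1 + t2 + t3 + t4 + t5 + t6 + t7) := by
  have e : (c1 + c2 + c3 + c4) * (t1 + t2 + t3 + t4 + t5 + t6 + t7)
      = c1 * (t1 + t2 + t3) + c2 * (t4 + t5) + c3 * (t5 + t7) + c4 * t6
        + (c1 * (t4 + t5 + t6 + t7) + c2 * (t1 + t2 + t3 + t6 + t7)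
          + c3 * (t1 + t2 + t3 + t4 + t6) + c4 * (t1 + t2 + t3 + t4 + t5 + t7)) := by ring
  rw [e]
  exact le_add_of_nonneg_right (by positivity)

theorem dspB (hb : BA) (h1 : PoiU) (h2 : MME) (h3 : S3B) (h4 : S2B) : DspB := by
  intro ε n hε hn
  obtain ⟨C1, hC1, h1⟩ := h1 n hn
  obtain ⟨C2, hC2, h2⟩ := h2
  obtain ⟨C3, hC3, h3⟩ := h3
  obtain ⟨C4, hC4, h4⟩ := h4 ε hε
  have hk := S2B_kap
  refine ⟨C1 + C2 + 72 * kap * C4 + (36 * kap) ^ 2 * C3, by positivity,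
    fun β A B w hA hB hw hβ => ?_⟩
  have hA0 : 0 < A := by linarith
  have hB0 : 0 < B := by linarith
  have hw0 : 0 < w := by linarith
  have he : Real.exp 1 ≤ 3 := Real.exp_one_lt_three.le
  have hβ3 : GB β B 3 w := ⟨hβ.bd, fun c hc => ⟨(hβ.sup c hc).1,
    (hβ.sup c hc).2.trans (mul_le_mul_of_nonneg_right he hB0.le)⟩, hβ.rough⟩
  have g1 := h1 (fun b => β b * tt b) A B 1 IsCube hA0 hB0 le_rfl (fun c hc => by
    have := hβ.sup c (left_ne_zero_of_mul hc)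
    rw [div_one, mul_comm B]
    exact this)
  have e1 : nrm2 (fun b => β b * tt b) (3 * B) = nrm2 β (3 * B) := by
    unfold nrm2
    simp only [norm_mul, hb.norm_tt, mul_one]
  rw [e1, div_one] at g1
  have g2 := h2 β A B w hA0 hB hw hβ3
  have g3 := h3 A hA
  have g4 := h4 β A B w hA0 hB hw hβ3
  have g5 := S2B_S0 hB hβ3
  rw [S2B_dsp]
  refine (S2B_comb _ _ (rho * A ^ (2 / 3 : ℝ)) (MainM (fun b => β b * tt b) A B 1 IsCube) _ _
    mOm).trans ?_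
  have e2 : B ^ (5 / 6 : ℝ) * B ^ (5 / 6 : ℝ) = B ^ (5 / 3 : ℝ) := by
    rw [← Real.rpow_add hB0]
    norm_num
  have e3 : B ^ (3 / 2 + ε) * B ^ (5 / 6 : ℝ) = B ^ (7 / 3 + ε) := by
    rw [← Real.rpow_add hB0]
    congr 1
    ring
  have g6 := mul_le_mul g4 g5 (norm_nonneg _) (by positivity)
  have g7 := mul_le_mul (pow_le_pow_left₀ (norm_nonneg _) g5 2) g3 (norm_nonneg _)
    (by positivity)
  have e4 : 2 * (C4 * (A ^ (2 / 3 : ℝ) * B ^ (5 / 6 : ℝ) / w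
      + A ^ (-(1 / 6) : ℝ) * B ^ (3 / 2 + ε)) * (36 * kap * B ^ (5 / 6 : ℝ)))
      = 72 * kap * C4 * (MM A B / w + A ^ (-(1 / 6) : ℝ) * B ^ (7 / 3 + ε)) := by
    rw [MM, ← e2, ← e3]
    ring
  have e5 : (36 * kap * B ^ (5 / 6 : ℝ)) ^ 2 * (C3 * A ^ (1 / 3 : ℝ))
      = (36 * kap) ^ 2 * C3 * (A ^ (1 / 3 : ℝ) * B ^ (5 / 3 : ℝ)) := by
    rw [← e2]
    ring
  have k1 : 0 ≤ nrm2 β (3 * B) := Finset.sum_nonneg fun _ _ => by positivity
  have k2 : 0 ≤ MM A B := by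
    unfold MM
    positivity
  refine le_trans ?_ (S2B_fin hC1.le hC2.le (by positivity) (by positivity) (by positivity)
    (S2B_rest0 hb _ hA0 hB0 n _) (S2B_restN hb _ hA0 hB0 n) (by positivity) (by positivity)
    (by positivity) (by positivity))
  rw [← e4, ← e5]
  exact add_le_add (add_le_add (add_le_add g1 g2) (mul_le_mul_of_nonneg_left g6 (by norm_num))) g7

end Pat
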