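import Vale.Agent.P006.SCAux

/-! P006: cancellation against characters of small conductor. -/

noncomputable section
namespace Pat
open QRH Complex MeasureTheory Filter
open scoped ComplexConjugate Classical ContDiff Topology

/-- The twisted prime variable. -/
def sCU (w τ κ : ℝ) (s : ℂ) (z : E) (i : ℤ) (p : P) : ℂ :=
  conj (pu w τ κ i p) * ((nm p.1 / Real.exp (i / 2) : ℝ) : ℂ) ^ s * c3 p z

theorem sC_Bl (i : ℤ) (l : List ℤ) : Bl (i :: l) = Real.exp (i / 2) * Bl l := by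
  unfold Bl
  rw [List.sum_cons, ← Real.exp_add, Int.cast_add, add_div]

theorem sC_Bl_pos (l : List ℤ) : 0 < Bl l := Real.exp_pos _

variable {w τ κ : ℝ} {s : ℂ} {z : E}

theorem sC_cv : ∀ (l : List ℤ) (c : Finset P),
    conj (Cv (l.map (pu w τ κ)) c) * ((Ns c / Bl l : ℝ) : ℂ) ^ s * xs c3 c z
      = Cv (l.map (sCU w τ κ s z)) c
  | [], c => by
    simp only [List.map_nil, Cv]
    split_ifs with h
    · simp [h, Ns_empty, Bl, xs_empty]
    · simp
  | i :: l, c => by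
    simp only [List.map_cons, Cv]
    rw [map_sum, Finset.sum_mul, Finset.sum_mul]
    refine Finset.sum_congr rfl fun p hp => ?_
    have h1 := sC_pos p
    have e1 : Ns c / Bl (i :: l) = nm p.1 / Real.exp (i / 2) * (Ns (c.erase p) / Bl l) := by
      rw [sC_Bl, div_mul_div_comm, ← sC_Ns (Finset.notMem_erase p c), Finset.insert_erase hp]
    have e2 : xs c3 c z = c3 p z * xs c3 (c.erase p) z :=
      (Finset.mul_prod_erase c (fun p => c3 p z) hp).symm
    rw [← sC_cv l, e1, e2, ofReal_mul, mul_cpow_ofReal_nonneg (by positivity)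
      (div_pos (Ns_pos _) (sC_Bl_pos l)).le, map_mul, sCU]
    ring

theorem sC_supp (hb : BA) {i : ℤ} {p : P} (h : sCU w τ κ s z i p ≠ 0) :
    w < nm p.1 ∧ Real.exp (i / 2) < nm p.1 ∧ nm p.1 < 3 * Real.exp (i / 2) := by
  have h1 : pu w τ κ i p ≠ 0 := fun e => h (by rw [sCU, e, map_zero, zero_mul, zero_mul])
  have h0 : (0 : ℝ) < nm p.1 := by linarith [sC_pos p]
  unfold pu at h1
  split_ifs at h1 with h2
  · obtain ⟨h3, h4⟩ := hb.bx_supp _ (Complex.ofReal_ne_zero.1 (left_ne_zero_of_mul h1))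
    refine ⟨h2, (Real.lt_log_iff_exp_lt h0).1 (by linarith), ?_⟩
    have h5 := (Real.log_lt_iff_lt_exp h0).1 (by linarith : Real.log (nm p.1) < 1 + i / 2)
    rw [Real.exp_add] at h5
    exact h5.trans (mul_lt_mul_of_pos_right (by linarith [Real.exp_one_lt_d9]) (Real.exp_pos _))
  · exact absurd rfl h1

theorem sC_eq {i : ℤ} {p : P} (h : w < nm p.1) : sCU w τ κ s z i p =
    (bx (Real.log (nm p.1 / Real.exp (i / 2))) : ℝ) *
        ((nm p.1 / Real.exp (i / 2) : ℝ) : ℂ) ^ s * c3 p z -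
      κ * ((Real.exp (i / 2) : ℝ) : ℂ) ^ (-(τ * I)) *
        ((bx (Real.log (nm p.1 / Real.exp (i / 2))) : ℝ) *
          ((nm p.1 / Real.exp (i / 2) : ℝ) : ℂ) ^ (s + -(τ * I)) * c3 p z) := by
  have h0 : (0 : ℝ) < nm p.1 := by linarith [sC_pos p]
  have hy := Real.exp_pos ((i : ℝ) / 2)
  have h1 := sC_split (div_pos h0 hy) hy τ
  rw [mul_div_cancel₀ _ hy.ne'] at h1
  rw [sCU, pu, if_pos h, map_mul, map_sub, map_mul, map_one, conj_ofReal, conj_ofReal, h1,
    Real.log_div h0.ne' hy.ne', Real.log_exp,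
    Complex.cpow_add _ _ (Complex.ofReal_ne_zero.2 (div_pos h0 hy).ne')]
  ring

theorem sC_le (hb : BA) (hκ : |κ| ≤ 1) (hs : |s.re| ≤ 1) (i : ℤ) (p : P) :
    ‖sCU w τ κ s z i p‖ ≤ 6 := by
  by_cases h : sCU w τ κ s z i p = 0
  · rw [h, norm_zero]
    norm_num
  obtain ⟨h1, h2, h3⟩ := sC_supp hb h
  have hy := Real.exp_pos ((i : ℝ) / 2)
  have h0 : (0 : ℝ) < nm p.1 := hy.trans h2
  have h4 : ‖(1 : ℂ) - κ * ((nm p.1 : ℝ) : ℂ) ^ (τ * I)‖ ≤ 2 := by
    refine (norm_sub_le _ _).trans ?_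
    rw [norm_one, norm_mul, ← Complex.norm_conj (_ ^ _), sC_conj h0, sC_norm h0, Complex.norm_real,
      Real.norm_eq_abs]
    linarith
  have h5 : ‖pu w τ κ i p‖ ≤ 1 * 2 := by
    rw [pu, if_pos h1, norm_mul, Complex.norm_real, Real.norm_of_nonneg (hb.bx_nonneg _)]
    exact mul_le_mul (hb.bx_le _) h4 (norm_nonneg _) zero_le_one
  have h6 : ‖((nm p.1 / Real.exp (i / 2) : ℝ) : ℂ) ^ s‖ ≤ 3 := by
    rw [Complex.norm_cpow_eq_rpow_re_of_pos (div_pos h0 hy)]
    refine (Real.rpow_le_rpow_of_exponent_le ((one_le_div hy).2 h2.le) (abs_le.1 hs).2).trans ?_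
    rw [Real.rpow_one, div_le_iff₀ hy]
    exact h3.le
  rw [sCU, norm_mul, norm_mul, Complex.norm_conj]
  have h7 := mul_le_mul (mul_le_mul h5 h6 (norm_nonneg _) (by norm_num)) ((c3_mc p).norm_le z)
    (norm_nonneg _) (by norm_num)
  linarith

theorem sC_cv_supp (hb : BA) : ∀ (l : List ℤ) (c : Finset P),
    Cv (l.map (sCU w τ κ s z)) c ≠ 0 → c.card = l.length ∧ Ns c ≤ 3 ^ l.length * Bl l
  | [], c, h => by
    have h1 : c = ∅ := by
      by_contra h1
      exact h (if_neg h1)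
    simp [h1, Ns_empty, Bl]
  | i :: l, c, h => by
    obtain ⟨p, hp, h1⟩ := Finset.exists_ne_zero_of_sum_ne_zero h
    obtain ⟨h2, h3⟩ := sC_cv_supp hb l _ (right_ne_zero_of_mul h1)
    have h4 := (sC_supp hb (left_ne_zero_of_mul h1)).2.2
    refine ⟨by rw [List.length_cons, ← h2, Finset.card_erase_add_one hp], ?_⟩
    rw [← Finset.insert_erase hp, sC_Ns (Finset.notMem_erase p c), sC_Bl, List.length_cons]
    refine (mul_le_mul h4.le h3 (Ns_pos _).le (by positivity)).trans (le_of_eq ?_)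
    ring

theorem sC_abs (hb : BA) (hκ : |κ| ≤ 1) (hs : |s.re| ≤ 1) (i : ℤ) (T : Finset P) :
    ∑ p ∈ T, ‖sCU w τ κ s z i p‖ ≤ 216 * Real.exp (i / 2) := by
  rw [← Finset.sum_filter_ne_zero]
  have h1 := sC_card (R := 3 * Real.exp (i / 2)) (by positivity)
    (T.filter fun p => ‖sCU w τ κ s z i p‖ ≠ 0) fun p hp =>
      (sC_supp hb (norm_ne_zero_iff.1 (Finset.mem_filter.1 hp).2)).2.2.le
  refine (Finset.sum_le_card_nsmul _ _ 6 fun p _ => sC_le hb hκ hs i p).trans ?_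
  rw [nsmul_eq_mul]
  linarith

theorem sC_cv_sum (hb : BA) (hκ : |κ| ≤ 1) (hs : |s.re| ≤ 1) (L : ℝ) : ∀ l : List ℤ,
    ∑ c ∈ sqf L, ‖Cv (l.map (sCU w τ κ s z)) c‖ ≤ 216 ^ l.length * Bl l
  | [] => by
    have e : ∀ c : Finset P, ‖Cv (([] : List ℤ).map (sCU w τ κ s z)) c‖
        = if c = ∅ then 1 else 0 := fun c => by
      simp only [List.map_nil, Cv]
      split_ifs <;> simp
    simp only [e, Finset.sum_ite_eq']
    split_ifs <;> simp [Bl]
  | i :: l => by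
    have h1 : ∀ c : Finset P, ‖Cv ((i :: l).map (sCU w τ κ s z)) c‖ ≤
        ∑ p ∈ c, ‖sCU w τ κ s z i p‖ * ‖Cv (l.map (sCU w τ κ s z)) (c.erase p)‖ := fun c =>
      (norm_sum_le _ _).trans (le_of_eq (Finset.sum_congr rfl fun p _ => norm_mul _ _))
    refine (Finset.sum_le_sum fun c _ => h1 c).trans ?_
    rw [sC_idx hb L fun p c => ‖sCU w τ κ s z i p‖ * ‖Cv (l.map (sCU w τ κ s z)) c‖]
    simp only [← Finset.sum_mul]
    refine (Finset.sum_le_sum fun c _ =>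
      mul_le_mul_of_nonneg_right (sC_abs hb hκ hs i _) (norm_nonneg _)).trans ?_
    rw [← Finset.mul_sum, sC_Bl, List.length_cons]
    refine (mul_le_mul_of_nonneg_left (sC_cv_sum hb hκ hs L l) (by positivity)).trans
      (le_of_eq ?_)
    ring

theorem sC (hb : BA) (h : PCw) : SC := by
  intro n
  obtain ⟨c, C, hc, hc', hC, core⟩ := sC_core h
  obtain ⟨D, hD, hφ⟩ := hb.bump_bd _ hb.bx_bump 1
  have φ1 : Differentiable ℝ fun v => (bx v : ℂ) := hφ.smooth.differentiable (by simp)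
  have φ2 : ∀ v, ‖(bx v : ℂ)‖ ≤ D := fun v => by simpa using hφ.bd 0 zero_le_one v
  have φ3 : ∀ v, ‖deriv (fun v => (bx v : ℂ)) v‖ ≤ D := fun v => by
    simpa using hφ.bd 1 le_rfl v
  refine ⟨c, (2 * C * D + 6 * n) * 216 ^ n, hc, by positivity,
    fun w τ κ L l hl hn hw hκ hL z hz hq hN s hs => ?_⟩
  obtain ⟨i, l, rfl⟩ := List.exists_cons_of_ne_nil hl
  have hy := Real.exp_pos ((i : ℝ) / 2)
  have hB := sC_Bl_pos l
  have hlen : l.length + 1 ≤ n := hn
  have hS : ∀ p ∈ sCS (Real.exp (i / 2)) (3 * Real.exp (i / 2)) (2 * ⌊w⌋₊ + 2),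
      w < nm p.1 ∧ nm p.1 < 3 * Real.exp (i / 2) := fun p hp =>
    ⟨(sC_lt p).2 (Finset.mem_filter.1 hp).2.2.2, (Finset.mem_filter.1 hp).2.2.1⟩
  have hX : 1 ≤ (1 + |τ|) * (1 + ‖s‖) := le_trans (by linarith [norm_nonneg (s + -(τ * I))])
    (sC_shift s τ).2
  have hA : ‖∑ p ∈ sCS (Real.exp (i / 2)) (3 * Real.exp (i / 2)) (2 * ⌊w⌋₊ + 2),
      sCU w τ κ s z i p‖ ≤ 2 * C * D * ((1 + |τ|) * (1 + ‖s‖) * (Real.exp (i / 2) * w ^ (-c))) := by
    rw [Finset.sum_congr rfl fun p hp => sC_eq (hS p hp).1, Finset.sum_sub_distrib,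
      ← Finset.mul_sum]
    have h1 := core _ D w _ _ _ z s φ1 φ2 φ3 hw hy le_rfl le_rfl hz hq hN hs
    have h2 := core _ D w _ _ _ z (s + -(τ * I)) φ1 φ2 φ3 hw hy le_rfl le_rfl hz hq hN
      ((sC_shift s τ).1.symm ▸ hs)
    have h3 : ‖κ * ((Real.exp (i / 2) : ℝ) : ℂ) ^ (-(τ * I))‖ ≤ 1 := by
      rw [norm_mul, sC_norm hy, mul_one, Complex.norm_real]
      exact hκ
    have h4 : 0 ≤ C * D * (Real.exp (i / 2) * w ^ (-c)) := by positivity
    have h5 := mul_le_mul_of_nonneg_left (sC_shift s τ).2 h4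
    have h6 := mul_nonneg h4 (mul_nonneg (abs_nonneg τ) (by positivity : 0 ≤ 1 + ‖s‖))
    refine (norm_sub_le _ _).trans ?_
    rw [norm_mul]
    linarith [mul_le_mul h3 h2 (norm_nonneg _) zero_le_one]
  have hI : ∀ b : Finset P, Cv (l.map (sCU w τ κ s z)) b ≠ 0 →
      ‖∑ p ∈ prs L with p ∉ b ∧ nm p.1 * Ns b ≤ L, sCU w τ κ s z i p‖ ≤ (2 * C * D + 6 * n) *
        ((1 + |τ|) * (1 + ‖s‖) * (Real.exp (i / 2) * w ^ (-c))) := fun b hb0 => by
    obtain ⟨h1, h2⟩ := sC_cv_supp hb l b hb0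
    have h3 : (3 : ℝ) ^ (l.length + 1) * Bl (i :: l) ≤ L :=
      (mul_le_mul_of_nonneg_right (pow_le_pow_right₀ (by norm_num) hlen) (sC_Bl_pos _).le).trans hL
    have e := eq_sub_of_add_eq' (Finset.sum_inter_add_sum_sdiff
      (sCS (Real.exp (i / 2)) (3 * Real.exp (i / 2)) (2 * ⌊w⌋₊ + 2)) b (sCU w τ κ s z i))
    rw [← Finset.sum_subset (s₁ := sCS (Real.exp (i / 2)) (3 * Real.exp (i / 2)) (2 * ⌊w⌋₊ + 2) \ b)
      (fun p hp => ?_) fun p hp hp' => ?_, e]
    · refine (norm_sub_le _ _).trans ?_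
      have h4 : ‖∑ p ∈ sCS (Real.exp (i / 2)) (3 * Real.exp (i / 2)) (2 * ⌊w⌋₊ + 2) ∩ b,
          sCU w τ κ s z i p‖ ≤ n * (6 * (Real.exp (i / 2) * w ^ (-c))) := by
        refine (norm_sum_le _ _).trans ((Finset.sum_le_card_nsmul _ _
          (6 * (Real.exp (i / 2) * w ^ (-c))) fun p hp => ?_).trans ?_)
        · obtain ⟨h5, h6⟩ := hS p (Finset.mem_inter.1 hp).1
          have h7 := sC_one hw ((sC_pos p).trans_lt h6) (h5.trans h6) hc.le hc'
          linarith [sC_le (w := w) (τ := τ) (z := z) hb hκ hs i p]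
        · rw [nsmul_eq_mul]
          refine mul_le_mul_of_nonneg_right (Nat.cast_le.2 ?_) (by positivity)
          exact (Finset.card_le_card Finset.inter_subset_right).trans (by omega)
      have h5 := mul_le_mul_of_nonneg_left hX
        (by positivity : 0 ≤ n * (6 * (Real.exp (i / 2) * w ^ (-c))))
      linarith
    · obtain ⟨h4, h5⟩ := Finset.mem_sdiff.1 hp
      have h6 := mul_le_mul (hS p h4).2.le h2 (Ns_pos _).le (by positivity)
      have h7 : nm p.1 * Ns b ≤ L := by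
        rw [sC_Bl] at h3
        exact h6.trans (le_of_eq_of_le (by ring) h3)
      exact Finset.mem_filter.2 ⟨(hb.mem_prs _ _).2
        ((le_mul_of_one_le_right (Nat.cast_nonneg _) (one_le_Ns b)).trans h7), h5, h7⟩
    · by_contra h4
      obtain ⟨h5, h6, h7⟩ := sC_supp hb h4
      exact hp' (Finset.mem_sdiff.2 ⟨Finset.mem_filter.2
        ⟨(hb.mem_prs _ _).2 h7.le, h6.le, h7, (sC_lt p).1 h5⟩, (Finset.mem_filter.1 hp).2.1⟩)
  have hK : 0 ≤ (2 * C * D + 6 * n) *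
    ((1 + |τ|) * (1 + ‖s‖) * (Real.exp (i / 2) * w ^ (-c))) := by positivity
  have hM : ‖∑ b ∈ sqf L, Cv ((i :: l).map (sCU w τ κ s z)) b‖ ≤ (2 * C * D + 6 * n) *
      ((1 + |τ|) * (1 + ‖s‖) * (Real.exp (i / 2) * w ^ (-c))) * (216 ^ n * Bl l) := by
    simp only [List.map_cons, Cv]
    rw [sC_idx hb L fun p b => sCU w τ κ s z i p * Cv (l.map (sCU w τ κ s z)) b]
    simp only [← Finset.sum_mul]
    refine (norm_sum_le _ _).trans ((Finset.sum_le_sum (g := fun b => (2 * C * D + 6 * n) *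
      ((1 + |τ|) * (1 + ‖s‖) * (Real.exp (i / 2) * w ^ (-c))) *
        ‖Cv (l.map (sCU w τ κ s z)) b‖) fun b _ => ?_).trans ?_)
    · by_cases h1 : Cv (l.map (sCU w τ κ s z)) b = 0
      · simp only [h1, mul_zero, norm_zero, le_refl]
      · rw [norm_mul]
        exact mul_le_mul_of_nonneg_right (hI b h1) (norm_nonneg _)
    · rw [← Finset.mul_sum]
      refine mul_le_mul_of_nonneg_left ((sC_cv_sum hb hκ hs L l).trans ?_) hK
      exact mul_le_mul_of_nonneg_right (pow_le_pow_right₀ (by norm_num) (by omega)) hB.le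
  have e : Ds (tw (nb w τ κ (i :: l)) (Bl (i :: l)) s) L z =
      (∑ b ∈ sqf L, Cv ((i :: l).map (sCU w τ κ s z)) b) /
        ((2 ^ (i :: l).length * (i :: l).length.factorial : ℕ) : ℂ) := by
    rw [Finset.sum_div]
    refine Finset.sum_congr rfl fun b _ => ?_
    rw [← sC_cv, tw, nb, map_div₀, map_natCast]
    ring
  have h1 : (1 : ℝ) ≤ ((2 ^ (i :: l).length * (i :: l).length.factorial : ℕ) : ℝ) :=
    Nat.one_le_cast.2 (Nat.mul_pos (by positivity) (Nat.factorial_pos _))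
  rw [e, norm_div, Complex.norm_natCast, sC_Bl]
  exact (div_le_self (norm_nonneg _) h1).trans (hM.trans (le_of_eq (by ring)))

theorem sC_top (F : Finset P → ℂ) (h0 : F ∅ = 0) (hk : Function.Injective key) (b : Finset P) :
    F b = ∑ q ∈ b, if ∀ p ∈ b.erase q, key p < key q then F (insert q (b.erase q)) else 0 := by
  rcases b.eq_empty_or_nonempty with rfl | hne
  · rw [h0, Finset.sum_empty]
  obtain ⟨q, hq, h1⟩ := b.exists_max_image key hne
  rw [Finset.sum_eq_single_of_mem q hq fun r hr hrq => if_neg fun h2 => ?_, if_pos,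
    Finset.insert_erase hq]
  · exact fun p hp => lt_of_le_of_ne (h1 p (Finset.mem_of_mem_erase hp))
      fun e => Finset.ne_of_mem_erase hp (hk e)
  · exact absurd (h2 q (Finset.mem_erase.2 ⟨hrq.symm, hq⟩)) (not_lt.2 (h1 r hr))

theorem sC_bR (hb : BA) {w1 θ B : ℝ} (hB : 0 < B) (hw : w < B) {b : Finset P} {q : P}
    (hk : ∀ p ∈ b, key p < key q) :
    tw (bR w1 w θ τ B) B s (insert q b) * xs c3 (insert q b) z =
      if B / Ns b ≤ nm q.1 ∧ nm q.1 < Real.exp 1 * (B / Ns b) ∧ w1 < nm q.1 then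
        (if Rough w1 b then -(mu b * conj (e1 (θ * kc w b)) * (B : ℂ) ^ (-(τ * I)) * xs c3 b z)
          else 0) * (1 * ((nm q.1 / (B / Ns b) : ℝ) : ℂ) ^ (s + -(τ * I)) * c3 q z) else 0 := by
  have hq : q ∉ b := fun h => lt_irrefl _ (hk q h)
  have hN := Ns_pos b
  have h0 : (0 : ℝ) < nm q.1 := by linarith [sC_pos q]
  have e1 : B ≤ Ns (insert q b) ↔ B / Ns b ≤ nm q.1 := by rw [sC_Ns hq, div_le_iff₀ hN]
  have e2 : Ns (insert q b) < Real.exp 1 * B ↔ nm q.1 < Real.exp 1 * (B / Ns b) := by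
    rw [sC_Ns hq, ← mul_div_assoc, lt_div_iff₀ hN]
  have e3 : Rough w1 (insert q b) ↔ w1 < nm q.1 ∧ Rough w1 b := Finset.forall_mem_insert _ _ _
  rw [tw, bR]
  by_cases h1 : B / Ns b ≤ nm q.1 ∧ nm q.1 < Real.exp 1 * (B / Ns b) ∧ w1 < nm q.1
  · rw [if_pos h1]
    by_cases h2 : Rough w1 b
    · have e4 : kc w (insert q b) = kc w b := by
        refine hb.kc_insert w b q ?_
        rcases b.eq_empty_or_nonempty with rfl | ⟨p, hp⟩
        · rw [Ns_empty, div_one] at h1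
          exact Or.inl (hw.trans_le h1.1)
        · exact Or.inr ⟨p, hp, (hk p hp).le⟩
      have e5 : Ns (insert q b) / B = nm q.1 / (B / Ns b) := by
        rw [sC_Ns hq, div_div_eq_mul_div]
      have e6 : mu (insert q b) = -mu b := by
        rw [mu, mu, Finset.card_insert_of_notMem hq, pow_succ, mul_neg_one]
      have e7 : xs c3 (insert q b) z = c3 q z * xs c3 b z := Finset.prod_insert hq
      have h3 : 0 < nm q.1 / (B / Ns b) := by positivity
      have e8 := sC_split h3 hB τ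
      rw [← e5, mul_div_cancel₀ _ hB.ne', e5] at e8
      rw [if_pos h2, if_pos ⟨e1.2 h1.1, e2.2 h1.2.1, e3.2 ⟨h1.2.2, h2⟩⟩, map_mul, map_mul, conj_mu,
        e8, e4, e5, e6, e7, Complex.cpow_add _ _ (Complex.ofReal_ne_zero.2 h3.ne')]
      ring
    · rw [if_neg h2, if_neg fun h => h2 (e3.1 h.2.2).2, map_zero, zero_mul, zero_mul, zero_mul]
  · rw [if_neg h1, if_neg fun h => h1 ⟨e1.1 h.1, e2.1 h.2.1, (e3.1 h.2.2).1⟩, map_zero, zero_mul,
      zero_mul]

theorem sCB (hb : BA) (h : PCw) : SCB := by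
  obtain ⟨c, C, hc, -, hC, core⟩ := sC_core h
  obtain ⟨C1, hC1, hp⟩ := hb.pow_card 1
  refine ⟨c, 3 * C * C1, hc, by positivity,
    fun w1 w θ τ B L hw hB hwB hL z hz hq hN s hs => ?_⟩
  have hB0 : 0 < B := by linarith
  have he : Real.exp 1 ≤ 3 := by linarith [Real.exp_one_lt_d9]
  have h0 : tw (bR w1 w θ τ B) B s ∅ * xs c3 ∅ z = 0 := by
    rw [tw, bR, if_neg fun h => absurd (Ns_empty ▸ h.1) (not_le.2 hB), map_zero, zero_mul, zero_mul]
  have hI : ∀ b : Finset P, ‖∑ q ∈ prs L with q ∉ b ∧ nm q.1 * Ns b ≤ L,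
      (if ∀ p ∈ b, key p < key q then
        tw (bR w1 w θ τ B) B s (insert q b) * xs c3 (insert q b) z else 0)‖ ≤
      if b ∈ sqf B then C * ((1 + |τ|) * (1 + ‖s‖)) * (B * w1 ^ (-c)) * (1 / Ns b) else 0 :=
    fun b => by
    have hb0 := Ns_pos b
    have hy : 0 < B / Ns b := div_pos hB0 hb0
    have hy' : Real.exp 1 * (B / Ns b) ≤ 3 * (B / Ns b) := mul_le_mul_of_nonneg_right he hy.le
    have hm : ∀ q : P, max (b.sup fun p => key p + 1) (2 * ⌊w1⌋₊ + 2) ≤ key q ↔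
        (∀ p ∈ b, key p < key q) ∧ w1 < nm q.1 := fun q => by
      rw [max_le_iff, Finset.sup_le_iff, sC_lt]
      rfl
    have e : ∀ q ∈ sCS (B / Ns b) (Real.exp 1 * (B / Ns b))
        (max (b.sup fun p => key p + 1) (2 * ⌊w1⌋₊ + 2)), (if ∀ p ∈ b, key p < key q then
          tw (bR w1 w θ τ B) B s (insert q b) * xs c3 (insert q b) z else 0) =
        (if Rough w1 b then -(mu b * conj (e1 (θ * kc w b)) * (B : ℂ) ^ (-(τ * I)) * xs c3 b z)
          else 0) * (1 * ((nm q.1 / (B / Ns b) : ℝ) : ℂ) ^ (s + -(τ * I)) * c3 q z) :=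
      fun q hq => by
        obtain ⟨-, h1, h2, h3⟩ := Finset.mem_filter.1 hq
        rw [if_pos ((hm q).1 h3).1, sC_bR hb hB0 hwB ((hm q).1 h3).1,
          if_pos ⟨h1, h2, ((hm q).1 h3).2⟩]
    rw [← Finset.sum_subset (s₁ := sCS (B / Ns b) (Real.exp 1 * (B / Ns b))
      (max (b.sup fun p => key p + 1) (2 * ⌊w1⌋₊ + 2))) (fun q hq => ?_) fun q _ hq' => ?_,
      Finset.sum_congr rfl e, ← Finset.mul_sum]
    rotate_left
    · obtain ⟨-, -, h2, h3⟩ := Finset.mem_filter.1 hq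
      have h4 : nm q.1 * Ns b ≤ L := by
        rw [← le_div_iff₀ hb0]
        refine (h2.le.trans hy').trans ?_
        rw [← mul_div_assoc]
        exact div_le_div_of_nonneg_right hL hb0.le
      exact Finset.mem_filter.2 ⟨(hb.mem_prs _ _).2
        ((le_mul_of_one_le_right (Nat.cast_nonneg _) (one_le_Ns b)).trans h4),
        fun h5 => lt_irrefl _ (((hm q).1 h3).1 q h5), h4⟩
    · by_cases h1 : ∀ p ∈ b, key p < key q
      · rw [if_pos h1, sC_bR hb hB0 hwB h1, if_neg fun h2 => hq' (Finset.mem_filter.2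
          ⟨(hb.mem_prs _ _).2 (h2.2.1.le.trans hy'), h2.1, h2.2.1, (hm q).2 ⟨h1, h2.2.2⟩⟩)]
      · exact if_neg h1
    have h1 := core (fun _ => 1) 1 w1 _ _ _ z (s + -(τ * I)) (differentiable_const _)
      (fun _ => norm_one.le) (fun v => by simp) hw hy hy'
      (le_max_right (b.sup fun p => key p + 1) _) hz hq hN ((sC_shift s τ).1.symm ▸ hs)
    have h2 : ‖if Rough w1 b then
        -(mu b * conj (e1 (θ * kc w b)) * (B : ℂ) ^ (-(τ * I)) * xs c3 b z) else 0‖ ≤ 1 := by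
      split_ifs
      · have h3 : ‖e1 (θ * kc w b)‖ = 1 := by
          rw [e1, Complex.norm_exp]
          simp
        rw [norm_neg, norm_mul, norm_mul, norm_mul, norm_mu, Complex.norm_conj, h3, sC_norm hB0,
          one_mul, one_mul, one_mul]
        exact norm_xs_le ch_c3 b z
      · simp
    rw [norm_mul]
    refine (mul_le_of_le_one_left (norm_nonneg _) h2).trans ?_
    split_ifs with h3
    · have h4 := mul_le_mul_of_nonneg_left (sC_shift s τ).2
        (by positivity : 0 ≤ C * (B / Ns b * w1 ^ (-c)))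
      refine h1.trans (le_of_eq_of_le (by ring) (h4.trans (le_of_eq (by ring))))
    · rw [Finset.sum_eq_zero fun q hq => ?_, norm_zero]
      have h4 := (Finset.mem_filter.1 hq).2.2.1.le.trans hy'
      exact absurd (mem_sqf.2 ((one_le_div hb0).1 (by linarith [sC_pos q]))) h3
  rw [Ds, Finset.sum_congr rfl fun b _ =>
      sC_top (fun b => tw (bR w1 w θ τ B) B s b * xs c3 b z) h0 hb.key_inj b,
    sC_idx hb L fun q b => if ∀ p ∈ b, key p < key q then
      tw (bR w1 w θ τ B) B s (insert q b) * xs c3 (insert q b) z else 0]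
  refine (norm_sum_le _ _).trans ((Finset.sum_le_sum fun b _ => hI b).trans ?_)
  have h1 := (hp B hB.le).2
  simp only [Nat.cast_one, one_pow, pow_one] at h1
  have h2 : 0 ≤ C * ((1 + |τ|) * (1 + ‖s‖)) * (B * w1 ^ (-c)) := by positivity
  have h3 := mul_le_mul_of_nonneg_left h1 h2
  have h4 := mul_nonneg h2 (mul_nonneg hC1.le (add_nonneg zero_le_one (Real.log_nonneg hB.le)))
  rw [Finset.sum_ite_mem, Finset.inter_eq_right.2 (sqf_mono (by linarith)), ← Finset.mul_sum]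
  linarith

end Pat
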