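import Vale.Agent.P006.IfC
import Vale.Agent.P026.Cnt

/-! P006: bilinear forms in the sharp range. -/

noncomputable section
namespace Pat
open QRH Complex MeasureTheory Filter
open scoped ComplexConjugate Classical ContDiff Topology

theorem shB_cube {A B : ℝ} (hA : 0 < A) (hB : 0 < B) : ∃ a b : ℝ, 0 < a ∧ 0 < b ∧ A = a ^ 3 ∧
    B = b ^ 3 ∧ MM A B = a ^ 2 * b ^ 5 ∧ A ^ (1 / 3 : ℝ) = a := by
  obtain ⟨a, ha, rfl⟩ : ∃ a : ℝ, 0 < a ∧ A = a ^ 3 := ⟨A ^ (3⁻¹ : ℝ), by positivity,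
    by exact_mod_cast (Real.rpow_inv_natCast_pow hA.le three_ne_zero).symm⟩
  obtain ⟨b, hb, rfl⟩ : ∃ b : ℝ, 0 < b ∧ B = b ^ 3 := ⟨B ^ (3⁻¹ : ℝ), by positivity,
    by exact_mod_cast (Real.rpow_inv_natCast_pow hB.le three_ne_zero).symm⟩
  refine ⟨a, b, ha, hb, rfl, rfl, ?_, ?_⟩
  · rw [MM, ← Real.rpow_natCast_mul ha.le, ← Real.rpow_natCast_mul hb.le, ← Real.rpow_natCast a 2,
      ← Real.rpow_natCast b 5]
    norm_num
  · rw [← Real.rpow_natCast_mul ha.le]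
    norm_num

theorem shB_one {A B D : ℝ} (hA : 0 < A) (hB : 0 < B) (hD : 0 ≤ D) (h : B ≤ D ^ 3 * A) :
    A ^ (1 / 3 : ℝ) * B ^ 2 ≤ D * MM A B := by
  obtain ⟨a, b, ha, hb, rfl, rfl, h1, h2⟩ := shB_cube hA hB
  rw [← mul_pow] at h
  have h3 : b ≤ D * a := le_of_pow_le_pow_left₀ three_ne_zero (by positivity) h
  rw [h1, h2]
  calc a * (b ^ 3) ^ 2 = b * (a * b ^ 5) := by ring
    _ ≤ D * a * (a * b ^ 5) := by gcongr
    _ = _ := by ring

theorem shB_two {A B D : ℝ} (hA : 0 < A) (hB : 0 < B) (hD : 0 ≤ D) (h : B ≤ D ^ 3 * A ^ 2) :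
    B ^ 2 ≤ D * MM A B := by
  obtain ⟨a, b, ha, hb, rfl, rfl, h1, -⟩ := shB_cube hA hB
  have h3 : b ≤ D * a ^ 2 :=
    le_of_pow_le_pow_left₀ three_ne_zero (by positivity) (h.trans (le_of_eq (by ring)))
  rw [h1]
  calc (b ^ 3) ^ 2 = b * b ^ 5 := by ring
    _ ≤ D * a ^ 2 * b ^ 5 := by gcongr
    _ = _ := by ring

theorem shB_num {X B T w Λ c δ η : ℝ} (hX : 1 ≤ X) (hΛ : 1 ≤ Λ) (hT : 1 ≤ T) (hT' : T ≤ Tmax X)
    (hB : X ^ (1 / 10 : ℝ) ≤ B) (hB' : B ≤ Λ * √X) (hw : 1 ≤ w) (hc : 0 < c) (h1 : 14 * c ≤ δ)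
    (h2 : 4 * c ≤ η) (h3 : c ≤ 1 / 600)
    (h : B ≤ X ^ (1 / 2 - δ) ∨ X ^ δ ≤ T ∨ X ^ η ≤ w) :
    T ^ (-(4 / 5) : ℝ) * MM (X / B) B * w ^ (-(1 / 2) : ℝ)
      + X ^ c * (T ^ (-(4 / 5) : ℝ) * MM (X / B) B * B ^ (-(1 / 30) : ℝ)
        + T ^ (-(1 / 7) : ℝ) * (X / B) ^ (1 / 3 : ℝ) * B ^ 2 * w ^ (-(1 / 2) : ℝ)
        + T ^ (3 / 5 : ℝ) * B ^ 2)
      ≤ 3 * Λ * MM (X / B) B * (T ^ (-(4 / 5) : ℝ) + X ^ (-c)) := by
  have hX0 : 0 < X := by linarith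
  have hB0 : 0 < B := lt_of_lt_of_le (by positivity) hB
  have hA : 0 < X / B := by positivity
  have hp : ∀ a b : ℝ, a ≤ b → X ^ a ≤ X ^ b := fun a b => Real.rpow_le_rpow_of_exponent_le hX
  have hn : ∀ {y a g : ℝ}, X ^ a ≤ y → 0 ≤ g → 2 * c ≤ a * g → y ^ (-g) ≤ X ^ (-(2 * c)) := by
    intro y a g hy hg hag
    refine (Real.rpow_le_rpow_of_nonpos (by positivity) hy (by linarith)).trans ?_
    rw [← Real.rpow_mul hX0.le]
    exact hp _ _ (by linarith)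
  have hM : 0 ≤ MM (X / B) B := by unfold MM; positivity
  have w1 : w ^ (-(1 / 2) : ℝ) ≤ 1 := Real.rpow_le_one_of_one_le_of_nonpos hw (by norm_num)
  have t1 : T ^ (-(4 / 5) : ℝ) ≤ 1 := Real.rpow_le_one_of_one_le_of_nonpos hT (by norm_num)
  have t2 : T ^ (-(1 / 7) : ℝ) ≤ 1 := Real.rpow_le_one_of_one_le_of_nonpos hT (by norm_num)
  have hs : √X ^ 2 = X := Real.sq_sqrt hX0.le
  have hs0 : 0 < √X := by positivity
  have a1 : T ^ (-(4 / 5) : ℝ) * MM (X / B) B * B ^ (-(1 / 30) : ℝ)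
      ≤ Λ * MM (X / B) B * X ^ (-(2 * c)) := by
    have := hn hB (g := 1 / 30) (by norm_num) (by linarith)
    gcongr
    linarith
  have b1 : (X / B) ^ (1 / 3 : ℝ) * B ^ 2 ≤ Λ * MM (X / B) B := by
    refine shB_one hA hB0 (by linarith) ?_
    rw [← mul_div_assoc, le_div_iff₀ hB0]
    have c1 : B * B ≤ Λ * √X * (Λ * √X) := by gcongr
    have c2 : Λ ^ 2 ≤ Λ ^ 3 := pow_le_pow_right₀ hΛ (by norm_num)
    nlinarith
  have a2 : T ^ (-(1 / 7) : ℝ) * (X / B) ^ (1 / 3 : ℝ) * B ^ 2 * w ^ (-(1 / 2) : ℝ)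
      ≤ Λ * MM (X / B) B * X ^ (-(2 * c)) := by
    rw [mul_assoc (T ^ _)]
    rcases h with h | h | h
    · have c1 : (X / B) ^ (1 / 3 : ℝ) * B ^ 2 ≤ X ^ (-(2 * c)) * MM (X / B) B := by
        refine shB_one hA hB0 (by positivity) ?_
        rw [← mul_div_assoc, le_div_iff₀ hB0]
        calc B * B ≤ X ^ (1 / 2 - δ) * X ^ (1 / 2 - δ) := by gcongr
          _ ≤ X ^ (-(2 * c) * (3 : ℕ) + 1) := by
            rw [← Real.rpow_add hX0]; exact hp _ _ (by push_cast; linarith)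
          _ = _ := by rw [Real.rpow_add hX0, Real.rpow_one, Real.rpow_mul_natCast hX0.le]
      calc _ ≤ Λ * (X ^ (-(2 * c)) * MM (X / B) B) * 1 := by gcongr; linarith
        _ = _ := by ring
    · have c1 := hn h (g := 1 / 7) (by norm_num) (by linarith)
      calc _ ≤ X ^ (-(2 * c)) * (Λ * MM (X / B) B) * 1 := by gcongr
        _ = _ := by ring
    · have c1 := hn h (g := 1 / 2) (by norm_num) (by linarith)
      calc _ ≤ 1 * (Λ * MM (X / B) B) * X ^ (-(2 * c)) := by gcongr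
        _ = _ := by ring
  have a3 : T ^ (3 / 5 : ℝ) * B ^ 2 ≤ Λ * MM (X / B) B * X ^ (-(2 * c)) := by
    have c1 : B ^ 2 ≤ Λ * X ^ (-(1 / 6) : ℝ) * MM (X / B) B := by
      refine shB_two hA hB0 (by positivity) ?_
      have d1 : (X ^ (-(1 / 6) : ℝ)) ^ 3 = (√X)⁻¹ := by
        rw [← Real.rpow_mul_natCast hX0.le, Real.sqrt_eq_rpow, ← Real.rpow_neg hX0.le]
        norm_num
      rw [mul_pow, d1, div_pow, ← mul_div_assoc, le_div_iff₀ (by positivity)]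
      calc B * B ^ 2 = B ^ 3 := by ring
        _ ≤ (Λ * √X) ^ 3 := by gcongr
        _ = Λ ^ 3 * (√X)⁻¹ * (√X ^ 2) ^ 2 := by field_simp
        _ = _ := by rw [hs]
    have c2 : T ^ (3 / 5 : ℝ) * X ^ (-(1 / 6) : ℝ) ≤ X ^ (-(2 * c)) := by
      calc _ ≤ Tmax X ^ (3 / 5 : ℝ) * X ^ (-(1 / 6) : ℝ) := by gcongr
        _ ≤ _ := by
          rw [Tmax, ← Real.rpow_mul hX0.le, ← Real.rpow_add hX0]
          exact hp _ _ (by linarith)
    calc _ ≤ T ^ (3 / 5 : ℝ) * (Λ * X ^ (-(1 / 6) : ℝ) * MM (X / B) B) := by gcongr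
      _ = Λ * MM (X / B) B * (T ^ (3 / 5 : ℝ) * X ^ (-(1 / 6) : ℝ)) := by ring
      _ ≤ _ := by gcongr
  have a4 : X ^ c * X ^ (-(2 * c)) = X ^ (-c) := by rw [← Real.rpow_add hX0]; congr 1; ring
  have a5 : T ^ (-(4 / 5) : ℝ) * MM (X / B) B * w ^ (-(1 / 2) : ℝ)
      ≤ T ^ (-(4 / 5) : ℝ) * MM (X / B) B * (3 * Λ) := by gcongr; linarith
  have a6 := mul_le_mul_of_nonneg_left (add_le_add (add_le_add a1 a2) a3)
    (by positivity : 0 ≤ X ^ c)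
  rw [← a4]
  linarith

theorem shB_nrm (hb : BA) (x : Finset P → ℂ) (L : ℝ) :
    nrm2 (fun b => x b * tt b) L = nrm2 x L := by
  simp only [nrm2, norm_mul, hb.norm_tt, mul_one]

theorem shB (hb : BA) (hx : XlF) (h1 : E2c) (h2 : PoiU) (h3 : ShR) (h4 : RN) : ShB := by
  intro φ Λ δ1 δ2 η kk hφ hΛ hδ1 hδ1' hδ2 hη
  obtain ⟨C1, hC1, h1⟩ := h1 φ Λ kk hφ hΛ
  obtain ⟨C2, hC2, h2⟩ := h2 (kk + 2) (by omega)
  obtain ⟨δc, c, C3, X0, hδc, hδc', hc, hC3, h3⟩ := h3 Λ δ1 δ2 η kk hΛ hδ1 hδ1' hδ2 hη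
  obtain ⟨c0, d0, d1, d2, d3, d4⟩ : ∃ c0 : ℝ, 0 < c0 ∧ 14 * c0 ≤ δc ∧ 4 * c0 ≤ η ∧ c0 ≤ 1 / 600 ∧
      c0 ≤ c := by
    refine ⟨min (min (δc / 14) (η / 4)) (min (1 / 600) c), by positivity, ?_, ?_, ?_, ?_⟩
    · linarith [(min_le_left _ (min (1 / 600) c)).trans (min_le_left (δc / 14) (η / 4))]
    · linarith [(min_le_left _ (min (1 / 600) c)).trans (min_le_right (δc / 14) (η / 4))]
    · exact (min_le_right _ _).trans (min_le_left _ _)
    · exact (min_le_right _ _).trans (min_le_right _ _)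
  obtain ⟨C4, hC4, h4⟩ := h4 c0 (30 * Λ) (kk + 2) d0 (by linarith) (by omega)
  refine ⟨δc, c0, C1 * (C2 * (360 * Λ + C3 + C4 * (3 * Λ))), max X0 (Λ ^ 2), hδc, hδc', d0,
    by positivity, fun α β X B T w u hX hT hT' hB hB' hw hu hg hcase => ?_⟩
  have hXΛ : Λ ^ 2 ≤ X := (le_max_right _ _).trans hX
  have hX1 : 1 ≤ X := (one_le_pow₀ hΛ).trans hXΛ
  have hX0 : 0 < X := by linarith
  have hB1 : 1 ≤ B := (Real.one_le_rpow hX1 (by norm_num)).trans hB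
  have hB0 : 0 < B := by linarith
  have hT0 : 0 < T := by linarith
  have hBX : B ≤ X := by
    have a1 : Λ ≤ √X := Real.le_sqrt_of_sq_le hXΛ
    have a2 := mul_le_mul_of_nonneg_right a1 (Real.sqrt_nonneg X)
    rw [Real.mul_self_sqrt hX0.le] at a2
    linarith
  have hTX : T ≤ X := hT'.trans
    ((Real.rpow_le_rpow_of_exponent_le hX1 (by norm_num)).trans_eq (Real.rpow_one X))
  have hM : 0 ≤ MM (X / B) B := by unfold MM; positivity
  set W := MM (X / B) B * (T ^ (-(4 / 5) : ℝ) + X ^ (-c0)) with hW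
  have hW0 : 0 ≤ W := by positivity
  have hXT : 0 ≤ X / T := by positivity
  refine (h1 α β X B T (C2 * (360 * Λ + C3 + C4 * (3 * Λ)) * u * (X / T + W)) hX0 hB0 hT
    (by positivity) hg.sup fun τ A' hA' => ?_).trans (le_of_eq (by ring))
  have hA0 : ∀ i ∈ Ji Λ T, 0 < A' i := fun i hi => lt_of_lt_of_le (by positivity) (hA' i hi).1
  have hBi : ∀ i, 0 < Bi B T i := fun i => by unfold Bi; positivity
  have hgi := fun i => hx.gb β B Λ w T τ i hg hB0 hT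
  have he : Real.exp (1 / T) ≤ 3 :=
    (Real.exp_le_exp.2 ((div_le_one hT0).2 hT)).trans Real.exp_one_lt_three.le
  have a1 : ∀ i ∈ Ji Λ T, S1 (fun b => xl β B T τ i b * tt b) (A' i) (Bi B T i) T ≤
      C2 * (30 * (X / B) / T * nrm2 (xl β B T τ i) (3 * Bi B T i)
        + Rest0 (fun b => xl β B T τ i b * tt b) (A' i) (Bi B T i) T (kk + 2) (fun _ => False)
        + RestN (fun b => xl β B T τ i b * tt b) (A' i) (Bi B T i) T (kk + 2)) := by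
    intro i hi
    have b1 := h2 (fun b => xl β B T τ i b * tt b) (A' i) (Bi B T i) T (fun _ => False) (hA0 i hi)
      (hBi i) hT fun c hc => by
        rw [mul_comm]; exact (hgi i).sup c (left_ne_zero_of_mul hc)
    have b2 : MainM (fun b => xl β B T τ i b * tt b) (A' i) (Bi B T i) T (fun _ => False) = 0 := by
      simp [MainM]
    rw [b2, sub_zero, Complex.norm_real, shB_nrm hb] at b1
    refine (le_abs_self _).trans (b1.trans ?_)
    have b3 : 0 ≤ nrm2 (xl β B T τ i) (3 * Bi B T i) := Finset.sum_nonneg fun _ _ => sq_nonneg _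
    have b4 := (hA' i hi).2
    gcongr
  have a2 : ∑ i ∈ Ji Λ T, nrm2 (xl β B T τ i) (3 * Bi B T i) ≤ 12 * (Λ * B) := by
    refine (hx.nrm2_le β B Λ T τ _ (fun i => 3 * Bi B T i) hB0 hg.sup).trans
      ((Finset.sum_le_card_nsmul _ _ 1 fun c _ => pow_le_one₀ (norm_nonneg _) (hg.bd c)).trans ?_)
    rw [nsmul_eq_mul, mul_one]
    exact card_sqf_le (by positivity)
  have a3 := h3 β X B T w u τ A' ((le_max_left _ _).trans hX) hT hT' hB hB' hu hg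
    (hcase.imp_right fun h => h.imp_right And.right) hA'
  have a4 := h4 (Ji Λ T) (fun i b => xl β B T τ i b * tt b) A' (Bi B T) (X / B) B T w X
    ((one_le_div hB0).2 hBX) hB1 hBX hT hTX hw
    (fun i hi => by
      obtain ⟨b1, b2⟩ := hx.bi Λ B T i hΛ hB0 hT hi
      have b3 : 0 < X / B := by positivity
      refine ⟨(hA' i hi).1, (hA' i hi).2.trans (by nlinarith), le_trans ?_ b1, by nlinarith,
        fun c hc => ?_, fun c hc => (hgi i).rough c (left_ne_zero_of_mul hc)⟩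
      · gcongr
        linarith
      · obtain ⟨b4, b5⟩ := (hgi i).sup c (left_ne_zero_of_mul hc)
        exact ⟨b4, b5.trans (mul_le_mul_of_nonneg_right he (hBi i).le)⟩)
    (fun c => by
      simp only [norm_mul, hb.norm_tt, mul_one]
      exact (hx.sum_sq β B T τ _ c hB0).trans (pow_le_one₀ (norm_nonneg _) (hg.bd c)))
  have a5 := shB_num hX1 hΛ hT hT' hB hB' hw d0 d1 d2 d3
    (hcase.imp_right fun h => h.imp_right And.left)
  have hτ : 1 ≤ 1 + |τ| := by linarith [abs_nonneg τ]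
  have a6 : 1 ≤ (1 + |τ|) ^ (2 * kk) := one_le_pow₀ hτ
  have a7 : (1 + |τ|) ^ kk ≤ (1 + |τ|) ^ (2 * kk) := pow_le_pow_right₀ hτ (by omega)
  have a8 : X ^ (-c) ≤ X ^ (-c0) := Real.rpow_le_rpow_of_exponent_le hX1 (by linarith)
  have hq : 1 ≤ u * (1 + |τ|) ^ (2 * kk) := one_le_mul_of_one_le_of_one_le hu a6
  have c1 : 30 * (X / B) / T * ∑ i ∈ Ji Λ T, nrm2 (xl β B T τ i) (3 * Bi B T i)
      ≤ 360 * Λ * (X / T + W) * (u * (1 + |τ|) ^ (2 * kk)) := by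
    calc _ ≤ 30 * (X / B) / T * (12 * (Λ * B)) := by gcongr
      _ = 360 * Λ * (X / T) * 1 := by field_simp; ring
      _ ≤ _ := by gcongr; linarith
  have c2 : C3 * u * MM (X / B) B * (T ^ (-(4 / 5) : ℝ) + X ^ (-c)) * (1 + |τ|) ^ kk
      ≤ C3 * (X / T + W) * (u * (1 + |τ|) ^ (2 * kk)) := by
    calc _ ≤ C3 * u * MM (X / B) B * (T ^ (-(4 / 5) : ℝ) + X ^ (-c0)) * (1 + |τ|) ^ (2 * kk) := by
          gcongr
      _ = C3 * W * (u * (1 + |τ|) ^ (2 * kk)) := by rw [hW]; ring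
      _ ≤ _ := by gcongr; linarith
  have c3 : C4 * (3 * Λ * MM (X / B) B * (T ^ (-(4 / 5) : ℝ) + X ^ (-c0)))
      ≤ C4 * (3 * Λ) * (X / T + W) * (u * (1 + |τ|) ^ (2 * kk)) := by
    calc _ = C4 * (3 * Λ) * W * 1 := by rw [hW]; ring
      _ ≤ _ := by gcongr; linarith
  have c4 := a4.trans ((mul_le_mul_of_nonneg_left a5 hC4.le).trans c3)
  refine (Finset.sum_le_sum a1).trans ?_
  rw [← Finset.mul_sum, Finset.sum_add_distrib, Finset.sum_add_distrib, ← Finset.mul_sum]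
  refine (mul_le_mul_of_nonneg_left (add_le_add (add_le_add c1 (a3.trans c2)) c4) hC2.le).trans
    (le_of_eq (by ring))

end Pat
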