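import Vale.Agent.P006.IfC
import Vale.Agent.P026.Rearr

noncomputable section
namespace Pat
open QRH Complex MeasureTheory Filter
open scoped ComplexConjugate Classical ContDiff Topology

/-- Size conditions in logarithmic form. -/
structure ShR_H (G X B T a b : ℝ) : Prop where
  hG : 0 < G
  hX : 0 < X
  hB : 0 < B
  hT : 0 < T
  ha : 0 < a
  hb : 0 < b
  l3 : 0 ≤ Real.log 3
  l3' : Real.log 3 ≤ Real.log G
  l9 : Real.log 9 ≤ Real.log G
  x1 : 20 * Real.log G ≤ Real.log X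
  t1 : 0 ≤ Real.log T
  t2 : Real.log T ≤ (1 / 6 + 1 / 1000) * Real.log X
  b1 : 1 / 10 * Real.log X ≤ Real.log B
  b2 : Real.log B ≤ Real.log G + 1 / 2 * Real.log X
  a1 : Real.log X - Real.log B - Real.log G ≤ Real.log a
  a2 : Real.log a ≤ Real.log X - Real.log B + Real.log G
  c1 : Real.log B - Real.log G ≤ Real.log b
  c2 : Real.log b ≤ Real.log B + Real.log G

theorem ShR_le {a b : ℝ} (ha : 0 < a) (hb : 0 < b) (h : Real.log a ≤ Real.log b) : a ≤ b :=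
  (Real.log_le_log_iff ha hb).1 h

theorem ShR_mk {Λ X B T a b : ℝ} (hΛ : 1 ≤ Λ) (hX : (30 * Λ) ^ 20 ≤ X) (hT : 1 ≤ T)
    (hT' : T ≤ Tmax X) (hB : X ^ (1 / 10 : ℝ) ≤ B) (hB' : B ≤ Λ * √X)
    (ha : X / B / (30 * Λ) ≤ a) (ha' : a ≤ 30 * (X / B)) (hb : B / 3 ≤ b) (hb' : b ≤ 2 * Λ * B) :
    ShR_H (30 * Λ) X B T a b := by
  have hG : 0 < 30 * Λ := by positivity
  have hX0 : 0 < X := lt_of_lt_of_le (by positivity) hX
  have hB0 : 0 < B := lt_of_lt_of_le (by positivity) hB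
  have hT0 : 0 < T := by linarith
  have ha0 : 0 < a := lt_of_lt_of_le (by positivity) ha
  have hb0 : 0 < b := lt_of_lt_of_le (by positivity) hb
  have hΛ0 : 0 < Λ := by linarith
  have g1 : Real.log 3 ≤ Real.log (30 * Λ) := Real.log_le_log (by norm_num) (by linarith)
  have g2 : Real.log 30 ≤ Real.log (30 * Λ) := Real.log_le_log (by norm_num) (by linarith)
  have g3 : Real.log Λ ≤ Real.log (30 * Λ) := Real.log_le_log hΛ0 (by linarith)
  have g4 : Real.log (2 * Λ) ≤ Real.log (30 * Λ) := Real.log_le_log (by positivity) (by linarith)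
  refine ⟨hG, hX0, hB0, hT0, ha0, hb0, Real.log_nonneg (by norm_num), g1,
    Real.log_le_log (by norm_num) (by linarith), ?_, Real.log_nonneg hT, ?_, ?_, ?_, ?_, ?_, ?_, ?_⟩
  · have := Real.log_le_log (by positivity) hX
    rw [Real.log_pow] at this
    exact_mod_cast this
  · have := Real.log_le_log hT0 hT'
    rwa [Tmax, Real.log_rpow hX0] at this
  · have := Real.log_le_log (by positivity) hB
    rwa [Real.log_rpow hX0] at this
  · have := Real.log_le_log hB0 hB'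
    rw [Real.log_mul hΛ0.ne' (by positivity), Real.log_sqrt hX0.le] at this
    linarith
  · have := Real.log_le_log (by positivity) ha
    rwa [Real.log_div (by positivity) hG.ne', Real.log_div hX0.ne' hB0.ne'] at this
  · have := Real.log_le_log ha0 ha'
    rw [Real.log_mul (by norm_num) (by positivity), Real.log_div hX0.ne' hB0.ne'] at this
    linarith
  · have := Real.log_le_log (by positivity) hb
    rw [Real.log_div hB0.ne' (by norm_num)] at this
    linarith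
  · have := Real.log_le_log hb0 hb'
    rw [Real.log_mul (by positivity) hB0.ne'] at this
    linarith

theorem ShR_L {G X B T a b : ℝ} (h : ShR_H G X B T a b) : 3 * b ≤ X := by
  obtain ⟨hG, hX, hB, hT, ha, hb, l3, l3', l9, x1, t1, t2, b1, b2, a1, a2, c1, c2⟩ := h
  refine ShR_le (by positivity) hX ?_
  simp (disch := positivity) only [Real.log_mul]
  linarith

theorem ShR_K {G X B T a b : ℝ} (h : ShR_H G X B T a b) : 9 * b ^ 2 / a ≤ X := by
  obtain ⟨hG, hX, hB, hT, ha, hb, l3, l3', l9, x1, t1, t2, b1, b2, a1, a2, c1, c2⟩ := h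
  refine ShR_le (by positivity) hX ?_
  simp (disch := positivity) only [Real.log_mul, Real.log_div, Real.log_pow]
  push_cast
  linarith

theorem ShR_T {G X B T a b : ℝ} (h : ShR_H G X B T a b) : T ≤ X := by
  obtain ⟨hG, hX, hB, hT, ha, hb, l3, l3', l9, x1, t1, t2, b1, b2, a1, a2, c1, c2⟩ := h
  refine ShR_le hT hX ?_
  linarith

theorem ShR_B {G X B T a b : ℝ} (h : ShR_H G X B T a b) : 1 ≤ B := by
  obtain ⟨hG, hX, hB, hT, ha, hb, l3, l3', l9, x1, t1, t2, b1, b2, a1, a2, c1, c2⟩ := h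
  refine ShR_le one_pos hB ?_
  rw [Real.log_one]
  linarith

theorem ShR_R {G X B T a b δ : ℝ} (h : ShR_H G X B T a b) (hδ : δ ≤ 1 / 100) :
    B ^ (1 + δ) ≤ X := by
  obtain ⟨hG, hX, hB, hT, ha, hb, l3, l3', l9, x1, t1, t2, b1, b2, a1, a2, c1, c2⟩ := h
  refine ShR_le (by positivity) hX ?_
  rw [Real.log_rpow hB]
  have : δ * Real.log B ≤ 1 / 100 * Real.log B := mul_le_mul_of_nonneg_right hδ (by linarith)
  linarith

theorem ShR_T1 {G X B T a b : ℝ} (h : ShR_H G X B T a b) :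
    a / b * ((9 * b ^ 2 / a / 1) ^ (1 / 3 : ℝ) * (3 * b)) ≤ G ^ 12 * X ^ (2 / 3 : ℝ) := by
  obtain ⟨hG, hX, hB, hT, ha, hb, l3, l3', l9, x1, t1, t2, b1, b2, a1, a2, c1, c2⟩ := h
  rw [div_one]
  refine ShR_le (by positivity) (by positivity) ?_
  simp (disch := positivity) only [Real.log_mul, Real.log_div, Real.log_pow, Real.log_rpow]
  push_cast
  linarith

theorem ShR_T2 {G X B T a b δ : ℝ} (h : ShR_H G X B T a b) (hδ0 : 0 < δ) (hδ : δ ≤ 1 / 100)
    (hc : B ≤ X ^ (1 / 2 - δ) ∨ X ^ δ ≤ T) :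
    a / b * (X ^ (δ / 14) * (T ^ (-(4 / 5) : ℝ) * (9 * b ^ 2 / a) ^ (1 / 3 : ℝ) * (3 * b)
        * (B ^ (1 / 10 : ℝ)) ^ (-(1 / 3) : ℝ)
      + T ^ (-(1 / 7) : ℝ) * (9 * b ^ 2 / a * (3 * b)) ^ (2 / 3 : ℝ)
      + T ^ (3 / 5 : ℝ) * (9 * b ^ 2 / a)))
      ≤ 3 * (G ^ 12 * X ^ (2 / 3 : ℝ) * X ^ (-(δ / 14))) := by
  obtain ⟨hG, hX, hB, hT, ha, hb, l3, l3', l9, x1, t1, t2, b1, b2, a1, a2, c1, c2⟩ := h
  have d0 : 0 ≤ δ * Real.log X := mul_nonneg hδ0.le (by linarith)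
  have d1 : δ * Real.log X ≤ 1 / 100 * Real.log X := mul_le_mul_of_nonneg_right hδ (by linarith)
  have h1 : a / b * (X ^ (δ / 14) * (T ^ (-(4 / 5) : ℝ) * (9 * b ^ 2 / a) ^ (1 / 3 : ℝ) * (3 * b)
      * (B ^ (1 / 10 : ℝ)) ^ (-(1 / 3) : ℝ))) ≤ G ^ 12 * X ^ (2 / 3 : ℝ) * X ^ (-(δ / 14)) := by
    refine ShR_le (by positivity) (by positivity) ?_
    simp (disch := positivity) only [Real.log_mul, Real.log_div, Real.log_pow, Real.log_rpow]
    push_cast
    linarith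
  have h2 : a / b * (X ^ (δ / 14) * (T ^ (-(1 / 7) : ℝ) * (9 * b ^ 2 / a * (3 * b)) ^ (2 / 3 : ℝ)))
      ≤ G ^ 12 * X ^ (2 / 3 : ℝ) * X ^ (-(δ / 14)) := by
    refine ShR_le (by positivity) (by positivity) ?_
    simp (disch := positivity) only [Real.log_mul, Real.log_div, Real.log_pow, Real.log_rpow]
    push_cast
    rcases hc with hc | hc
    · have := Real.log_le_log hB hc
      rw [Real.log_rpow hX] at this
      linarith
    · have := Real.log_le_log (by positivity) hc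
      rw [Real.log_rpow hX] at this
      linarith
  have h3 : a / b * (X ^ (δ / 14) * (T ^ (3 / 5 : ℝ) * (9 * b ^ 2 / a)))
      ≤ G ^ 12 * X ^ (2 / 3 : ℝ) * X ^ (-(δ / 14)) := by
    refine ShR_le (by positivity) (by positivity) ?_
    simp (disch := positivity) only [Real.log_mul, Real.log_div, Real.log_pow, Real.log_rpow]
    push_cast
    linarith
  simp only [mul_add]
  linarith

theorem ShR_T3 {G X B T a b δ δ1 : ℝ} (h : ShR_H G X B T a b) (hδ0 : 0 < δ) (hδ : δ ≤ δ1 / 20)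
    (hδ1 : δ1 ≤ 1 / 100) (hc : X ^ (1 / 2 - δ) ≤ B) (hc' : T ≤ X ^ δ) :
    a / b * (X ^ (δ / 14) * (9 * b ^ 2 / a * T ^ 2 / B ^ (1 + δ1)) ^ 2 *
      ((B ^ (1 + δ1)) ^ (1 / 3 : ℝ) * (3 * b) + B ^ (1 + δ1)
        + (B ^ (1 + δ1) * (3 * b)) ^ (2 / 3 : ℝ)))
      ≤ 3 * (G ^ 12 * X ^ (2 / 3 : ℝ) * X ^ (-(δ / 14))) := by
  obtain ⟨hG, hX, hB, hT, ha, hb, l3, l3', l9, x1, t1, t2, b1, b2, a1, a2, c1, c2⟩ := h
  have d0 : 0 ≤ δ * Real.log X := mul_nonneg hδ0.le (by linarith)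
  have d1 : δ * Real.log X ≤ 1 / 100 * Real.log X :=
    mul_le_mul_of_nonneg_right (by linarith) (by linarith)
  have d2 := Real.log_le_log (by positivity) hc
  rw [Real.log_rpow hX] at d2
  have d3 := Real.log_le_log hT hc'
  rw [Real.log_rpow hX] at d3
  have d4 : 20 * δ * (0.49 * Real.log X) ≤ δ1 * Real.log B :=
    mul_le_mul (by linarith) (by linarith) (by linarith) (by linarith)
  have d5 : δ1 * Real.log B ≤ 1 / 100 * Real.log B := mul_le_mul_of_nonneg_right hδ1 (by linarith)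
  have h1 : a / b * (X ^ (δ / 14) * (9 * b ^ 2 / a * T ^ 2 / B ^ (1 + δ1)) ^ 2 *
      ((B ^ (1 + δ1)) ^ (1 / 3 : ℝ) * (3 * b))) ≤ G ^ 12 * X ^ (2 / 3 : ℝ) * X ^ (-(δ / 14)) := by
    refine ShR_le (by positivity) (by positivity) ?_
    simp (disch := positivity) only [Real.log_mul, Real.log_div, Real.log_pow, Real.log_rpow]
    push_cast
    linarith
  have h2 : a / b * (X ^ (δ / 14) * (9 * b ^ 2 / a * T ^ 2 / B ^ (1 + δ1)) ^ 2 * B ^ (1 + δ1))
      ≤ G ^ 12 * X ^ (2 / 3 : ℝ) * X ^ (-(δ / 14)) := by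
    refine ShR_le (by positivity) (by positivity) ?_
    simp (disch := positivity) only [Real.log_mul, Real.log_div, Real.log_pow, Real.log_rpow]
    push_cast
    linarith
  have h3 : a / b * (X ^ (δ / 14) * (9 * b ^ 2 / a * T ^ 2 / B ^ (1 + δ1)) ^ 2 *
      (B ^ (1 + δ1) * (3 * b)) ^ (2 / 3 : ℝ)) ≤ G ^ 12 * X ^ (2 / 3 : ℝ) * X ^ (-(δ / 14)) := by
    refine ShR_le (by positivity) (by positivity) ?_
    simp (disch := positivity) only [Real.log_mul, Real.log_div, Real.log_pow, Real.log_rpow]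
    push_cast
    linarith
  simp only [mul_add (X ^ (δ / 14) * _), mul_add (a / b)]
  linarith

theorem ShR_T4 {G X B T a b δ δ2 : ℝ} {k : ℕ} (h : ShR_H G X B T a b) (hδ0 : 0 < δ)
    (hδ : δ ≤ 1 / 100) (hδ2 : δ ≤ δ2 / (10 * (k + 1))) (hc : X ^ (1 / 2 - δ) ≤ B)
    (hc' : T ≤ X ^ δ) :
    a / b * (B ^ (7 / 3 - δ2) * (T * T) ^ k)
      ≤ G ^ 12 * X ^ (2 / 3 : ℝ) * X ^ (-(δ / 14)) * (B / T) := by
  obtain ⟨hG, hX, hB, hT, ha, hb, l3, l3', l9, x1, t1, t2, b1, b2, a1, a2, c1, c2⟩ := h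
  have d0 : 0 ≤ δ * Real.log X := mul_nonneg hδ0.le (by linarith)
  have d1 : δ * Real.log X ≤ 1 / 100 * Real.log X := mul_le_mul_of_nonneg_right hδ (by linarith)
  have d2 := Real.log_le_log (by positivity) hc
  rw [Real.log_rpow hX] at d2
  have d3 := Real.log_le_log hT hc'
  rw [Real.log_rpow hX] at d3
  rw [le_div_iff₀ (by positivity)] at hδ2
  have d4 : δ * (10 * (k + 1)) * (0.49 * Real.log X) ≤ δ2 * Real.log B :=
    mul_le_mul hδ2 (by linarith) (by linarith) (le_trans (by positivity) hδ2)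
  have d5 : (k : ℝ) * Real.log T ≤ k * (δ * Real.log X) :=
    mul_le_mul_of_nonneg_left d3 (by positivity)
  have d6 : 0 ≤ (k : ℝ) * (δ * Real.log X) := by positivity
  refine ShR_le (by positivity) (by positivity) ?_
  simp (disch := positivity) only [Real.log_mul, Real.log_div, Real.log_pow, Real.log_rpow]
  push_cast
  linarith

theorem ShR_int (hb : BA) (k : ℕ) (x : Finset P → ℂ) {A B T V : ℝ} (Pr : E → Prop) (hA : 0 < A)
    (hB : 0 < B) (hT : 0 < T)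
    (h : ∀ τ : ℝ, A / B * Xi (yd x B T ∅ ∅ ∅ τ) (3 * B) (9 * B ^ 2 / A) T (fun ξ => ¬ Pr ξ)
      ≤ V * (1 + |τ|) ^ k) :
    Rest0 x A B T (k + 2) Pr
      ≤ V * ∫ τ : ℝ, (1 + |τ|) ^ (-((k : ℝ) + 2)) * (1 + |τ|) ^ k := by
  unfold Rest0
  rw [← integral_const_mul, ← integral_const_mul]
  refine integral_mono_of_nonneg (Eventually.of_forall fun τ => ?_) ((hb.int_pow k).const_mul V)
    (Eventually.of_forall fun τ => ?_)
  · exact mul_nonneg (by positivity) (mul_nonneg (by positivity)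
      (hb.Xi_nonneg _ _ _ _ _ (by positivity) hT))
  · have h1 := mul_le_mul_of_nonneg_left (h τ)
      (show 0 ≤ (1 + |τ|) ^ (-((k : ℝ) + 2)) by positivity)
    push_cast
    linarith

theorem ShR_Qc (ξ : E) : 1 ≤ Qc ξ :=
  one_le_mul_of_one_le_of_one_le (one_le_Ns _) (one_le_pow₀ (one_le_Ns _))

theorem ShR_nrm (x : Finset P → ℂ) (N : ℝ) : 0 ≤ nrm2 x N :=
  Finset.sum_nonneg fun _ _ => by positivity

theorem ShR_s {T : ℝ} (hT : 1 ≤ T) (τ : ℝ) :
    |((1 / 2 : ℂ) + τ * T * I).re| ≤ 1 ∧ 1 + ‖(1 / 2 : ℂ) + τ * T * I‖ ≤ 2 * T * (1 + |τ|) := by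
  constructor
  · have : ((1 / 2 : ℂ) + τ * T * I).re = 1 / 2 := by simp
    rw [this, abs_of_nonneg (by norm_num)]
    norm_num
  · have h1 := norm_add_le (1 / 2 : ℂ) (τ * T * I)
    have h2 : ‖(1 / 2 : ℂ)‖ = 1 / 2 := by simp
    have h3 : ‖(τ * T * I : ℂ)‖ = |τ| * T := by
      rw [norm_mul, norm_mul, Complex.norm_I, mul_one, Complex.norm_real, Complex.norm_real,
        Real.norm_eq_abs, Real.norm_of_nonneg (by linarith)]
    rw [h2, h3] at h1
    have h4 := abs_nonneg τ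
    nlinarith

theorem ShR_MM {X B : ℝ} (hX : 0 < X) (hB : 0 < B) : MM (X / B) B = X ^ (2 / 3 : ℝ) * B := by
  unfold MM
  rw [Real.div_rpow hX.le hB.le, show (5 / 3 : ℝ) = 2 / 3 + 1 by norm_num, Real.rpow_add hB,
    Real.rpow_one]
  have : 0 < B ^ (2 / 3 : ℝ) := by positivity
  field_simp

theorem shR (hb : BA) (hx : XlF) (h1 : BL1) (h2 : BL2) (h3 : BL3) : ShR := by
  intro Λ δ1 δ2 η kk hΛ hδ1 hδ1' hδ2 hη
  obtain ⟨δ, hδ0, hδa, hδb, hδc⟩ : ∃ δ : ℝ, 0 < δ ∧ δ ≤ 1 / 100 ∧ δ ≤ δ1 / 20 ∧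
      δ ≤ δ2 / (10 * (kk + 1)) :=
    ⟨min (δ1 / 20) (δ2 / (10 * (kk + 1))), by positivity, (min_le_left _ _).trans (by linarith),
      min_le_left _ _, min_le_right _ _⟩
  obtain ⟨C1, hC1, h1⟩ := h1
  obtain ⟨C2, hC2, h2⟩ := h2 (δ / 14) (by positivity)
  obtain ⟨C3, hC3, h3⟩ := h3 (δ / 14) (by positivity)
  obtain ⟨C4, hC4, h4⟩ := hx.transfer Λ kk hΛ
  set G : ℝ := (30 * Λ) ^ 12 with hG
  set J : ℝ := ∫ τ : ℝ, (1 + |τ|) ^ (-((kk : ℝ) + 2)) * (1 + |τ|) ^ kk with hJ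
  have hJ0 : 0 ≤ J := integral_nonneg fun τ => by positivity
  have hl : 0 ≤ Real.log Λ := Real.log_nonneg hΛ
  have hΛ0 : 0 < Λ := by linarith
  have hG0 : 0 < G := by positivity
  set D1 : ℝ := 9 * (C1 + 3 * C2 + 3 * C3) * G with hD1
  set D2 : ℝ := C4 * 2 ^ kk * G with hD2
  have hD10 : 0 < D1 := by positivity
  have hD20 : 0 < D2 := by positivity
  refine ⟨δ, δ / 14, (D1 * (12 * Λ) + D2 * (2 * Real.log Λ + 4)) * (J + 1), (30 * Λ) ^ 20, hδ0,
    hδa, by positivity, by positivity, ?_⟩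
  intro β X B T w u τ A' hX hT hT' hB hB' hu hβ hc hA
  have hX0 : 0 < X := lt_of_lt_of_le (by positivity) hX
  have hB0 : 0 < B := lt_of_lt_of_le (by positivity) hB
  have hT0 : 0 < T := by linarith
  set Y : ℝ := X ^ (2 / 3 : ℝ) with hY
  set e : ℝ := X ^ (-(δ / 14)) with he
  set t : ℝ := T ^ (-(4 / 5) : ℝ) with ht
  have hY0 : 0 < Y := by positivity
  have he0 : 0 < e := by positivity
  have ht0 : 0 < t := by positivity
  have hτ : 1 ≤ (1 + |τ|) ^ kk := one_le_pow₀ (by linarith [abs_nonneg τ])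
  have key : ∀ i ∈ Ji Λ T, Rest0 (fun b => xl β B T τ i b * tt b) (A' i) (Bi B T i) T (kk + 2)
      (fun _ => False) ≤ (D1 * Y * (t + e) * nrm2 (xl β B T τ i) (3 * Bi B T i)
        + D2 * u * Y * e * (B / T) * (1 + |τ|) ^ kk) * J := by
    intro i hi
    obtain ⟨hb1, hb2⟩ := hx.bi Λ B T i hΛ hB0 hT hi
    have H := ShR_mk hΛ hX hT hT' hB hB' (hA i hi).1 (hA i hi).2 hb1 hb2
    have ha0 := H.ha
    have hb0 := H.hb
    have hB1 := ShR_B H
    refine ShR_int hb kk _ _ ha0 hb0 hT0 fun τ1 => ?_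
    rw [hx.yd_eq]
    obtain ⟨hs1, hs2⟩ := ShR_s hT τ1
    have hτ1 : 1 ≤ (1 + |τ1|) ^ kk := one_le_pow₀ (by linarith [abs_nonneg τ1])
    have hgb := hx.gb β B Λ w T τ i hβ hB0 hT
    have hsup : Sup (xl β B T τ i) (Bi B T i) (3 * Bi B T i) := fun c hc =>
      ⟨(hgb.sup c hc).1, (hgb.sup c hc).2.trans (mul_le_mul_of_nonneg_right
        ((Real.exp_le_exp.2 ((div_le_one hT0).2 hT)).trans Real.exp_one_lt_three.le) hb0.le)⟩
    have hn := hx.tw_nrm _ _ (3 * Bi B T i) _ hb0 hsup hs1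
    have hn0 := ShR_nrm (xl β B T τ i) (3 * Bi B T i)
    have htr := fun (F : Finset E) (V : ℝ) => h4 β B T τ V i _ F hB0 hT hi hs1 hβ.sup
    generalize (1 / 2 : ℂ) + τ1 * T * I = s at hs1 hs2 hn htr
    have hsy : Sup (tw (xl β B T τ i) (Bi B T i) s) (3 * Bi B T i / 3) (3 * Bi B T i) := by
      intro c hc
      rw [mul_div_cancel_left₀ _ (by norm_num : (3 : ℝ) ≠ 0)]
      refine hsup c fun h0 => hc ?_
      rw [tw, h0, map_zero, zero_mul]
    have hy0 := ShR_nrm (tw (xl β B T τ i) (Bi B T i) s) (3 * Bi B T i)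
    have hK0 : 0 < 9 * Bi B T i ^ 2 / A' i := by positivity
    have hZ : (B ^ (1 / 10 : ℝ)) ^ 3 ≤ 3 * Bi B T i := by
      rw [← Real.rpow_natCast, ← Real.rpow_mul hB0.le]
      refine le_trans ?_ (show B ≤ 3 * Bi B T i by linarith)
      exact (Real.rpow_le_rpow_of_exponent_le hB1 (by norm_num)).trans_eq (Real.rpow_one B)
    have hZ1 : 1 ≤ B ^ (1 / 10 : ℝ) := Real.one_le_rpow hB1 (by norm_num)
    have g0 := hb.Xi_le (tw (xl β B T τ i) (Bi B T i) s) (3 * Bi B T i) _ T (fun _ => ¬ False)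
      (fun ξ => 1 ≤ Qc ξ ∧ Qc ξ < B ^ (1 / 10 : ℝ)) (fun ξ => B ^ (1 / 10 : ℝ) ≤ Qc ξ) hK0 hT0
      (fun ξ _ _ => (lt_or_ge (Qc ξ) _).imp (fun h => ⟨ShR_Qc ξ, h⟩) id)
    have g1 := h1 _ _ _ T 1 _ hsy hK0 hT le_rfl hZ
    have g2 := h2 (tw (xl β B T τ i) (Bi B T i) s) _ _ T _ X (ShR_L H) hK0 (ShR_K H) hT (ShR_T H)
      hZ1
    have g3 := h3 (tw (xl β B T τ i) (Bi B T i) s) _ _ T (B ^ (1 / 10 : ℝ)) (B ^ (1 + δ1)) X
      (ShR_L H) hK0 hT (Real.one_le_rpow hB1 (by positivity)) (ShR_R H hδ1')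
    have hq : 0 < A' i / Bi B T i := by positivity
    have k1 := ShR_T1 H
    rw [← hG, ← hY] at k1
    rw [← ht] at g1
    have k2 := ShR_T2 H hδ0 hδa
    have k3 := ShR_T3 H hδ0 hδb hδ1'
    have k4 := ShR_T4 H hδ0 hδa hδc
    rw [← hG, ← hY, ← he] at k2 k3 k4
    generalize nrm2 (tw (xl β B T τ i) (Bi B T i) s) (3 * Bi B T i) = n1 at hn hy0 g1 g2 g3
    generalize nrm2 (xl β B T τ i) (3 * Bi B T i) = n2 at hn hn0
    generalize Xi (tw (xl β B T τ i) (Bi B T i) s) (3 * Bi B T i) (9 * Bi B T i ^ 2 / A' i) T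
      (fun ξ => 1 ≤ Qc ξ ∧ Qc ξ < B ^ (1 / 10 : ℝ)) = x1 at g0 g1
    generalize Xi (tw (xl β B T τ i) (Bi B T i) s) (3 * Bi B T i) (9 * Bi B T i ^ 2 / A' i) T
      (fun ξ => B ^ (1 / 10 : ℝ) ≤ Qc ξ) = x2 at g0 g2 g3
    have m1 : A' i / Bi B T i * x1 ≤ C1 * (G * Y * t) * (9 * n2) := by
      refine (mul_le_mul_of_nonneg_left g1 hq.le).trans ?_
      calc _ = C1 * (A' i / Bi B T i * ((9 * Bi B T i ^ 2 / A' i / 1) ^ (1 / 3 : ℝ)
            * (3 * Bi B T i)) * t) * n1 := by ring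
        _ ≤ _ := mul_le_mul (mul_le_mul_of_nonneg_left
            (mul_le_mul_of_nonneg_right k1 ht0.le) hC1.le) hn hy0 (by positivity)
    have m2 : A' i / Bi B T i * x2 ≤ (C2 + C3) * (3 * (G * Y * e)) * (9 * n2)
        + D2 * u * Y * e * (B / T) * (1 + |τ|) ^ kk * (1 + |τ1|) ^ kk := by
      by_cases hc1 : B ≤ X ^ (1 / 2 - δ) ∨ X ^ δ ≤ T
      · refine le_trans ?_ (le_add_of_nonneg_right (by positivity))
        refine (mul_le_mul_of_nonneg_left g2 hq.le).trans ?_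
        rw [mul_assoc C2, ← mul_assoc, mul_left_comm]
        exact mul_le_mul (mul_le_mul (by linarith) (k2 hc1) (by positivity) (by positivity)) hn hy0
          (by positivity)
      · rw [not_or, not_le, not_le] at hc1
        have hcr : Crit β B (Λ * B) δ1 δ2 kk u := by
          rcases hc with hc | hc | hc
          · exact absurd hc (not_le.2 hc1.1)
          · exact absurd hc (not_le.2 hc1.2)
          · exact hc
        have g4 := htr _ _ hcr
        refine (mul_le_mul_of_nonneg_left g3 hq.le).trans ?_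
        rw [mul_add, add_comm]
        refine add_le_add ?_ ?_
        · rw [mul_assoc C3, mul_assoc C3, ← mul_assoc, mul_left_comm]
          exact mul_le_mul (mul_le_mul (by linarith) (k3 hc1.1.le hc1.2.le) (by positivity)
            (by positivity)) hn hy0 (by positivity)
        · refine (mul_le_mul_of_nonneg_left g4 hq.le).trans ?_
          have g5 : (T * (1 + |τ|) * (1 + ‖s‖)) ^ kk
              ≤ (T * (1 + |τ|) * (2 * T * (1 + |τ1|))) ^ kk :=
            pow_le_pow_left₀ (by positivity) (mul_le_mul_of_nonneg_left hs2 (by positivity)) kk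
          have hu0 : 0 < u := by linarith
          calc _ ≤ A' i / Bi B T i * (C4 * (u * B ^ (7 / 3 - δ2))
                * (T * (1 + |τ|) * (2 * T * (1 + |τ1|))) ^ kk) :=
                mul_le_mul_of_nonneg_left (mul_le_mul_of_nonneg_left g5 (by positivity)) hq.le
            _ = C4 * 2 ^ kk * u * (1 + |τ|) ^ kk * (1 + |τ1|) ^ kk
                * (A' i / Bi B T i * (B ^ (7 / 3 - δ2) * (T * T) ^ kk)) := by
                simp only [mul_pow]
                ring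
            _ ≤ C4 * 2 ^ kk * u * (1 + |τ|) ^ kk * (1 + |τ1|) ^ kk * (G * Y * e * (B / T)) :=
                mul_le_mul_of_nonneg_left (k4 hc1.1.le hc1.2.le) (by positivity)
            _ = _ := by
                rw [hD2]
                ring
    refine (mul_le_mul_of_nonneg_left g0 hq.le).trans ?_
    rw [mul_add, add_mul]
    have m3 : C1 * (G * Y * t) * (9 * n2) + (C2 + C3) * (3 * (G * Y * e)) * (9 * n2)
        ≤ D1 * Y * (t + e) * n2 := by
      have e1 : D1 * Y * (t + e) * n2 = C1 * (G * Y * t) * (9 * n2)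
          + (C2 + C3) * (3 * (G * Y * e)) * (9 * n2)
          + 9 * G * Y * n2 * (C1 * e + 3 * (C2 + C3) * t) := by
        rw [hD1]
        ring
      rw [e1]
      exact le_add_of_nonneg_right (by positivity)
    have m4 : D1 * Y * (t + e) * n2 ≤ D1 * Y * (t + e) * n2 * (1 + |τ1|) ^ kk :=
      le_mul_of_one_le_right (by positivity) hτ1
    linarith
  refine (Finset.sum_le_sum key).trans ?_
  rw [← Finset.sum_mul, Finset.sum_add_distrib, ← Finset.mul_sum, Finset.sum_const, nsmul_eq_mul,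
    ShR_MM hX0 hB0, ← hY]
  have n1 := hx.nrm2_le β B Λ T τ (Ji Λ T) (fun i => 3 * Bi B T i) hB0 hβ.sup
  have n2 : nrm2 β (Λ * B) ≤ 12 * (Λ * B) := by
    refine le_trans ?_ (card_sqf_le (by positivity))
    rw [Finset.card_eq_sum_ones, Nat.cast_sum, nrm2]
    refine Finset.sum_le_sum fun c _ => ?_
    rw [Nat.cast_one]
    exact pow_le_one₀ (norm_nonneg _) (hβ.bd c)
  have n3 := hx.card Λ T hΛ hT
  have hu0 : 0 < u := by linarith
  have p1 : D1 * Y * (t + e) * ∑ i ∈ Ji Λ T, nrm2 (xl β B T τ i) (3 * Bi B T i)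
      ≤ D1 * (12 * Λ) * (u * (Y * B) * (t + e) * (1 + |τ|) ^ kk) := by
    refine (mul_le_mul_of_nonneg_left (n1.trans n2) (by positivity)).trans ?_
    calc _ = D1 * (12 * Λ) * (1 * (Y * B) * (t + e) * 1) := by ring
      _ ≤ _ := by gcongr
  have p2 : ((Ji Λ T).card : ℝ) * (D2 * u * Y * e * (B / T) * (1 + |τ|) ^ kk)
      ≤ D2 * (2 * Real.log Λ + 4) * (u * (Y * B) * (t + e) * (1 + |τ|) ^ kk) := by
    refine (mul_le_mul_of_nonneg_right n3 (by positivity)).trans ?_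
    calc _ = D2 * (2 * Real.log Λ + 4) * (u * (Y * B) * e * (1 + |τ|) ^ kk) := by field_simp
      _ ≤ _ := by
        gcongr
        exact le_add_of_nonneg_left ht0.le
  calc _ ≤ (D1 * (12 * Λ) * (u * (Y * B) * (t + e) * (1 + |τ|) ^ kk)
        + D2 * (2 * Real.log Λ + 4) * (u * (Y * B) * (t + e) * (1 + |τ|) ^ kk)) * (J + 1) :=
        mul_le_mul (add_le_add p1 p2) (by linarith) hJ0 (by positivity)
    _ = _ := by ring

end Pat
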