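import Vale.Agent.P006.SmDAux1
import Vale.Agent.P026.Cnt

/-! The dispersion of one piece and bilinear forms in the smooth range (P006). -/

noncomputable section
namespace Pat
open QRH Complex MeasureTheory Filter
open scoped ComplexConjugate Classical ContDiff Topology

theorem SmD_nrm {x : Finset P → ℂ} (hx : ∀ b, ‖x b‖ ≤ 1) {L : ℝ} (hL : 0 ≤ L) :
    nrm2 x L ≤ 12 * L := by
  refine (Finset.sum_le_card_nsmul _ _ 1 fun c _ => pow_le_one₀ (norm_nonneg _) (hx c)).trans ?_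
  rw [nsmul_eq_mul, mul_one]
  exact card_sqf_le hL

theorem SmD_nrm0 (x : Finset P → ℂ) (L : ℝ) : 0 ≤ nrm2 x L :=
  Finset.sum_nonneg fun _ _ => by positivity

theorem SmD_nrm1 (x : Finset P → ℂ) (L : ℝ) : 0 ≤ nrm1 x L :=
  Finset.sum_nonneg fun _ _ => norm_nonneg _

theorem SmD_gb {x : Finset P → ℂ} {B w : ℝ} (hB : 0 < B) (h : GB x B (Real.exp (1 / 1)) w) :
    GB x B 3 w := by
  refine ⟨h.bd, fun c hc => ⟨(h.sup c hc).1, (h.sup c hc).2.trans ?_⟩, h.rough⟩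
  rw [div_one]
  exact mul_le_mul_of_nonneg_right (by linarith [Real.exp_one_lt_d9]) hB.le

theorem SmD_small (hx : XlF) {Λ : ℝ} (hΛ : 1 ≤ Λ) : ∃ C : ℝ, 0 < C ∧
    ∀ (β : Finset P → ℂ) (B τ Q Q' e : ℝ) (i : ℤ), 0 < B → i ∈ Ji Λ 1 → 0 ≤ e → Q' ≤ Q →
      Sup β B (Λ * B) → Small β B (Λ * B) Q e →
      Small (xl β B 1 τ i) (Bi B 1 i) (3 * Bi B 1 i) Q' (C * e * (1 + |τ|)) := by
  obtain ⟨C, hC, h⟩ := hx.transfer Λ 2 hΛ
  refine ⟨3 * (C + 1), by positivity, fun β B τ Q Q' e i hB hi he hQ hs hβ z hz hc hn s hs1 => ?_⟩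
  have h1 := h β B 1 τ ((e * B) ^ 2) i s {z} hB le_rfl hi hs1 hs fun s' hs' => by
    rw [Finset.sum_singleton, ← mul_pow]
    exact pow_le_pow_left₀ (norm_nonneg _) (hβ z hz hc (hn.trans hQ) s' hs') 2
  rw [Finset.sum_singleton] at h1
  have h2 := (hx.bi Λ B 1 i hΛ hB le_rfl hi).1
  have h3 : 0 < Bi B 1 i := by linarith
  refine (pow_le_pow_iff_left₀ (norm_nonneg _) (by positivity) two_ne_zero).1 (h1.trans ?_)
  calc _ ≤ (C + 1) ^ 2 * (e * (3 * Bi B 1 i)) ^ 2 * (1 * (1 + |τ|) * (1 + ‖s‖)) ^ 2 := by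
        gcongr
        · nlinarith
        · linarith
    _ = _ := by ring

theorem SmD_V (hx : XlF) (h4 : BL2) (h5 : BL3) {Λ c δc δ1 δ2 : ℝ} (kk : ℕ) (hΛ : 1 ≤ Λ)
    (hc0 : 0 < c) (hc : 100 * c ≤ δc) (h1 : 20 * δc ≤ δ1) (h1' : δ1 ≤ 1 / 100)
    (h2 : 4 * δc ≤ δ2) : ∃ C : ℝ, 0 < C ∧
    ∀ (β : Finset P → ℂ) (X B A' w u τ : ℝ) (i : ℤ), SmDP X B A' (Bi B 1 i) (30 * Λ) c → 1 ≤ u →
      GB β B Λ w → i ∈ Ji Λ 1 → (B ≤ X ^ (1 / 2 - δc) ∨ Crit β B (Λ * B) δ1 δ2 kk u) →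
      ∃ V : ℝ, 0 ≤ V ∧ (∀ t : ℝ, Xi (tw (xl β B 1 τ i) (Bi B 1 i) (1 / 2 + t * I)) (3 * Bi B 1 i)
          (9 * Bi B 1 i ^ 2 / A') 1 (fun ξ => B ^ (1 / 10 : ℝ) ≤ Qc ξ) ≤ V * (1 + |t|) ^ (kk + 2)) ∧
        A' / Bi B 1 i * V ≤ C * u * (MM (X / B) B * X ^ (-c)) * (1 + |τ|) ^ kk := by
  obtain ⟨C4, hC4, d4⟩ := h4 c hc0
  obtain ⟨C5, hC5, d5⟩ := h5 c hc0
  obtain ⟨C7, hC7, d7⟩ := hx.transfer Λ kk hΛ
  refine ⟨972 * C4 + 972 * C5 + C7 * 2 ^ kk, by positivity,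
    fun β X B A' w u τ i hp hu hβ hi hcase => ?_⟩
  obtain ⟨hX, -, hB, hA, hBi⟩ := hp.pos
  obtain ⟨n1, -, -, -, -, n6, n7, -⟩ := hp.num
  have hg := SmD_gb hBi (hx.gb β B Λ w 1 τ i hβ hB le_rfl)
  have hre : ∀ t : ℝ, |(1 / 2 + t * I : ℂ).re| ≤ 1 := fun t => by
    simp only [add_re, mul_re, ofReal_re, I_re, mul_zero, ofReal_im, I_im,
      div_ofNat_re, one_re]
    rw [abs_of_nonneg] <;> norm_num
  have hy : ∀ t : ℝ, nrm2 (tw (xl β B 1 τ i) (Bi B 1 i) (1 / 2 + t * I)) (3 * Bi B 1 i)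
      ≤ 324 * Bi B 1 i := fun t => by
    have a1 := hx.tw_nrm _ _ (3 * Bi B 1 i) _ hBi hg.sup (hre t)
    have a2 := SmD_nrm hg.bd (L := 3 * Bi B 1 i) (by positivity)
    linarith
  have ht : ∀ (t : ℝ) (n : ℕ), 1 ≤ (1 + |t|) ^ n := fun t n =>
    one_le_pow₀ (le_add_of_nonneg_right (abs_nonneg t))
  have hM : 0 < MM (X / B) B * X ^ (-c) := by unfold MM; positivity
  have hU : MM (X / B) B * X ^ (-c) ≤ u * (MM (X / B) B * X ^ (-c)) * (1 + |τ|) ^ kk :=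
    (le_mul_of_one_le_left hM.le hu).trans (le_mul_of_one_le_right (by positivity) (ht τ kk))
  set b := Bi B 1 i with hb
  by_cases hB1 : B ≤ X ^ (1 / 2 - δc)
  · obtain ⟨-, m2, m3, m4⟩ := hp.num1 hc hB1
    refine ⟨C4 * X ^ c * ((9 * b ^ 2 / A') ^ (1 / 3 : ℝ) * (3 * b)
      * (B ^ (1 / 10 : ℝ)) ^ (-(1 / 3) : ℝ) + (9 * b ^ 2 / A' * (3 * b)) ^ (2 / 3 : ℝ)
        + 9 * b ^ 2 / A') * (324 * b), by positivity, fun t => ?_, ?_⟩
    · have a1 := d4 (tw (xl β B 1 τ i) b (1 / 2 + t * I)) (3 * b) (9 * b ^ 2 / A') 1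
        (B ^ (1 / 10 : ℝ)) X n6 (by positivity) n7 le_rfl hp.hX.le
        (Real.one_le_rpow n1 (by norm_num))
      simp only [Real.one_rpow, one_mul] at a1
      refine a1.trans ((mul_le_mul_of_nonneg_left (hy t) (by positivity)).trans ?_)
      exact le_mul_of_one_le_right (by positivity) (ht t _)
    · calc _ = 324 * C4 * (A' * X ^ c * ((9 * b ^ 2 / A') ^ (1 / 3 : ℝ) * (3 * b)
              * (B ^ (1 / 10 : ℝ)) ^ (-(1 / 3) : ℝ))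
            + A' * X ^ c * (9 * b ^ 2 / A' * (3 * b)) ^ (2 / 3 : ℝ)
            + A' * X ^ c * (9 * b ^ 2 / A')) := by
            generalize (9 * b ^ 2 / A' : ℝ) = K
            field_simp
        _ ≤ 324 * C4 * (3 * (u * (MM (X / B) B * X ^ (-c)) * (1 + |τ|) ^ kk)) := by
            gcongr
            linarith
        _ = 972 * C4 * u * (MM (X / B) B * X ^ (-c)) * (1 + |τ|) ^ kk := by ring
        _ ≤ _ := by
            gcongr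
            have : 0 < C7 * 2 ^ kk := by positivity
            linarith
  · have hcr := hcase.resolve_left hB1
    obtain ⟨m1, m2, m3, m4, m5, m6⟩ := hp.num3 hc h1 h1' h2 (not_le.1 hB1).le
    refine ⟨C7 * (u * B ^ (7 / 3 - δ2)) * (1 + |τ|) ^ kk * 2 ^ kk
      + C5 * X ^ c * (9 * b ^ 2 / A' / B ^ (1 + δ1)) ^ 2 * ((B ^ (1 + δ1)) ^ (1 / 3 : ℝ) * (3 * b)
        + B ^ (1 + δ1) + (B ^ (1 + δ1) * (3 * b)) ^ (2 / 3 : ℝ)) * (324 * b), by positivity,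
      fun t => ?_, ?_⟩
    · have a1 := d5 (tw (xl β B 1 τ i) b (1 / 2 + t * I)) (3 * b) (9 * b ^ 2 / A') 1
        (B ^ (1 / 10 : ℝ)) (B ^ (1 + δ1)) X n6 (by positivity) le_rfl m1 m2
      have a2 := d7 β B 1 τ (u * B ^ (7 / 3 - δ2)) i (1 / 2 + t * I) _ hB le_rfl hi (hre t) hβ.sup hcr
      have a3 : 1 + ‖(1 / 2 + t * I : ℂ)‖ ≤ 2 * (1 + |t|) := by
        have := norm_add_le (1 / 2 : ℂ) (t * I)
        simp only [norm_div, norm_one, Complex.norm_ofNat, Complex.norm_mul, norm_real,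
          Real.norm_eq_abs, norm_I, mul_one] at this
        linarith [abs_nonneg t]
      rw [one_pow, mul_one] at a1
      rw [add_mul]
      refine a1.trans (add_le_add (a2.trans ?_)
        ((mul_le_mul_of_nonneg_left (hy t) (by positivity)).trans
          (le_mul_of_one_le_right (by positivity) (ht t _))))
      calc _ ≤ C7 * (u * B ^ (7 / 3 - δ2)) * (1 * (1 + |τ|) * (2 * (1 + |t|))) ^ kk := by gcongr
        _ = C7 * (u * B ^ (7 / 3 - δ2)) * (1 + |τ|) ^ kk * 2 ^ kk * (1 + |t|) ^ kk := by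
            rw [one_mul, mul_pow, mul_pow]
            ring
        _ ≤ _ := by
            gcongr
            · linarith [abs_nonneg t]
            · omega
    · calc _ = C7 * 2 ^ kk * u * (A' / b * B ^ (7 / 3 - δ2)) * (1 + |τ|) ^ kk
            + 324 * C5 * (A' * X ^ c * (9 * b ^ 2 / A' / B ^ (1 + δ1)) ^ 2
              * ((B ^ (1 + δ1)) ^ (1 / 3 : ℝ) * (3 * b))
            + A' * X ^ c * (9 * b ^ 2 / A' / B ^ (1 + δ1)) ^ 2 * B ^ (1 + δ1)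
            + A' * X ^ c * (9 * b ^ 2 / A' / B ^ (1 + δ1)) ^ 2
              * (B ^ (1 + δ1) * (3 * b)) ^ (2 / 3 : ℝ)) := by
            generalize (9 * b ^ 2 / A' / B ^ (1 + δ1) : ℝ) = K
            field_simp
        _ ≤ C7 * 2 ^ kk * u * (MM (X / B) B * X ^ (-c)) * (1 + |τ|) ^ kk
            + 324 * C5 * (3 * (u * (MM (X / B) B * X ^ (-c)) * (1 + |τ|) ^ kk)) := by
            gcongr
            linarith
        _ = (972 * C5 + C7 * 2 ^ kk) * u * (MM (X / B) B * X ^ (-c)) * (1 + |τ|) ^ kk := by ring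
        _ ≤ _ := by
            gcongr
            linarith

theorem SmD_RN (hb : BA) (h3 : RN) {Λ c δc η : ℝ} (n : ℕ) (hn : 2 ≤ n) (hΛ : 1 ≤ Λ)
    (hc0 : 0 < c) (hc : 100 * c ≤ δc) (hη : 100 * c ≤ η) : ∃ C : ℝ, 0 < C ∧
    ∀ (x : Finset P → ℂ) (X B A' b w : ℝ), SmDP X B A' b (30 * Λ) c → 1 ≤ w → GB x b 3 w →
      (B ≤ X ^ (1 / 2 - δc) ∨ X ^ η ≤ w) →
      RestN (fun s => x s * tt s) A' b 1 n
        ≤ C * (MM (X / B) B * w ^ (-(1 / 2) : ℝ) + 3 * (MM (X / B) B * X ^ (-c))) := by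
  obtain ⟨C, hC, d⟩ := h3 c (30 * Λ) n hc0 (by linarith) hn
  refine ⟨C, hC, fun x X B A' b w hp hw hg hcase => ?_⟩
  obtain ⟨hX, -, hB, hA, hBi⟩ := hp.pos
  obtain ⟨n1, -, -, n4, n5, -, -, -, -, -, -, -, n13, n14⟩ := hp.num
  have a1 := d {0} (fun _ s => x s * tt s) (fun _ => A') (fun _ => b) (X / B) B 1 w X n4 n1 n5
    le_rfl hp.hX.le hw (fun _ _ => ⟨hp.a1, hp.a2, hp.i1, hp.i2,
      fun s hs => hg.sup s (left_ne_zero_of_mul hs), fun s hs => hg.rough s (left_ne_zero_of_mul hs)⟩)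
    fun s => by
      rw [Finset.sum_singleton, norm_mul, hb.norm_tt, mul_one]
      exact pow_le_one₀ (norm_nonneg _) (hg.bd s)
  simp only [Finset.sum_singleton, Real.one_rpow, one_mul] at a1
  have a2 : X ^ c * ((X / B) ^ (1 / 3 : ℝ) * B ^ 2 * w ^ (-(1 / 2) : ℝ))
      ≤ MM (X / B) B * X ^ (-c) := by
    rcases hcase with h | h
    · exact le_trans (mul_le_mul_of_nonneg_left (mul_le_of_le_one_right (by positivity)
        (Real.rpow_le_one_of_one_le_of_nonpos hw (by norm_num))) (by positivity)) (hp.num1 hc h).1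
    · exact hp.num2 hη h
  refine a1.trans (mul_le_mul_of_nonneg_left ?_ hC.le)
  rw [mul_add, mul_add]
  linarith

theorem SmD_q {q w : ℝ} (hq : 1 ≤ q) (hw : q ^ 3 ≤ w) :
    (q ^ 3) ^ (2 / 3 : ℝ) = q ^ 2 ∧ (q ^ 3) ^ (-(1 / 3) : ℝ) = 1 / q ∧
      w ^ (-(1 / 2) : ℝ) ≤ 1 / q ∧ 1 / w ≤ 1 / q ∧ q ^ 2 * (1 / w) ≤ 1 / q := by
  have h0 : 0 < q := by linarith
  have h1 : q ^ 2 ≤ w := (pow_le_pow_right₀ hq (by norm_num)).trans hw
  have h2 : 0 < w := lt_of_lt_of_le (by positivity) hw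
  refine ⟨?_, ?_, ?_, ?_, ?_⟩
  · rw [← Real.rpow_natCast, ← Real.rpow_mul h0.le, ← Real.rpow_natCast]
    norm_num
  · rw [← Real.rpow_natCast, ← Real.rpow_mul h0.le, one_div q, ← Real.rpow_neg_one]
    norm_num
  · refine (Real.rpow_le_rpow_of_nonpos (by positivity) h1 (by norm_num)).trans (le_of_eq ?_)
    rw [← Real.rpow_natCast, ← Real.rpow_mul h0.le, one_div q, ← Real.rpow_neg_one]
    norm_num
  · exact one_div_le_one_div_of_le h0 ((le_self_pow₀ hq (by norm_num)).trans hw)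
  · rw [mul_one_div, div_le_div_iff₀ h2 h0]
    linarith [pow_succ q 2]

theorem SmD_U {M M' W q w u t C y : ℝ} (n : ℕ) (hq : 1 ≤ q) (hw : q ^ 3 ≤ w) (hu : 1 ≤ u)
    (ht : 1 ≤ t) (hM : 0 < M) (hM' : 0 < M') (hW : 0 < W) (h9 : M' ≤ W ^ 3 * M) (hy0 : 0 ≤ y)
    (hy : y ≤ 1 / q) {U : ℝ} (hU : U = u ^ 2 * (M * (1 / q)) * t ^ (2 * (n + 1))) :
    0 ≤ U ∧ M * y ≤ U ∧ M * w ^ (-(1 / 2) : ℝ) ≤ U ∧ M' / w ≤ W ^ 3 * U ∧
      u * (M * y) * t ^ n ≤ U ∧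
      M' * ((q ^ 3) ^ (2 / 3 : ℝ) * ((C * (u / q ^ 2) * t) ^ 2 + 1 / w)
        + (q ^ 3) ^ (-(1 / 3) : ℝ)) ≤ W ^ 3 * (C ^ 2 + 2) * U := by
  obtain ⟨r1, r2, r3, r4, r5⟩ := SmD_q hq hw
  have q0 : 0 < q := by linarith
  have w0 : 0 < w := lt_of_lt_of_le (by positivity) hw
  have u2 : u ≤ u ^ 2 := le_self_pow₀ hu two_ne_zero
  have u1 : 1 ≤ u ^ 2 := hu.trans u2
  have hU1 : M * (1 / q) ≤ U := hU ▸
    (le_mul_of_one_le_left (by positivity) u1).trans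
      (le_mul_of_one_le_right (by positivity) (one_le_pow₀ ht))
  refine ⟨le_trans (by positivity) hU1, le_trans (by gcongr) hU1, le_trans (by gcongr) hU1,
    ?_, ?_, ?_⟩
  · calc _ = M' * (1 / w) := by ring
      _ ≤ W ^ 3 * M * (1 / q) := by gcongr
      _ ≤ _ := by
        rw [mul_assoc]
        gcongr
  · rw [hU]
    gcongr
    omega
  · have b1 : M * (q ^ 2 * (C * (u / q ^ 2) * t) ^ 2) ≤ C ^ 2 * U := by
      calc _ = C ^ 2 * (u ^ 2 * (M * (1 / q ^ 2)) * t ^ 2) := by field_simp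
        _ ≤ _ := by
          rw [hU]
          gcongr
          · exact le_self_pow₀ hq two_ne_zero
          · omega
    have b2 : M * (q ^ 2 * (1 / w)) ≤ U := le_trans (by gcongr) hU1
    rw [r1, r2]
    calc _ ≤ W ^ 3 * M * (q ^ 2 * ((C * (u / q ^ 2) * t) ^ 2 + 1 / w) + 1 / q) := by gcongr
      _ = W ^ 3 * (M * (q ^ 2 * (C * (u / q ^ 2) * t) ^ 2) + M * (q ^ 2 * (1 / w))
            + M * (1 / q)) := by ring
      _ ≤ W ^ 3 * (C ^ 2 * U + U + U) := by gcongr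
      _ = _ := by ring

theorem SmD_fin {C1 C2 C3 C4 D W U N1 N2 S T1 T2 T3 T4 T5 T6 T7 a b c d : ℝ} (h1 : 0 < C1)
    (h2 : 0 < C2) (h3 : 0 < C3) (h4 : 0 < C4) (hD : 0 < D) (hW : 0 < W) (hU : 0 ≤ U)
    (n1 : 0 ≤ N1) (n2 : 0 ≤ N2) (hS : S ≤ C1 * (T1 + T2 + T3 + T4 + T5 + T6 + T7))
    (t1 : T1 ≤ W ^ 2 * N1) (t2 : T2 ≤ C2 * (a + b)) (ha : a ≤ D * U) (hb : b ≤ C4 * U)
    (t3 : T3 ≤ C3 * (c + 3 * d)) (hc : c ≤ U) (hd : d ≤ U) (t4 : T4 ≤ W ^ 2 * N2)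
    (t5 : T5 ≤ W ^ 3 * U) (t6 : T6 ≤ d) (t7 : T7 ≤ d) :
    S ≤ C1 * (W ^ 2 + C2 * (D + C4) + 4 * C3 + W ^ 3 + 2) * (N1 + N2)
      + C1 * (W ^ 2 + C2 * (D + C4) + 4 * C3 + W ^ 3 + 2) * U := by
  have b2 : T2 ≤ C2 * (D * U + C4 * U) := t2.trans (by gcongr)
  have b3 : T3 ≤ C3 * (U + 3 * U) := t3.trans (by gcongr)
  have e1 : 0 ≤ (C2 * (D + C4) + 4 * C3 + W ^ 3 + 2) * (N1 + N2) := by positivity
  have e2 : 0 ≤ W ^ 2 * U := by positivity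
  rw [mul_assoc, mul_assoc, ← mul_add]
  refine hS.trans (mul_le_mul_of_nonneg_left ?_ h1.le)
  linarith

theorem smD (hb : BA) (hx : XlF) (h1 : DspB) (h2 : R0B) (h3 : RN) (h4 : BL2) (h5 : BL3) : SmD := by
  intro Λ δ1 δ2 η k kk hΛ hδ1 hδ1' hδ2 hη
  obtain ⟨δc, e0, e1, e2⟩ : ∃ δc : ℝ, 0 < δc ∧ 20 * δc ≤ δ1 ∧ 4 * δc ≤ δ2 :=
    ⟨min (δ1 / 20) (δ2 / 4), by positivity, by linarith [min_le_left (δ1 / 20) (δ2 / 4)],
      by linarith [min_le_right (δ1 / 20) (δ2 / 4)]⟩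
  obtain ⟨c, c0, c1, c2⟩ : ∃ c : ℝ, 0 < c ∧ 100 * c ≤ δc ∧ 100 * c ≤ η :=
    ⟨min (δc / 100) (η / 100), by positivity, by linarith [min_le_left (δc / 100) (η / 100)],
      by linarith [min_le_right (δc / 100) (η / 100)]⟩
  obtain ⟨C1, hC1, d1⟩ := h1 (1 / 100) (kk + 2 + 2) (by norm_num) (by omega)
  obtain ⟨C2, hC2, d2⟩ := h2 (kk + 2) (by omega)
  obtain ⟨C3, hC3, d3⟩ := SmD_RN hb h3 (kk + 2 + 2) (by omega) hΛ c0 c1 c2
  obtain ⟨C4, hC4, d4⟩ := SmD_V hx h4 h5 kk hΛ c0 c1 e1 hδ1' e2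
  obtain ⟨C5, hC5, d5⟩ := SmD_small hx hΛ
  obtain ⟨X0, d0⟩ := SmD_ev (Real.log (30 * Λ)) k c0
  have hW0 : 30 ≤ 30 * Λ := by linarith
  have hW1 : 0 < 30 * Λ := by linarith
  refine ⟨2 * k, 3 * k, 3 * k + 1, δc, C1 * ((30 * Λ) ^ 2
    + C2 * ((30 * Λ) ^ 3 * (C5 ^ 2 + 2) + C4) + 4 * C3 + (30 * Λ) ^ 3 + 2), X0, e0, by linarith,
    by positivity, fun β X B w u hX0 hB1 hB2 hw hu hβ hs hcase i hi τ A' hA1 hA2 => ?_⟩
  obtain ⟨x1, x2, x3, x4⟩ := d0 X hX0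
  have hX : 0 < X := by linarith
  have hB : 0 < B := lt_of_lt_of_le (by positivity) hB1
  obtain ⟨i1, i2⟩ := hx.bi Λ B 1 i hΛ hB le_rfl hi
  have hp : SmDP X B A' (Bi B 1 i) (30 * Λ) c :=
    ⟨x1, c0, by linarith, hW0, x3, hB1, hB2.trans (by gcongr; linarith), hA1,
      hA2.trans (by gcongr), le_trans (by gcongr; linarith) i1, i2.trans (by gcongr; linarith)⟩
  obtain ⟨-, -, -, hA, hBi⟩ := hp.pos
  obtain ⟨n1, n2, n3, -, -, -, -, n8, n9, n10, n11, n12, -⟩ := hp.num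
  have q2 : Real.log X ^ (2 * k) = (Real.log X ^ k) ^ 2 := by rw [← pow_mul, mul_comm]
  have q3 : Real.log X ^ (3 * k) = (Real.log X ^ k) ^ 3 := by rw [← pow_mul, mul_comm]
  have q1 : 1 ≤ Real.log X ^ k := one_le_pow₀ (by linarith)
  rw [q3] at hw
  rw [q2, pow_succ, q3] at hs
  generalize Real.log X ^ k = q at *
  have q0 : 0 < q := by linarith
  have w1 : 1 ≤ w := (one_le_pow₀ q1).trans hw
  have hg0 := hx.gb β B Λ w 1 τ i hβ hB le_rfl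
  have hg := SmD_gb hBi hg0
  rw [div_one] at hg0
  obtain ⟨V, v0, v1, v2⟩ := d4 β X B A' w u τ i hp hu hβ hi (hcase.imp_right And.right)
  have a5 := d5 β B τ _ (9 * q ^ 3) _ i hB hi (by positivity)
    (by rw [mul_comm]; gcongr) hβ.sup hs
  have a6 := hx.nrm2_le β B Λ 1 τ {i} (fun _ => 3 * Bi B 1 i) hB hβ.sup
  rw [Finset.sum_singleton] at a6
  have a7 := hx.nrm1_le β B Λ 1 τ i (3 * Bi B 1 i) hB hβ.sup
  have hc' : X ^ (-c) ≤ 1 / q := by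
    rw [Real.rpow_neg hX.le, one_div]
    exact inv_anti₀ q0 x4
  obtain ⟨u0, u1, u2, u3, u4, u5⟩ := SmD_U (C := C5) kk q1 hw hu
    (le_add_of_nonneg_right (abs_nonneg τ)) (by unfold MM; positivity) (by unfold MM; positivity)
    hW1 n9 (by positivity) hc' rfl
  have hN2 := SmD_nrm0 β (Λ * B)
  have hN1 := SmD_nrm1 (xl β B 1 τ i) (3 * Bi B 1 i)
  refine (SmD_fin hC1 hC2 hC3 hC4 (by positivity) hW1 u0 (N1 := X / B * nrm2 β (Λ * B))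
    (N2 := (X / B) ^ (5 / 6 : ℝ) * B ^ (-(2 / 3) : ℝ) * nrm1 β (Λ * B) ^ 2) (by positivity)
    (by positivity) (d1 _ A' _ w n3 n2 w1 hg0) ?_
    (d2 _ A' _ w (q ^ 3) _ _ V hA n2 w1 (one_le_pow₀ q1) n8 v0 hg a5 v1) u5 (v2.trans ?_)
    (d3 _ X B A' _ w hp w1 hg (hcase.imp_right And.left)) u2 u1 ?_ u3 n11 n12).trans (le_of_eq ?_)
  · rw [← mul_assoc]
    exact mul_le_mul (hp.a2.trans (mul_le_mul_of_nonneg_right
      (le_self_pow₀ (by linarith) two_ne_zero) (by positivity))) a6 (SmD_nrm0 _ _) (by positivity)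
  · rw [mul_assoc C4, mul_assoc C4]
    exact mul_le_mul_of_nonneg_left u4 hC4.le
  · rw [← mul_assoc ((30 * Λ) ^ 2)]
    exact mul_le_mul n10 (pow_le_pow_left₀ hN1 a7 2) (by positivity) (by positivity)
  · generalize C1 * _ = C
    ring

theorem SmD_sq {y : ℝ} (a : ℝ) (hy : 0 < y) : (y ^ a) ^ 2 = y ^ (2 * a) := by
  rw [← Real.rpow_natCast, ← Real.rpow_mul hy.le, mul_comm]
  norm_num

theorem SmD_b1 {C A B n1 n2 : ℝ} (hC : 0 < C) (hA : 0 < A) (hB : 0 < B) (h1 : 0 ≤ n1)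
    (h2 : 0 ≤ n2) : √(C * (A * n2 + A ^ (5 / 6 : ℝ) * B ^ (-(2 / 3) : ℝ) * n1 ^ 2))
      ≤ √C * (√(A * n2) + A ^ (5 / 12 : ℝ) * B ^ (-(1 / 3) : ℝ) * n1) := by
  rw [Real.sqrt_mul hC.le]
  refine mul_le_mul_of_nonneg_left (Real.sqrt_le_iff.2 ⟨by positivity, ?_⟩) (by positivity)
  rw [add_sq, Real.sq_sqrt (by positivity), mul_pow, mul_pow, SmD_sq _ hB, SmD_sq _ hA]
  have : 0 ≤ 2 * √(A * n2) * (A ^ (5 / 12 : ℝ) * B ^ (-(1 / 3) : ℝ) * n1) := by positivity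
  norm_num at this ⊢
  linarith

theorem SmD_b2 {C A B u L T : ℝ} (k k0 n : ℕ) (hC : 0 < C) (hA : 0 < A) (hB : 0 < B) (hu : 0 < u)
    (hL : 0 < L) (hT : 0 ≤ T) (hT1 : T ≤ L ^ k0) :
    √(C * u ^ 2 * MM A B / L ^ (2 * (k + k0 * n))) * T ^ n
      ≤ √C * u * (A ^ (1 / 3 : ℝ) * B ^ (5 / 6 : ℝ) / L ^ k) := by
  have c1 : √(C * u ^ 2 * MM A B / L ^ (2 * (k + k0 * n)))
      = √C * u * (A ^ (1 / 3 : ℝ) * B ^ (5 / 6 : ℝ)) / L ^ (k + k0 * n) := by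
    rw [Real.sqrt_eq_iff_mul_self_eq (by unfold MM; positivity) (by positivity), ← pow_two,
      div_pow, mul_pow, mul_pow, mul_pow, Real.sq_sqrt hC.le, SmD_sq _ hB, SmD_sq _ hA, ← pow_mul,
      mul_comm _ 2, MM]
    norm_num
  have c2 : T ^ n ≤ L ^ (k0 * n) := by
    rw [pow_mul]
    gcongr
  rw [c1]
  refine (mul_le_mul_of_nonneg_left c2 (by positivity)).trans (le_of_eq ?_)
  rw [pow_add]
  field_simp

theorem SmD_b3 {S C1 s u a b c d e g m0 m1 L w : ℝ} (k : ℕ) (h1 : 0 < C1) (hs : 0 ≤ s) (hu : 1 ≤ u)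
    (ha : 0 ≤ a) (hb : 0 ≤ b) (hc : 0 ≤ c) (hg : 0 ≤ g) (hL : 1 ≤ L) (hw : L ^ (k + 1) ≤ w)
    (hd : 0 ≤ d) (h : S ≤ C1 * (a * (m0 + m1) + g * (1 + L) / w)) (h0 : m0 ≤ s * (b + c))
    (h2 : m1 ≤ s * u * d) (he : e = g / L ^ k) :
    S ≤ C1 * (s + 2) * u * (a * (b + c + d) + e) := by
  have b3 : (1 + L) / w ≤ 2 / L ^ k := by
    rw [div_le_div_iff₀ (lt_of_lt_of_le (by positivity) hw) (by positivity)]
    rw [pow_succ] at hw
    have : 0 < L ^ k := by positivity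
    nlinarith
  have s1 : s ≤ (s + 2) * u := by nlinarith
  have s2 : 2 ≤ (s + 2) * u := by nlinarith
  have s3 : s * u ≤ (s + 2) * u := by nlinarith
  refine h.trans ?_
  rw [mul_assoc C1, mul_assoc C1, mul_div_assoc g]
  refine mul_le_mul_of_nonneg_left ?_ h1.le
  calc _ ≤ a * ((s + 2) * u * (b + c) + (s + 2) * u * d) + g * ((s + 2) * u / L ^ k) := by
        gcongr ?_ * ?_ + ?_ * ?_
        · exact add_le_add (h0.trans (by gcongr)) (h2.trans (by gcongr))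
        · exact b3.trans (by gcongr)
    _ = _ := by
        rw [he]
        ring

theorem smB (hb : BA) (h1 : E1c) (h2 : SmD) : SmB := by
  intro φ Λ δ1 δ2 η k0 k kk hφ hΛ hδ1 hδ1' hδ2 hη
  obtain ⟨C1, hC1, d1⟩ := h1 φ Λ (kk + 1) hφ hΛ
  obtain ⟨k1, k2, k3, δc, C2, X1, e0, e1, hC2, d2⟩ :=
    h2 Λ δ1 δ2 η (2 * (k + k0 * (kk + 1))) kk hΛ hδ1 hδ1' hδ2 hη
  obtain ⟨X2, d0⟩ := SmD_ev 0 0 one_pos
  refine ⟨k1, max k2 (k + 1), k3, δc, C1 * (√C2 + 2), max (max X1 X2) (Λ ^ 2), e0, e1,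
    by positivity, fun α β X B T w u hX0 hT hT1 hB1 hB2 hw hu hβ hs hcase => ?_⟩
  obtain ⟨x1, x2, -⟩ := d0 X ((le_max_right _ _).trans ((le_max_left _ _).trans hX0))
  have hX : 0 < X := by linarith
  have hL : 1 ≤ Real.log X := by linarith
  have hB3 : 1 ≤ B := (Real.one_le_rpow x1.le (by norm_num)).trans hB1
  have hB : 0 < B := by linarith
  have hB4 : B ≤ X := by
    have := Real.le_sqrt_of_sq_le ((le_max_right _ _).trans hX0)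
    calc B ≤ √X * √X := hB2.trans (by gcongr)
      _ = X := Real.mul_self_sqrt hX.le
  have w1 : Real.log X ^ k2 ≤ w := (pow_le_pow_right₀ hL (le_max_left _ _)).trans hw
  have w2 : Real.log X ^ (k + 1) ≤ w := (pow_le_pow_right₀ hL (le_max_right _ _)).trans hw
  have hN2 := SmD_nrm0 β (Λ * B)
  have hN1 := SmD_nrm1 β (Λ * B)
  have hA1 := SmD_nrm1 α (3 * X / B)
  have hM : 0 < MM (X / B) B := by unfold MM; positivity
  exact SmD_b3 k hC1 (Real.sqrt_nonneg _) hu (Real.sqrt_nonneg _) (Real.sqrt_nonneg _)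
    (by positivity) (by positivity) hL w2 (by positivity)
    (d1 α β X B T w _ _ hB3 hB4 hT ((one_le_pow₀ hL).trans w1) (by positivity) (by positivity) hβ
      (d2 β X B w u ((le_max_left _ _).trans ((le_max_left _ _).trans hX0)) hB1 hB2 w1 hu hβ hs
        hcase))
    (SmD_b1 hC2 (by positivity) hB hN1 hN2)
    (SmD_b2 k k0 (kk + 1) hC2 (by positivity) hB (by linarith) (by linarith) (by linarith) hT1) rfl

end Pat
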