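import Vale.Agent.P006.IfC
import Vale.Agent.P026.Dvs

/-! The type I sum for the main term. -/

noncomputable section
namespace Pat
open QRH Complex MeasureTheory Filter
open scoped ComplexConjugate Classical ContDiff Topology

def TI0_G (φ : ℝ → ℂ) (T X y : ℝ) : ℂ := ((kap * y ^ (-(1 / 6) : ℝ) : ℝ) : ℂ) * lw φ T X y

def TI0_I (φ : ℝ → ℂ) (T X : ℝ) (d r : Finset P) : ℂ :=
  ∑ n ∈ pball (3 * X), if pr r ∣ pr d ^ 2 * n then TI0_G φ T X (nm (pr d ^ 2 * n)) else 0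

theorem TI0_kap : 0 < kap := by
  have := Real.Gamma_pos_of_pos (s := 2 / 3) (by norm_num)
  have := Real.pi_pos
  unfold kap; positivity

theorem TI0_rho : 0 < rho := by
  have := Real.pi_pos
  unfold rho; positivity

theorem TI0_exp {v T : ℝ} (hT : 1 ≤ T) (h0 : 0 ≤ T * v) (h : T * v ≤ 1) : Real.exp v ≤ 3 := by
  have h1 : v ≤ 1 := by
    by_contra hc
    nlinarith
  linarith [Real.exp_le_exp.2 h1, Real.exp_one_lt_d9]

theorem TI0_G_zero {φ : ℝ → ℂ} (hφ : Bump φ) {T X y : ℝ} (hT : 1 ≤ T) (hX : 0 < X)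
    (hy : 3 * X < y) : TI0_G φ T X y = 0 := by
  unfold TI0_G lw
  by_contra h
  obtain ⟨h1, h2⟩ := hφ.supp _ (right_ne_zero_of_mul h)
  have h3 := TI0_exp hT h1 h2
  rw [Real.exp_log (div_pos (by linarith) hX), div_le_iff₀ hX] at h3
  linarith

theorem TI0_expand (hb : BA) {φ : ℝ → ℂ} (hφ : Bump φ) {T X Y : ℝ} (hT : 1 ≤ T) (hX : 0 < X)
    (hY : 0 < Y) : TI t0 X T φ Y = ∑ d ∈ sqf (3 * X), ∑ r ∈ sqf (3 * Y),
      mu d * mu r * (Vs (Real.log (Ns r / Y)) : ℝ) * TI0_I φ T X d r := by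
  have h1 : ∀ c : Finset P, nu Y c = ∑ r ∈ sqf (3 * Y),
      if r ⊆ c then mu r * (Vs (Real.log (Ns r / Y)) : ℝ) else 0 := by
    intro c
    unfold nu
    rw [← Finset.sum_filter]
    symm
    refine Finset.sum_subset (fun r hr => Finset.mem_powerset.2 (Finset.mem_filter.1 hr).2)
      fun r hr hr' => ?_
    have h2 : 3 * Y < Ns r := by
      by_contra hc
      exact hr' (Finset.mem_filter.2 ⟨mem_sqf.2 (not_lt.1 hc), Finset.mem_powerset.1 hr⟩)
    rw [hb.Vs_zero, Complex.ofReal_zero, mul_zero]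
    rw [Real.le_log_iff_exp_le (div_pos (Ns_pos r) hY), le_div_iff₀ hY]
    nlinarith [Real.exp_one_lt_d9]
  unfold TI
  simp only [h1, Finset.sum_mul]
  rw [Finset.sum_comm, Finset.sum_comm (s := sqf (3 * X))]
  refine Finset.sum_congr rfl fun r _ => ?_
  have h2 := hb.sqf_sum (3 * X) (fun n => if pr r ∣ n then TI0_G φ T X (nm n) else 0)
    fun c hc => by rw [TI0_G_zero hφ hT hX hc, ite_self]
  calc _ = mu r * (Vs (Real.log (Ns r / Y)) : ℝ) * ∑ s ∈ sqf (3 * X),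
        if pr r ∣ pr s then TI0_G φ T X (nm (pr s)) else 0 := by
        rw [Finset.mul_sum]
        refine Finset.sum_congr rfl fun s _ => ?_
        simp only [pr_dvd_pr]
        split_ifs
        · unfold TI0_G t0 Ns; ring
        · simp
    _ = _ := by
        rw [h2, Finset.mul_sum]
        refine Finset.sum_congr rfl fun d _ => ?_
        unfold TI0_I
        rw [← Finset.mul_sum]
        ring

theorem TI0_I_zero (hb : BA) {φ : ℝ → ℂ} (hφ : Bump φ) {T X : ℝ} (hT : 1 ≤ T) (hX : 0 < X)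
    {d : Finset P} (hd : √(3 * X) < Ns d) (r : Finset P) : TI0_I φ T X d r = 0 := by
  refine Finset.sum_eq_zero fun n hn => ?_
  rw [TI0_G_zero hφ hT hX, ite_self]
  have h1 := one_le_nmR (primary_ne_zero ((hb.mem_pball _ _).1 hn).1)
  have h2 : 3 * X < Ns d ^ 2 := by rwa [Real.sqrt_lt' (Ns_pos d)] at hd
  rw [nm_mul, nm_pow]
  push_cast
  unfold Ns at h2
  nlinarith

theorem TI0_pv (hb : BA) (h : PVu0) {φ : ℝ → ℂ} (hφ : Bump φ) : ∃ (n : ℕ) (C : ℝ), 0 < C ∧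
    ∀ (T X : ℝ) (d r : Finset P), 1 ≤ T → 0 < X →
      ‖TI0_I φ T X d r - ((rho * kap * X ^ (5 / 6 : ℝ) : ℝ) : ℂ) * mo φ T (5 / 6) *
        ((Ns (d ∩ r) / (Ns r * Ns d ^ 2) : ℝ) : ℂ)‖ ≤ C * T ^ n * X ^ (-(1 / 6) : ℝ) := by
  obtain ⟨n, C, hC, h⟩ := h
  obtain ⟨D, hD, hBD⟩ := hb.bump_bd φ hφ n
  obtain ⟨C', hC', hder⟩ := hb.der n
  have hk := TI0_kap
  refine ⟨n, kap * (C * (C' * D * (1 + ‖(-(1 / 6) : ℂ)‖) ^ n)), by positivity,
    fun T X d r hT hX => ?_⟩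
  have g1 := hder φ D T (-(1 / 6)) hBD hT (by norm_num [abs_le])
  have hm := Ns_pos (r \ d)
  have hd := Ns_pos d
  set L := X / (Ns d ^ 2 * Ns (r \ d)) with hL
  have hL0 : 0 < L := by positivity
  have g2 := h _ _ L (3 * X / nm (pr (r \ d))) ∅ g1 hL0 fun v hv => by
    obtain ⟨h1, h2⟩ := hφ.supp _ (left_ne_zero_of_mul hv)
    have h3 := TI0_exp hT h1 h2
    have h4 : L ≤ X / Ns (r \ d) := by
      rw [hL]
      gcongr
      exact le_mul_of_one_le_left hm.le (one_le_pow₀ (one_le_Ns d))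
    calc L * Real.exp v ≤ X / Ns (r \ d) * 3 := by gcongr
      _ = _ := by unfold Ns; ring
  simp only [Finset.disjoint_empty_right, if_true, Finset.prod_empty, mul_one, Finset.card_empty,
    pow_zero] at g2
  have e1 : TI0_I φ T X d r = ((kap * X ^ (-(1 / 6) : ℝ) : ℝ) : ℂ) *
      ∑ c ∈ pball (3 * X / nm (pr (r \ d))), φ (T * Real.log (nm c / L)) *
        Complex.exp (-(1 / 6) * (Real.log (nm c / L) : ℝ)) := by
    have e2 : TI0_I φ T X d r = ∑ n ∈ pball (3 * X),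
        if pr (r \ d) ∣ n then TI0_G φ T X (nm (pr d ^ 2 * n)) else 0 := by
      refine Finset.sum_congr rfl fun n _ => ?_
      refine if_congr ?_ rfl rfl
      simp only [pr_dvd_iff, Finset.mem_sdiff]
      constructor
      · intro h1 p hp
        rcases p.2.1.dvd_or_dvd (h1 p hp.1) with h2 | h2
        · exact absurd (dvd_pr_iff.1 (p.2.1.dvd_of_dvd_pow h2)) hp.2
        · exact h2
      · intro h1 p hp
        by_cases h2 : p ∈ d
        · exact Dvd.dvd.mul_right (dvd_pow (dvd_pr_iff.2 h2) two_ne_zero) _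
        · exact Dvd.dvd.mul_left (h1 p ⟨hp, h2⟩) _
    rw [e2, hb.sum_dvd _ _ (fun n => TI0_G φ T X (nm (pr d ^ 2 * n))) (pr_primary _),
      Finset.mul_sum]
    refine Finset.sum_congr rfl fun c hc => ?_
    have h1 := one_le_nmR (primary_ne_zero ((hb.mem_pball _ _).1 hc).1)
    have h2 : (nm (pr d ^ 2 * (pr (r \ d) * c)) : ℝ) = X * (nm c / L) := by
      rw [nm_mul, nm_mul, nm_pow, hL]
      push_cast
      unfold Ns at hd hm ⊢
      field_simp
    have h3 : 0 < (nm c : ℝ) / L := by positivity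
    unfold TI0_G lw
    rw [h2, mul_div_cancel_left₀ _ hX.ne', Real.mul_rpow hX.le h3.le, Real.rpow_def_of_pos h3]
    push_cast
    ring_nf
  have e3 : ∫ v : ℝ, φ (T * v) * Complex.exp (-(1 / 6) * v) * (Real.exp v : ℝ) =
      mo φ T (5 / 6) := by
    unfold mo
    refine integral_congr_ae (Eventually.of_forall fun v => ?_)
    push_cast
    rw [mul_assoc, ← Complex.exp_add]
    ring_nf
  have e4 : ((rho * kap * X ^ (5 / 6 : ℝ) : ℝ) : ℂ) * mo φ T (5 / 6) *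
      ((Ns (d ∩ r) / (Ns r * Ns d ^ 2) : ℝ) : ℂ) =
      ((kap * X ^ (-(1 / 6) : ℝ) : ℝ) : ℂ) * (((rho * L : ℝ) : ℂ) * mo φ T (5 / 6)) := by
    have h1 : Ns r = Ns (r \ d) * Ns (d ∩ r) := by
      rw [← Ns_union (Finset.disjoint_of_subset_right Finset.inter_subset_left
        Finset.sdiff_disjoint), Finset.inter_comm, Finset.sdiff_union_inter]
    have h2 : X ^ (5 / 6 : ℝ) = X ^ (-(1 / 6) : ℝ) * X := by
      rw [← Real.rpow_add_one hX.ne']; norm_num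
    have h3 : rho * kap * X ^ (5 / 6 : ℝ) * (Ns (d ∩ r) / (Ns r * Ns d ^ 2)) =
        kap * X ^ (-(1 / 6) : ℝ) * (rho * L) := by
      have := Ns_pos (d ∩ r)
      rw [h1, h2, hL]
      field_simp
    rw [mul_right_comm, ← Complex.ofReal_mul, h3]
    push_cast
    ring
  rw [e3] at g2
  rw [e1, e4, ← mul_sub, norm_mul, Complex.norm_real, Real.norm_of_nonneg (by positivity)]
  calc _ ≤ kap * X ^ (-(1 / 6) : ℝ) * (C * (C' * D * T ^ n * (1 + ‖(-(1 / 6) : ℂ)‖) ^ n)) := by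
        gcongr
    _ = _ := by ring

theorem TI0_diff (hb : BA) {D D' Y E0 : ℝ} (hD : D ≤ D') (hD' : 0 ≤ D') (hY : 0 ≤ Y)
    (I : Finset P → Finset P → ℂ) (K : ℂ)
    (h : ∀ d r, ‖I d r - K * ((Ns (d ∩ r) / (Ns r * Ns d ^ 2) : ℝ) : ℂ)‖ ≤ E0) :
    ‖∑ d ∈ sqf D', ∑ r ∈ sqf (3 * Y), mu d * mu r * (Vs (Real.log (Ns r / Y)) : ℝ) * I d r -
      K * MS Y D‖ ≤ 12 * D' * (12 * (3 * Y) * E0) +
      ‖K‖ * ∑ d ∈ sqf D' \ sqf D, ∑ r ∈ sqf (3 * Y), Ns (d ∩ r) / (Ns r * Ns d ^ 2) := by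
  have hE : 0 ≤ E0 := (norm_nonneg _).trans (h ∅ ∅)
  have hsub : sqf D ⊆ sqf D' := fun d hd => mem_sqf.2 ((mem_sqf.1 hd).trans hD)
  set m : Finset P → Finset P → ℂ := fun d r => mu d * mu r * (Vs (Real.log (Ns r / Y)) : ℝ)
    with hm
  set q : Finset P → Finset P → ℝ := fun d r => Ns (d ∩ r) / (Ns r * Ns d ^ 2) with hq
  have hm1 : ∀ d r, ‖m d r‖ ≤ 1 := by
    intro d r
    simp only [hm]
    rw [norm_mul, norm_mul, norm_mu, norm_mu, Complex.norm_real,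
      Real.norm_of_nonneg (hb.Vs_mem _).1]
    simpa using (hb.Vs_mem _).2
  have hq0 : ∀ d r, 0 ≤ q d r := fun d r => by
    have := Ns_pos (d ∩ r); have := Ns_pos r; have := Ns_pos d
    simp only [hq]; positivity
  have e1 : K * MS Y D = ∑ d ∈ sqf D, ∑ r ∈ sqf (3 * Y), m d r * (K * q d r) := by
    unfold MS
    rw [Finset.mul_sum]
    refine Finset.sum_congr rfl fun d _ => ?_
    rw [Finset.mul_sum]
    refine Finset.sum_congr rfl fun r _ => ?_
    simp only [hm, hq]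
    push_cast
    ring
  have e2 : ∑ d ∈ sqf D', ∑ r ∈ sqf (3 * Y), m d r * I d r - K * MS Y D =
      ∑ d ∈ sqf D', ∑ r ∈ sqf (3 * Y), m d r * (I d r - K * q d r) +
      ∑ d ∈ sqf D' \ sqf D, ∑ r ∈ sqf (3 * Y), m d r * (K * q d r) := by
    rw [e1, Finset.sum_sdiff_eq_sub hsub]
    simp only [mul_sub, Finset.sum_sub_distrib]
    ring
  rw [e2]
  refine (norm_add_le _ _).trans (add_le_add ?_ ?_)
  · calc _ ≤ (sqf D').card • ((sqf (3 * Y)).card • E0) := by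
          refine (norm_sum_le _ _).trans (Finset.sum_le_card_nsmul _ _ _ fun d _ => ?_)
          refine (norm_sum_le _ _).trans (Finset.sum_le_card_nsmul _ _ _ fun r _ => ?_)
          rw [norm_mul]
          calc _ ≤ 1 * E0 := mul_le_mul (hm1 d r) (h d r) (norm_nonneg _) zero_le_one
            _ = E0 := one_mul _
      _ ≤ _ := by
          rw [nsmul_eq_mul, nsmul_eq_mul]
          gcongr
          · exact card_sqf_le hD'
          · exact card_sqf_le (by positivity)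
  · rw [Finset.mul_sum]
    refine (norm_sum_le _ _).trans (Finset.sum_le_sum fun d _ => ?_)
    rw [Finset.mul_sum]
    refine (norm_sum_le _ _).trans (Finset.sum_le_sum fun r _ => ?_)
    rw [norm_mul, norm_mul K, Complex.norm_real, Real.norm_of_nonneg (hq0 d r)]
    exact mul_le_of_le_one_left (mul_nonneg (norm_nonneg _) (hq0 d r)) (hm1 d r)

theorem TI0_tail : ∃ C : ℝ, 0 < C ∧ ∀ D D' R Z : ℝ, 0 < D → 1 ≤ Z → D' ≤ Z → R ≤ Z →
    ∑ d ∈ sqf D' \ sqf D, ∑ r ∈ sqf R, Ns (d ∩ r) / (Ns r * Ns d ^ 2) ≤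
      C * Z ^ (1 / 20 : ℝ) * D⁻¹ := by
  obtain ⟨C1, hC1, h1⟩ := gcd_sum_sqf (ε := 1 / 20) (by norm_num)
  obtain ⟨C2, hC2, h2⟩ := tail_nm_rpow (σ := 2) (by norm_num)
  refine ⟨C1 * C2, by positivity, fun D D' R Z hD hZ hD' hR => ?_⟩
  have g1 : ∀ d ∈ sqf D' \ sqf D, ∑ r ∈ sqf R, Ns (d ∩ r) / (Ns r * Ns d ^ 2) ≤
      C1 * Z ^ (1 / 20 : ℝ) * (nm (pr d) : ℝ) ^ (-2 : ℝ) := by
    intro d hd
    have e1 := h1 d Z hZ ((mem_sqf.1 (Finset.mem_sdiff.1 hd).1).trans hD')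
    have e2 : ∑ r ∈ sqf R, Ns (r ∩ d) / Ns r ≤ ∑ r ∈ sqf Z, Ns (r ∩ d) / Ns r :=
      Finset.sum_le_sum_of_subset_of_nonneg (fun r hr => mem_sqf.2 ((mem_sqf.1 hr).trans hR))
        fun r _ _ => div_nonneg (Ns_pos _).le (Ns_pos _).le
    have e3 : (nm (pr d) : ℝ) ^ (-2 : ℝ) = (Ns d ^ 2)⁻¹ := by
      rw [Real.rpow_neg (by positivity), Real.rpow_two]; rfl
    have := Ns_pos d
    calc _ = (∑ r ∈ sqf R, Ns (r ∩ d) / Ns r) * (Ns d ^ 2)⁻¹ := by
          rw [Finset.sum_mul]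
          refine Finset.sum_congr rfl fun r _ => ?_
          rw [Finset.inter_comm, ← div_div, div_eq_mul_inv]
      _ ≤ _ := by
          rw [e3]
          gcongr
          exact e2.trans e1
  have g2 := h2 D hD ((sqf D' \ sqf D).image pr) fun x hx => by
    obtain ⟨d, hd, rfl⟩ := Finset.mem_image.1 hx
    exact (not_le.1 fun h => (Finset.mem_sdiff.1 hd).2 (mem_sqf.2 h)).le
  rw [Finset.sum_image pr_inj.injOn, show (1 : ℝ) - 2 = -1 by norm_num, Real.rpow_neg_one] at g2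
  calc _ ≤ _ := Finset.sum_le_sum g1
    _ ≤ C1 * Z ^ (1 / 20 : ℝ) * (C2 * D⁻¹) := by
        rw [← Finset.mul_sum]
        gcongr
    _ = _ := by ring

theorem tI0 (hb : BA) (h : PVu0) : TI0 := by
  intro φ k0 hφ
  obtain ⟨n, C1, hC1, h1⟩ := TI0_pv hb h hφ
  obtain ⟨C2, hC2, h2⟩ := TI0_tail
  obtain ⟨C3, hC3, h3⟩ := hb.mo_le φ hφ
  have hk := TI0_kap
  have hr := TI0_rho
  have ha : (0 : ℝ) < 1 / (60 * (n + 1)) := by positivity
  obtain ⟨X0, hX0⟩ := eventually_atTop.1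
    ((isLittleO_log_rpow_rpow_atTop (k0 : ℝ) ha).bound one_pos)
  refine ⟨1 / 20, 12 * 2 * (12 * 3 * C1) + rho * kap * C3 * (C2 * 3), max X0 1, by norm_num,
    by positivity, fun X T hX hT hT' => ?_⟩
  have hX1 : 1 ≤ X := (le_max_right _ _).trans hX
  have hX' : 0 < X := by linarith
  have hT0 : 0 < T := by linarith
  have t1 : T ≤ X ^ (1 / (60 * (n + 1)) : ℝ) := by
    have := hX0 X ((le_max_left _ _).trans hX)
    rw [one_mul, Real.norm_of_nonneg (by positivity : 0 ≤ X ^ (1 / (60 * (n + 1)) : ℝ)),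
      Real.rpow_natCast] at this
    exact hT'.trans ((le_abs_self _).trans this)
  have hn : (0 : ℝ) ≤ n := by positivity
  have t2 : T ≤ X ^ (1 / 60 : ℝ) := by
    refine t1.trans (Real.rpow_le_rpow_of_exponent_le hX1 ?_)
    gcongr
    linarith
  have t3 : T ^ n ≤ X ^ (1 / 60 : ℝ) := by
    refine (pow_le_pow_left₀ hT0.le t1 n).trans ?_
    rw [← Real.rpow_natCast, ← Real.rpow_mul hX'.le]
    refine Real.rpow_le_rpow_of_exponent_le hX1 ?_
    rw [div_mul_eq_mul_div, div_le_div_iff₀ (by positivity) (by norm_num)]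
    linarith
  have y0 : 0 < Y1 X T := by unfold Y1; positivity
  have y1 : Y1 X T ≤ X ^ (43 / 100 : ℝ) :=
    mul_le_of_le_one_right (by positivity) (Real.rpow_le_one_of_one_le_of_nonpos hT (by norm_num))
  have y2 : Y1 X T ≤ X := by
    refine y1.trans ?_
    calc X ^ (43 / 100 : ℝ) ≤ X ^ (1 : ℝ) := Real.rpow_le_rpow_of_exponent_le hX1 (by norm_num)
      _ = X := Real.rpow_one X
  have s1 : √(3 * X) ≤ 2 * X ^ (1 / 2 : ℝ) := by
    rw [← Real.sqrt_eq_rpow, Real.sqrt_le_left (by positivity), mul_pow, Real.sq_sqrt hX'.le]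
    linarith
  have s2 : √(3 * X) ≤ 3 * X := by
    rw [Real.sqrt_le_left (by positivity)]
    nlinarith
  have d1 : X ^ (1 / 10 : ℝ) ≤ Dd X T := by
    have e1 : X ^ (3 / 20 : ℝ) ≤ X ^ (1 / 6 + 1 / 250 : ℝ) / T := by
      rw [le_div_iff₀ hT0]
      calc X ^ (3 / 20 : ℝ) * T ≤ X ^ (3 / 20 : ℝ) * X ^ (1 / 60 : ℝ) := by gcongr
        _ ≤ _ := by
          rw [← Real.rpow_add hX']
          exact Real.rpow_le_rpow_of_exponent_le hX1 (by norm_num)
    calc X ^ (1 / 10 : ℝ) = (X ^ (3 / 20 : ℝ)) ^ (2 / 3 : ℝ) := by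
          rw [← Real.rpow_mul hX'.le]; norm_num
      _ ≤ _ := by unfold Dd; gcongr
  have d2 : Dd X T ≤ √(3 * X) := by
    calc Dd X T ≤ (X ^ (1 / 6 + 1 / 250 : ℝ)) ^ (2 / 3 : ℝ) := by
          unfold Dd
          gcongr
          exact div_le_self (by positivity) hT
      _ ≤ X ^ (1 / 2 : ℝ) := by
          rw [← Real.rpow_mul hX'.le]
          exact Real.rpow_le_rpow_of_exponent_le hX1 (by norm_num)
      _ ≤ _ := by
          rw [← Real.sqrt_eq_rpow]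
          exact Real.sqrt_le_sqrt (by linarith)
  have d0 : 0 < X ^ (1 / 10 : ℝ) := by positivity
  have d3 : 0 < Dd X T := d0.trans_le d1
  have e1 : TI t0 X T φ (Y1 X T) = ∑ d ∈ sqf (√(3 * X)), ∑ r ∈ sqf (3 * Y1 X T),
      mu d * mu r * (Vs (Real.log (Ns r / Y1 X T)) : ℝ) * TI0_I φ T X d r := by
    rw [TI0_expand hb hφ hT hX' y0]
    symm
    refine Finset.sum_subset (fun d hd => mem_sqf.2 ((mem_sqf.1 hd).trans s2)) fun d _ hd => ?_
    refine Finset.sum_eq_zero fun r _ => ?_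
    rw [TI0_I_zero hb hφ hT hX' (not_le.1 fun h => hd (mem_sqf.2 h)), mul_zero]
  rw [e1]
  refine (TI0_diff hb d2 (Real.sqrt_nonneg _) y0.le _ _ fun d r => h1 T X d r hT hX').trans ?_
  have g1 := h2 (Dd X T) (√(3 * X)) (3 * Y1 X T) (3 * X) (by linarith) (by linarith) s2
    (by linarith)
  have g2 : ‖((rho * kap * X ^ (5 / 6 : ℝ) : ℝ) : ℂ) * mo φ T (5 / 6)‖ ≤
      rho * kap * X ^ (5 / 6 : ℝ) * C3 := by
    rw [norm_mul, Complex.norm_real, Real.norm_of_nonneg (by positivity)]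
    gcongr
    exact (h3 T (5 / 6) hT (by norm_num [abs_le])).trans (div_le_self hC3.le hT)
  have g3 : (3 * X) ^ (1 / 20 : ℝ) ≤ 3 * X ^ (1 / 20 : ℝ) := by
    rw [Real.mul_rpow (by norm_num) hX'.le]
    gcongr
    calc (3 : ℝ) ^ (1 / 20 : ℝ) ≤ 3 ^ (1 : ℝ) :=
          Real.rpow_le_rpow_of_exponent_le (by norm_num) (by norm_num)
      _ = 3 := Real.rpow_one 3
  have g4 : X ^ (1 / 2 : ℝ) * X ^ (43 / 100 : ℝ) * X ^ (1 / 60 : ℝ) * X ^ (-(1 / 6) : ℝ) ≤
      X ^ (5 / 6 - 1 / 20 : ℝ) := by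
    rw [← Real.rpow_add hX', ← Real.rpow_add hX', ← Real.rpow_add hX']
    exact Real.rpow_le_rpow_of_exponent_le hX1 (by norm_num)
  have g5 : X ^ (5 / 6 : ℝ) * X ^ (1 / 20 : ℝ) * (X ^ (1 / 10 : ℝ))⁻¹ =
      X ^ (5 / 6 - 1 / 20 : ℝ) := by
    rw [← Real.rpow_neg hX'.le, ← Real.rpow_add hX', ← Real.rpow_add hX']
    norm_num
  rw [add_mul]
  refine add_le_add ?_ ?_
  · calc _ ≤ 12 * (2 * X ^ (1 / 2 : ℝ)) * (12 * (3 * X ^ (43 / 100 : ℝ)) *
          (C1 * X ^ (1 / 60 : ℝ) * X ^ (-(1 / 6) : ℝ))) := by gcongr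
      _ = 12 * 2 * (12 * 3 * C1) *
          (X ^ (1 / 2 : ℝ) * X ^ (43 / 100 : ℝ) * X ^ (1 / 60 : ℝ) * X ^ (-(1 / 6) : ℝ)) := by ring
      _ ≤ _ := by gcongr
  · calc _ ≤ rho * kap * X ^ (5 / 6 : ℝ) * C3 *
          (C2 * (3 * X ^ (1 / 20 : ℝ)) * (X ^ (1 / 10 : ℝ))⁻¹) := by
          refine mul_le_mul g2 (g1.trans ?_) (Finset.sum_nonneg fun d _ =>
            Finset.sum_nonneg fun r _ => ?_) (by positivity)
          · gcongr
          · have := Ns_pos (d ∩ r); have := Ns_pos r; have := Ns_pos d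
            positivity
      _ = _ := by rw [← g5]; ring

end Pat
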