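import Vale.Agent.P006.TItAux1

/-! The type I sum of the Gauss sums. -/

noncomputable section
namespace Pat
open QRH Complex MeasureTheory Filter
open scoped ComplexConjugate Classical ContDiff Topology

/-- Number of squarefree elements in the window. -/
theorem tIt_count (hb : BA) {φ : ℝ → ℂ} (hφ : Bump φ) : ∃ C : ℝ, 0 < C ∧ ∀ (T X m R : ℝ), 1 ≤ T →
    0 < X → 0 < m → ∑ s ∈ sqf R, ‖lw φ T X (m * Ns s)‖ ≤ C * (X / m / T + √(X / m)) := by
  obtain ⟨D, hD, hBD⟩ := hb.bump_bd φ hφ 0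
  obtain ⟨C, hC, h⟩ := hb.thin_sqf
  refine ⟨D * C * 3, by positivity, fun T X m R hT hX hm => ?_⟩
  set y := X / m with hy
  have hy0 : 0 < y := by positivity
  have hw : ∀ s : Finset P, lw φ T X (m * Ns s) = φ (T * Real.log (Ns s / y)) := by
    intro s
    unfold lw
    congr 3
    rw [hy]; field_simp
  simp only [hw]
  set S := (sqf R).filter fun s => φ (T * Real.log (Ns s / y)) ≠ 0 with hS
  have h1 : ∑ s ∈ sqf R, ‖φ (T * Real.log (Ns s / y))‖ ≤ S.card * D := by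
    rw [← Finset.sum_subset (Finset.filter_subset (fun s => φ (T * Real.log (Ns s / y)) ≠ 0) _)]
    · rw [← nsmul_eq_mul]
      refine Finset.sum_le_card_nsmul _ _ _ fun s _ => ?_
      simpa using hBD.bd 0 le_rfl (T * Real.log (Ns s / y))
    · intro s hs hn
      have : φ (T * Real.log (Ns s / y)) = 0 := by
        by_contra hc; exact hn (Finset.mem_filter.2 ⟨hs, hc⟩)
      rw [this, norm_zero]
  refine h1.trans ?_
  have hT0 : 0 < T := by linarith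
  rcases S.eq_empty_or_nonempty with he | ⟨s, hs⟩
  · rw [he]; simp only [Finset.card_empty, Nat.cast_zero, zero_mul]; positivity
  · have h2 := (tIt_supp hφ hT hy0 (Ns_pos s) (Finset.mem_filter.1 hs).2).2.2
    have h3 : 1 ≤ 2 * √y := by
      have h4 : (1 / 2 : ℝ) ≤ √y := Real.le_sqrt_of_sq_le (by linarith [one_le_Ns s])
      linarith
    have h5 := h y (2 * y / T) S hy0.le (by positivity) (fun t ht => by
      have := tIt_supp hφ hT hy0 (Ns_pos t) (Finset.mem_filter.1 ht).2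
      exact ⟨this.1, this.2.1⟩)
    have h6 : 2 * y / T + √y + 1 ≤ 3 * (y / T + √y) := by
      have : 0 ≤ y / T := by positivity
      have h7 : 2 * y / T = 2 * (y / T) := by ring
      linarith
    calc (S.card : ℝ) * D ≤ C * (3 * (y / T + √y)) * D := by
          gcongr; exact h5.trans (by gcongr)
      _ = _ := by ring

theorem tIt_alg {a b X T : ℝ} (ha : 0 < a) (hb : 0 < b) (hX : 0 < X) :
    √a * (√b * (X / (a ^ 3 * b ^ 3) / T + √(X / (a ^ 3 * b ^ 3))))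
      = X / T * (a ^ (-(5 / 2) : ℝ) * b ^ (-(5 / 2) : ℝ)) + √X * (a⁻¹ * b⁻¹) := by
  have h1 : ∀ c : ℝ, 0 < c → c ^ (-(5 / 2) : ℝ) = √c / c ^ 3 := by
    intro c hc
    rw [Real.sqrt_eq_rpow, ← Real.rpow_natCast, ← Real.rpow_sub hc]
    norm_num
  have h2 : √(X / (a ^ 3 * b ^ 3)) = √X / (a * √a * (b * √b)) := by
    rw [Real.sqrt_div hX.le]
    congr 1
    rw [Real.sqrt_eq_iff_mul_self_eq (by positivity) (by positivity)]
    have h3 := Real.mul_self_sqrt ha.le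
    have h4 := Real.mul_self_sqrt hb.le
    calc a ^ 3 * b ^ 3 = a ^ 2 * b ^ 2 * (√a * √a) * (√b * √b) := by rw [h3, h4]; ring
      _ = _ := by ring
  have h5 : 0 < √a := Real.sqrt_pos.2 ha
  have h6 : 0 < √b := Real.sqrt_pos.2 hb
  rw [h1 a ha, h1 b hb, h2]
  field_simp

/-- The large values of `d`. -/
theorem tIt_large (hb : BA) {φ : ℝ → ℂ} (hφ : Bump φ) {ε : ℝ} (hε : 0 < ε) :
    ∃ C : ℝ, 0 < C ∧ ∀ (X T Y D : ℝ) (S : Finset (Finset P)), 1 ≤ X → 1 ≤ T → 0 < D →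
      (∀ d ∈ S, D ≤ Ns d ∧ Ns d ≤ 3 * X) →
      ‖∑ d ∈ S, ∑ n ∈ pball (3 * X), mu d * (√(Ns d) : ℝ) * th n *
        (tItN Y (pr d ^ 3 * n) * lw φ T X (nm (pr d ^ 3 * n)))‖
        ≤ C * (3 * X) ^ ε * (X / T * D ^ (-(3 / 2) : ℝ) + √X * ((3 * X) ^ ε) ^ 2) := by
  obtain ⟨C1, hC1, h1⟩ := pow_card_le (A := 2) (ε := ε) (by norm_num) hε
  obtain ⟨C2, hC2, h2⟩ := tIt_count hb hφ
  obtain ⟨C3, hC3, h3⟩ := tIt_tail (σ := 5 / 2) (by norm_num)
  obtain ⟨C4, hC4, h4⟩ := tail_nm_rpow (σ := 5 / 2) (by norm_num)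
  obtain ⟨C5, hC5, h5⟩ := sum_ball_inv hε
  obtain ⟨C6, hC6, h6⟩ := sum_sqf_inv hε
  refine ⟨C1 * C2 * (C3 * C4 + C5 * C6), by positivity, fun X T Y D S hX hT hD hS => ?_⟩
  have hX0 : 0 < X := by linarith
  have hT0 : 0 < T := by linarith
  set Z := (3 * X) ^ ε with hZ
  have hZ0 : 0 < Z := by positivity
  have hpb : pball (3 * X) ⊆ ball (3 * X) := Finset.filter_subset _ _
  have ha : ∑ k ∈ pball (3 * X), (nm k : ℝ) ^ (-(5 / 2) : ℝ) ≤ C4 := by
    have := h4 1 one_pos (pball (3 * X)) (fun k hk => one_le_nmR (mem_ball.1 (hpb hk)).1)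
    rwa [Real.one_rpow, mul_one] at this
  have hb' : ∑ k ∈ pball (3 * X), (nm k : ℝ)⁻¹ ≤ C5 * Z :=
    (Finset.sum_le_sum_of_subset_of_nonneg hpb (fun _ _ _ => by positivity)).trans
      (h5 _ (by positivity))
  have hc : ∑ d ∈ S, Ns d ^ (-(5 / 2) : ℝ) ≤ C3 * D ^ (-(3 / 2) : ℝ) := by
    have := h3 D hD S (fun d hd => (hS d hd).1)
    norm_num at this ⊢
    exact this
  have hd' : ∑ d ∈ S, (Ns d)⁻¹ ≤ C6 * Z :=
    (Finset.sum_le_sum_of_subset_of_nonneg (fun d hd => mem_sqf.2 (hS d hd).2)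
      (fun d _ _ => inv_nonneg.2 (Ns_pos d).le)).trans (h6 _ (by positivity))
  have key : ∀ d : Finset P, ‖∑ n ∈ pball (3 * X), mu d * (√(Ns d) : ℝ) * th n *
        (tItN Y (pr d ^ 3 * n) * lw φ T X (nm (pr d ^ 3 * n)))‖
      ≤ C1 * Z * C2 * (X / T * (Ns d ^ (-(5 / 2) : ℝ) * C4) + √X * ((Ns d)⁻¹ * (C5 * Z))) := by
    intro d
    have hd := Ns_pos d
    have hd1 : 1 ≤ Ns d ^ 3 := one_le_pow₀ (one_le_Ns d)
    have hg : ∀ c : E, 3 * X < nm c → ‖lw φ T X (Ns d ^ 3 * nm c)‖ = 0 := by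
      intro c hc
      rw [norm_eq_zero]
      by_contra hn
      have h7 : (0 : ℝ) < nm c := by linarith
      have := (tIt_supp hφ hT hX0 (by positivity) hn).2.2
      nlinarith
    calc _ ≤ ∑ n ∈ pball (3 * X),
          C1 * Z * √(Ns d) * (‖th n‖ * ‖lw φ T X (Ns d ^ 3 * nm n)‖) := by
          refine (norm_sum_le _ _).trans (Finset.sum_le_sum fun n hn => ?_)
          have hn0 := (mem_ball.1 (hpb hn)).1
          have hm0 : pr d ^ 3 * n ≠ 0 := mul_ne_zero (pow_ne_zero _ (pr_ne_zero d)) hn0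
          rw [norm_mul, norm_mul, norm_mul, norm_mul, norm_mu, one_mul, Complex.norm_real,
            Real.norm_eq_abs, abs_of_nonneg (Real.sqrt_nonneg _), tIt_nm]
          by_cases hw : lw φ T X (Ns d ^ 3 * nm n) = 0
          · rw [hw]; simp
          have h7 : (0 : ℝ) < nm n := lt_of_lt_of_le one_pos (one_le_nmR hn0)
          have h8 := (tIt_supp hφ hT hX0 (by positivity) hw).2.2
          have h9 : ‖tItN Y (pr d ^ 3 * n)‖ ≤ C1 * Z := by
            refine (tIt_N_le hb Y hm0).trans ((h1 _).trans ?_)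
            have h10 := Ns_fac_le hm0
            rw [tIt_nm] at h10
            exact mul_le_mul_of_nonneg_left
              (Real.rpow_le_rpow (Ns_pos _).le (h10.trans h8) hε.le) hC1.le
          calc √(Ns d) * ‖th n‖ * (‖tItN Y (pr d ^ 3 * n)‖ * ‖lw φ T X (Ns d ^ 3 * nm n)‖)
              ≤ √(Ns d) * ‖th n‖ * (C1 * Z * ‖lw φ T X (Ns d ^ 3 * nm n)‖) := by gcongr
            _ = _ := by ring
      _ = C1 * Z * ∑ k ∈ pball (3 * X), √(Ns d) * (√(nm k : ℝ) *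
            ∑ s ∈ sqf (3 * X), ‖lw φ T X (Ns d ^ 3 * (nm k : ℝ) ^ 3 * Ns s)‖) := by
          rw [← Finset.mul_sum, hb.th_sum_abs (3 * X) _ hg, mul_assoc, Finset.mul_sum]
          congr 1
          refine Finset.sum_congr rfl fun k _ => ?_
          rw [Finset.mul_sum, Finset.mul_sum, Finset.mul_sum]
          refine Finset.sum_congr rfl fun s _ => ?_
          congr 4
          rw [nm_mul, nm_pow]; unfold Ns; push_cast; ring
      _ ≤ C1 * Z * ∑ k ∈ pball (3 * X), C2 * (X / T * (Ns d ^ (-(5 / 2) : ℝ)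
            * (nm k : ℝ) ^ (-(5 / 2) : ℝ)) + √X * ((Ns d)⁻¹ * (nm k : ℝ)⁻¹)) := by
          refine mul_le_mul_of_nonneg_left (Finset.sum_le_sum fun k hk => ?_) (by positivity)
          have hk0 : (0 : ℝ) < nm k := lt_of_lt_of_le one_pos (one_le_nmR (mem_ball.1 (hpb hk)).1)
          rw [← tIt_alg (T := T) hd hk0 hX0]
          calc √(Ns d) * (√(nm k : ℝ) * ∑ s ∈ sqf (3 * X),
                ‖lw φ T X (Ns d ^ 3 * (nm k : ℝ) ^ 3 * Ns s)‖)
              ≤ √(Ns d) * (√(nm k : ℝ) * (C2 * (X / (Ns d ^ 3 * (nm k : ℝ) ^ 3) / T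
                + √(X / (Ns d ^ 3 * (nm k : ℝ) ^ 3))))) := by
                gcongr
                exact h2 T X _ _ hT hX0 (by positivity)
            _ = _ := by ring
      _ ≤ _ := by
          rw [← Finset.mul_sum, Finset.sum_add_distrib, ← Finset.mul_sum, ← Finset.mul_sum,
            ← Finset.mul_sum, ← Finset.mul_sum, mul_assoc (C1 * Z)]
          gcongr
  calc _ ≤ ∑ d ∈ S, C1 * Z * C2 * (X / T * (Ns d ^ (-(5 / 2) : ℝ) * C4)
          + √X * ((Ns d)⁻¹ * (C5 * Z))) :=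
        (norm_sum_le _ _).trans (Finset.sum_le_sum fun d _ => key d)
    _ ≤ C1 * Z * C2 * (X / T * (C3 * D ^ (-(3 / 2) : ℝ) * C4) + √X * (C6 * Z * (C5 * Z))) := by
        rw [← Finset.mul_sum, Finset.sum_add_distrib, ← Finset.mul_sum, ← Finset.mul_sum,
          ← Finset.sum_mul, ← Finset.sum_mul]
        gcongr
    _ ≤ _ := by
        have e1 : 0 ≤ X / T * D ^ (-(3 / 2) : ℝ) := by positivity
        have e2 : 0 ≤ √X * Z ^ 2 := by positivity
        have e3 : X / T * (C3 * D ^ (-(3 / 2) : ℝ) * C4) + √X * (C6 * Z * (C5 * Z))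
            ≤ (C3 * C4 + C5 * C6) * (X / T * D ^ (-(3 / 2) : ℝ) + √X * Z ^ 2) := by
          have e4 := mul_nonneg (mul_pos hC3 hC4).le e2
          have e5 := mul_nonneg (mul_pos hC5 hC6).le e1
          nlinarith
        calc _ ≤ C1 * Z * C2 * ((C3 * C4 + C5 * C6)
              * (X / T * D ^ (-(3 / 2) : ℝ) + √X * Z ^ 2)) := by gcongr
          _ = _ := by ring

/-- The small values of `d`. -/
theorem tIt_small (hb : BA) {κ : ℝ} (h : ThetaT (κ : ℂ)) {φ : ℝ → ℂ} (hφ : Bump φ) {ε : ℝ}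
    (hε : 0 < ε) : ∃ C : ℝ, 0 < C ∧ ∀ X T Y D : ℝ, 0 < X → 1 ≤ T → 0 < Y → 0 < D →
      ‖∑ d ∈ sqf D, ∑ n ∈ pball (3 * X), mu d * (√(Ns d) : ℝ) * th n *
          (tItN Y (pr d ^ 3 * n) * lw φ T X (nm (pr d ^ 3 * n)))
        - ((κ * X ^ (5 / 6 : ℝ) : ℝ) : ℂ) * mo φ T (5 / 6) * MS Y D‖
        ≤ C * (D * √D) * T ^ (3 + ε) * (3 * Y) ^ (3 / 2 + ε) := by
  obtain ⟨C, hC, h1⟩ := h φ ε hφ hε
  refine ⟨C * 144, by positivity, fun X T Y D hX hT hY hD => ?_⟩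
  have hT0 : 0 < T := by linarith
  unfold MS
  rw [Finset.mul_sum, ← Finset.sum_sub_distrib]
  have key : ∀ d ∈ sqf D, ‖∑ n ∈ pball (3 * X), mu d * (√(Ns d) : ℝ) * th n *
          (tItN Y (pr d ^ 3 * n) * lw φ T X (nm (pr d ^ 3 * n)))
        - ((κ * X ^ (5 / 6 : ℝ) : ℝ) : ℂ) * mo φ T (5 / 6) * ∑ r ∈ sqf (3 * Y), mu d * mu r *
          ((Vs (Real.log (Ns r / Y)) * Ns (d ∩ r) / (Ns r * Ns d ^ 2) : ℝ) : ℂ)‖
      ≤ 12 * (3 * Y) * (√D * (C * T ^ (3 + ε) * (3 * Y) ^ (1 / 2 + ε))) := by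
    intro d hd
    have hd0 := Ns_pos d
    simp only [mul_assoc (mu d * _)]
    rw [← Finset.mul_sum, tIt_inner hb hφ hX hT, Finset.mul_sum, Finset.mul_sum,
      ← Finset.sum_sub_distrib]
    refine (norm_sum_le _ _).trans ((Finset.sum_le_card_nsmul _ _
      (√D * (C * T ^ (3 + ε) * (3 * Y) ^ (1 / 2 + ε))) fun r hr => ?_).trans ?_)
    · have h2 := h1 T (r \ d) ∅ (X / Ns d ^ 3) hT (by positivity)
      rw [if_pos rfl, Ns_empty, Real.one_rpow, mul_one] at h2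
      have h4 := Ns_pos (r \ d)
      have h5 := Ns_pos (d ∩ r)
      have h3 : X ^ (5 / 6 : ℝ) * (Vs (Real.log (Ns r / Y)) * Ns (d ∩ r) / (Ns r * Ns d ^ 2))
          = √(Ns d) * Vs (Real.log (Ns r / Y)) * ((X / Ns d ^ 3) ^ (5 / 6 : ℝ) / Ns (r \ d)) := by
        generalize Vs (Real.log (Ns r / Y)) = v
        have h6 : (Ns d ^ 3) ^ (5 / 6 : ℝ) = √(Ns d) * Ns d ^ 2 := by
          rw [← Real.rpow_natCast, ← Real.rpow_mul hd0.le, Real.sqrt_eq_rpow,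
            ← Real.rpow_natCast, ← Real.rpow_add hd0]
          norm_num
        have h7 : 0 < √(Ns d) := Real.sqrt_pos.2 hd0
        rw [Real.div_rpow hX.le (by positivity), h6, tIt_sdiff d r]
        field_simp
      have h8 : mu d * (√(Ns d) : ℝ) * (mu r * (Vs (Real.log (Ns r / Y)) : ℝ) *
            Th0 (fun v => φ (T * v)) (r \ d) ∅ (X / Ns d ^ 3))
          - ((κ * X ^ (5 / 6 : ℝ) : ℝ) : ℂ) * mo φ T (5 / 6) * (mu d * mu r *
            ((Vs (Real.log (Ns r / Y)) * Ns (d ∩ r) / (Ns r * Ns d ^ 2) : ℝ) : ℂ))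
          = mu d * mu r * (√(Ns d) : ℝ) * (Vs (Real.log (Ns r / Y)) : ℝ) *
            (Th0 (fun v => φ (T * v)) (r \ d) ∅ (X / Ns d ^ 3) - κ * mo φ T (5 / 6) *
              (((X / Ns d ^ 3) ^ (5 / 6 : ℝ) / Ns (r \ d) : ℝ) : ℂ)) := by
        have h9 := congrArg (fun t : ℝ => (t : ℂ)) h3
        simp only [Complex.ofReal_mul] at h9 ⊢
        linear_combination (-(κ * mo φ T (5 / 6) * mu d * mu r)) * h9
      rw [h8, norm_mul, norm_mul, norm_mul, norm_mul, norm_mu, norm_mu, one_mul, one_mul,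
        Complex.norm_real, Complex.norm_real, Real.norm_eq_abs, Real.norm_eq_abs,
        abs_of_nonneg (Real.sqrt_nonneg _)]
      have h10 : Ns (r \ d) ≤ 3 * Y := (Ns_mono Finset.sdiff_subset).trans (mem_sqf.1 hr)
      calc _ ≤ √D * 1 * (C * T ^ (3 + ε) * (3 * Y) ^ (1 / 2 + ε)) := by
            gcongr
            · exact mem_sqf.1 hd
            · exact tIt_Vs_norm hb _
            · exact h2.trans (by gcongr)
        _ = _ := by ring
    · rw [nsmul_eq_mul]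
      gcongr
      exact card_sqf_le (by positivity)
  refine (norm_sum_le _ _).trans ((Finset.sum_le_card_nsmul _ _ _ key).trans ?_)
  rw [nsmul_eq_mul]
  have h2 : (3 * Y) ^ (3 / 2 + ε) = 3 * Y * (3 * Y) ^ (1 / 2 + ε) := by
    rw [show (3 / 2 + ε : ℝ) = 1 + (1 / 2 + ε) by ring, Real.rpow_add (by positivity),
      Real.rpow_one]
  rw [h2]
  calc _ ≤ 12 * D * (12 * (3 * Y) * (√D * (C * T ^ (3 + ε) * (3 * Y) ^ (1 / 2 + ε)))) := by
        gcongr
        exact card_sqf_le hD.le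
    _ = _ := by ring

theorem tIt (hb : BA) (h : ThetaT ((rho * kap : ℝ) : ℂ)) : TIt := by
  intro φ hφ
  obtain ⟨C1, hC1, h1⟩ := tIt_small hb h hφ (ε := 1 / 1000) (by norm_num)
  obtain ⟨C2, hC2, h2⟩ := tIt_large hb hφ (ε := 1 / 1000) (by norm_num)
  refine ⟨1 / 500, C1 * 9 + C2 * 30, by norm_num, by positivity, fun X T hX hT hTm => ?_⟩
  have hX0 : 0 < X := by linarith
  have hT0 : 0 < T := by linarith
  obtain ⟨L, rfl⟩ : ∃ L, X = Real.exp L := ⟨Real.log X, (Real.exp_log hX0).symm⟩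
  obtain ⟨t, rfl⟩ : ∃ t, T = Real.exp t := ⟨Real.log T, (Real.exp_log hT0).symm⟩
  have hL : 0 ≤ L := Real.one_le_exp_iff.1 hX
  have ht : 0 ≤ t := Real.one_le_exp_iff.1 hT
  have htL : t ≤ L * (1 / 6 + 1 / 1000) := by
    unfold Tmax at hTm
    rwa [← Real.exp_mul, Real.exp_le_exp] at hTm
  have hY : Y1 (Real.exp L) (Real.exp t) = Real.exp (L * (43 / 100) + t * (-(4 / 3))) := by
    unfold Y1
    rw [← Real.exp_mul, ← Real.exp_mul, ← Real.exp_add]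
  have hD : Dd (Real.exp L) (Real.exp t)
      = Real.exp ((L * (1 / 6 + 1 / 250) - t) * (2 / 3)) := by
    unfold Dd
    rw [← Real.exp_mul, ← Real.exp_sub, ← Real.exp_mul]
  set X := Real.exp L with hXe
  set T := Real.exp t with hTe
  set Y := Y1 X T
  set D := Dd X T
  have hY0 : 0 < Y := by rw [hY]; positivity
  have hD0 : 0 < D := by rw [hD]; positivity
  have hDX : D ≤ 3 * X := by
    have : D ≤ X := by rw [hD, hXe, Real.exp_le_exp]; nlinarith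
    linarith
  have hTI : TI tt X T φ Y = ∑ d ∈ sqf (3 * X), ∑ n ∈ pball (3 * X),
      mu d * (√(Ns d) : ℝ) * th n * (tItN Y (pr d ^ 3 * n) * lw φ T X (nm (pr d ^ 3 * n))) := by
    rw [← hb.th_inv (3 * X) (fun n => tItN Y n * lw φ T X (nm n))]
    · unfold TI
      refine Finset.sum_congr rfl fun c _ => ?_
      rw [tIt_N_pr hb hY0]
      unfold Ns
      ring
    · intro c hc
      have : lw φ T X (nm c) = 0 := by
        by_contra hn
        have := (tIt_supp hφ hT hX0 (by linarith) hn).2.2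
        linarith
      rw [this, mul_zero]
  rw [hTI, ← Finset.sum_sdiff (sqf_mono hDX), add_sub_assoc]
  refine (norm_add_le _ _).trans ?_
  have h3 := h1 X T Y D hX0 hT hY0 hD0
  have h4 := h2 X T Y D (sqf (3 * X) \ sqf D) hX hT hD0 (fun d hd => by
    obtain ⟨h5, h6⟩ := Finset.mem_sdiff.1 hd
    exact ⟨le_of_lt (not_le.1 fun h7 => h6 (mem_sqf.2 h7)), mem_sqf.1 h5⟩)
  have e3 : (3 : ℝ) ^ (3 / 2 + 1 / 1000 : ℝ) ≤ 9 := by
    calc (3 : ℝ) ^ (3 / 2 + 1 / 1000 : ℝ) ≤ 3 ^ (2 : ℝ) := by gcongr <;> norm_num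
      _ = 9 := by norm_num
  have e4 : (3 : ℝ) ^ (1 / 1000 : ℝ) ≤ 3 := by
    calc (3 : ℝ) ^ (1 / 1000 : ℝ) ≤ 3 ^ (1 : ℝ) := by gcongr <;> norm_num
      _ = 3 := by norm_num
  have hE : X ^ (5 / 6 - 1 / 500 : ℝ) = Real.exp (L * (5 / 6 - 1 / 500)) := by
    rw [hXe, ← Real.exp_mul]
  have h5 : D * √D * T ^ (3 + 1 / 1000 : ℝ) * Y ^ (3 / 2 + 1 / 1000 : ℝ)
      ≤ X ^ (5 / 6 - 1 / 500 : ℝ) := by
    rw [hE, hD, hY, hTe, Real.sqrt_eq_rpow, ← Real.exp_mul, ← Real.exp_mul, ← Real.exp_mul,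
      ← Real.exp_add, ← Real.exp_add, ← Real.exp_add, Real.exp_le_exp]
    nlinarith
  have hZ : (3 * X) ^ (1 / 1000 : ℝ) ≤ 3 * Real.exp (L * (1 / 1000)) := by
    rw [Real.mul_rpow (by norm_num) hX0.le, hXe, ← Real.exp_mul]
    gcongr
  have h6 : Real.exp (L * (1 / 1000)) * (X / T * D ^ (-(3 / 2) : ℝ))
      ≤ X ^ (5 / 6 - 1 / 500 : ℝ) := by
    rw [hE, hD, hXe, hTe, ← Real.exp_mul, ← Real.exp_sub, ← Real.exp_add, ← Real.exp_add,
      Real.exp_le_exp]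
    nlinarith
  have h7 : Real.exp (L * (1 / 1000)) * (√X * Real.exp (L * (1 / 1000)) ^ 2)
      ≤ X ^ (5 / 6 - 1 / 500 : ℝ) := by
    rw [hE, hXe, Real.sqrt_eq_rpow, ← Real.exp_mul, ← Real.exp_nat_mul, ← Real.exp_add,
      ← Real.exp_add, Real.exp_le_exp]
    push_cast
    nlinarith
  have h8 : C1 * (D * √D) * T ^ (3 + 1 / 1000 : ℝ) * (3 * Y) ^ (3 / 2 + 1 / 1000 : ℝ)
      ≤ C1 * 9 * X ^ (5 / 6 - 1 / 500 : ℝ) := by
    rw [Real.mul_rpow (by norm_num) hY0.le]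
    calc _ = C1 * (3 : ℝ) ^ (3 / 2 + 1 / 1000 : ℝ) *
          (D * √D * T ^ (3 + 1 / 1000 : ℝ) * Y ^ (3 / 2 + 1 / 1000 : ℝ)) := by ring
      _ ≤ _ := by gcongr
  have h9 : C2 * (3 * X) ^ (1 / 1000 : ℝ) * (X / T * D ^ (-(3 / 2) : ℝ)
      + √X * ((3 * X) ^ (1 / 1000 : ℝ)) ^ 2) ≤ C2 * 30 * X ^ (5 / 6 - 1 / 500 : ℝ) := by
    calc _ ≤ C2 * (3 * Real.exp (L * (1 / 1000))) * (X / T * D ^ (-(3 / 2) : ℝ)
          + √X * (3 * Real.exp (L * (1 / 1000))) ^ 2) := by gcongr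
      _ = C2 * (3 * (Real.exp (L * (1 / 1000)) * (X / T * D ^ (-(3 / 2) : ℝ)))
          + 27 * (Real.exp (L * (1 / 1000)) * (√X * Real.exp (L * (1 / 1000)) ^ 2))) := by ring
      _ ≤ C2 * (3 * X ^ (5 / 6 - 1 / 500 : ℝ) + 27 * X ^ (5 / 6 - 1 / 500 : ℝ)) := by gcongr
      _ = _ := by ring
  linarith

end Pat
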