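import Vale.Agent.P006.IfA
import Vale.Agent.P026.PoisG
import Vale.Agent.P026.FtD

noncomputable section
namespace Pat
open QRH Complex MeasureTheory Filter
open scoped ComplexConjugate Classical ContDiff Topology

theorem Tate_norm (a : ℂ) (N : ℝ) {t : ℝ} (ht : 0 < t) :
    ‖(t : ℂ) ^ (a - 1) * Complex.exp (-(N * t))‖ = t ^ (a.re - 1) * Real.exp (-(N * t)) := by
  rw [norm_mul, Complex.norm_cpow_eq_rpow_re_of_pos ht, Complex.norm_exp]
  simp

theorem Tate_meas (a : ℂ) {n : ℂ → ℝ} (hn : Measurable n) :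
    Measurable fun p : ℂ × ℝ => (p.2 : ℂ) ^ (a - 1) * Complex.exp (-(n p.1 * p.2)) := by
  refine Measurable.mul ((Complex.measurable_ofReal.comp measurable_snd).pow_const _) ?_
  refine Complex.measurable_exp.comp (Measurable.neg (Measurable.mul ?_ ?_))
  · exact Complex.measurable_ofReal.comp (hn.comp measurable_fst)
  · exact Complex.measurable_ofReal.comp measurable_snd

theorem Tate_int {a : ℂ} (ha : 0 < a.re) {N : ℝ} (hN : 0 < N) :
    IntegrableOn (fun t : ℝ => (t : ℂ) ^ (a - 1) * Complex.exp (-(N * t))) (Set.Ioi 0) := by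
  have key := Real.integral_rpow_mul_exp_neg_mul_Ioi ha hN
  have hG := Real.Gamma_pos_of_pos ha
  have h1 : IntegrableOn (fun t : ℝ => t ^ (a.re - 1) * Real.exp (-(N * t))) (Set.Ioi 0) :=
    .of_integral_ne_zero (by rw [key]; positivity)
  refine Integrable.mono' h1 ?_ ?_
  · exact ((Tate_meas a (n := fun _ => N) measurable_const).comp
      (measurable_prodMk_left (x := (0 : ℂ)))).aestronglyMeasurable
  · refine (ae_restrict_iff' measurableSet_Ioi).2 (Eventually.of_forall fun t ht => ?_)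
    exact (Tate_norm a N ht).le

theorem Tate_mel {a : ℂ} (ha : 0 < a.re) {H : ℂ → ℂ} {n : ℂ → ℝ}
    (hH : AEStronglyMeasurable H volume) (hn : Measurable n) (hp : ∀ᵐ y : ℂ, 0 < n y)
    (hi : Integrable fun y => ‖H y‖ * n y ^ (-a.re)) :
    ∫ t in Set.Ioi (0 : ℝ), (t : ℂ) ^ (a - 1) * ∫ y, H y * Complex.exp (-(n y * t))
      = Complex.Gamma a * ∫ y, H y * (n y : ℂ) ^ (-a) := by
  have hm : AEStronglyMeasurable (Function.uncurry fun (y : ℂ) (t : ℝ) =>
      H y * ((t : ℂ) ^ (a - 1) * Complex.exp (-(n y * t))))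
      ((volume : Measure ℂ).prod ((volume : Measure ℝ).restrict (Set.Ioi 0))) :=
    hH.comp_fst.mul (Tate_meas a hn).aestronglyMeasurable
  have hI : Integrable (Function.uncurry fun (y : ℂ) (t : ℝ) =>
      H y * ((t : ℂ) ^ (a - 1) * Complex.exp (-(n y * t))))
      ((volume : Measure ℂ).prod ((volume : Measure ℝ).restrict (Set.Ioi 0))) := by
    refine (integrable_prod_iff hm).2 ⟨?_, ?_⟩
    · filter_upwards [hp] with y hy
      exact (Tate_int ha hy).const_mul (H y)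
    · refine (hi.mul_const (Real.Gamma a.re)).congr ?_
      filter_upwards [hp] with y hy
      have e : ∫ t in Set.Ioi (0 : ℝ), ‖H y * ((t : ℂ) ^ (a - 1) * Complex.exp (-(n y * t)))‖
          = ∫ t in Set.Ioi (0 : ℝ), ‖H y‖ * (t ^ (a.re - 1) * Real.exp (-(n y * t))) := by
        refine setIntegral_congr_fun measurableSet_Ioi fun t ht => ?_
        rw [norm_mul, Tate_norm a (n y) ht]
      simp only [Function.uncurry_apply_pair]
      rw [e, integral_const_mul, Real.integral_rpow_mul_exp_neg_mul_Ioi ha hy, one_div,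
        Real.inv_rpow hy.le, ← Real.rpow_neg hy.le]
      ring
  have hs := integral_integral_swap hI
  have e1 : ∫ t in Set.Ioi (0 : ℝ), (t : ℂ) ^ (a - 1) * ∫ y, H y * Complex.exp (-(n y * t))
      = ∫ t in Set.Ioi (0 : ℝ), ∫ y, H y * ((t : ℂ) ^ (a - 1) * Complex.exp (-(n y * t))) := by
    refine integral_congr_ae (Eventually.of_forall fun t => ?_)
    beta_reduce
    rw [← integral_const_mul]
    refine integral_congr_ae (Eventually.of_forall fun y => ?_)
    beta_reduce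
    ring
  rw [e1, ← hs, ← integral_const_mul]
  refine integral_congr_ae ?_
  filter_upwards [hp] with y hy
  rw [integral_const_mul, Complex.integral_cpow_mul_exp_neg_mul_Ioi ha hy, one_div,
    Complex.inv_cpow _ _ (by rw [Complex.arg_ofReal_of_nonneg hy.le]; exact Real.pi_ne_zero.symm),
    ← Complex.cpow_neg]
  ring

theorem Tate_gauss {t : ℝ} (ht : 0 < t) (m : ℂ) :
    ∫ z : ℂ, psi (m * z) * Complex.exp (-(((‖z‖ ^ 2 : ℝ) : ℂ) * t))
      = ((√3 / 2 * (2 * Real.pi / √3 / t) : ℝ) : ℂ) *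
        Complex.exp (-((((2 * Real.pi / √3) ^ 2 * ‖m‖ ^ 2 : ℝ) : ℂ) * (t⁻¹ : ℝ))) := by
  have h3 : (0 : ℝ) < √3 := by positivity
  have hc : 0 < 2 * Real.pi / √3 := by have := Real.pi_pos; positivity
  obtain ⟨c, hcd⟩ : ∃ c : ℝ, c = 2 * Real.pi / √3 := ⟨_, rfl⟩
  have key := ft_gauss (t := c / t) (by rw [hcd]; positivity) (-m)
  unfold ft Vg at key
  rw [← hcd] at key hc ⊢
  have e : ∫ z : ℂ, psi (m * z) * Complex.exp (-(((‖z‖ ^ 2 : ℝ) : ℂ) * t))
      = ∫ z : ℂ, ((Real.exp (-c * (‖z‖ ^ 2 / (c / t))) : ℝ) : ℂ) * psi (-(z * -m)) := by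
    refine integral_congr_ae (Eventually.of_forall fun z => ?_)
    beta_reduce
    have e1 : -c * (‖z‖ ^ 2 / (c / t)) = -(‖z‖ ^ 2 * t) := by field_simp
    rw [e1, mul_comm, show -(z * -m) = m * z by ring]
    push_cast
    rfl
  have e2 : -c * (‖-m‖ ^ 2 * (c / t)) = -(c ^ 2 * ‖m‖ ^ 2 * t⁻¹) := by
    rw [norm_neg]; field_simp
  rw [e2] at key
  have h0 : ((2 / √3 : ℝ) : ℂ) ≠ 0 := by
    rw [Ne, Complex.ofReal_eq_zero]; positivity
  rw [e]
  apply mul_left_cancel₀ h0
  rw [key, ← mul_assoc, ← Complex.ofReal_mul]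
  have e3 : 2 / √3 * (√3 / 2 * (c / t)) = c / t := by field_simp
  rw [e3]
  push_cast
  rfl

theorem Tate_gint {t : ℝ} (ht : 0 < t) :
    Integrable fun z : ℂ => Complex.exp (-(((‖z‖ ^ 2 : ℝ) : ℂ) * t)) := by
  have := GaussianFourier.integrable_cexp_neg_mul_sq_norm_add (V := ℂ) (b := (t : ℂ))
    (by simpa using ht) 0 (0 : ℂ)
  refine this.congr (Eventually.of_forall fun z => ?_)
  simp [mul_comm]

theorem Tate_swap {F m : ℂ → ℂ} (hF : Integrable F) (hm : Measurable m) {t : ℝ} (ht : 0 < t) :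
    ∫ z : ℂ, (∫ y, F y * psi (m y * z)) * Complex.exp (-(((‖z‖ ^ 2 : ℝ) : ℂ) * t))
      = ((√3 / 2 * (2 * Real.pi / √3 / t) : ℝ) : ℂ) * ∫ y, F y *
        Complex.exp (-((((2 * Real.pi / √3) ^ 2 * ‖m y‖ ^ 2 : ℝ) : ℂ) * (t⁻¹ : ℝ))) := by
  have hI : Integrable (Function.uncurry fun (y z : ℂ) =>
      F y * (psi (m y * z) * Complex.exp (-(((‖z‖ ^ 2 : ℝ) : ℂ) * t))))
      ((volume : Measure ℂ).prod (volume : Measure ℂ)) := by
    have h1 := hF.mul_prod (Tate_gint ht)
    have h2 : AEStronglyMeasurable (fun p : ℂ × ℂ => psi (m p.1 * p.2))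
        ((volume : Measure ℂ).prod (volume : Measure ℂ)) :=
      (continuous_psi.measurable.comp
        ((hm.comp measurable_fst).mul measurable_snd)).aestronglyMeasurable
    refine (h1.bdd_mul (c := 1) h2 (Eventually.of_forall fun p => (norm_psi _).le)).congr
      (Eventually.of_forall fun p => ?_)
    simp only [Function.uncurry]
    ring
  have hs := integral_integral_swap hI
  have e1 : ∫ z : ℂ, (∫ y, F y * psi (m y * z)) * Complex.exp (-(((‖z‖ ^ 2 : ℝ) : ℂ) * t))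
      = ∫ z : ℂ, ∫ y, F y * (psi (m y * z) * Complex.exp (-(((‖z‖ ^ 2 : ℝ) : ℂ) * t))) := by
    refine integral_congr_ae (Eventually.of_forall fun z => ?_)
    beta_reduce
    rw [← integral_mul_const]
    refine integral_congr_ae (Eventually.of_forall fun y => ?_)
    beta_reduce
    ring
  rw [e1, ← hs, ← integral_const_mul]
  refine integral_congr_ae (Eventually.of_forall fun y => ?_)
  beta_reduce
  rw [integral_const_mul, Tate_gauss ht]
  ring

theorem Tate_cont {F m : ℂ → ℂ} (hF : Integrable F) (hm : Measurable m) :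
    Continuous fun z : ℂ => ∫ y, F y * psi (m y * z) := by
  refine continuous_of_dominated (bound := fun y => ‖F y‖) (fun z => ?_) (fun z => ?_) hF.norm ?_
  · exact hF.aestronglyMeasurable.mul
      (continuous_psi.measurable.comp (hm.mul_const z)).aestronglyMeasurable
  · refine Eventually.of_forall fun y => ?_
    rw [norm_mul, norm_psi, mul_one]
  · refine Eventually.of_forall fun y => ?_
    exact continuous_const.mul (continuous_psi.comp (continuous_const.mul continuous_id))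

theorem Tate_ae : ∀ᵐ z : ℂ, 0 < ‖z‖ ^ 2 := by
  have : ∀ᵐ z : ℂ, z ≠ 0 := by simp [ae_iff]
  filter_upwards [this] with z hz
  positivity

theorem tate : Tate := by
  intro F m s h0 h1 hF hm hm0 hi1 hi2
  have hc : 0 < 2 * Real.pi / √3 := by have := Real.pi_pos; positivity
  have M1 := Tate_mel (a := 1 - s) (by simp; linarith) (Tate_cont hF hm).aestronglyMeasurable
    (n := fun z => ‖z‖ ^ 2) (by fun_prop) Tate_ae (by simpa using hi2)
  have S := fun t (ht : 0 < t) => Tate_swap hF hm ht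
  unfold gam0
  obtain ⟨c, hcd⟩ : ∃ c : ℝ, c = 2 * Real.pi / √3 := ⟨_, rfl⟩
  rw [← hcd] at hc S ⊢
  have M2 := Tate_mel (a := s) h0 hF.aestronglyMeasurable (n := fun y => c ^ 2 * ‖m y‖ ^ 2)
    (by fun_prop) (by filter_upwards [hm0] with y hy; positivity)
    ((hi1.const_mul ((c ^ 2) ^ (-s.re))).congr (Eventually.of_forall fun y => by
      beta_reduce
      rw [Real.mul_rpow (by positivity) (by positivity)]
      ring))
  have hsub := integral_comp_rpow_Ioi (fun u : ℝ => (u : ℂ) ^ (s - 1) *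
    ∫ y, F y * Complex.exp (-(((c ^ 2 * ‖m y‖ ^ 2 : ℝ) : ℂ) * u))) (p := -1) (by norm_num)
  rw [M2] at hsub
  have e1 : ∫ t in Set.Ioi (0 : ℝ), (t : ℂ) ^ (1 - s - 1) * ∫ z : ℂ,
      (∫ y, F y * psi (m y * z)) * Complex.exp (-(((‖z‖ ^ 2 : ℝ) : ℂ) * t))
      = ((√3 / 2 * c : ℝ) : ℂ) * (Complex.Gamma s *
        ∫ y, F y * ((c ^ 2 * ‖m y‖ ^ 2 : ℝ) : ℂ) ^ (-s)) := by
    rw [← hsub, ← integral_const_mul]
    refine setIntegral_congr_fun measurableSet_Ioi fun t ht => ?_
    have ht0 : (0 : ℝ) < t := ht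
    have htc : (t : ℂ) ≠ 0 := by exact_mod_cast ht0.ne'
    rw [S t ht0, Real.rpow_neg_one, Complex.real_smul]
    have e2 : (((t⁻¹ : ℝ) : ℂ)) ^ (s - 1) = (t : ℂ) ^ (1 - s - 1) * t := by
      rw [Complex.ofReal_inv, Complex.inv_cpow _ _ (by
        rw [Complex.arg_ofReal_of_nonneg ht0.le]; exact Real.pi_ne_zero.symm),
        ← Complex.cpow_neg]
      conv_rhs => rw [← Complex.cpow_one (t : ℂ)]
      rw [Complex.cpow_one, show -(s - 1) = (1 - s - 1) + 1 by ring, Complex.cpow_add _ _ htc,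
        Complex.cpow_one]
    have e3 : |(-1 : ℝ)| * t ^ ((-1 : ℝ) - 1) = (t * t)⁻¹ := by
      rw [show (-1 : ℝ) - 1 = -1 + -1 by ring, Real.rpow_add ht0, Real.rpow_neg_one]
      simp
    rw [e2, e3]
    push_cast
    field_simp
  rw [e1] at M1
  have hG : Complex.Gamma (1 - s) ≠ 0 := Complex.Gamma_ne_zero_of_re_pos (by simp; linarith)
  have e4 : ∫ y, F y * ((c ^ 2 * ‖m y‖ ^ 2 : ℝ) : ℂ) ^ (-s)
      = ((c ^ 2 : ℝ) : ℂ) ^ (-s) * ∫ y, F y * ((‖m y‖ ^ 2 : ℝ) : ℂ) ^ (-s) := by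
    rw [← integral_const_mul]
    refine integral_congr_ae (Eventually.of_forall fun y => ?_)
    beta_reduce
    rw [Complex.ofReal_mul, Complex.mul_cpow_ofReal_nonneg (by positivity) (by positivity)]
    ring
  have hcc : (c : ℂ) ≠ 0 := by exact_mod_cast hc.ne'
  have e5 : (c : ℂ) ^ (1 - 2 * s) = c * ((c ^ 2 : ℝ) : ℂ) ^ (-s) := by
    rw [sq, Complex.ofReal_mul, Complex.mul_cpow_ofReal_nonneg hc.le hc.le,
      show 1 - 2 * s = 1 + (-s + -s) by ring, Complex.cpow_add _ _ hcc, Complex.cpow_add _ _ hcc,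
      Complex.cpow_one]
  rw [e4, show -(1 - s) = s - 1 by ring] at M1
  apply mul_left_cancel₀ hG
  rw [← M1, e5]
  push_cast
  field_simp

theorem Tate_logb {N a b x ε : ℝ} (hN : 0 < N) (hε : 0 < ε) (ha : a + ε ≤ x) (hb : x + ε ≤ b) :
    N ^ x * |Real.log N| ≤ (N ^ a + N ^ b) / ε := by
  have pa := Real.rpow_pos_of_pos hN a
  have pb := Real.rpow_pos_of_pos hN b
  have px := Real.rpow_pos_of_pos hN x
  rw [le_div_iff₀ hε]
  rcases le_total 1 N with h | h
  · have h1 := Real.log_le_rpow_div hN.le hε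
    rw [le_div_iff₀ hε] at h1
    rw [abs_of_nonneg (Real.log_nonneg h)]
    have h2 : N ^ x * N ^ ε ≤ N ^ b := by
      rw [← Real.rpow_add hN]
      exact Real.rpow_le_rpow_of_exponent_le h hb
    nlinarith [mul_le_mul_of_nonneg_left h1 px.le]
  · have h1 := Real.log_le_rpow_div (inv_nonneg.2 hN.le) hε
    rw [le_div_iff₀ hε, Real.log_inv, Real.inv_rpow hN.le, ← Real.rpow_neg hN.le] at h1
    rw [abs_of_nonpos (Real.log_nonpos hN.le h)]
    have h2 : N ^ x * N ^ (-ε) ≤ N ^ a := by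
      rw [← Real.rpow_add hN]
      exact Real.rpow_le_rpow_of_exponent_ge hN h (by linarith)
    nlinarith [mul_le_mul_of_nonneg_left h1 px.le]

theorem Tate_diff {f : ℂ → ℂ} (hf : AEStronglyMeasurable f volume) {a b : ℝ} {s : ℂ}
    (ha : a < s.re) (hb : s.re < b) (ia : Integrable fun z => ‖f z‖ * (‖z‖ ^ 2) ^ a)
    (ib : Integrable fun z => ‖f z‖ * (‖z‖ ^ 2) ^ b) :
    DifferentiableAt ℂ (fun x : ℂ => ∫ z : ℂ, f z * ((‖z‖ ^ 2 : ℝ) : ℂ) ^ x) s := by
  obtain ⟨ε, hε, h1, h2⟩ : ∃ ε : ℝ, 0 < ε ∧ 2 * ε ≤ s.re - a ∧ 2 * ε ≤ b - s.re :=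
    ⟨min (s.re - a) (b - s.re) / 2, by have := lt_min (sub_pos.2 ha) (sub_pos.2 hb); linarith,
      by have := min_le_left (s.re - a) (b - s.re); linarith,
      by have := min_le_right (s.re - a) (b - s.re); linarith⟩
  have hN : Measurable fun z : ℂ => ((‖z‖ ^ 2 : ℝ) : ℂ) := by fun_prop
  have hm : ∀ x : ℂ, AEStronglyMeasurable (fun z : ℂ => f z * ((‖z‖ ^ 2 : ℝ) : ℂ) ^ x) volume :=
    fun x => hf.mul (hN.pow_const x).aestronglyMeasurable
  have hre : ∀ x ∈ Metric.ball s ε, a + ε ≤ x.re ∧ x.re + ε ≤ b := fun x hx => by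
    have h3 : |(x - s).re| ≤ ‖x - s‖ := Complex.abs_re_le_norm _
    rw [mem_ball_iff_norm] at hx
    rw [Complex.sub_re, abs_le] at h3
    constructor <;> linarith [h3.1, h3.2]
  refine (hasDerivAt_integral_of_dominated_loc_of_deriv_le (s := Metric.ball s ε)
    (F := fun x z => f z * ((‖z‖ ^ 2 : ℝ) : ℂ) ^ x)
    (F' := fun x z => f z * (((‖z‖ ^ 2 : ℝ) : ℂ) ^ x * Complex.log ((‖z‖ ^ 2 : ℝ) : ℂ)))
    (bound := fun z => (‖f z‖ * (‖z‖ ^ 2) ^ a + ‖f z‖ * (‖z‖ ^ 2) ^ b) / ε)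
    (Metric.ball_mem_nhds s hε) (Eventually.of_forall hm) ?_ ?_ ?_ ((ia.add ib).div_const ε)
    ?_).2.differentiableAt
  · refine (ia.add ib).mono' (hm s) ?_
    filter_upwards [Tate_ae] with z hz
    rw [norm_mul, Complex.norm_cpow_eq_rpow_re_of_pos hz, Pi.add_apply, ← mul_add]
    refine mul_le_mul_of_nonneg_left ?_ (norm_nonneg _)
    have pa := Real.rpow_pos_of_pos hz a
    have pb := Real.rpow_pos_of_pos hz b
    rcases le_total 1 (‖z‖ ^ 2) with h | h
    · have := Real.rpow_le_rpow_of_exponent_le h hb.le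
      linarith
    · have := Real.rpow_le_rpow_of_exponent_ge hz h ha.le
      linarith
  · exact hf.mul ((hN.pow_const s).mul (Complex.measurable_log.comp hN)).aestronglyMeasurable
  · filter_upwards [Tate_ae] with z hz x hx
    rw [norm_mul, norm_mul, Complex.norm_cpow_eq_rpow_re_of_pos hz, ← Complex.ofReal_log hz.le,
      Complex.norm_real, Real.norm_eq_abs, ← mul_add, mul_div_assoc]
    exact mul_le_mul_of_nonneg_left (Tate_logb hz hε (hre x hx).1 (hre x hx).2) (norm_nonneg _)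
  · filter_upwards [Tate_ae] with z hz x hx
    have h0 : ((‖z‖ ^ 2 : ℝ) : ℂ) ≠ 0 := by exact_mod_cast hz.ne'
    have := ((hasDerivAt_id x).const_cpow (c := ((‖z‖ ^ 2 : ℝ) : ℂ)) (Or.inl h0)).const_mul (f z)
    simpa using this

theorem Tate_rad (hb : BA) {σ : ℝ} {k : ℕ} (h0 : 0 < σ) (hk : σ < k) :
    Integrable fun z : ℂ => (1 + ‖z‖ ^ 2) ^ (-(k : ℝ)) * (‖z‖ ^ 2) ^ (σ - 1) := by
  have hc : ContinuousOn (fun y : ℝ => (1 + y) ^ (-(k : ℝ)) * y ^ (σ - 1)) (Set.Ioi 0) := by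
    refine ContinuousOn.mul ?_ ?_
    · exact (continuousOn_const.add continuousOn_id).rpow_const fun y hy =>
        Or.inl (ne_of_gt (add_pos one_pos hy))
    · exact continuousOn_id.rpow_const fun y hy => Or.inl (ne_of_gt hy)
  have h1 : IntegrableOn (fun y : ℝ => (1 + y) ^ (-(k : ℝ)) * y ^ (σ - 1)) (Set.Ioi 0) := by
    rw [← Set.Ioc_union_Ioi_eq_Ioi zero_le_one]
    refine IntegrableOn.union ?_ ?_
    · have hi : IntegrableOn (fun y : ℝ => y ^ (σ - 1)) (Set.Ioc 0 1) :=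
        (intervalIntegral.intervalIntegrable_rpow' (a := 0) (b := 1) (by linarith)).1
      refine Integrable.mono' hi ((hc.mono Set.Ioc_subset_Ioi_self).aestronglyMeasurable
        measurableSet_Ioc) ?_
      refine (ae_restrict_iff' measurableSet_Ioc).2 (Eventually.of_forall fun y hy => ?_)
      have p1 := Real.rpow_pos_of_pos hy.1 (σ - 1)
      have p2 : (1 + y) ^ (-(k : ℝ)) ≤ 1 :=
        Real.rpow_le_one_of_one_le_of_nonpos (by linarith [hy.1]) (by simp)
      have p3 := Real.rpow_pos_of_pos (show 0 < 1 + y by linarith [hy.1]) (-(k : ℝ))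
      rw [Real.norm_eq_abs, abs_of_pos (by positivity)]
      nlinarith
    · have hi : IntegrableOn (fun y : ℝ => y ^ (-(k : ℝ) + (σ - 1))) (Set.Ioi 1) :=
        integrableOn_Ioi_rpow_of_lt (by linarith) one_pos
      refine Integrable.mono' hi ((hc.mono (Set.Ioi_subset_Ioi zero_le_one)).aestronglyMeasurable
        measurableSet_Ioi) ?_
      refine (ae_restrict_iff' measurableSet_Ioi).2 (Eventually.of_forall fun y hy => ?_)
      have hy1 : (1 : ℝ) < y := hy
      have hy0 : 0 < y := by linarith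
      have p1 := Real.rpow_pos_of_pos hy0 (σ - 1)
      have p3 := Real.rpow_pos_of_pos (show 0 < 1 + y by linarith) (-(k : ℝ))
      have p2 : (1 + y) ^ (-(k : ℝ)) ≤ y ^ (-(k : ℝ)) :=
        Real.rpow_le_rpow_of_nonpos hy0 (by linarith) (by simp)
      rw [Real.norm_eq_abs, abs_of_pos (by positivity), Real.rpow_add hy0]
      exact mul_le_mul_of_nonneg_right p2 p1.le
  have h2 := (hb.polar_int fun y => (((1 + y) ^ (-(k : ℝ)) * y ^ (σ - 1) : ℝ) : ℂ)).2 h1.ofReal
  have h3 := h2.re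
  simpa only [RCLike.re_to_complex, Complex.ofReal_re] using h3

theorem Tate_wint {w : ℂ → ℂ} (hw : ContDiff ℝ ∞ w) (hs : ∀ z, w z ≠ 0 → 1 ≤ ‖z‖ ∧ ‖z‖ ≤ 2) :
    Integrable w := by
  refine hw.continuous.integrable_of_hasCompactSupport ?_
  refine HasCompactSupport.intro (isCompact_closedBall (0 : ℂ) 2) fun z hz => ?_
  by_contra h
  exact hz (mem_closedBall_zero_iff.2 (hs z h).2)

theorem Tate_wpow {w : ℂ → ℂ} (hw : ContDiff ℝ ∞ w) (hs : ∀ z, w z ≠ 0 → 1 ≤ ‖z‖ ∧ ‖z‖ ≤ 2)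
    (r : ℝ) : Integrable fun z => ‖w z‖ * (‖z‖ ^ 2) ^ r := by
  refine ((Tate_wint hw hs).norm.mul_const ((4 : ℝ) ^ |r|)).mono' ?_ ?_
  · exact hw.continuous.norm.aestronglyMeasurable.mul
      (Measurable.pow_const (by fun_prop) r).aestronglyMeasurable
  · refine Eventually.of_forall fun z => ?_
    rw [Real.norm_eq_abs, abs_of_nonneg (by positivity)]
    by_cases h : w z = 0
    · simp [h]
    · obtain ⟨h1, h2⟩ := hs z h
      refine mul_le_mul_of_nonneg_left ?_ (norm_nonneg _)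
      have a1 : 1 ≤ ‖z‖ ^ 2 := by nlinarith
      calc (‖z‖ ^ 2) ^ r ≤ (‖z‖ ^ 2) ^ |r| := Real.rpow_le_rpow_of_exponent_le a1 (le_abs_self r)
        _ ≤ _ := Real.rpow_le_rpow (by positivity) (by nlinarith) (abs_nonneg r)

theorem Tate_fpow (hb : BA) {w : ℂ → ℂ} (hw : ContDiff ℝ ∞ w)
    (hs : ∀ z, w z ≠ 0 → 1 ≤ ‖z‖ ∧ ‖z‖ ≤ 2) {σ : ℝ} (h0 : 0 < σ) :
    Integrable fun z => ‖ft w z‖ * (‖z‖ ^ 2) ^ (σ - 1) := by
  obtain ⟨k, hk⟩ := exists_nat_gt σ
  obtain ⟨C, hC, hf⟩ := ft_le (2 * k)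
  obtain ⟨W, hW, hD⟩ := exists_DB hw (fun z hz => (hs z hz).2) (2 * k)
  have hf := hf w W hw (fun z hz => (hs z hz).2) hD
  refine ((Tate_rad hb h0 hk).const_mul (C * W)).mono' ?_ ?_
  · exact (continuous_ft (Tate_wint hw hs)).norm.aestronglyMeasurable.mul
      (Measurable.pow_const (by fun_prop) _).aestronglyMeasurable
  · refine Eventually.of_forall fun z => ?_
    rw [Real.norm_eq_abs, abs_of_nonneg (by positivity), ← mul_assoc]
    refine mul_le_mul_of_nonneg_right ((hf z).trans ?_) (by positivity)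
    refine mul_le_mul_of_nonneg_left ?_ (by positivity)
    have hz := norm_nonneg z
    have e : (1 + ‖z‖) ^ (-((2 * k : ℕ) : ℝ)) = ((1 + ‖z‖) ^ 2) ^ (-(k : ℝ)) := by
      rw [← Real.rpow_natCast, ← Real.rpow_mul (by positivity)]
      congr 1
      push_cast
      ring
    rw [e]
    exact Real.rpow_le_rpow_of_nonpos (by positivity) (by nlinarith) (by simp)

theorem tateW (hb : BA) (h : Tate) : TateW := by
  intro w s hw hs h0
  have h3 : (0 : ℝ) < √3 := by positivity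
  have hU : IsOpen {x : ℂ | 0 < x.re} := isOpen_lt continuous_const Complex.continuous_re
  have hL : DifferentiableOn ℂ (fun x : ℂ => ∫ z : ℂ, ft w z * ((‖z‖ ^ 2 : ℝ) : ℂ) ^ (x - 1))
      {x : ℂ | 0 < x.re} := by
    intro x hx
    have hx0 : 0 < x.re := hx
    have := Tate_diff (continuous_ft (Tate_wint hw hs)).aestronglyMeasurable (s := x - 1)
      (a := x.re / 2 - 1) (b := x.re + 1 - 1) (by simp; linarith) (by simp)
      (Tate_fpow hb hw hs (by linarith)) (Tate_fpow hb hw hs (by linarith))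
    exact (this.comp x (differentiableAt_id.sub_const 1)).differentiableWithinAt
  have hR : DifferentiableOn ℂ (fun x : ℂ => gam0 x * ∫ y : ℂ, w y * ((‖y‖ ^ 2 : ℝ) : ℂ) ^ (-x))
      {x : ℂ | 0 < x.re} := by
    intro x hx
    have hx0 : 0 < x.re := hx
    have d1 := Tate_diff hw.continuous.aestronglyMeasurable (s := -x)
      (a := (-x).re - 1) (b := (-x).re + 1) (by linarith) (by linarith)
      (Tate_wpow hw hs _) (Tate_wpow hw hs _)
    have d2 := d1.comp x differentiableAt_id.neg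
    have hc : ((2 * Real.pi / √3 : ℝ) : ℂ) ≠ 0 := by
      rw [Ne, Complex.ofReal_eq_zero]; have := Real.pi_pos; positivity
    have d3 : DifferentiableAt ℂ (fun x : ℂ => ((2 * Real.pi / √3 : ℝ) : ℂ) ^ (1 - 2 * x)) x :=
      DifferentiableAt.const_cpow (by fun_prop) (Or.inl hc)
    have d4 : DifferentiableAt ℂ Complex.Gamma x :=
      Complex.differentiableAt_Gamma x fun m hm => by
        rw [hm] at hx0
        simp at hx0
        linarith [Nat.cast_nonneg (α := ℝ) m]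
    have d5 : DifferentiableAt ℂ (fun x : ℂ => (Complex.Gamma (1 - x))⁻¹) x :=
      (Complex.differentiable_one_div_Gamma (1 - x)).comp x (by fun_prop)
    have d6 : DifferentiableAt ℂ gam0 x := by
      have := (d3.fun_mul d4).fun_mul d5
      refine this.congr_of_eventuallyEq (Eventually.of_forall fun y => ?_)
      simp only [gam0, div_eq_mul_inv]
    exact (d6.fun_mul d2).differentiableWithinAt
  have hcv : Convex ℝ {x : ℂ | 0 < x.re} := convex_halfSpace_re_gt 0
  refine (hL.analyticOnNhd hU).eqOn_of_preconnected_of_eventuallyEq (hR.analyticOnNhd hU)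
    hcv.isPreconnected (z₀ := 1 / 2) (by simp) ?_ h0
  have hV : IsOpen {x : ℂ | 0 < x.re ∧ x.re < 1} :=
    hU.inter (isOpen_lt Complex.continuous_re continuous_const)
  filter_upwards [hV.mem_nhds (show (1 / 2 : ℂ) ∈ {x : ℂ | 0 < x.re ∧ x.re < 1} by
    constructor <;> norm_num)] with x hx
  have ef : ∀ z : ℂ, ∫ y, w y * psi (-y * z) = ((√3 / 2 : ℝ) : ℂ) * ft w z := fun z => by
    unfold ft
    rw [← mul_assoc, ← Complex.ofReal_mul, show √3 / 2 * (2 / √3) = 1 by field_simp]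
    simp
  have key := h w (fun y => -y) x hx.1 hx.2 (Tate_wint hw hs) measurable_neg
    (by simp [ae_iff]) (by simpa using Tate_wpow hw hs (-x.re))
    (((Tate_fpow hb hw hs hx.1).const_mul (√3 / 2)).congr (Eventually.of_forall fun z => by
      beta_reduce
      rw [ef, norm_mul, Complex.norm_real, Real.norm_eq_abs, abs_of_pos (by positivity)]
      ring))
  simp only [ef, norm_neg, mul_assoc] at key
  rw [integral_const_mul] at key
  have h0 : ((√3 / 2 : ℝ) : ℂ) ≠ 0 := by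
    rw [Ne, Complex.ofReal_eq_zero]; positivity
  exact mul_left_cancel₀ h0 key

end Pat
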