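import Vale.Agent.P006.IfA
import Vale.Agent.P026.Cnt
import Vale.Agent.P026.Sym

/-! P006: the asymptotic formula for theta sums. -/

noncomputable section
namespace Pat
open QRH Complex MeasureTheory Filter
open scoped ComplexConjugate Classical ContDiff Topology

def thFin_a (r q : Finset P) (c : E) : ℂ := if pr r ∣ c then conj (xs c3 q c) * th c else 0

theorem thFin_pos {R : ℝ} {c : E} (hc : c ∈ pball R) : (1 : ℝ) ≤ nm c :=
  one_le_nmR (mem_ball.1 (Finset.mem_filter.1 hc).1).1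

theorem thFin_ext {W : ℝ → ℂ} (hW : ∀ v, W v ≠ 0 → v ≤ 1) (r q : Finset P) {t R : ℝ}
    (hR : 3 * Real.exp t ≤ R) :
    Th0 W r q (Real.exp t) = ∑ c ∈ pball R, thFin_a r q c * W (Real.log (nm c) - t) := by
  have h1 : Th0 W r q (Real.exp t)
      = ∑ c ∈ pball (3 * Real.exp t), thFin_a r q c * W (Real.log (nm c) - t) := by
    refine Finset.sum_congr rfl fun c hc => ?_
    rw [Real.log_div (by linarith [thFin_pos hc]) (Real.exp_pos t).ne', Real.log_exp]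
    rfl
  rw [h1]
  refine Finset.sum_subset (fun c hc => ?_) fun c hc hc' => ?_
  · rw [pball, Finset.mem_filter, mem_ball] at hc ⊢
    exact ⟨⟨hc.1.1, hc.1.2.trans hR⟩, hc.2⟩
  · have h2 := thFin_pos hc
    rw [pball, Finset.mem_filter, mem_ball] at hc hc'
    have h3 : W (Real.log (nm c) - t) = 0 := by
      by_contra h4
      refine hc' ⟨⟨hc.1.1, ?_⟩, hc.2⟩
      have h5 : Real.log (nm c) ≤ 1 + t := by linarith [hW _ h4]
      rw [Real.log_le_iff_le_exp (by linarith), Real.exp_add] at h5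
      nlinarith [Real.exp_one_lt_three, Real.exp_pos t]
    rw [h3, mul_zero]

theorem thFin_abs (hb : BA) : ∃ C : ℝ, 0 ≤ C ∧ ∀ R : ℝ, 0 ≤ R →
    ∑ c ∈ pball R, ‖th c‖ ≤ C * R := by
  have hs := summable_nm_rpow (σ := 2) one_lt_two
  refine ⟨12 * ∑' x : E, (nm x : ℝ) ^ (-2 : ℝ),
    mul_nonneg (by norm_num) (tsum_nonneg fun x => by positivity), fun R hR => ?_⟩
  have h1 := hb.th_sum_abs R (fun c => if (nm c : ℝ) ≤ R then 1 else 0)
    fun c hc => if_neg (not_le.2 hc)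
  have h2 : ∑ c ∈ pball R, ‖th c‖ = ∑ c ∈ pball R, ‖th c‖ * if (nm c : ℝ) ≤ R then 1 else 0 :=
    Finset.sum_congr rfl fun c hc => by rw [if_pos ((hb.mem_pball R c).1 hc).2, mul_one]
  rw [h2, h1]
  have h3 : ∀ d ∈ pball R, ∑ s ∈ sqf R, √(nm d : ℝ) *
      (if (nm (pr s * d ^ 3) : ℝ) ≤ R then 1 else 0) ≤ 12 * R * (nm d : ℝ) ^ (-2 : ℝ) := by
    intro d hd
    have a1 := thFin_pos hd
    have a2 : (0 : ℝ) < (nm d : ℝ) ^ 3 := by positivity
    rw [← Finset.mul_sum, ← Finset.sum_filter, Finset.sum_const, nsmul_eq_mul, mul_one]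
    have a3 : ((sqf R).filter fun s => (nm (pr s * d ^ 3) : ℝ) ≤ R) ⊆ sqf (R / (nm d : ℝ) ^ 3) := by
      intro s hs
      have a4 := (Finset.mem_filter.1 hs).2
      rw [nm_mul, nm_pow] at a4
      push_cast at a4
      exact mem_sqf.2 ((le_div_iff₀ a2).2 a4)
    have a5 : (((sqf R).filter fun s => (nm (pr s * d ^ 3) : ℝ) ≤ R).card : ℝ)
        ≤ 12 * (R / (nm d : ℝ) ^ 3) :=
      (Nat.cast_le.2 (Finset.card_le_card a3)).trans (card_sqf_le (by positivity))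
    have a6 : √(nm d : ℝ) ≤ nm d := Real.sqrt_le_left (by linarith) |>.2 (by nlinarith)
    calc _ ≤ (nm d : ℝ) * (12 * (R / (nm d : ℝ) ^ 3)) := by gcongr
      _ = _ := by
        rw [Real.rpow_neg (by linarith), Real.rpow_two]
        field_simp
  refine (Finset.sum_le_sum h3).trans ?_
  rw [← Finset.mul_sum]
  have h4 := hs.sum_le_tsum (pball R) fun x _ => by positivity
  nlinarith

theorem thFin_grow (hb : BA) {W : ℝ → ℂ} {D : ℝ} (hD : ∀ v, ‖W v‖ ≤ D) (r q : Finset P) :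
    ∃ C : ℝ, ∀ x : ℝ, 0 ≤ x → ‖Th0 W r q x‖ ≤ C * x := by
  obtain ⟨C, hC, h⟩ := thFin_abs hb
  have hD0 : 0 ≤ D := (norm_nonneg _).trans (hD 0)
  refine ⟨C * 3 * D, fun x hx => (norm_sum_le _ _).trans ?_⟩
  have h1 := mul_le_mul_of_nonneg_right (h (3 * x) (by linarith)) hD0
  rw [Finset.sum_mul] at h1
  refine le_trans (Finset.sum_le_sum fun c _ => ?_) (h1.trans (le_of_eq (by ring)))
  rw [norm_mul]
  refine mul_le_mul ?_ (hD _) (norm_nonneg _) (norm_nonneg _)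
  split_ifs
  · rw [norm_mul, Complex.norm_conj]
    exact mul_le_of_le_one_left (norm_nonneg _) (norm_xs_le ch_c3 _ _)
  · simp

theorem thFin_supp {φ : ℝ → ℂ} (hφ : Bump φ) {T : ℝ} (hT : 1 ≤ T) (v : ℝ) (h : φ (T * v) ≠ 0) :
    0 ≤ v ∧ v ≤ 1 := by
  obtain ⟨h1, h2⟩ := hφ.supp _ h
  have h3 : 0 ≤ v := (mul_nonneg_iff_of_pos_left (by linarith)).1 h1
  exact ⟨h3, by nlinarith⟩

theorem thFin_dsupp {φ : ℝ → ℂ} (hφ : Bump φ) {T : ℝ} (hT : 1 ≤ T) (v : ℝ)
    (h : dphi φ T v ≠ 0) : v ≤ 1 := by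
  by_contra hc
  have h1 : 1 < T * v := by nlinarith [not_le.1 hc]
  have h2 : φ =ᶠ[𝓝 (T * v)] fun _ => 0 := by
    filter_upwards [Ioi_mem_nhds h1] with u hu
    by_contra h3
    exact absurd (hφ.supp u h3).2 (not_le.2 hu)
  apply h
  rw [dphi, h2.deriv_eq, h2.eq_of_nhds]
  simp

theorem thFin_dexp (a t : ℝ) :
    HasDerivAt (fun s : ℝ => ((Real.exp (a * s) : ℝ) : ℂ)) ((Real.exp (a * t) * a : ℝ) : ℂ) t := by
  have h := ((hasDerivAt_id t).const_mul a).exp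
  simp only [id, mul_one] at h
  exact h.ofReal_comp

theorem thFin_deriv {φ : ℝ → ℂ} (hφ : Bump φ) {T : ℝ} (hT : 1 ≤ T) (r q : Finset P) (t : ℝ) :
    HasDerivAt (fun s : ℝ => ((Real.exp (-(7 / 6) * s) : ℝ) : ℂ) *
        Th0 (fun v => φ (T * v)) r q (Real.exp s))
      (-(((Real.exp (-(7 / 6) * t) : ℝ) : ℂ) * Th0 (dphi φ T) r q (Real.exp t))) t := by
  have hR : ∀ s, s ≤ t + 1 → 3 * Real.exp s ≤ 3 * Real.exp (t + 1) := fun s hs => by gcongr
  have h1 : ∀ u : ℝ, HasDerivAt (fun s : ℝ => φ (T * (u - s))) (-(T * deriv φ (T * (u - t)))) t := by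
    intro u
    have a1 : HasDerivAt (fun s : ℝ => T * (u - s)) (T * -1) t :=
      ((hasDerivAt_id t).const_sub u).const_mul T
    have a2 := ((hφ.smooth.differentiable (by simp)) (T * (u - t))).hasDerivAt.scomp t a1
    refine a2.congr_deriv ?_
    rw [Complex.real_smul]
    push_cast
    ring
  have h2 := HasDerivAt.fun_sum (u := pball (3 * Real.exp (t + 1))) fun c _ =>
    (h1 (Real.log (nm c))).const_mul (thFin_a r q c)
  have h3 := (thFin_dexp (-(7 / 6)) t).mul h2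
  refine (h3.congr_of_eventuallyEq ?_).congr_deriv ?_
  · filter_upwards [Iio_mem_nhds (lt_add_one t)] with s hs
    rw [thFin_ext (fun v hv => (thFin_supp hφ hT v hv).2) r q (hR s (le_of_lt hs))]
    rfl
  · rw [thFin_ext (thFin_dsupp hφ hT) r q (hR t (by linarith)), Finset.mul_sum, Finset.mul_sum,
      Finset.mul_sum, ← Finset.sum_add_distrib, ← Finset.sum_neg_distrib]
    refine Finset.sum_congr rfl fun c _ => ?_
    rw [dphi]
    push_cast
    ring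

theorem thFin_lim {a : ℝ} (ha : a < 0) : Tendsto (fun s : ℝ => Real.exp (a * s)) atTop (𝓝 0) :=
  Real.tendsto_exp_atBot.comp (tendsto_id.const_mul_atTop_of_neg ha)

theorem thFin_int (hb : BA) {φ : ℝ → ℂ} (hφ : Bump φ) {T : ℝ} (hT : 1 ≤ T) (r q : Finset P)
    (A : ℂ) (B t₀ : ℝ)
    (h : ∀ t, t₀ ≤ t → ‖Th0 (dphi φ T) r q (Real.exp t) - A * (Real.exp (5 / 6 * t) : ℝ)‖ ≤ B) :
    ‖Th0 (fun v => φ (T * v)) r q (Real.exp t₀) - 3 * A * (Real.exp (5 / 6 * t₀) : ℝ)‖ ≤ B := by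
  have hB : 0 ≤ B := (norm_nonneg _).trans (h t₀ le_rfl)
  set G : ℝ → ℂ := fun s => ((Real.exp (-(7 / 6) * s) : ℝ) : ℂ) *
    Th0 (fun v => φ (T * v)) r q (Real.exp s) - 3 * A * (Real.exp (-(1 / 3) * s) : ℝ) with hG
  have he : ∀ t : ℝ, Real.exp (-(1 / 3) * t) = Real.exp (-(7 / 6) * t) * Real.exp (5 / 6 * t) :=
    fun t => by rw [← Real.exp_add]; congr 1; ring
  have hd : ∀ t, HasDerivAt G (-(((Real.exp (-(7 / 6) * t) : ℝ) : ℂ) *
      (Th0 (dphi φ T) r q (Real.exp t) - A * (Real.exp (5 / 6 * t) : ℝ)))) t := by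
    intro t
    refine ((thFin_deriv hφ hT r q t).sub
      ((thFin_dexp (-(1 / 3)) t).const_mul (3 * A))).congr_deriv ?_
    rw [he]
    push_cast
    ring
  have hB' : ∀ t, HasDerivAt
      (fun s => 6 / 7 * B * (Real.exp (-(7 / 6) * t₀) - Real.exp (-(7 / 6) * s)))
      (Real.exp (-(7 / 6) * t) * B) t := by
    intro t
    have a1 := ((((hasDerivAt_id t).const_mul (-(7 / 6) : ℝ)).exp).const_sub
      (Real.exp (-(7 / 6) * t₀))).const_mul (6 / 7 * B)
    refine a1.congr_deriv ?_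
    simp only [id]
    ring
  have h1 : ∀ M, t₀ ≤ M → ‖G M - G t₀‖ ≤ B * Real.exp (-(7 / 6) * t₀) := by
    intro M hM
    have a1 := image_norm_le_of_norm_deriv_right_le_deriv_boundary (a := t₀) (b := M)
      (f := fun s => G s - G t₀)
      (fun s _ => ((hd s).sub_const _).continuousAt.continuousWithinAt)
      (fun s _ => ((hd s).sub_const _).hasDerivWithinAt) (by simp) hB'
      (fun s hs => by
        rw [norm_neg, norm_mul, Complex.norm_real, Real.norm_eq_abs, abs_of_pos (Real.exp_pos _)]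
        exact mul_le_mul_of_nonneg_left (h s hs.1) (Real.exp_pos _).le) ⟨hM, le_rfl⟩
    refine a1.trans ?_
    have a2 := mul_nonneg hB (Real.exp_pos (-(7 / 6) * t₀)).le
    have a3 := mul_nonneg hB (Real.exp_pos (-(7 / 6) * M)).le
    nlinarith
  have h2 : Tendsto G atTop (𝓝 0) := by
    obtain ⟨D, -, hD⟩ := hb.bump_bd φ hφ 0
    obtain ⟨C, hC⟩ := thFin_grow hb (W := fun v => φ (T * v)) (D := D)
      (fun v => by simpa using hD.bd 0 le_rfl (T * v)) r q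
    have a1 : Tendsto (fun s : ℝ => C * Real.exp (-(1 / 6) * s) +
        ‖3 * A‖ * Real.exp (-(1 / 3) * s)) atTop (𝓝 0) := by
      simpa using ((thFin_lim (a := -(1 / 6)) (by norm_num)).const_mul C).add
        ((thFin_lim (a := -(1 / 3)) (by norm_num)).const_mul ‖3 * A‖)
    refine squeeze_zero_norm (fun s => (norm_sub_le _ _).trans (add_le_add ?_ ?_)) a1
    · rw [norm_mul, Complex.norm_real, Real.norm_eq_abs, abs_of_pos (Real.exp_pos _)]
      have a2 := mul_le_mul_of_nonneg_left (hC _ (Real.exp_pos s).le)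
        (Real.exp_pos (-(7 / 6) * s)).le
      have a3 : Real.exp (-(1 / 6) * s) = Real.exp (-(7 / 6) * s) * Real.exp s := by
        rw [← Real.exp_add]; congr 1; ring
      rw [a3]
      linarith
    · rw [norm_mul, Complex.norm_real, Real.norm_eq_abs, abs_of_pos (Real.exp_pos _)]
  have h3 : ‖0 - G t₀‖ ≤ B * Real.exp (-(7 / 6) * t₀) :=
    le_of_tendsto (h2.sub_const _).norm (eventually_atTop.2 ⟨t₀, h1⟩)
  have h4 : G t₀ = ((Real.exp (-(7 / 6) * t₀) : ℝ) : ℂ) *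
      (Th0 (fun v => φ (T * v)) r q (Real.exp t₀) - 3 * A * (Real.exp (5 / 6 * t₀) : ℝ)) := by
    simp only [hG]
    rw [he]
    push_cast
    ring
  rw [zero_sub, norm_neg, h4, norm_mul, Complex.norm_real, Real.norm_eq_abs,
    abs_of_pos (Real.exp_pos _), mul_comm] at h3
  exact le_of_mul_le_mul_right h3 (Real.exp_pos _)

/-- weights supported in `[0, 1]` -/
structure thFin_W (W : ℝ → ℂ) : Prop where
  cont : Continuous W
  supp : ∀ v, W v ≠ 0 → 0 ≤ v ∧ v ≤ 1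

theorem thFin_W.int {W f : ℝ → ℂ} (h : thFin_W W) (hf : Continuous f) :
    Integrable fun v => W v * f v := by
  refine (h.cont.mul hf).integrable_of_hasCompactSupport
    (HasCompactSupport.intro (isCompact_Icc (a := 0) (b := 1)) fun v hv => ?_)
  have : W v = 0 := by
    by_contra hc
    exact hv (h.supp v hc)
  simp [this]

theorem thFin_conv {W1 W2 : ℝ → ℂ} (h1 : thFin_W W1) (h2 : thFin_W W2) {A : ℂ} {B : ℝ}
    (hA : ∀ t, 0 ≤ t → ‖Th0 W1 ∅ ∅ (Real.exp t) - A * (Real.exp (5 / 6 * t) : ℝ)‖ ≤ B)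
    {t : ℝ} (ht : 0 ≤ t) :
    ‖∑ c ∈ pball (3 * Real.exp (t + 1)),
        thFin_a ∅ ∅ c * (∫ v, W2 v * W1 (Real.log (nm c) - t - v))
      - A * (Real.exp (5 / 6 * t) : ℝ) * ∫ v, W2 v * (Real.exp (5 / 6 * v) : ℝ)‖
      ≤ B * ∫ v, ‖W2 v‖ := by
  have i1 : ∀ u : ℝ, Integrable fun v => W2 v * W1 (u - v) := fun u =>
    h2.int (h1.cont.comp (by fun_prop))
  have i2 : Integrable fun v => W2 v * (Real.exp (5 / 6 * v) : ℝ) := h2.int (by fun_prop)
  have i3 : Integrable fun v => B * ‖W2 v‖ := by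
    have := (h2.int (f := fun _ => 1) continuous_const).norm.const_mul B
    simpa using this
  simp only [← integral_const_mul]
  rw [← integral_finset_sum _ fun c _ => (i1 _).const_mul _,
    ← integral_sub (integrable_finset_sum _ fun c _ => (i1 _).const_mul _) (i2.const_mul _)]
  refine norm_integral_le_of_norm_le i3 (Eventually.of_forall fun v => ?_)
  by_cases hv : W2 v = 0
  · simp [hv]
  · obtain ⟨a1, a2⟩ := h2.supp v hv
    have a3 := hA (t + v) (by linarith)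
    rw [thFin_ext (fun u hu => (h1.supp u hu).2) ∅ ∅ (R := 3 * Real.exp (t + 1)) (by gcongr)] at a3
    have a4 := mul_le_mul_of_nonneg_right a3 (norm_nonneg (W2 v))
    rw [← norm_mul] at a4
    refine le_trans (le_of_eq ?_) a4
    congr 1
    rw [sub_mul, Finset.sum_mul, mul_add, Real.exp_add (5 / 6 * t)]
    congr 1
    · refine Finset.sum_congr rfl fun c _ => ?_
      rw [sub_sub]
      ring
    · push_cast
      ring

theorem thFin_uniq {W1 W2 : ℝ → ℂ} (h1 : thFin_W W1) (h2 : thFin_W W2) {A1 A2 : ℂ} {B1 B2 : ℝ}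
    (hA1 : ∀ t, 0 ≤ t → ‖Th0 W1 ∅ ∅ (Real.exp t) - A1 * (Real.exp (5 / 6 * t) : ℝ)‖ ≤ B1)
    (hA2 : ∀ t, 0 ≤ t → ‖Th0 W2 ∅ ∅ (Real.exp t) - A2 * (Real.exp (5 / 6 * t) : ℝ)‖ ≤ B2) :
    A1 * ∫ v, W2 v * (Real.exp (5 / 6 * v) : ℝ) = A2 * ∫ v, W1 v * (Real.exp (5 / 6 * v) : ℝ) := by
  have hs : ∀ u : ℝ, ∫ v, W1 v * W2 (u - v) = ∫ v, W2 v * W1 (u - v) := by
    intro u
    rw [← integral_sub_left_eq_self (fun v => W1 v * W2 (u - v)) volume u]
    simp only [sub_sub_cancel, mul_comm]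
  set Z := A1 * (∫ v, W2 v * (Real.exp (5 / 6 * v) : ℝ)) -
    A2 * ∫ v, W1 v * (Real.exp (5 / 6 * v) : ℝ) with hZ
  have hb : ∀ t, 0 ≤ t →
      ‖Z‖ ≤ (B1 * (∫ v, ‖W2 v‖) + B2 * ∫ v, ‖W1 v‖) * Real.exp (-(5 / 6) * t) := by
    intro t ht
    have a1 := thFin_conv h1 h2 hA1 ht
    have a2 := thFin_conv h2 h1 hA2 ht
    simp only [hs] at a2
    have a3 := (norm_sub_le _ _).trans (add_le_add a2 a1)
    rw [sub_sub_sub_cancel_left] at a3
    have a4 : A1 * (Real.exp (5 / 6 * t) : ℝ) * (∫ v, W2 v * (Real.exp (5 / 6 * v) : ℝ)) -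
        A2 * (Real.exp (5 / 6 * t) : ℝ) * ∫ v, W1 v * (Real.exp (5 / 6 * v) : ℝ) =
        Z * (Real.exp (5 / 6 * t) : ℝ) := by rw [hZ]; ring
    rw [a4, norm_mul, Complex.norm_real, Real.norm_eq_abs, abs_of_pos (Real.exp_pos _)] at a3
    rw [neg_mul, Real.exp_neg, ← div_eq_mul_inv, le_div_iff₀ (Real.exp_pos _)]
    linarith
  have h0 : ‖Z‖ ≤ 0 := by
    have a1 := (thFin_lim (a := -(5 / 6)) (by norm_num)).const_mul
      (B1 * (∫ v, ‖W2 v‖) + B2 * ∫ v, ‖W1 v‖)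
    rw [mul_zero] at a1
    exact ge_of_tendsto a1 (eventually_atTop.2 ⟨0, hb⟩)
  exact sub_eq_zero.1 (norm_le_zero_iff.1 h0)

theorem thFin_mk {φ : ℝ → ℂ} (hφ : Bump φ) {T : ℝ} (hT : 1 ≤ T) :
    thFin_W fun v => φ (T * v) :=
  ⟨hφ.smooth.continuous.comp (by fun_prop), thFin_supp hφ hT⟩

theorem thFin_mo (hb : BA) : mo (fun v => (bx v : ℂ)) 1 (5 / 6) ≠ 0 := by
  have h1 : mo (fun v => (bx v : ℂ)) 1 (5 / 6)
      = ((∫ v : ℝ, bx v * Real.exp (5 / 6 * v) : ℝ) : ℂ) := by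
    rw [← integral_complex_ofReal, mo]
    simp only [one_mul, Complex.ofReal_mul]
  have hc : Continuous bx := by
    unfold bx
    exact (Real.smoothTransition.continuous.comp (by fun_prop)).sub
      (Real.smoothTransition.continuous.comp (by fun_prop))
  rw [h1, Complex.ofReal_ne_zero]
  refine (Continuous.integral_pos_of_hasCompactSupport_nonneg_nonzero (x := 1 / 2)
    (hc.mul (by fun_prop))
    (HasCompactSupport.intro (isCompact_Icc (a := 0) (b := 1)) fun v hv => ?_)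
    (fun v => mul_nonneg (hb.bx_nonneg v) (Real.exp_pos _).le) ?_).ne'
  · have : bx v = 0 := by
      by_contra h2
      exact hv ⟨(hb.bx_supp v h2).1.le, (hb.bx_supp v h2).2.le⟩
    rw [Pi.mul_apply, this, zero_mul]
  · refine mul_ne_zero ?_ (Real.exp_pos _).ne'
    norm_num [bx]

theorem thFin_step (hb : BA) (h : ThZ) {φ : ℝ → ℂ} {ε : ℝ} (hφ : Bump φ) (hε : 0 < ε) :
    ∃ C : ℝ, 0 < C ∧ ∀ T : ℝ, 1 ≤ T → ∃ A : ℂ, ∀ (r q : Finset P) (t : ℝ), 1 / 3 ≤ Real.exp t →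
      ‖Th0 (fun v => φ (T * v)) r q (Real.exp t)
        - (if q = ∅ then A / (Ns r : ℝ) else 0) * (Real.exp (5 / 6 * t) : ℝ)‖
        ≤ C * T ^ (3 + ε) * Ns r ^ (1 / 2 + ε) * Ns q ^ (1 + ε) := by
  obtain ⟨C, hC, h1⟩ := h φ ε hφ hε
  refine ⟨C, hC, fun T hT => ?_⟩
  obtain ⟨A, hA⟩ := h1 T hT
  refine ⟨3 * A, fun r q t ht => ?_⟩
  have h2 := thFin_int hb hφ hT r q (if q = ∅ then A / (Ns r : ℝ) else 0) _ t fun s hs => by
    have a1 := hA r q (Real.exp s) (ht.trans (Real.exp_le_exp.2 hs))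
    refine le_trans (le_of_eq ?_) a1
    congr 2
    rw [← Real.exp_mul, mul_comm s]
    split_ifs
    · push_cast; ring
    · simp
  refine le_trans (le_of_eq ?_) h2
  congr 3
  split_ifs
  · ring
  · simp

theorem thFin (hb : BA) (h : ThZ) : ∃ κ : ℂ, ThetaT κ := by
  obtain ⟨C2, -, h2⟩ := thFin_step hb h hb.bx_bump one_pos
  obtain ⟨A2, hA2⟩ := h2 1 le_rfl
  have hm := thFin_mo hb
  have he : ∀ t : ℝ, 0 ≤ t → 1 / 3 ≤ Real.exp t := fun t ht => by
    linarith [Real.one_le_exp ht]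
  refine ⟨A2 / mo (fun v => (bx v : ℂ)) 1 (5 / 6), fun φ ε hφ hε => ?_⟩
  set κ := A2 / mo (fun v => (bx v : ℂ)) 1 (5 / 6) with hκ
  obtain ⟨C, hC, h1⟩ := thFin_step hb h hφ hε
  obtain ⟨Cm, hCm, h3⟩ := hb.mo_le φ hφ
  refine ⟨C + ‖κ‖ * Cm, by positivity, fun T r q x hT hx => ?_⟩
  obtain ⟨A, hA⟩ := h1 T hT
  have h4 : A = κ * mo φ T (5 / 6) := by
    have a1 := thFin_uniq (thFin_mk hφ hT) (thFin_mk hb.bx_bump le_rfl) (A1 := A) (A2 := A2)
      (fun t ht => by simpa [Ns_empty] using hA ∅ ∅ t (he t ht))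
      (fun t ht => by simpa [Ns_empty] using hA2 ∅ ∅ t (he t ht))
    change A * mo (fun v => (bx v : ℂ)) 1 (5 / 6) = A2 * mo φ T (5 / 6) at a1
    rw [hκ, div_mul_eq_mul_div, ← a1, mul_div_cancel_right₀ _ hm]
  have hr := one_le_Ns r
  have hq := one_le_Ns q
  have b1 : 1 ≤ T ^ (3 + ε) := Real.one_le_rpow hT (by linarith)
  have b2 : 1 ≤ Ns r ^ (1 / 2 + ε) := Real.one_le_rpow hr (by linarith)
  have b3 : 1 ≤ Ns q ^ (1 + ε) := Real.one_le_rpow hq (by linarith)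
  by_cases hx3 : 1 / 3 ≤ x
  · obtain ⟨t, rfl⟩ : ∃ t, x = Real.exp t := ⟨Real.log x, (Real.exp_log hx).symm⟩
    have a1 := hA r q t hx3
    refine le_trans (le_of_eq ?_) (a1.trans (by gcongr; linarith [mul_nonneg (norm_nonneg κ) hCm.le]))
    congr 2
    rw [← Real.exp_mul, mul_comm t, h4]
    split_ifs
    · push_cast; ring
    · simp
  · have a1 : Th0 (fun v => φ (T * v)) r q x = 0 := by
      refine Finset.sum_eq_zero fun c hc => ?_
      have a2 := thFin_pos hc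
      have a3 := ((hb.mem_pball _ c).1 hc).2
      linarith [not_le.1 hx3]
    have a2 : ‖κ‖ * Cm ≤ (C + ‖κ‖ * Cm) * T ^ (3 + ε) * Ns r ^ (1 / 2 + ε) * Ns q ^ (1 + ε) :=
      calc ‖κ‖ * Cm ≤ (C + ‖κ‖ * Cm) * 1 * 1 * 1 := by linarith
        _ ≤ _ := by gcongr
    rw [a1, zero_sub, norm_neg]
    refine le_trans ?_ a2
    split_ifs
    · have a3 : ‖mo φ T (5 / 6)‖ ≤ Cm :=
        (h3 T (5 / 6) hT (by rw [abs_of_pos] <;> norm_num)).trans (div_le_self hCm.le hT)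
      have a4 : x ^ (5 / 6 : ℝ) / Ns r ≤ 1 :=
        div_le_one_of_le₀ ((Real.rpow_le_one hx.le (by linarith [not_le.1 hx3])
          (by norm_num)).trans hr) (by linarith)
      rw [norm_mul, norm_mul, Complex.norm_real, Real.norm_eq_abs,
        abs_of_nonneg (by positivity)]
      calc _ ≤ ‖κ‖ * Cm * 1 := by gcongr
        _ = _ := mul_one _
    · rw [norm_zero]
      positivity

end Pat
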