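import Vale.Agent.P006.ThZAux1

/-! Theta sums with a differentiated weight. -/

noncomputable section
namespace Pat
open QRH Complex MeasureTheory Filter
open scoped ComplexConjugate Classical ContDiff Topology

theorem thz_term {a : ℕ} {ρ : E → ℂ} (hρ : ∀ c, ‖ρ c‖ ≤ 1) {q : E} (hq : q ≠ 0) (β : E)
    {w : ℂ → ℂ} {Y K σ : ℝ} (hY : 0 < Y) (hK : 0 ≤ K)
    (hw : ∀ z : ℂ, z ≠ 0 → ‖Kx w z‖ ≤ K * (‖z‖ ^ 2) ^ (-σ)) {D : E → ℂ} {M : ℝ}
    (hD : ∀ δ, ‖D δ‖ ≤ M) (δ : E) :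
    ‖if δ = 0 then 0 else bb a ρ q β δ * D δ * Kx w (zd a q Y δ)‖ ≤
      (nm (Lam a) : ℝ) ^ 2 * M * (K * (Y ^ 2 / ((nm (Lam a) : ℝ) * nm q) ^ 2) ^ (-σ))
        * thzg σ δ := by
  have hM := (norm_nonneg _).trans (hD 0)
  unfold thzg
  split_ifs with h0
  · simp
  have hL := Lam_ne_zero a
  have hLq := mul_ne_zero (pow_ne_zero 2 hL) (pow_ne_zero 2 hq)
  have h1 : zd a q Y δ ≠ 0 :=
    div_ne_zero (mul_ne_zero (toC_ne_zero h0) (ofReal_ne_zero.2 hY.ne')) (toC_ne_zero hLq)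
  have h2 : ‖zd a q Y δ‖ ^ 2 = nm δ * (Y ^ 2 / ((nm (Lam a) : ℝ) * nm q) ^ 2) := by
    rw [zd, norm_div, norm_mul, div_pow, mul_pow, ← nm_eq, ← nm_eq, Complex.norm_real,
      Real.norm_eq_abs, sq_abs, nm_mul, nm_pow, nm_pow]
    push_cast
    ring
  have h3 := hw _ h1
  rw [h2, Real.mul_rpow (by positivity) (by positivity)] at h3
  have h4 := norm_bb_le (a := a) hρ hq h0 β
  rw [norm_mul, norm_mul]
  calc _ ≤ (nm (Lam a) : ℝ) ^ 2 * ‖Tg δ‖ / nm (up lam δ) * M *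
        (K * ((nm δ : ℝ) ^ (-σ) * (Y ^ 2 / ((nm (Lam a) : ℝ) * nm q) ^ 2) ^ (-σ))) := by
        gcongr
        exact hD δ
    _ = _ := by ring

theorem thz_vor {a : ℕ} {ρ : E → ℂ} {q β : E} {w : ℂ → ℂ} {Y K σ : ℝ} {C1 Pol : ℂ}
    (hV : ∀ u η, q ∣ Lam a ^ 2 * u * η - 1 → VPr a ρ q u η β w Y)
    (hP : ∀ u η, VPr a ρ q u η β w Y →
      VLX (fun c => ρ c * psf (c * u) q) w Y = xv c3 q u * (((Y ^ (2 / 3 : ℝ) : ℝ) : ℂ) * Pol +
        C1 * (nm (Lam a) : ℂ) ^ 2 *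
      ∑' δ : E, if δ = 0 then 0 else bb a ρ q β δ * psf (-(η * δ)) q * Kx w (zd a q Y δ)))
    (hρ : ∀ c, ‖ρ c‖ ≤ 1) (hql : ¬ lam ∣ q) (hY : 0 < Y) (hK : 0 ≤ K) (hσ : 1 / 2 < σ)
    (hw : ∀ z : ℂ, z ≠ 0 → ‖Kx w z‖ ≤ K * (‖z‖ ^ 2) ^ (-σ)) {f : E → ℂ} (hf : Good q f)
    {M : ℝ} (hD : ∀ δ, ‖Dq a q f δ‖ ≤ M) :
    ‖VLX (fun c => ρ c * f c) w Y - ((Y ^ (2 / 3 : ℝ) : ℝ) : ℂ) * Pol * Dq a q f 0‖ ≤
      ‖C1‖ * (nm (Lam a) : ℝ) ^ 2 * ((nm (Lam a) : ℝ) ^ 2 * M *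
        (K * (Y ^ 2 / ((nm (Lam a) : ℝ) * nm q) ^ 2) ^ (-σ)) * ∑' δ, thzg σ δ) := by
  have hq1 : q ≠ 0 := fun h => hql (h ▸ dvd_zero _)
  have hs := thzg_summable hσ
  have e3 : VLX (fun c => ρ c * f c) w Y = ∑ u ∈ reps q, fh q f u *
      VLX (fun c => ρ c * psf (c * u) q) w Y := by
    simp only [VLX, Finset.mul_sum]
    rw [Finset.sum_comm]
    refine Finset.sum_congr rfl fun c _ => ?_
    have h1 : f c = ∑ u ∈ reps q, fh q f u * psf (c * u) q := by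
      refine mul_left_cancel₀ (du_nm_ne hq1) ?_
      rw [fourier_inv hq1 hf.1, rsum, Finset.mul_sum]
      refine Finset.sum_congr rfl fun u _ => ?_
      rw [fh, ← mul_assoc, mul_inv_cancel_left₀ (du_nm_ne hq1)]
    rw [h1, Finset.mul_sum, Finset.sum_mul]
    exact Finset.sum_congr rfl fun u _ => by ring
  have s3 : ∀ u, Summable fun δ : E => if δ = 0 then 0 else bb a ρ q β δ *
      (fh q f u * xv c3 q u * psf (-(inv q (Lam a ^ 2 * u) * δ)) q) * Kx w (zd a q Y δ) :=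
    fun u => Summable.of_norm_bounded (hs.mul_left _) (thz_term hρ hq1 β hY hK hw
      (D := fun δ => fh q f u * xv c3 q u * psf (-(inv q (Lam a ^ 2 * u) * δ)) q)
      fun δ => (by rw [norm_mul, norm_psf, mul_one] : _ = ‖fh q f u * xv c3 q u‖).le)
  have e4 : VLX (fun c => ρ c * f c) w Y - ((Y ^ (2 / 3 : ℝ) : ℝ) : ℂ) * Pol * Dq a q f 0 =
      C1 * (nm (Lam a) : ℂ) ^ 2 *
        ∑' δ : E, if δ = 0 then 0 else bb a ρ q β δ * Dq a q f δ * Kx w (zd a q Y δ) := by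
    have e5 : (∑' δ : E, if δ = 0 then 0 else bb a ρ q β δ * Dq a q f δ * Kx w (zd a q Y δ)) =
        ∑ u ∈ reps q, ∑' δ : E, if δ = 0 then 0 else bb a ρ q β δ *
          (fh q f u * xv c3 q u * psf (-(inv q (Lam a ^ 2 * u) * δ)) q) * Kx w (zd a q Y δ) := by
      rw [← Summable.tsum_finsetSum fun u _ => s3 u]
      refine tsum_congr fun δ => ?_
      split_ifs
      · simp
      · rw [Dq, rsum, Finset.mul_sum, Finset.sum_mul]
    rw [e3, e5, Dq, rsum, Finset.mul_sum, Finset.mul_sum, ← Finset.sum_sub_distrib]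
    refine Finset.sum_congr rfl fun u _ => ?_
    by_cases hu : IsCoprime u q
    · have hη := inv_spec (((coprime_Lam hql a).symm.pow_left (m := 2)).mul_left hu)
      have e6 : (∑' δ : E, if δ = 0 then 0 else bb a ρ q β δ *
          (fh q f u * xv c3 q u * psf (-(inv q (Lam a ^ 2 * u) * δ)) q) * Kx w (zd a q Y δ)) =
          fh q f u * xv c3 q u * ∑' δ : E, if δ = 0 then 0 else bb a ρ q β δ *
            psf (-(inv q (Lam a ^ 2 * u) * δ)) q * Kx w (zd a q Y δ) := by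
        rw [← tsum_mul_left]
        refine tsum_congr fun δ => ?_
        split_ifs <;> ring
      rw [hP u _ (hV u _ hη), e6, mul_zero, neg_zero, psf_of_dvd (dvd_zero _)]
      ring
    · simp [hf.2 u hu]
  rw [e4, norm_mul, norm_mul, norm_pow, Complex.norm_natCast, ← tsum_mul_left]
  exact mul_le_mul_of_nonneg_left (tsum_of_norm_bounded (hs.mul_left _).hasSum
    (thz_term hρ hq1 β hY hK hw hD)) (by positivity)

theorem thz_supp {φ : ℝ → ℂ} (hφ : Bump φ) {T v : ℝ} (hT : 1 ≤ T) (hv : 1 < v) :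
    dphi φ T v = 0 := by
  have h1 : 1 < T * v := by nlinarith
  have h2 : φ =ᶠ[𝓝 (T * v)] fun _ => 0 := by
    filter_upwards [Ioi_mem_nhds h1] with y hy
    by_contra h
    exact absurd (hφ.supp y h).2 (not_le.2 hy)
  rw [dphi, h2.deriv_eq, h2.eq_of_nhds, deriv_const]
  simp

theorem thz_vlx (hb : BA) {φ : ℝ → ℂ} (hφ : Bump φ) {T x : ℝ} (hT : 1 ≤ T) (hx : 0 < x)
    (F : E → ℂ) :
    ∑ c ∈ pball (3 * x), F c * th c * dphi φ T (Real.log (nm c / x)) =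
      (√x : ℝ) * VLX (fun c => rho0 c * F c) (wphi φ T) (√x) := by
  have hs : 0 < √x := Real.sqrt_pos.2 hx
  rw [VLX, Real.sq_sqrt hx.le, Finset.mul_sum]
  have e : ∀ c : E, c ≠ 0 → ((√x : ℝ) : ℂ) * (rho0 c * F c * (wphi φ T (toC c / (√x : ℝ)) *
      ((‖toC c / (√x : ℝ)‖ ^ (2 / 3 : ℝ) : ℝ) : ℂ) * Tg c / (nm c : ℂ))) =
      if Pm c then F c * th c * dphi φ T (Real.log (nm c / x)) else 0 := fun c hc => by
    have h1 := one_le_nmR hc
    have h2 : 0 < √(nm c : ℝ) := Real.sqrt_pos.2 (by linarith)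
    have h3 : ‖toC c / (√x : ℝ)‖ = √(nm c : ℝ) / √x := by
      rw [norm_div, norm_toC, Complex.norm_real, Real.norm_of_nonneg hs.le]
    have h4 : ‖toC c / (√x : ℝ)‖ ^ 2 = nm c / x := by
      rw [h3, div_pow, Real.sq_sqrt hx.le, Real.sq_sqrt (by linarith)]
    have h5 : ((‖toC c / (√x : ℝ)‖ ^ (1 / 3 : ℝ) : ℝ) : ℂ) *
        ((‖toC c / (√x : ℝ)‖ ^ (2 / 3 : ℝ) : ℝ) : ℂ) = (√(nm c : ℝ) : ℝ) / (√x : ℝ) := by
      rw [← Complex.ofReal_mul, h3, ← Real.rpow_add (by positivity), ← Complex.ofReal_div]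
      norm_num
    have h6 : (nm c : ℂ) = (√(nm c : ℝ) : ℝ) * (√(nm c : ℝ) : ℝ) := by
      rw [← Complex.ofReal_mul, Real.mul_self_sqrt (by linarith), Complex.ofReal_natCast]
    have h7 : ((√(nm c : ℝ) : ℝ) : ℂ) ≠ 0 := ofReal_ne_zero.2 h2.ne'
    have h8 : ((√x : ℝ) : ℂ) ≠ 0 := ofReal_ne_zero.2 hs.ne'
    rw [wphi, h4, rho0, th]
    split_ifs
    · generalize ((‖toC c / (√x : ℝ)‖ ^ (1 / 3 : ℝ) : ℝ) : ℂ) = A at h5 ⊢
      generalize ((‖toC c / (√x : ℝ)‖ ^ (2 / 3 : ℝ) : ℝ) : ℂ) = B at h5 ⊢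
      rw [show A * dphi φ T (Real.log (nm c / x)) * B
        = A * B * dphi φ T (Real.log (nm c / x)) by ring, h5, h6]
      field_simp
    · simp
  rw [Finset.sum_congr rfl fun c hc => e c (mem_ball.1 hc).1, ← Finset.sum_filter]
  refine Finset.sum_subset (fun c hc => ?_) fun c hc hc' => ?_
  · obtain ⟨h1, h2⟩ := (hb.mem_pball _ _).1 hc
    exact Finset.mem_filter.2 ⟨mem_ball.2 ⟨primary_ne_zero h1, by linarith⟩, h1⟩
  · have h1 := (Finset.mem_filter.1 hc).2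
    have h2 : 3 * x < nm c := not_le.1 fun h => hc' ((hb.mem_pball _ _).2 ⟨h1, h⟩)
    have h3 : 1 < Real.log (nm c / x) := by
      rw [Real.lt_log_iff_exp_lt (div_pos (by linarith) hx), lt_div_iff₀ hx]
      nlinarith [Real.exp_one_lt_d9]
    rw [thz_supp hφ hT h3, mul_zero]

theorem thz_ind (r : Finset P) (c : E) :
    (if pr r ∣ c then (1 : ℂ) else 0) = ∑ r1 ∈ r.powerset,
      mu r1 * (∏ p ∈ r1, ((nm p.1 : ℂ)⁻¹ - if p.1 ∣ c then 1 else 0)) * ((Ns (r \ r1))⁻¹ : ℝ) := by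
  have h1 : (if pr r ∣ c then (1 : ℂ) else 0) = ∏ p ∈ r,
      (-1 * ((nm p.1 : ℂ)⁻¹ - if p.1 ∣ c then 1 else 0) + (nm p.1 : ℂ)⁻¹) := by
    rw [Finset.prod_congr rfl (g := fun p => if p.1 ∣ c then 1 else 0) fun p _ => by ring,
      Finset.prod_boole]
    exact if_congr pr_dvd_iff rfl rfl
  rw [h1, Finset.prod_add]
  refine Finset.sum_congr rfl fun r1 _ => ?_
  rw [Finset.prod_mul_distrib, Finset.prod_const, mu, Ns_eq_prod]
  push_cast
  rw [Finset.prod_inv_distrib]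

theorem thz_split (W : ℝ → ℂ) (r q : Finset P) (x : ℝ) :
    Th0 W r q x = ∑ r1 ∈ r.powerset, mu r1 * ((Ns (r \ r1))⁻¹ : ℝ) *
      ∑ c ∈ pball (3 * x), thzF r1 q c * th c * W (Real.log (nm c / x)) := by
  simp only [Th0, Finset.mul_sum]
  rw [Finset.sum_comm]
  refine Finset.sum_congr rfl fun c _ => ?_
  rw [show (if pr r ∣ c then conj (xs c3 q c) * th c else 0) =
    (if pr r ∣ c then (1 : ℂ) else 0) * (conj (xs c3 q c) * th c) by split_ifs <;> simp,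
    thz_ind, Finset.sum_mul, Finset.sum_mul]
  exact Finset.sum_congr rfl fun r1 _ => by rw [thzF]; ring

theorem thz_nd (W : ℝ → ℂ) {r q : Finset P} (h : ¬ Disjoint r q) (x : ℝ) : Th0 W r q x = 0 := by
  obtain ⟨p, hp, hq⟩ := Finset.not_disjoint_iff.1 h
  refine Finset.sum_eq_zero fun c _ => ?_
  split_ifs with hc
  · rw [xs, Finset.prod_eq_zero hq ((c3_mc p).zero c (pr_dvd_iff.1 hc p hp))]
    simp
  · simp

theorem thZ (hb : BA) (h1 : VorX) (h2 : RadW) (h3 : KxB) : ThZ := by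
  intro φ ε hφ hε
  obtain ⟨e, he⟩ : ∃ e : ℝ, e = min ε (1 / 4) / 4 := ⟨_, rfl⟩
  have he0 : 0 < e := by rw [he]; positivity
  have he1 : 4 * e ≤ ε := by rw [he]; linarith [min_le_left ε (1 / 4)]
  have he2 : e ≤ 1 / 16 := by rw [he]; linarith [min_le_right ε (1 / 4)]
  obtain ⟨C1, hC1⟩ := h1
  choose Pol hPol using hC1
  obtain ⟨K, hK, hK'⟩ := h3 φ e hφ he0 (by linarith)
  obtain ⟨C2, hC2, hC2'⟩ := pow_card_le (A := 2) (ε := 2 * e) zero_le_two (by linarith)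
  obtain ⟨N, hN⟩ : ∃ N : ℝ, N = nm (Lam 1) := ⟨_, rfl⟩
  have hN1 : 1 ≤ N := hN ▸ one_le_nmR (Lam_ne_zero 1)
  have hS : 0 ≤ ∑' δ, thzg (1 / 2 + e) δ := tsum_nonneg (thzg_nonneg _)
  obtain ⟨C3, hC3⟩ : ∃ C3 : ℝ,
    C3 = ‖C1‖ * N ^ 2 * N ^ 2 * K * N ^ 2 * 3 * ∑' δ, thzg (1 / 2 + e) δ := ⟨_, rfl⟩
  have hC30 : 0 ≤ C3 := by rw [hC3]; positivity
  refine ⟨C2 * C3 + 1, by positivity, fun T hT => ?_⟩
  obtain ⟨PP, hPP⟩ : ∃ PP : Finset P → Finset P → ℂ, ∀ r1 q, PP r1 q =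
    Pol 1 rho0 (pr (r1 ∪ q)) (-inv (Lam 1) (pr (r1 ∪ q))) (wphi φ T) *
      Dq 1 (pr (r1 ∪ q)) (thzF r1 q) 0 := ⟨_, fun _ _ => rfl⟩
  refine ⟨PP ∅ ∅, fun r q x hx => ?_⟩
  have hx0 : 0 < x := by linarith
  have hs : 0 < √x := Real.sqrt_pos.2 hx0
  have hr1 := one_le_Ns r
  have hq1 := one_le_Ns q
  have hT0 : 0 ≤ T ^ (3 + ε) := by positivity
  by_cases hd : Disjoint r q
  swap
  · rw [thz_nd _ hd, if_neg fun h => hd (by rw [h]; exact Finset.disjoint_empty_right _),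
      sub_zero, norm_zero]
    positivity
  have hρ : ∀ c, ‖rho0 c‖ ≤ 1 := fun c => by
    unfold rho0
    split_ifs
    · exact norm_xv_le ch_c3 _ _
    · simp
  have key : ∀ r1 ∈ r.powerset,
      ‖∑ c ∈ pball (3 * x), thzF r1 q c * th c * dphi φ T (Real.log (nm c / x))
        - ((x ^ (5 / 6 : ℝ) : ℝ) : ℂ) * PP r1 q‖
        ≤ C3 * T ^ (3 + ε) * Ns r ^ (1 / 2 + 2 * e) * Ns q ^ (1 + ε) := by
    intro r1 hr
    have hr' := Finset.mem_powerset.1 hr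
    have hd1 : Disjoint r1 q := hd.mono_left hr'
    obtain ⟨g1, g2, -⟩ := thzF_spec 1 hd1
    have hl := not_lam_dvd_of_primary (pr_primary (r1 ∪ q))
    have hβ : Lam 1 ∣ -inv (Lam 1) (pr (r1 ∪ q)) * pr (r1 ∪ q) + 1 := by
      rw [← dvd_neg, show -(-inv (Lam 1) (pr (r1 ∪ q)) * pr (r1 ∪ q) + 1)
        = pr (r1 ∪ q) * inv (Lam 1) (pr (r1 ∪ q)) - 1 by ring]
      exact inv_spec (coprime_Lam hl 1)
    have v := thz_vor (K := K * T ^ (3 + 4 * e)) (σ := 1 / 2 + e)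
      (fun u η hη => ⟨le_rfl, hb.rho0_per, fun c hc => if_neg fun h => not_lam_dvd_of_primary h hc,
        hb.rho0_mean, hρ, hl, hη, hβ, h2 φ T hφ hT, hs⟩)
      (fun u η => hPol 1 rho0 _ _ _ u η _) hρ hl hs (by positivity) (by linarith)
      (fun z hz => by simpa only [neg_add, sub_eq_add_neg] using hK' T z hT hz) g1 g2
    have e1 : ((x ^ (5 / 6 : ℝ) : ℝ) : ℂ) = (√x : ℝ) * (((√x) ^ (2 / 3 : ℝ) : ℝ) : ℂ) := by
      rw [← Complex.ofReal_mul, Real.sqrt_eq_rpow, ← Real.rpow_mul hx0.le,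
        ← Real.rpow_add hx0]
      norm_num
    rw [thz_vlx hb hφ hT hx0, e1, hPP, mul_assoc, ← mul_sub, ← mul_assoc, norm_mul,
      Complex.norm_real, Real.norm_of_nonneg hs.le]
    refine (mul_le_mul_of_nonneg_left v hs.le).trans ?_
    rw [← hN, Real.sq_sqrt hx0.le]
    change √x * (‖C1‖ * N ^ 2 * (N ^ 2 * Ns r1 ^ (-(1 / 2) : ℝ) * (K * T ^ (3 + 4 * e) *
      (x / (N * Ns (r1 ∪ q)) ^ 2) ^ (-(1 / 2 + e))) * ∑' δ, thzg (1 / 2 + e) δ)) ≤ _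
    have hr0 := one_le_Ns r1
    have e2 : (x / (N * Ns (r1 ∪ q)) ^ 2) ^ (-(1 / 2 + e)) = x ^ (-(1 / 2 + e)) *
        (N ^ (1 + 2 * e) * (Ns r1 ^ (1 + 2 * e) * Ns q ^ (1 + 2 * e))) := by
      rw [Ns_union hd1, Real.div_rpow hx0.le (by positivity), ← Real.rpow_natCast,
        ← Real.rpow_mul (by positivity), div_eq_mul_inv, ← Real.rpow_neg (by positivity),
        ← Real.mul_rpow (by positivity) (by positivity),
        ← Real.mul_rpow (by positivity) (by positivity)]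
      congr 2
      push_cast
      ring
    have b1 : √x * x ^ (-(1 / 2 + e)) ≤ 3 := by
      rw [Real.sqrt_eq_rpow, ← Real.rpow_add hx0, show 1 / 2 + -(1 / 2 + e) = -e by ring]
      calc x ^ (-e) ≤ (1 / 3 : ℝ) ^ (-e) :=
            Real.rpow_le_rpow_of_nonpos (by norm_num) hx (by linarith)
        _ = 3 ^ e := by rw [one_div, Real.inv_rpow (by norm_num), Real.rpow_neg (by norm_num),
            inv_inv]
        _ ≤ 3 := Real.rpow_le_self_of_one_le (by norm_num) (by linarith)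
    have b2 : N ^ (1 + 2 * e) ≤ N ^ 2 := by
      rw [← Real.rpow_natCast]
      exact Real.rpow_le_rpow_of_exponent_le hN1 (by push_cast; linarith)
    have b3 : Ns r1 ^ (-(1 / 2) : ℝ) * Ns r1 ^ (1 + 2 * e) ≤ Ns r ^ (1 / 2 + 2 * e) := by
      rw [← Real.rpow_add (by linarith), show -(1 / 2) + (1 + 2 * e) = 1 / 2 + 2 * e by ring]
      exact Real.rpow_le_rpow (by linarith) (Ns_mono hr') (by linarith)
    have b4 : Ns q ^ (1 + 2 * e) ≤ Ns q ^ (1 + ε) :=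
      Real.rpow_le_rpow_of_exponent_le hq1 (by linarith)
    have b5 : T ^ (3 + 4 * e) ≤ T ^ (3 + ε) := Real.rpow_le_rpow_of_exponent_le hT (by linarith)
    rw [e2, hC3]
    calc _ = ‖C1‖ * N ^ 2 * N ^ 2 * K * N ^ (1 + 2 * e) * (√x * x ^ (-(1 / 2 + e))) *
          (∑' δ, thzg (1 / 2 + e) δ) * T ^ (3 + 4 * e) *
          (Ns r1 ^ (-(1 / 2) : ℝ) * Ns r1 ^ (1 + 2 * e)) * Ns q ^ (1 + 2 * e) := by ring
      _ ≤ _ := by gcongr
  have e3 : (if q = ∅ then PP ∅ ∅ * ((x ^ (5 / 6 : ℝ) / Ns r : ℝ) : ℂ) else 0) =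
      ∑ r1 ∈ r.powerset, mu r1 * ((Ns (r \ r1))⁻¹ : ℝ) *
        (((x ^ (5 / 6 : ℝ) : ℝ) : ℂ) * PP r1 q) := by
    have z : ∀ r1 ∈ r.powerset, r1 ∪ q ≠ ∅ → PP r1 q = 0 := fun r1 hr hne => by
      rw [hPP, (thzF_spec 1 (hd.mono_left (Finset.mem_powerset.1 hr))).2.2 hne, mul_zero]
    rw [Finset.sum_eq_single_of_mem ∅ (Finset.empty_mem_powerset r) fun r1 hr hne => by
      rw [z r1 hr fun h => hne (Finset.union_eq_empty.1 h).1, mul_zero, mul_zero]]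
    split_ifs with hq
    · rw [hq, mu, Finset.sdiff_empty]
      push_cast
      simp only [Finset.card_empty, pow_zero]
      ring
    · rw [z ∅ (Finset.empty_mem_powerset r) (by rwa [Finset.empty_union]), mul_zero, mul_zero]
  rw [thz_split, e3, ← Finset.sum_sub_distrib]
  refine (norm_sum_le _ _).trans ((Finset.sum_le_card_nsmul _ _
    (C3 * T ^ (3 + ε) * Ns r ^ (1 / 2 + 2 * e) * Ns q ^ (1 + ε)) fun r1 hr => ?_).trans ?_)
  · rw [← mul_sub, norm_mul, norm_mul, mu, norm_pow, norm_neg, norm_one, one_pow, one_mul,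
      Complex.norm_real, Real.norm_of_nonneg (inv_nonneg.2 (Ns_pos _).le)]
    exact (mul_le_of_le_one_left (norm_nonneg _) (inv_le_one_of_one_le₀ (one_le_Ns _))).trans
      (key r1 hr)
  · rw [Finset.card_powerset, nsmul_eq_mul]
    push_cast
    have b6 : Ns r ^ (2 * e) * Ns r ^ (1 / 2 + 2 * e) ≤ Ns r ^ (1 / 2 + ε) := by
      rw [← Real.rpow_add (by linarith)]
      exact Real.rpow_le_rpow_of_exponent_le hr1 (by linarith)
    calc _ ≤ C2 * Ns r ^ (2 * e) *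
          (C3 * T ^ (3 + ε) * Ns r ^ (1 / 2 + 2 * e) * Ns q ^ (1 + ε)) := by
          gcongr
          exact hC2' r
      _ = C2 * C3 * T ^ (3 + ε) * (Ns r ^ (2 * e) * Ns r ^ (1 / 2 + 2 * e)) * Ns q ^ (1 + ε) := by
          ring
      _ ≤ _ := by
          gcongr
          linarith

end Pat
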