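import Vale.Agent.P006.IfA
import Vale.Agent.P026.Sym
import Vale.Agent.P026.Dvs

/-! Twisted theta sums. -/

noncomputable section
namespace Pat
open QRH Complex MeasureTheory Filter
open scoped ComplexConjugate Classical ContDiff Topology

theorem TwS_mu (s : Finset P) :
    ∑ h ∈ s.powerset, mu h * ((Ns h : ℝ) : ℂ)⁻¹
      = ((∏ p ∈ s, (1 - (nm p.1 : ℝ)⁻¹) : ℝ) : ℂ) := by
  have h1 : ((∏ p ∈ s, (1 - (nm p.1 : ℝ)⁻¹) : ℝ) : ℂ)
      = ∏ p ∈ s, (1 + (-1) * ((nm p.1 : ℝ) : ℂ)⁻¹) := by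
    push_cast
    exact Finset.prod_congr rfl fun p _ => by ring
  rw [h1, Finset.prod_one_add]
  refine Finset.sum_congr rfl fun t _ => ?_
  rw [Finset.prod_mul_distrib, Finset.prod_const, Ns_eq_prod, mu]
  push_cast
  rw [Finset.prod_inv_distrib]

theorem TwS_sq (hb : BA) {R h : Finset P} (hh : h ⊆ R) {γ : E} (hγ : γ ≠ 0)
    (hth : th (pr R * γ) ≠ 0) (hd : pr h ∣ γ) : pr h ^ 2 ∣ γ := by
  obtain ⟨g, rfl⟩ := hd
  have hg : g ≠ 0 := right_ne_zero_of_mul hγ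
  rw [sq]
  refine mul_dvd_mul_left _ (pr_dvd_iff.2 fun p hp => ?_)
  by_contra hn
  refine hth (hb.th_zero _ p (mul_ne_zero (pr_ne_zero _) hγ) ?_)
  rw [vp_mul p.2.1 (pr_ne_zero _) hγ, vp_mul p.2.1 (pr_ne_zero _) hg, vp_pr, vp_pr,
    if_pos hp, if_pos (hh hp), vp_of_not_dvd hn]

theorem TwS_pt (hb : BA) (R1 R2 G : Finset P) {γ : E} (hγ : Pm γ) :
    tt R1 * conj (xs c3 R2 (pr R1)) *
      (if Disjoint (fac γ) G then th γ * xs c3 R1 γ * conj (xs c3 R2 γ) else 0)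
    = ∑ e ∈ (G \ (R1 ∪ R2)).powerset, ∑ h ∈ R1.powerset, mu e * mu h *
        (if pr h ^ 2 * pr e ∣ γ then th (pr R1 * γ) * conj (xs c3 R2 (pr R1 * γ)) else 0) := by
  have h0 : γ ≠ 0 := primary_ne_zero hγ
  have h1 : ∀ e ∈ (G \ (R1 ∪ R2)).powerset, ∀ h ∈ R1.powerset, mu e * mu h *
        (if pr h ^ 2 * pr e ∣ γ then th (pr R1 * γ) * conj (xs c3 R2 (pr R1 * γ)) else 0)
      = (if pr e ∣ γ then mu e else 0) * (if pr h ∣ γ then mu h else 0) *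
        (th (pr R1 * γ) * conj (xs c3 R2 (pr R1 * γ))) := by
    intro e he h hh
    rw [Finset.mem_powerset] at he hh
    by_cases hth : th (pr R1 * γ) = 0
    · simp [hth]
    have hdj : Disjoint h e := by
      rw [Finset.disjoint_left]
      intro p hp hq
      have := Finset.mem_sdiff.1 (he hq)
      exact this.2 (Finset.mem_union_left _ (hh hp))
    by_cases hd : pr h ^ 2 * pr e ∣ γ
    · have a1 : pr e ∣ γ := (Dvd.intro_left _ rfl).trans hd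
      have a2 : pr h ∣ γ := ((dvd_pow_self _ two_ne_zero).trans (Dvd.intro _ rfl)).trans hd
      rw [if_pos hd, if_pos a1, if_pos a2]
    · rw [if_neg hd]
      by_cases a1 : pr e ∣ γ
      · have a2 : ¬ pr h ∣ γ := fun a2 =>
          hd (((coprime_pr.2 hdj).pow_left).mul_dvd (TwS_sq hb hh h0 hth a2) a1)
        rw [if_neg a2]; ring
      · rw [if_neg a1]; ring
  rw [Finset.sum_congr rfl fun e he => Finset.sum_congr rfl fun h hh => h1 e he h hh]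
  simp only [← Finset.sum_mul, ← Finset.mul_sum]
  rw [sum_mu_dvd, sum_mu_dvd]
  by_cases hR : ∀ p ∈ R1, ¬ p.1 ∣ γ
  swap
  · rw [if_neg hR]
    have : xs c3 R1 γ = 0 := by
      rw [xs_eq_zero_iff ch_c3]
      push Not at hR
      exact hR
    rw [this]
    simp
  have hdj : Disjoint R1 (fac γ) := by
    rw [Finset.disjoint_left]
    exact fun p hp hq => hR p hp ((mem_fac h0).1 hq)
  rw [if_pos hR, hb.th_mul γ R1 hγ hdj, xs_mul ch_c3, map_mul]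
  by_cases hG : Disjoint (fac γ) G
  · have : ∀ p ∈ G \ (R1 ∪ R2), ¬ p.1 ∣ γ := fun p hp hq =>
      Finset.disjoint_left.1 hG ((mem_fac h0).2 hq) (Finset.mem_sdiff.1 hp).1
    rw [if_pos hG, if_pos this]; ring
  · rw [if_neg hG]
    obtain ⟨p, hp, hq⟩ := Finset.not_disjoint_iff.1 hG
    have hp' := (mem_fac h0).1 hp
    by_cases h2 : p ∈ R2
    · have : xs c3 R2 γ = 0 := (xs_eq_zero_iff ch_c3).2 ⟨p, h2, hp'⟩
      rw [this]; simp
    · have : ¬ ∀ p ∈ G \ (R1 ∪ R2), ¬ p.1 ∣ γ := fun hh =>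
        hh p (Finset.mem_sdiff.2 ⟨hq, fun h3 => by
          rcases Finset.mem_union.1 h3 with h3 | h3
          · exact hR p h3 hp'
          · exact h2 h3⟩) hp'
      rw [if_neg this]; simp

theorem TwS_term (hb : BA) (φ : ℝ → ℂ) {R1 R2 e h : Finset P} (h12 : Disjoint R1 R2)
    (hh : h ⊆ R1) (he : Disjoint R1 e) (Y : ℝ) :
    ∑ γ ∈ pball (3 * Y), (if pr h ^ 2 * pr e ∣ γ then
        th (pr R1 * γ) * conj (xs c3 R2 (pr R1 * γ)) else 0) * lw φ 1 Y (nm γ)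
      = ((√(Ns h) : ℝ) : ℂ) *
        Th0 (fun v => φ (1 * v)) ((R1 \ h) ∪ e) R2 (Y * Ns R1 / Ns h ^ 3) := by
  have hd1 : Disjoint (R1 \ h) e := he.mono_left Finset.sdiff_subset
  have hR : pr R1 = pr (R1 \ h) * pr h := by
    rw [← pr_union Finset.sdiff_disjoint, Finset.sdiff_union_of_subset hh]
  have hN : Ns R1 = Ns (R1 \ h) * Ns h := by
    rw [← Ns_union Finset.sdiff_disjoint, Finset.sdiff_union_of_subset hh]
  have p1 := Ns_pos h
  have p2 := Ns_pos e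
  have p3 := Ns_pos (R1 \ h)
  have hm : Pm (pr h ^ 2 * pr e) := primary_mul (primary_pow (pr_primary h) 2) (pr_primary e)
  have hA := hb.sum_dvd (3 * Y) _ (fun γ =>
    th (pr R1 * γ) * conj (xs c3 R2 (pr R1 * γ)) * lw φ 1 Y (nm γ)) hm
  have hB := hb.sum_dvd (3 * (Y * Ns R1 / Ns h ^ 3)) (pr ((R1 \ h) ∪ e)) (fun c =>
    conj (xs c3 R2 c) * th c * φ (1 * Real.log (nm c / (Y * Ns R1 / Ns h ^ 3)))) (pr_primary _)
  have e1 : (nm (pr h ^ 2 * pr e) : ℝ) = Ns h ^ 2 * Ns e := by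
    rw [nm_mul, nm_pow]; push_cast; rfl
  have e2 : (nm (pr ((R1 \ h) ∪ e)) : ℝ) = Ns (R1 \ h) * Ns e := Ns_union hd1
  have e3 : 3 * (Y * Ns R1 / Ns h ^ 3) / (nm (pr ((R1 \ h) ∪ e)) : ℝ)
      = 3 * Y / (nm (pr h ^ 2 * pr e) : ℝ) := by
    rw [e1, e2, hN]; field_simp
  unfold Th0
  simp only [ite_mul, zero_mul]
  rw [hA, hB, e3, Finset.mul_sum]
  refine Finset.sum_congr rfl fun n hn => ?_
  have hn' : Pm n := ((hb.mem_pball _ _).1 hn).1
  have e4 : pr R1 * (pr h ^ 2 * pr e * n) = pr ((R1 \ h) ∪ e) * n * pr h ^ 3 := by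
    rw [pr_union hd1]; nth_rewrite 1 [hR]; ring
  have e5 : xs c3 R2 (pr h ^ 3) = 1 := by
    rw [hb.xs_cube _ _ (pr_ne_zero h), fac_pr, if_pos (h12.mono_left hh).symm]
  have e6 : (nm (pr h ^ 2 * pr e * n) : ℝ) / Y
      = (nm (pr ((R1 \ h) ∪ e) * n) : ℝ) / (Y * Ns R1 / Ns h ^ 3) := by
    rw [nm_mul, nm_mul (pr _) n]
    push_cast
    rw [e1, e2, hN]
    by_cases hY : Y = 0
    · simp [hY]
    field_simp
  rw [e4, hb.th_cube _ _ (primary_mul (pr_primary _) hn') (pr_primary h), xs_mul ch_c3 R2 _ (pr h ^ 3),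
    e5, lw, e6]
  have : (nm (pr h) : ℝ) = Ns h := rfl
  rw [this]
  ring_nf

theorem TwS_main {a b c Y : ℝ} (ha : 0 < a) (hb : 0 < b) (hc : 0 < c) (hY : 0 < Y) :
    √b * ((Y * (a * b) / b ^ 3) ^ (5 / 6 : ℝ) / (a * c))
      = Y ^ (5 / 6 : ℝ) * (a * b) ^ (-(1 / 6) : ℝ) * (c⁻¹ * b⁻¹) := by
  have h1 : (a * b) ^ (-(1 / 6) : ℝ) = (a * b) ^ (5 / 6 : ℝ) / (a * b) := by
    rw [← Real.rpow_sub_one (mul_pos ha hb).ne']; norm_num
  have h2 : (b ^ 3) ^ (5 / 6 : ℝ) = √b * b ^ 2 := by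
    rw [Real.sqrt_eq_rpow, ← Real.rpow_natCast, ← Real.rpow_natCast, ← Real.rpow_mul hb.le,
      ← Real.rpow_add hb]
    norm_num
  have h3 : √b * √b = b := Real.mul_self_sqrt hb.le
  have h4 : 0 < √b := Real.sqrt_pos.2 hb
  rw [Real.div_rpow (by positivity) (by positivity), Real.mul_rpow hY.le (by positivity), h1, h2]
  field_simp

theorem TwS_err {a b c c' δ : ℝ} (ha : 0 < a) (hb : 1 ≤ b) (hc : 0 < c) (hcc : c ≤ c')
    (hδ : 0 < δ) : √b * (a * c) ^ (1 / 2 + δ) ≤ (a * b * c') ^ (1 / 2 + δ) := by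
  have h1 : √b ≤ b ^ (1 / 2 + δ) := by
    rw [Real.sqrt_eq_rpow]
    exact Real.rpow_le_rpow_of_exponent_le hb (by linarith)
  have hb0 : 0 < b := by linarith
  calc √b * (a * c) ^ (1 / 2 + δ) ≤ b ^ (1 / 2 + δ) * (a * c) ^ (1 / 2 + δ) :=
        mul_le_mul_of_nonneg_right h1 (by positivity)
    _ = (b * (a * c)) ^ (1 / 2 + δ) := (Real.mul_rpow hb0.le (by positivity)).symm
    _ ≤ _ := by
        refine Real.rpow_le_rpow (by positivity) ?_ (by linarith)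
        rw [show b * (a * c) = a * b * c by ring]
        exact mul_le_mul_of_nonneg_left hcc (by positivity)

theorem twS (hb : BA) (κ : ℂ) (h : ThetaT κ) : TwS κ := by
  intro φ ε hφ hε
  obtain ⟨C, hC, h⟩ := h φ (ε / 2) hφ (half_pos hε)
  obtain ⟨D, hD, hD2⟩ := pow_card_le (A := 2) (by norm_num) (half_pos hε)
  refine ⟨C * D, by positivity, fun R1 R2 G Y h12 hY => ?_⟩
  obtain ⟨G1, hG1⟩ : ∃ G1, G1 = G \ (R1 ∪ R2) := ⟨_, rfl⟩
  have hdj : Disjoint R1 G1 := by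
    rw [hG1]
    exact Finset.sdiff_disjoint.symm.mono_left Finset.subset_union_left
  obtain ⟨S, hS⟩ : ∃ S, S = ∑ γ ∈ pball (3 * Y), (if Disjoint (fac γ) G then
          th γ * xs c3 R1 γ * conj (xs c3 R2 γ) else 0) * lw φ 1 Y (nm γ) := ⟨_, rfl⟩
  obtain ⟨M, hM⟩ : ∃ M, M = (if R2 = ∅ then conj (tt R1) * κ * mo φ 1 (5 / 6) *
          ((Y ^ (5 / 6 : ℝ) * Ns R1 ^ (-(1 / 6) : ℝ)
            * ∏ p ∈ R1 ∪ G, (1 - (nm p.1 : ℝ)⁻¹) : ℝ) : ℂ) else 0) := ⟨_, rfl⟩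
  rw [← hS, ← hM, ← hG1]
  obtain ⟨u, hu⟩ : ∃ u, u = tt R1 * conj (xs c3 R2 (pr R1)) := ⟨_, rfl⟩
  have hun : ‖u‖ = 1 := by
    rw [hu, norm_mul, hb.norm_tt, RCLike.norm_conj, norm_xs ch_c3, mul_one]
    exact fun p hp hq => Finset.disjoint_left.1 h12 (dvd_pr_iff.1 hq) hp
  have hS2 : u * S = ∑ e ∈ G1.powerset, ∑ g ∈ R1.powerset, mu e * mu g * (((√(Ns g) : ℝ) : ℂ) *
        Th0 (fun v => φ (1 * v)) ((R1 \ g) ∪ e) R2 (Y * Ns R1 / Ns g ^ 3)) := by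
    have a1 : ∀ γ ∈ pball (3 * Y), u * ((if Disjoint (fac γ) G then
          th γ * xs c3 R1 γ * conj (xs c3 R2 γ) else 0) * lw φ 1 Y (nm γ))
        = ∑ e ∈ G1.powerset, ∑ g ∈ R1.powerset, mu e * mu g * ((if pr g ^ 2 * pr e ∣ γ then
            th (pr R1 * γ) * conj (xs c3 R2 (pr R1 * γ)) else 0) * lw φ 1 Y (nm γ)) := by
      intro γ hγ
      rw [← mul_assoc, hu, TwS_pt hb R1 R2 G ((hb.mem_pball _ _).1 hγ).1, ← hG1, Finset.sum_mul]
      refine Finset.sum_congr rfl fun e _ => ?_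
      rw [Finset.sum_mul]
      exact Finset.sum_congr rfl fun g _ => mul_assoc _ _ _
    rw [hS, Finset.mul_sum, Finset.sum_congr rfl a1, Finset.sum_comm]
    refine Finset.sum_congr rfl fun e he => ?_
    rw [Finset.sum_comm]
    refine Finset.sum_congr rfl fun g hg => ?_
    rw [← Finset.mul_sum, TwS_term hb φ h12 (Finset.mem_powerset.1 hg)
      (hdj.mono_right (Finset.mem_powerset.1 he))]
  have hN : ∀ g ∈ R1.powerset, Ns R1 = Ns (R1 \ g) * Ns g := fun g hg => by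
    rw [← Ns_union Finset.sdiff_disjoint, Finset.sdiff_union_of_subset (Finset.mem_powerset.1 hg)]
  have hU : ∀ e ∈ G1.powerset, ∀ g, Ns ((R1 \ g) ∪ e) = Ns (R1 \ g) * Ns e := fun e he g =>
    Ns_union ((hdj.mono_right (Finset.mem_powerset.1 he)).mono_left Finset.sdiff_subset)
  have hM2 : u * M = ∑ e ∈ G1.powerset, ∑ g ∈ R1.powerset, mu e * mu g * (((√(Ns g) : ℝ) : ℂ) *
        (if R2 = ∅ then κ * mo φ 1 (5 / 6) *
          (((Y * Ns R1 / Ns g ^ 3) ^ (5 / 6 : ℝ) / Ns ((R1 \ g) ∪ e) : ℝ) : ℂ) else 0)) := by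
    by_cases h2 : R2 = ∅
    swap
    · simp [hM, h2]
    have a1 : ∀ e ∈ G1.powerset, ∀ g ∈ R1.powerset, mu e * mu g * (((√(Ns g) : ℝ) : ℂ) *
        (if R2 = ∅ then κ * mo φ 1 (5 / 6) *
          (((Y * Ns R1 / Ns g ^ 3) ^ (5 / 6 : ℝ) / Ns ((R1 \ g) ∪ e) : ℝ) : ℂ) else 0))
        = κ * mo φ 1 (5 / 6) * ((Y ^ (5 / 6 : ℝ) * Ns R1 ^ (-(1 / 6) : ℝ) : ℝ) : ℂ) *
          ((mu e * ((Ns e : ℝ) : ℂ)⁻¹) * (mu g * ((Ns g : ℝ) : ℂ)⁻¹)) := by
      intro e he g hg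
      have b1 := TwS_main (Ns_pos (R1 \ g)) (Ns_pos g) (Ns_pos e) hY
      rw [← hN g hg, ← hU e he g] at b1
      have b2 := congrArg (fun x : ℝ => (x : ℂ)) b1
      simp only [Complex.ofReal_mul, Complex.ofReal_inv] at b2
      rw [if_pos h2, Complex.ofReal_mul]
      linear_combination (mu e * mu g * κ * mo φ 1 (5 / 6)) * b2
    rw [Finset.sum_congr rfl fun e he => Finset.sum_congr rfl fun g hg => a1 e he g hg]
    simp only [← Finset.mul_sum, ← Finset.sum_mul]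
    have a2 : R1 ∪ G = R1 ∪ G1 := by
      rw [hG1, h2, Finset.union_empty, Finset.union_sdiff_self_eq_union]
    have a3 : tt R1 * conj (tt R1) = 1 := by
      rw [Complex.mul_conj, Complex.normSq_eq_norm_sq, hb.norm_tt]; simp
    rw [TwS_mu, TwS_mu, hM, if_pos h2, hu, h2, xs_empty, map_one, a2, Finset.prod_union hdj]
    simp only [Complex.ofReal_mul]
    linear_combination (κ * mo φ 1 (5 / 6) * ((Y ^ (5 / 6 : ℝ) : ℝ) : ℂ) *
      ((Ns R1 ^ (-(1 / 6) : ℝ) : ℝ) : ℂ) * ((∏ p ∈ R1, (1 - (nm p.1 : ℝ)⁻¹) : ℝ) : ℂ) *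
      ((∏ p ∈ G1, (1 - (nm p.1 : ℝ)⁻¹) : ℝ) : ℂ)) * a3
  have p1 := Ns_pos R1
  have p2 := Ns_pos R2
  have p3 := Ns_pos G1
  obtain ⟨B, hB⟩ : ∃ B, B = C * (Ns R1 * Ns G1) ^ (1 / 2 + ε / 2) * Ns R2 ^ (1 + ε) := ⟨_, rfl⟩
  have hB0 : 0 ≤ B := by rw [hB]; positivity
  have key : ‖S - M‖ ≤ 2 ^ (R1 ∪ G1).card * B := by
    have a1 : ‖S - M‖ = ‖u * S - u * M‖ := by rw [← mul_sub, norm_mul, hun, one_mul]
    rw [a1, hS2, hM2, ← Finset.sum_sub_distrib]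
    have a2 : (2 : ℝ) ^ (R1 ∪ G1).card * B = ∑ e ∈ G1.powerset, ∑ g ∈ R1.powerset, B := by
      rw [Finset.card_union_of_disjoint hdj]
      simp only [Finset.sum_const, Finset.card_powerset, nsmul_eq_mul]
      push_cast
      ring
    rw [a2]
    refine (norm_sum_le _ _).trans (Finset.sum_le_sum fun e he => ?_)
    rw [← Finset.sum_sub_distrib]
    refine (norm_sum_le _ _).trans (Finset.sum_le_sum fun g hg => ?_)
    have q1 := Ns_pos g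
    rw [← mul_sub, ← mul_sub, norm_mul, norm_mul, norm_mul, norm_mu, norm_mu, one_mul, one_mul,
      Complex.norm_real, Real.norm_of_nonneg (Real.sqrt_nonneg _)]
    have b1 := h 1 ((R1 \ g) ∪ e) R2 (Y * Ns R1 / Ns g ^ 3) le_rfl (by positivity)
    have b2 := TwS_err (Ns_pos (R1 \ g)) (one_le_Ns g) (Ns_pos e)
      (Ns_mono (Finset.mem_powerset.1 he)) (half_pos hε)
    rw [← hN g hg, ← hU e he g] at b2
    have b3 : Ns R2 ^ (1 + ε / 2) ≤ Ns R2 ^ (1 + ε) :=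
      Real.rpow_le_rpow_of_exponent_le (one_le_Ns _) (by linarith)
    rw [Real.one_rpow, mul_one] at b1
    refine (mul_le_mul_of_nonneg_left b1 (Real.sqrt_nonneg _)).trans ?_
    rw [hB, show √(Ns g) * (C * Ns ((R1 \ g) ∪ e) ^ (1 / 2 + ε / 2) * Ns R2 ^ (1 + ε / 2))
      = C * (√(Ns g) * Ns ((R1 \ g) ∪ e) ^ (1 / 2 + ε / 2)) * Ns R2 ^ (1 + ε / 2) by ring]
    exact mul_le_mul (mul_le_mul_of_nonneg_left b2 hC.le) b3 (by positivity) (by positivity)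
  have a4 := hD2 (R1 ∪ G1)
  rw [Ns_union hdj] at a4
  refine key.trans ((mul_le_mul_of_nonneg_right a4 hB0).trans (le_of_eq ?_))
  rw [hB, show (1 / 2 + ε : ℝ) = ε / 2 + (1 / 2 + ε / 2) by ring, Real.rpow_add (mul_pos p1 p3) (ε / 2)]
  ring

end Pat
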