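import Vale.Agent.P006.IfA
import Vale.Agent.P026.VorC

noncomputable section
namespace Pat
open QRH Complex MeasureTheory Filter
open scoped ComplexConjugate Classical ContDiff Topology

def vorCT_ct (θ : ℝ) (a : ℕ) (q : E) (Y X : ℝ) (C : E) : ℂ :=
  toC C / (toC (Lam a * q) * ((θ * X ^ 3 / Y ^ 2 : ℝ) : ℂ))

def vorCT_F (θ : ℝ) (a : ℕ) (q η : E) (w : ℂ → ℂ) (Y X : ℝ) (C : E) (z : ℂ × ℂ) : ℂ :=
  FintT θ w (vorCT_ct θ a q Y X C) ((-toC q / ((θ * X ^ 3 / Y : ℝ) : ℂ)) * z.1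
    + toC (Lam a * η * C) / ((θ * X ^ 3 / Y : ℝ) : ℂ),
    ((X : ℂ) / ((θ * X ^ 3 / Y : ℝ) : ℂ)) * z.2)

variable {θ : ℝ} {a : ℕ} {ρ : E → ℂ} {q u η β : E} {w : ℂ → ℂ} {Y X : ℝ}

theorem vorCT_q (h : VPr a ρ q u η β w Y) : q ≠ 0 := by
  intro hq
  exact h.hq (hq ▸ dvd_zero _)

theorem vorCT_det (h : VPr a ρ q u η β w Y) :
    Lam a * u * (Lam a * η) - vc_b a q u η * q = 1 := by
  have := mul_dv h.hη
  unfold vc_b
  linear_combination -this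

theorem vorCT_beta (h : VPr a ρ q u η β w Y) : Lam a ∣ vc_b a q u η - β := by
  have h1 : Lam a ∣ q * (vc_b a q u η - β) := by
    have e : q * (vc_b a q u η - β) = Lam a * (u * (Lam a * η)) - (β * q + 1) := by
      linear_combination -vorCT_det h
    rw [e]
    exact dvd_sub (dvd_mul_right _ _) h.hβ
  exact (coprime_Lam h.hq a).symm.dvd_of_dvd_mul_left h1

theorem vorCT_rh (h : VPr a ρ q u η β w Y) (C d : E) :
    rh a ρ (-(-vc_b a q u η * C + Lam a * u * d)) = rh a ρ (β * C) := by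
  apply rh_per
  have e : -(-vc_b a q u η * C + Lam a * u * d) - β * C
      = (vc_b a q u η - β) * C - Lam a * (u * d) := by ring
  rw [e]
  exact dvd_sub ((vorCT_beta h).mul_right _) (dvd_mul_right _ _)

theorem vorCT_G1_zero (h : VPr a ρ q u η β w Y) {C : E} (hC : Lam a ∣ C) (d ξ : E) :
    G1T θ a ρ q u w Y X (Lam a * η * C - q * d) (-vc_b a q u η * C + Lam a * u * d) ξ = 0 := by
  unfold G1T
  rw [vorCT_rh h, rh_of_dvd h.mean (hC.mul_left β)]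
  simp

theorem vorCT_Fint (hθ : 0 < θ) (ha : 1 ≤ a) (hq : q ≠ 0) (hX : 0 < X) (hY : 0 < Y) {C d : E} (hC : C ≠ 0)
    (hd : d ≠ 0) (ξ : E) :
    FintT θ w (vorCT_ct θ a q Y X C) (toC d / ((θ * X ^ 3 / Y : ℝ) : ℂ),
        (X : ℂ) / ((θ * X ^ 3 / Y : ℝ) : ℂ) * toC ξ)
      = ((θ * X ^ 3 / Y : ℝ) : ℂ) ^ 2 * (nm d : ℂ)⁻¹ * a0 (toC d / ((θ * X ^ 3 / Y : ℝ) : ℂ))
        * ft w (-(Y * toC C / toC (Lam a * d * q))) * ft b0 (X * toC ξ / toC d)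
        * psf ((3 ^ (a - 1) * ξ) ^ 3 * q) (d * C) := by
  have hXc : (X : ℂ) ≠ 0 := ofReal_ne_zero.2 hX.ne'
  have hYc : (Y : ℂ) ≠ 0 := ofReal_ne_zero.2 hY.ne'
  have hθc : (θ : ℂ) ≠ 0 := ofReal_ne_zero.2 hθ.ne'
  have hd' := toC_ne_zero hd
  have hq' := toC_ne_zero hq
  have hC' := toC_ne_zero hC
  have hL := toC_ne_zero (Lam_ne_zero a)
  have e1 : vorCT_ct θ a q Y X C / (toC d / ((θ * X ^ 3 / Y : ℝ) : ℂ))
      = Y * toC C / toC (Lam a * d * q) := by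
    unfold vorCT_ct
    rw [map_mul, map_mul, map_mul]
    generalize toC (Lam a) = L at hL
    generalize toC d = d at hd'
    generalize toC q = q at hq'
    generalize toC C = C at hC'
    push_cast
    field_simp
  have e2 : (X : ℂ) / ((θ * X ^ 3 / Y : ℝ) : ℂ) * toC ξ / (toC d / ((θ * X ^ 3 / Y : ℝ) : ℂ))
      = X * toC ξ / toC d := by
    generalize toC d = d at hd'
    generalize toC ξ = ξ
    push_cast
    field_simp
  have e3 : psi (θ * ((X : ℂ) / ((θ * X ^ 3 / Y : ℝ) : ℂ) * toC ξ) ^ 3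
      / (27 * (toC d / ((θ * X ^ 3 / Y : ℝ) : ℂ)) * vorCT_ct θ a q Y X C))
      = psf ((3 ^ (a - 1) * ξ) ^ 3 * q) (d * C) := by
    unfold psf vorCT_ct
    apply congrArg
    rw [map_mul toC (Lam a), vc_three ha, map_mul toC _ q, map_pow toC _ 3, map_mul, map_mul]
    have h3' : toC (3 ^ (a - 1)) ≠ 0 := by
      intro h0
      rw [vc_three ha, h0] at hL
      exact hL (by ring)
    generalize toC (3 ^ (a - 1)) = t at h3'
    generalize toC d = d at hd'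
    generalize toC q = q at hq'
    generalize toC C = C at hC'
    generalize toC ξ = ξ
    push_cast
    field_simp
  have e4 : ((‖toC d / ((θ * X ^ 3 / Y : ℝ) : ℂ)‖ ^ 2 : ℝ) : ℂ)⁻¹
      = ((θ * X ^ 3 / Y : ℝ) : ℂ) ^ 2 * (nm d : ℂ)⁻¹ := by
    rw [norm_div, div_pow, ← nm_eq, Complex.norm_real, Real.norm_eq_abs, sq_abs, ofReal_div,
      inv_div, ofReal_pow, ofReal_natCast, div_eq_mul_inv]
  unfold FintT
  dsimp only
  rw [e1, e2, e3, e4]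

theorem vorCT_ct_ne (hθ : 0 < θ) (hq : q ≠ 0) (hX : 0 < X) (hY : 0 < Y) {C : E} (hC : C ≠ 0) :
    vorCT_ct θ a q Y X C ≠ 0 :=
  div_ne_zero (toC_ne_zero hC) (mul_ne_zero (toC_ne_zero (mul_ne_zero (Lam_ne_zero a) hq))
    (ofReal_ne_zero.2 (by positivity)))

theorem vorCT_ft2 (hθ : 0 < θ) (hq : q ≠ 0) (hX : 0 < X) (hY : 0 < Y) {C : E} (hC : C ≠ 0) (δ ζ : E) :
    ft2 (vorCT_F θ a q η w Y X C) (toC δ / toC (Lam a * C)) (toC ζ / toC (Lam a * C))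
      = ((θ * X ^ 3 / Y : ℝ) : ℂ) ^ 2 * ((((θ * X ^ 3 / Y) ^ 2 / X ^ 2 : ℝ) : ℂ) / (nm q : ℂ))
        * psf (-(η * δ)) q * IaT θ w (vorCT_ct θ a q Y X C) (zd a q Y δ)
          (toC ζ / (toC (Lam a ^ 2 * q) * ((X / Y : ℝ) : ℂ))) := by
  have hXc : (X : ℂ) ≠ 0 := ofReal_ne_zero.2 hX.ne'
  have hYc : (Y : ℂ) ≠ 0 := ofReal_ne_zero.2 hY.ne'
  have hθc : (θ : ℂ) ≠ 0 := ofReal_ne_zero.2 hθ.ne'
  have hD : ((θ * X ^ 3 / Y : ℝ) : ℂ) ≠ 0 := ofReal_ne_zero.2 (by positivity)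
  have hq' := toC_ne_zero hq
  have hC' := toC_ne_zero hC
  have hL := toC_ne_zero (Lam_ne_zero a)
  have key := ft2_affine (FintT θ w (vorCT_ct θ a q Y X C)) (div_ne_zero (neg_ne_zero.2 hq') hD)
    (div_ne_zero hXc hD) (toC (Lam a * η * C) / ((θ * X ^ 3 / Y : ℝ) : ℂ))
    (toC δ / toC (Lam a * C)) (toC ζ / toC (Lam a * C))
  have e1 : ((‖-toC q / ((θ * X ^ 3 / Y : ℝ) : ℂ)‖ ^ 2 * ‖(X : ℂ) / ((θ * X ^ 3 / Y : ℝ) : ℂ)‖ ^ 2 : ℝ) : ℂ)⁻¹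
      = ((θ * X ^ 3 / Y : ℝ) : ℂ) ^ 2 * ((((θ * X ^ 3 / Y) ^ 2 / X ^ 2 : ℝ) : ℂ) / (nm q : ℂ)) := by
    have hn : (nm q : ℂ) ≠ 0 := Nat.cast_ne_zero.2 (mt nm_eq_zero.1 hq)
    rw [norm_div, norm_div, div_pow, div_pow, norm_neg, ← nm_eq, Complex.norm_real,
      Complex.norm_real, Real.norm_eq_abs, Real.norm_eq_abs, sq_abs, sq_abs]
    push_cast
    generalize (nm q : ℂ) = n at hn
    field_simp
  have e2 : psi (toC (Lam a * η * C) / ((θ * X ^ 3 / Y : ℝ) : ℂ) * (toC δ / toC (Lam a * C))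
      / (-toC q / ((θ * X ^ 3 / Y : ℝ) : ℂ))) = psf (-(η * δ)) q := by
    unfold psf
    apply congrArg
    rw [map_mul, map_mul, map_mul, map_neg, map_mul]
    generalize toC (Lam a) = L at hL
    generalize toC q = q at hq'
    generalize toC C = C at hC'
    generalize ((θ * X ^ 3 / Y : ℝ) : ℂ) = D at hD
    field_simp
  have e3 : toC δ / toC (Lam a * C) / (-toC q / ((θ * X ^ 3 / Y : ℝ) : ℂ))
      = -(zd a q Y δ / vorCT_ct θ a q Y X C) := by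
    unfold zd vorCT_ct
    rw [map_mul, map_mul, map_mul, map_pow, map_pow]
    generalize toC (Lam a) = L at hL
    generalize toC q = q at hq'
    generalize toC C = C at hC'
    generalize toC δ = δ
    push_cast
    field_simp
  have e4 : toC ζ / toC (Lam a * C) / ((X : ℂ) / ((θ * X ^ 3 / Y : ℝ) : ℂ))
      = toC ζ / (toC (Lam a ^ 2 * q) * ((X / Y : ℝ) : ℂ)) / vorCT_ct θ a q Y X C := by
    unfold vorCT_ct
    rw [map_mul, map_mul, map_mul, map_pow]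
    generalize toC (Lam a) = L at hL
    generalize toC q = q at hq'
    generalize toC C = C at hC'
    generalize toC ζ = ζ
    push_cast
    field_simp
  rw [e1, e2, e3, e4] at key
  exact key

theorem vorCT_G1 (hθ : 0 < θ) (h3 : Eqv) (h4 : HOne) (h : VPr a ρ q u η β w Y) (hX : 0 < X) {C : E}
    (hC : ¬ Lam a ∣ C) (d ξ : E) :
    G1T θ a ρ q u w Y X (Lam a * η * C - q * d) (-vc_b a q u η * C + Lam a * u * d) ξ
      = xv c3 q u * H C q * rh a ρ (β * C) * (((θ * X ^ 3 / Y : ℝ) : ℂ) ^ 2)⁻¹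
        * (vc_coef a q C d ξ * vorCT_F θ a q η w Y X C (toC d, toC ξ)) := by
  have hq := vorCT_q h
  have hC0 := (vp_lt_of_not_dvd hC).1
  have hdet := vorCT_det h
  have hiff : Lam a ∣ Lam a * η * C - q * d - 1 ↔ Lam a ∣ q * d + 1 := by
    have e : Lam a * η * C - q * d - 1 = Lam a * (η * C) - (q * d + 1) := by ring
    rw [e]
    exact dvd_sub_right (dvd_mul_right _ _)
  unfold G1T vc_coef
  by_cases hd : Lam a ∣ q * d + 1
  swap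
  · rw [if_neg hd, if_neg (mt hiff.1 hd), zero_mul, zero_mul, mul_zero]
  have hd1 := hiff.2 hd
  rw [if_pos hd, if_pos hd1, vorCT_rh h]
  have eC : Lam a * u * (Lam a * η * C - q * d) + q * (-vc_b a q u η * C + Lam a * u * d) = C := by
    linear_combination C * hdet
  have ed : vc_b a q u η * (Lam a * η * C - q * d)
      + Lam a * η * (-vc_b a q u η * C + Lam a * u * d) = d := by
    linear_combination d * hdet
  have ez : (-toC q / ((θ * X ^ 3 / Y : ℝ) : ℂ)) * toC d + toC (Lam a * η * C) / ((θ * X ^ 3 / Y : ℝ) : ℂ)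
      = toC (Lam a * η * C - q * d) / ((θ * X ^ 3 / Y : ℝ) : ℂ) := by
    rw [map_sub, map_mul toC q d]
    ring
  unfold vorCT_F
  dsimp only
  rw [ez]
  generalize Lam a * η * C - q * d = d0 at hd1 eC ed ⊢
  generalize -vc_b a q u η * C + Lam a * u * d = δ at eC ed ⊢
  have hd0 := primary_ne_zero (vc_prim h.ha hd1)
  have h9 := (nine_dvd_Lam h.ha).trans hd1
  have hE := h3 (Lam a * u) (vc_b a q u η) q (Lam a * η) d0 δ
    (3 ^ (a - 1) * ξ) hdet hq hd0 (by rw [eC]; exact hC0)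
  rw [eC, ed, xv_Lam hq, h4 d0 C h9 hC0, H_swap d0 q, h4 d0 q h9 hq, map_one,
    psg_eq (mul_ne_zero hd0 hC0), vc_psq h.ha hd1 hC] at hE
  have hY := h.hY
  have hD : ((θ * X ^ 3 / Y : ℝ) : ℂ) ≠ 0 := ofReal_ne_zero.2 (by positivity)
  rw [eC, hE, vorCT_Fint hθ h.ha hq hX hY hC0 hd0]
  generalize ((θ * X ^ 3 / Y : ℝ) : ℂ) = D at hD ⊢
  have hD2 : (D ^ 2)⁻¹ * D ^ 2 = 1 := inv_mul_cancel₀ (pow_ne_zero _ hD)
  generalize (D ^ 2)⁻¹ = D' at hD2 ⊢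
  generalize (nm d0 : ℂ)⁻¹ = t1
  generalize a0 _ = t2
  generalize rh a ρ _ = t3
  generalize xv c3 q u = t4
  generalize H C q = t5
  generalize psf _ _ = t6
  generalize conj (psq _ _ _) = t7
  generalize phig _ _ _ = t8
  generalize ft w _ = t9
  generalize ft b0 _ = t10
  linear_combination (-(t1 * t2 * t3 * t4 * t5 * t6 * t7 * t8 * t9 * t10)) * hD2

theorem vorCT_bounds (hθ : 0 < θ) (hθ1 : θ ≤ 1) (h5 : ArchT) (h6 : IBdT) (hw : Rad w)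
    (hq : q ≠ 0) (hX : 0 < X) (hY : 0 < Y) {C : E}
    (hC : C ≠ 0) : ∃ M : ℝ, (∀ z : ℂ × ℂ, ‖vorCT_F θ a q η w Y X C z‖
      ≤ M * (1 + ‖z.1‖) ^ (-3 : ℝ) * (1 + ‖z.2‖) ^ (-3 : ℝ)) ∧
      ∀ x y, ‖ft2 (vorCT_F θ a q η w Y X C) x y‖ ≤ M * (1 + ‖x‖) ^ (-3 : ℝ) * (1 + ‖y‖) ^ (-3 : ℝ) := by
  have hXc : (X : ℂ) ≠ 0 := ofReal_ne_zero.2 hX.ne'
  have hD : ((θ * X ^ 3 / Y : ℝ) : ℂ) ≠ 0 := ofReal_ne_zero.2 (by positivity)
  have hs := div_ne_zero (neg_ne_zero.2 (toC_ne_zero hq)) hD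
  have ht := div_ne_zero hXc hD
  have hc := vorCT_ct_ne (a := a) hθ hq hX hY hC
  have key := ft2_affine (FintT θ w (vorCT_ct θ a q Y X C)) hs ht
    (toC (Lam a * η * C) / ((θ * X ^ 3 / Y : ℝ) : ℂ))
  unfold vorCT_F
  generalize vorCT_ct θ a q Y X C = c at hc key ⊢
  generalize -toC q / ((θ * X ^ 3 / Y : ℝ) : ℂ) = s at hs key ⊢
  generalize (X : ℂ) / ((θ * X ^ 3 / Y : ℝ) : ℂ) = t at ht key ⊢
  generalize toC (Lam a * η * C) / ((θ * X ^ 3 / Y : ℝ) : ℂ) = b at key ⊢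
  obtain ⟨M0, hM0, H0⟩ := h5.bound w hw
  obtain ⟨M1, hM1, H1⟩ := vc_decay (G := fun x y => FintT θ w c (x, y)) hM0.le
    (fun x y => H0 θ c (x, y)) hs ht b
  obtain ⟨K, hK, HK⟩ := h6 w 3 hw
  obtain ⟨M2, hM2, H2⟩ := vc_decay (G := fun x y => IaT θ w c x y)
    (M := K * ‖c‖ * (1 + ‖c‖) ^ (-3 : ℝ)) (by positivity)
    (fun x y => by simpa using (HK θ hθ.le hθ1 c x hc).1 y) (div_ne_zero (neg_ne_zero.2 hc) hs)
    (div_ne_zero hc ht) 0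
  refine ⟨max M1 ((‖s‖ ^ 2 * ‖t‖ ^ 2)⁻¹ * M2), fun z => (H1 z.1 z.2).trans ?_, fun x y => ?_⟩
  · gcongr
    exact le_max_left _ _
  · have h3 := H2 x y
    have e1 : -((-c / s * x + 0) / c) = x / s := by field_simp; ring
    have e2 : c / t * y / c = y / t := by field_simp
    unfold IaT at h3
    rw [e1, e2] at h3
    rw [key, norm_mul, norm_mul, norm_psi, mul_one, norm_inv, Complex.norm_real,
      Real.norm_of_nonneg (by positivity)]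
    calc _ ≤ (‖s‖ ^ 2 * ‖t‖ ^ 2)⁻¹ * (M2 * (1 + ‖x‖) ^ (-3 : ℝ) * (1 + ‖y‖) ^ (-3 : ℝ)) := by
          gcongr
      _ = (‖s‖ ^ 2 * ‖t‖ ^ 2)⁻¹ * M2 * (1 + ‖x‖) ^ (-3 : ℝ) * (1 + ‖y‖) ^ (-3 : ℝ) := by ring
      _ ≤ _ := by
          gcongr
          exact le_max_right _ _

theorem vorCT_cont (h5 : ArchT) (hw : Rad w) (C : E) : Continuous (vorCT_F θ a q η w Y X C) := by
  unfold vorCT_F
  exact (h5.smooth θ w _ hw).continuous.comp (by fun_prop)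

theorem vorCT_inner (hθ : 0 < θ) (hθ1 : θ ≤ 1) (h1 : PS2) (h2 : GlS) (h3 : Eqv) (h4 : HOne)
    (h5 : ArchT) (h6 : IBdT)
    (h : VPr a ρ q u η β w Y) (hX : 0 < X) (C : E) :
    ∑' x : E × E, G1T θ a ρ q u w Y X (Lam a * η * C - q * x.1)
        (-vc_b a q u η * C + Lam a * u * x.1) x.2
      = xv c3 q u * ((((θ * X ^ 3 / Y) ^ 2 / X ^ 2 : ℝ) : ℂ) / (nm q : ℂ))
        * ∑' x : E × E, psf (-(η * x.1)) q * G2T θ a ρ q β w Y X x.1 C x.2 := by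
  by_cases hC : Lam a ∣ C
  · simp only [vorCT_G1_zero h hC, G2T, if_pos hC, mul_zero, tsum_zero]
  have hq := vorCT_q h
  have hY := h.hY
  have hC0 := (vp_lt_of_not_dvd hC).1
  have hLC := mul_ne_zero (Lam_ne_zero a) hC0
  obtain ⟨M, B1, B2⟩ := vorCT_bounds (a := a) (η := η) hθ hθ1 h5 h6 h.rad hq hX hY hC0
  have key := h1 (Lam a * C) (vc_coef a q C) (vorCT_F θ a q η w Y X C) M hLC (coef2_per q hC)
    (vorCT_cont h5 h.rad C) B1 B2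
  simp only [vorCT_G1 hθ h3 h4 h hX hC]
  rw [tsum_mul_left, key, ← tsum_mul_left, ← tsum_mul_left, ← tsum_mul_left]
  refine tsum_congr fun x => ?_
  have e := coef2 h2 h.ha q hC x.1 x.2
  have hD : ((θ * X ^ 3 / Y : ℝ) : ℂ) ≠ 0 := ofReal_ne_zero.2 (by positivity)
  have hn : (nm (Lam a * C) : ℂ) ≠ 0 := Nat.cast_ne_zero.2 (mt nm_eq_zero.1 hLC)
  unfold vc_coef
  rw [e, vorCT_ft2 hθ hq hX hY hC0]
  unfold G2T vorCT_ct
  rw [if_neg hC]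
  have hD2 : (((θ * X ^ 3 / Y : ℝ) : ℂ) ^ 2)⁻¹ * ((θ * X ^ 3 / Y : ℝ) : ℂ) ^ 2 = 1 :=
    inv_mul_cancel₀ (pow_ne_zero _ hD)
  have hn2 : ((nm (Lam a * C) : ℂ) ^ 2)⁻¹ * (nm (Lam a * C) : ℂ) ^ 2 = 1 :=
    inv_mul_cancel₀ (pow_ne_zero _ hn)
  generalize (((θ * X ^ 3 / Y : ℝ) : ℂ) ^ 2)⁻¹ = D' at hD2 ⊢
  generalize ((θ * X ^ 3 / Y : ℝ) : ℂ) ^ 2 = D at hD2 ⊢
  generalize ((nm (Lam a * C) : ℂ) ^ 2)⁻¹ = n' at hn2 ⊢
  generalize (nm (Lam a * C) : ℂ) ^ 2 = n at hn2 ⊢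
  generalize (((θ * X ^ 3 / Y) ^ 2 / X ^ 2 : ℝ) : ℂ) / (nm q : ℂ) = t1
  generalize IaT _ _ _ _ _ = t2
  generalize rh a ρ _ = t3
  generalize xv c3 q u = t4
  generalize H C q = t5
  generalize psf _ _ = t6
  generalize Lt _ _ _ _ _ = t7
  generalize phig _ _ _ = t8
  generalize (nm (up lam C) : ℂ) = t9
  linear_combination (t1 * t2 * t3 * t4 * t5 * t6 * t7 * t8 / t9) * (n' * n * hD2 + hn2)

theorem vorCT_summable (hθ : 0 < θ) (hθ1 : θ ≤ 1) (h6 : IBdT)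
    (h : VPr a ρ q u η β w Y) (hX : 0 < X) :
    Summable fun x : E × E × E => ‖G2T θ a ρ q β w Y X x.1 x.2.1 x.2.2‖ := by
  have hq := vorCT_q h
  have hY := h.hY
  have hL := Lam_ne_zero a
  obtain ⟨K, hK, HK⟩ := h6 w 4 h.rad
  have n1 : (Y : ℂ) / toC (Lam a ^ 2 * q ^ 2) ≠ 0 := div_ne_zero (ofReal_ne_zero.2 hY.ne')
    (toC_ne_zero (mul_ne_zero (pow_ne_zero _ hL) (pow_ne_zero _ hq)))
  have n2 : (toC (Lam a * q) * ((θ * X ^ 3 / Y ^ 2 : ℝ) : ℂ))⁻¹ ≠ 0 := inv_ne_zero (mul_ne_zero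
    (toC_ne_zero (mul_ne_zero hL hq)) (ofReal_ne_zero.2 (by positivity)))
  have n3 : (toC (Lam a ^ 2 * q) * ((X / Y : ℝ) : ℂ))⁻¹ ≠ 0 := inv_ne_zero (mul_ne_zero
    (toC_ne_zero (mul_ne_zero (pow_ne_zero _ hL) hq)) (ofReal_ne_zero.2 (by positivity)))
  have s1 := summable_shift_decay (σ := 4) (by norm_num) n1 0
  have s2 := summable_shift_decay (σ := 3) (by norm_num) n2 0
  have s3 := summable_shift_decay (σ := 4) (by norm_num) n3 0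
  have s23 := s2.mul_of_nonneg s3 (fun _ => by positivity) (fun _ => by positivity)
  have s123 := (s1.mul_of_nonneg s23 (fun _ => by positivity)
    (fun _ => by positivity)).mul_left (nm (Lam a) * K)
  refine s123.of_nonneg_of_le (fun _ => norm_nonneg _) fun x => ?_
  obtain ⟨δ, C, ζ⟩ := x
  dsimp only
  unfold G2T
  split_ifs with hC
  · rw [norm_zero]
    positivity
  have hC0 := (vp_lt_of_not_dvd hC).1
  have b1 := (HK θ hθ.le hθ1 _ (zd a q Y δ) (vorCT_ct_ne (a := a) hθ hq hX hY hC0)).1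
    (toC ζ / (toC (Lam a ^ 2 * q) * ((X / Y : ℝ) : ℂ)))
  have e1 : (Y : ℂ) / toC (Lam a ^ 2 * q ^ 2) * toC δ + 0 = zd a q Y δ := by
    unfold zd
    ring
  rw [e1, add_zero, add_zero, inv_mul_eq_div, inv_mul_eq_div]
  unfold vorCT_ct at b1
  generalize toC C / (toC (Lam a * q) * ((θ * X ^ 3 / Y ^ 2 : ℝ) : ℂ)) = c at b1 ⊢
  generalize toC ζ / (toC (Lam a ^ 2 * q) * ((X / Y : ℝ) : ℂ)) = t at b1 ⊢
  generalize zd a q Y δ = z at b1 ⊢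
  have b2 := norm_rh_le (a := a) h.bd (β * C)
  have b3 := norm_Lt_le a q C δ ζ
  have hn := one_le_nmR (up_ne_zero (p := lam) hC0)
  have b4 : ‖phig C (Lam a ^ 3 * δ) ζ‖ ≤ nm (up lam C) := by
    refine (norm_phig_le hC0 _ _).trans ?_
    simpa using Real.rpow_le_rpow_of_exponent_le hn (show (2 / 3 : ℝ) ≤ 1 by norm_num)
  have b5 : ‖c‖ * (1 + ‖c‖) ^ (-4 : ℝ) ≤ (1 + ‖c‖) ^ (-3 : ℝ) := by
    have : (1 + ‖c‖) ^ (-3 : ℝ) = (1 + ‖c‖) * (1 + ‖c‖) ^ (-4 : ℝ) := by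
      rw [← Real.rpow_one_add' (by positivity) (by norm_num)]
      norm_num
    rw [this]
    gcongr
    exact le_add_of_nonneg_left zero_le_one
  have b6 : ‖IaT θ w c z t‖ ≤ K * ((1 + ‖z‖) ^ (-4 : ℝ)
      * ((1 + ‖c‖) ^ (-3 : ℝ) * (1 + ‖t‖) ^ (-4 : ℝ))) := by
    refine b1.trans ?_
    push_cast
    calc _ = K * ((1 + ‖z‖) ^ (-4 : ℝ)
        * ((‖c‖ * (1 + ‖c‖) ^ (-4 : ℝ)) * (1 + ‖t‖) ^ (-4 : ℝ))) := by ring
      _ ≤ _ := by gcongr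
  have b7 : ‖H C q * rh a ρ (β * C) * Lt a q C δ ζ * phig C (Lam a ^ 3 * δ) ζ
      / (nm (up lam C) : ℂ)‖ ≤ nm (Lam a) := by
    rw [norm_div, norm_mul, norm_mul, norm_mul, norm_H hC0 hq, one_mul, Complex.norm_natCast,
      div_le_iff₀ (by positivity)]
    calc _ ≤ (nm (Lam a) : ℝ) * 1 * nm (up lam C) := by gcongr
      _ = _ := by ring
  rw [norm_mul, mul_assoc (nm (Lam a) : ℝ)]
  exact mul_le_mul b7 b6 (norm_nonneg _) (Nat.cast_nonneg _)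

theorem vorCT (h1 : PS2) (h2 : GlS) (h3 : Eqv) (h4 : HOne) (h5 : ArchT) (h6 : IBdT) :
    VorCT := by
  intro θ a ρ q u η β w Y hθ hθ1 h X hX hS
  have s2 := vorCT_summable hθ hθ1 h6 h hX
  refine ⟨s2.of_norm, ?_⟩
  have s3 : Summable fun x : E × E × E =>
      psf (-(η * x.1)) q * G2T θ a ρ q β w Y X x.1 x.2.1 x.2.2 := by
    apply Summable.of_norm
    simpa only [norm_mul, norm_psf, one_mul] using s2
  have e1 := (vc_eqv _ _ _ _ (vorCT_det h)).tsum_eq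
    (fun x : E × E × E => G1T θ a ρ q u w Y X x.1 x.2.1 x.2.2)
  have e2 := vc_swap.tsum_eq
    (fun x : E × E × E => psf (-(η * x.1)) q * G2T θ a ρ q β w Y X x.1 x.2.1 x.2.2)
  have e3 := ((vc_eqv _ _ _ _ (vorCT_det h)).summable_iff.2 hS).tsum_prod
  have e4 := (vc_swap.summable_iff.2 s3).tsum_prod
  rw [← e1, ← e2]
  refine e3.trans ?_
  refine Eq.trans ?_ (congrArg _ e4.symm)
  rw [← tsum_mul_left]
  exact tsum_congr fun C => vorCT_inner hθ hθ1 h1 h2 h3 h4 h5 h6 h hX C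

end Pat
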