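import Vale.Agent.P006.IfA
import Vale.Agent.P026.VorD
import Vale.Agent.P026.VorE
import Vale.Agent.P026.Vor2

/-! The dual terms of the radial Voronoi formula and its polar term. -/

noncomputable section
namespace Pat
open QRH Complex MeasureTheory Filter
open scoped ComplexConjugate Classical ContDiff Topology

theorem vorDT_pt (h3 : Asw) {θ : ℝ} (hθ : 0 < θ) (a : ℕ) (ρ : E → ℂ) {q δ : E} (hq : q ≠ 0)
    (hδ : δ ≠ 0) (β : E) (w : ℂ → ℂ) {Y X : ℝ} (hY : 0 < Y) (hX : 0 < X) (C ζ : E) :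
    ((Y ^ 2 / X ^ 2 : ℝ) : ℂ) / (nm (Lam a * q) : ℂ) * G2T θ a ρ q β w Y X δ C ζ
      = nm (Lam a) * ((((‖toC (Lam a * q) * ((θ * X ^ 3 / Y ^ 2 : ℝ) : ℂ)‖ ^ 2
          * ‖toC (Lam a ^ 2 * q) * ((X / Y : ℝ) : ℂ)‖ ^ 2)⁻¹ : ℝ) : ℂ) *
        if C = 0 then 0 else Al a ρ q β δ C ζ * phig (Lam a ^ 3 * δ) (-C) ζ *
          (((‖toC C / (toC (Lam a * q) * ((θ * X ^ 3 / Y ^ 2 : ℝ) : ℂ))‖ ^ 2 : ℝ) : ℂ)⁻¹
            * psi ((toC ζ / (toC (Lam a ^ 2 * q) * ((X / Y : ℝ) : ℂ))) ^ 3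
              / (θ * (toC C / (toC (Lam a * q) * ((θ * X ^ 3 / Y ^ 2 : ℝ) : ℂ))) * zd a q Y δ))
            * IaT θ w (toC C / (toC (Lam a * q) * ((θ * X ^ 3 / Y ^ 2 : ℝ) : ℂ))) (zd a q Y δ)
              (toC ζ / (toC (Lam a ^ 2 * q) * ((X / Y : ℝ) : ℂ))))) := by
  by_cases hC : Lam a ∣ C
  · simp [G2T, Al, hC]
  have hC0 := (vp_lt_of_not_dvd hC).1
  have hL := Lam_ne_zero a
  have hδ' : Lam a ^ 3 * δ ≠ 0 := mul_ne_zero (pow_ne_zero _ hL) hδ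
  have hL' := toC_ne_zero hL
  have hq' := toC_ne_zero hq
  have hC' := toC_ne_zero hC0
  have hδ'' := toC_ne_zero hδ
  have hX' : (X : ℂ) ≠ 0 := by exact_mod_cast hX.ne'
  have hY' : (Y : ℂ) ≠ 0 := by exact_mod_cast hY.ne'
  have hθ' : (θ : ℂ) ≠ 0 := by exact_mod_cast hθ.ne'
  have e1 : psi ((toC ζ / (toC (Lam a ^ 2 * q) * ((X / Y : ℝ) : ℂ))) ^ 3
      / (θ * (toC C / (toC (Lam a * q) * ((θ * X ^ 3 / Y ^ 2 : ℝ) : ℂ))) * zd a q Y δ))
      = psf (ζ ^ 3) (C * (Lam a ^ 3 * δ)) := by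
    unfold psf zd
    congr 1
    simp only [map_mul, map_pow]
    push_cast
    field_simp
  have e2 : (nm C : ℂ) = 3 ^ vp lam C * nm (up lam C) := by
    conv_lhs => rw [← pow_vp_mul_up lam C, nm_mul, nm_pow, nm_lam]
    push_cast; rfl
  have e3 : ‖toC (Lam a ^ 2 * q) * ((X / Y : ℝ) : ℂ)‖ ^ 2
      = nm (Lam a) * (nm (Lam a) * nm q) * (X ^ 2 / Y ^ 2) := by
    rw [norm_mul, mul_pow, ← nm_eq, Complex.norm_real, Real.norm_eq_abs, sq_abs, nm_mul, nm_pow]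
    push_cast; ring
  have hS : ‖toC (Lam a * q) * ((θ * X ^ 3 / Y ^ 2 : ℝ) : ℂ)‖ ≠ 0 := by
    rw [norm_ne_zero_iff]
    refine mul_ne_zero (toC_ne_zero (mul_ne_zero hL hq)) ?_
    exact_mod_cast (by positivity : θ * X ^ 3 / Y ^ 2 ≠ 0)
  have hn : ∀ x : E, x ≠ 0 → (nm x : ℂ) ≠ 0 := fun x hx => by
    exact_mod_cast mt nm_eq_zero.1 hx
  have n1 := hn _ hL
  have n2 := hn _ hq
  have n3 := hn _ (up_ne_zero (p := lam) hC0)
  rw [G2T, Al, if_neg hC, if_neg hC, if_neg hC0, e1, e3, norm_div, div_pow, ← nm_eq,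
    h3 C (Lam a ^ 3 * δ) ζ hC0 hδ', psg_eq (mul_ne_zero hC0 hδ'), nm_mul]
  generalize ‖toC (Lam a * q) * ((θ * X ^ 3 / Y ^ 2 : ℝ) : ℂ)‖ = r at hS
  have hr : (r : ℂ) ≠ 0 := by exact_mod_cast hS
  push_cast
  rw [e2]
  field_simp

theorem vorDT (h1 : RiemL) (h2 : GlS) (h3 : Asw) (h4 : HCongr) (h5 : ArchT) (h6 : IBdT) :
    VorDT := by
  intro θ a ρ q u η β w Y hθ hθ1 hp δ hδ
  have hq : q ≠ 0 := fun h => hp.hq (h ▸ dvd_zero _)
  have hY := hp.hY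
  have hL := Lam_ne_zero a
  have hδ' : Lam a ^ 3 * δ ≠ 0 := mul_ne_zero (pow_ne_zero _ hL) hδ
  obtain ⟨C, hC, hI⟩ := h6 w 3 hp.rad
  have hθ' : (θ : ℂ) ≠ 0 := by exact_mod_cast hθ.ne'
  have hz : zd a q Y δ ≠ 0 := by
    unfold zd
    refine div_ne_zero (mul_ne_zero (toC_ne_zero hδ) (by exact_mod_cast hY.ne')) (toC_ne_zero ?_)
    exact mul_ne_zero (pow_ne_zero _ hL) (pow_ne_zero _ hq)
  have hper' : Per2 (up lam (Lam a ^ 3 * δ)) fun C ζ => phig (Lam a ^ 3 * δ) (-C) ζ :=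
    fun x x' y y' hx hy =>
      phig_per hδ' _ _ _ _ (by rw [neg_sub_neg]; exact dvd_sub_comm.1 hx) hy
  have hS : ∀ (x : E) (f : ℝ → ℝ), x ≠ 0 → Tendsto f atTop atTop →
      Tendsto (fun X => ‖toC x * ((f X : ℝ) : ℂ)‖) atTop atTop := by
    intro x f hx hf
    simp only [norm_mul, Complex.norm_real, Real.norm_eq_abs]
    exact (tendsto_abs_atTop_atTop.comp hf).const_mul_atTop (norm_pos_iff.2 (toC_ne_zero hx))
  have key := h1 (lam ^ (30 * a + 4 + vp lam δ) * up lam (Lam a ^ 3 * δ))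
    (fun C ζ => Al a ρ q β δ C ζ * phig (Lam a ^ 3 * δ) (-C) ζ)
    (fun y => ((‖y.1‖ ^ 2 : ℝ) : ℂ)⁻¹ * psi (y.2 ^ 3 / (θ * y.1 * zd a q Y δ))
      * IaT θ w y.1 (zd a q Y δ) y.2) C
    (fun X => toC (Lam a * q) * ((θ * X ^ 3 / Y ^ 2 : ℝ) : ℂ))
    (fun X => toC (Lam a ^ 2 * q) * ((X / Y : ℝ) : ℂ))
    (mul_ne_zero (pow_ne_zero _ lam_prime.ne_zero) (up_ne_zero hδ'))
    (((Al_per h4 a ρ hq hδ β).mono (dvd_mul_right _ _)).mul (hper'.mono (dvd_mul_left _ _)))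
    ?_ ?_
    (hS _ _ (mul_ne_zero hL hq)
      (((tendsto_pow_atTop (by norm_num)).const_mul_atTop hθ).atTop_div_const (by positivity)))
    (hS _ _ (mul_ne_zero (pow_ne_zero _ hL) hq) (tendsto_id.atTop_div_const hY))
  · rw [vd_avg h2 h4 a ρ hq hδ β] at key
    have key2 := key.const_mul (nm (Lam a) : ℂ)
    rw [← mul_assoc] at key2
    refine key2.congr' ?_
    filter_upwards [eventually_gt_atTop 0] with X hX
    rw [← tsum_mul_left, ← tsum_mul_left, ← tsum_mul_left]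
    exact tsum_congr fun x => (vorDT_pt h3 hθ a ρ hq hδ β w hY hX x.1 x.2).symm
  · refine ContinuousOn.mul (ContinuousOn.mul (ContinuousOn.inv₀ (by fun_prop) ?_)
      (continuous_psi.comp_continuousOn (ContinuousOn.div (by fun_prop) (by fun_prop) ?_))) ?_
    · intro y hy
      exact_mod_cast pow_ne_zero 2 (norm_ne_zero_iff.2 hy)
    · exact fun y hy => mul_ne_zero (mul_ne_zero hθ' hy) hz
    · exact (h5.cont θ w hp.rad).comp (f := fun y : ℂ × ℂ => (y.1, zd a q Y δ, y.2))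
        (by fun_prop) fun y hy => hy
  · intro y hy
    have hb := (hI θ hθ.le hθ1 y.1 (zd a q Y δ) hy).1 y.2
    have hy0 : 0 < ‖y.1‖ := norm_pos_iff.2 hy
    have e3 : (-((3 : ℕ) : ℝ)) = -3 := by norm_num
    rw [e3] at hb
    have hz1 : (1 + ‖zd a q Y δ‖) ^ (-3 : ℝ) ≤ 1 :=
      Real.rpow_le_one_of_one_le_of_nonpos (by linarith [norm_nonneg (zd a q Y δ)]) (by norm_num)
    rw [norm_mul, norm_mul, norm_psi, norm_inv, Complex.norm_real, Real.norm_eq_abs,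
      abs_of_nonneg (by positivity), mul_one]
    calc _ ≤ (‖y.1‖ ^ 2)⁻¹ * (C * ‖y.1‖ * (1 + ‖y.1‖) ^ (-3 : ℝ) * 1
          * (1 + ‖y.2‖) ^ (-3 : ℝ)) := by
          gcongr
          refine hb.trans ?_
          gcongr
      _ = _ := by field_simp

theorem vorDT_G2 {a : ℕ} {ρ : E → ℂ} {q : E} (β : E) {w : ℂ → ℂ} {θ Y X K s1 s2 : ℝ}
    (hθ : 0 < θ) (hρ : ∀ c, ‖ρ c‖ ≤ 1) (hq : q ≠ 0)
    (hK : ∀ c z ζ : ℂ, c ≠ 0 → ‖IaT θ w c z ζ‖ ≤
      K * ‖c‖ * (1 + ‖c‖) ^ (-6 : ℝ) * (1 + ‖z‖) ^ (-6 : ℝ) * (1 + ‖ζ‖) ^ (-6 : ℝ))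
    (hX : 0 < X) (hY : 0 < Y) (h1 : s1 = ‖toC (Lam a * q)‖ * (θ * X ^ 3 / Y ^ 2))
    (h2 : s2 = ‖toC (Lam a ^ 2 * q)‖ * (X / Y)) (δ : E) {C : E} (hC : ¬ Lam a ∣ C) (ζ : E) :
    ‖G2T θ a ρ q β w Y X δ C ζ‖ ≤ nm (Lam a) * ‖phig C (Lam a ^ 3 * δ) ζ‖ / nm (up lam C) *
      (K * (‖toC C‖ / s1) * (1 + ‖toC C‖ / s1) ^ (-6 : ℝ) * (1 + ‖zd a q Y δ‖) ^ (-6 : ℝ) *
        (1 + ‖toC ζ‖ / s2) ^ (-6 : ℝ)) := by
  have hC0 := (vp_lt_of_not_dvd hC).1
  have e1 : ‖toC C / (toC (Lam a * q) * ((θ * X ^ 3 / Y ^ 2 : ℝ) : ℂ))‖ = ‖toC C‖ / s1 := by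
    rw [norm_div, norm_mul, Complex.norm_real, Real.norm_of_nonneg (by positivity), h1]
  have e2 : ‖toC ζ / (toC (Lam a ^ 2 * q) * ((X / Y : ℝ) : ℂ))‖ = ‖toC ζ‖ / s2 := by
    rw [norm_div, norm_mul, Complex.norm_real, Real.norm_of_nonneg (by positivity), h2]
  have h3 := hK (toC C / (toC (Lam a * q) * ((θ * X ^ 3 / Y ^ 2 : ℝ) : ℂ))) (zd a q Y δ)
    (toC ζ / (toC (Lam a ^ 2 * q) * ((X / Y : ℝ) : ℂ)))
    (div_ne_zero (toC_ne_zero hC0) (mul_ne_zero (toC_ne_zero (mul_ne_zero (Lam_ne_zero a) hq))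
      (Complex.ofReal_ne_zero.2 (by positivity))))
  rw [e1, e2] at h3
  rw [G2T, if_neg hC, norm_mul, norm_div, norm_mul, norm_mul, norm_mul, norm_H hC0 hq, one_mul,
    Complex.norm_natCast]
  refine mul_le_mul ?_ h3 (norm_nonneg _) (by positivity)
  refine div_le_div_of_nonneg_right (mul_le_mul_of_nonneg_right ?_ (norm_nonneg _))
    (Nat.cast_nonneg _)
  exact (mul_le_of_le_one_right (norm_nonneg _) (norm_Lt_le _ _ _ _ _)).trans (norm_rh_le hρ _)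

theorem vorET (h1 : Asw) (h2 : IBdT) : VorET := by
  intro θ a ρ q u η β w Y hθ hθ1 hV
  have hY := hV.hY
  have hq : q ≠ 0 := fun h => hV.hq (h ▸ dvd_zero _)
  have hL := Lam_ne_zero a
  obtain ⟨K, hK0, hK⟩ : ∃ K : ℝ, 0 < K ∧ ∀ c z ζ : ℂ, c ≠ 0 → ‖IaT θ w c z ζ‖ ≤
      K * ‖c‖ * (1 + ‖c‖) ^ (-6 : ℝ) * (1 + ‖z‖) ^ (-6 : ℝ) * (1 + ‖ζ‖) ^ (-6 : ℝ) := by
    obtain ⟨C, hC, h⟩ := h2 w 6 hV.rad
    refine ⟨C, hC, fun c z ζ hc => ?_⟩
    simpa only [Nat.cast_ofNat] using (h θ hθ.le hθ1 c z hc).1 ζ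
  obtain ⟨C1, hC1, hs1⟩ := lattice_sing
  obtain ⟨C2, hC2, hs2⟩ := lattice_decay (σ := 4) (by norm_num)
  obtain ⟨D, hD0, hD⟩ := ve_card
  obtain ⟨m1, hm1⟩ : ∃ m, m = ‖toC (Lam a * q)‖ := ⟨_, rfl⟩
  obtain ⟨m2, hm2⟩ : ∃ m, m = ‖toC (Lam a ^ 2 * q)‖ := ⟨_, rfl⟩
  have hm1' : 0 < m1 := hm1 ▸ norm_pos_iff.2 (toC_ne_zero (mul_ne_zero hL hq))
  have hm2' : 0 < m2 := hm2 ▸ norm_pos_iff.2 (toC_ne_zero (mul_ne_zero (pow_ne_zero 2 hL) hq))
  have hN : (0 : ℝ) < nm (Lam a) := one_pos.trans_le (one_le_nmR hL)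
  constructor
  · obtain ⟨M, hM⟩ : ∃ M, M = D * nm (Lam a) * (nm (Lam a) * K * ‖toC (Lam a)‖) := ⟨_, rfl⟩
    have hM0 : 0 ≤ M := by
      rw [hM]
      positivity
    refine squeeze_zero_norm' (a := fun X : ℝ =>
      (M * m2 ^ 2 * (Y ^ 2 + C2 * m2 ^ 2) / (θ * m1 ^ 3)) / X) ?_
      (tendsto_const_nhds.div_atTop tendsto_id)
    filter_upwards [eventually_ge_atTop 1] with X hX
    have hX0 : 0 < X := by linarith
    obtain ⟨s1, hs1'⟩ : ∃ s, s = m1 * (θ * X ^ 3 / Y ^ 2) := ⟨_, rfl⟩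
    obtain ⟨s2, hs2'⟩ : ∃ s, s = m2 * (X / Y) := ⟨_, rfl⟩
    have p1 : 0 < s1 := by
      rw [hs1']
      positivity
    have p2 : 0 < s2 := by
      rw [hs2']
      positivity
    have h3 := ve_tsum (G := fun x => if x.2 = 0 then 0 else G2T θ a ρ q β w Y X 0 x.1 x.2)
      (((hs2 s2 p2).1).mul_left (M / s1 * s2 ^ 2)) (fun ζ => by positivity) (by
        intro ζ T
        have hz : zd a q Y 0 = 0 := by simp [zd]
        by_cases hζ : ζ = 0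
        · refine le_trans (le_of_eq (Finset.sum_eq_zero fun C _ => ?_)) (by positivity)
          simp only [hζ, if_true, norm_zero]
        simp only [if_neg hζ]
        have b1 : ∀ C ∈ T, ‖G2T θ a ρ q β w Y X 0 C ζ‖ ≤ if C ∣ Lam a * ζ ^ 2 then
            nm (Lam a) * K * ‖toC (Lam a)‖ / s1 * ‖toC ζ‖ * (1 + ‖toC ζ‖ / s2) ^ (-6 : ℝ)
            else 0 := by
          intro C _
          by_cases hC : Lam a ∣ C
          · rw [G2T, if_pos hC, norm_zero]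
            split_ifs
            · positivity
            · exact le_rfl
          have c1 := vorDT_G2 β hθ hV.bd hq hK hX0 hY (hm1 ▸ hs1') (hm2 ▸ hs2') 0 hC ζ
          rw [mul_zero, hz, norm_zero, add_zero, Real.one_rpow, mul_one] at c1
          by_cases hp : phig C 0 ζ = 0
          · rw [hp, norm_zero, mul_zero, zero_div, zero_mul] at c1
            refine c1.trans ?_
            split_ifs
            · positivity
            · exact le_rfl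
          have c2 := phig_zero_supp (vp_lt_of_not_dvd hC).1 hp
          have c3 : C ∣ Lam a * ζ ^ 2 := by
            have := mul_dvd_mul (ve_lam_dvd hC) c2
            rwa [pow_vp_mul_up] at this
          have c4 : (1 + ‖toC C‖ / s1) ^ (-6 : ℝ) ≤ 1 :=
            Real.rpow_le_one_of_one_le_of_nonpos (le_add_of_nonneg_right (by positivity))
              (by norm_num)
          have c5 := mul_le_mul_of_nonneg_left (mul_le_mul (ve_zero hC hζ c2) c4 (by positivity)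
            (by positivity))
            (by positivity : 0 ≤ nm (Lam a) * K / s1 * (1 + ‖toC ζ‖ / s2) ^ (-6 : ℝ))
          rw [if_pos c3]
          refine c1.trans (le_trans (le_of_eq ?_) (c5.trans (le_of_eq ?_))) <;> ring
        refine (Finset.sum_le_sum b1).trans ?_
        rw [← Finset.sum_filter, Finset.sum_const, nsmul_eq_mul]
        refine (mul_le_mul_of_nonneg_right (hD _ ζ hL hζ _ fun y hy =>
          (Finset.mem_filter.1 hy).2) (by positivity)).trans ?_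
        have b2 := mul_le_mul_of_nonneg_left (ve_sq (norm_nonneg (toC ζ)) p2)
          (by positivity : 0 ≤ M / s1)
        refine le_trans (le_of_eq ?_) (b2.trans (le_of_eq ?_))
        · rw [hM]
          ring
        · ring)
    rw [tsum_mul_left] at h3
    have h4 := h3.trans (mul_le_mul_of_nonneg_left (hs2 s2 p2).2 (by positivity))
    rw [ve_pref, ← hm1]
    refine (mul_le_mul_of_nonneg_left h4 (by positivity)).trans ?_
    have h5 : 1 + C2 * s2 ^ 2 ≤ (Y ^ 2 + C2 * m2 ^ 2) * (X / Y) ^ 2 := by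
      have a1 : Y ^ 2 * (X / Y) ^ 2 = X ^ 2 := by field_simp
      rw [hs2', add_mul, a1, mul_pow, mul_assoc]
      exact add_le_add (one_le_pow₀ hX) le_rfl
    refine (mul_le_mul_of_nonneg_left (mul_le_mul_of_nonneg_left h5 (by positivity))
      (by positivity)).trans (le_of_eq ?_)
    rw [hs1', hs2']
    field_simp
  · obtain ⟨S, hS⟩ : ∃ S, S = ‖toC (Lam a ^ 2 * q ^ 2)‖ / Y := ⟨_, rfl⟩
    have hS0 : 0 < S := hS ▸ div_pos (norm_pos_iff.2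
      (toC_ne_zero (mul_ne_zero (pow_ne_zero 2 hL) (pow_ne_zero 2 hq)))) hY
    refine ⟨_, ((hs2 S hS0).1).mul_left
      (nm (Lam a) ^ 2 * K * C1 * (Y ^ 2 + C2 * m2 ^ 2) / m1 ^ 2 * S ^ 2), fun X hX δ hδ => ?_⟩
    have hX0 : 0 < X := by linarith
    obtain ⟨s1, hs1'⟩ : ∃ s, s = m1 * (θ * X ^ 3 / Y ^ 2) := ⟨_, rfl⟩
    obtain ⟨s2, hs2'⟩ : ∃ s, s = m2 * (X / Y) := ⟨_, rfl⟩
    have p1 : 0 < s1 := by
      rw [hs1']
      positivity
    have p2 : 0 < s2 := by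
      rw [hs2']
      positivity
    have hz : ‖zd a q Y δ‖ = ‖toC δ‖ / S := by
      rw [zd, norm_div, norm_mul, Complex.norm_real, Real.norm_of_nonneg hY.le, hS,
        div_div_eq_mul_div]
    obtain ⟨M, hM⟩ : ∃ M, M = (nm (Lam a) : ℝ) ^ 2 * K *
      (S ^ 2 * (1 + ‖toC δ‖ / S) ^ (-4 : ℝ)) := ⟨_, rfl⟩
    have hM0 : 0 ≤ M := by
      rw [hM]
      positivity
    have h3 := ve_tsum (G := fun x => G2T θ a ρ q β w Y X δ x.1 x.2)
      (((hs2 s2 p2).1).mul_left (M * C1)) (fun ζ => by positivity) (by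
        intro ζ T
        have b1 : ∀ C ∈ T, ‖G2T θ a ρ q β w Y X δ C ζ‖ ≤
            M / s1 ^ 2 * (1 + ‖toC ζ‖ / s2) ^ (-4 : ℝ) *
              ((‖toC C‖ / s1)⁻¹ * (1 + ‖toC C‖ / s1) ^ (-3 : ℝ)) := by
          intro C _
          by_cases hC : Lam a ∣ C
          · rw [G2T, if_pos hC, norm_zero]
            positivity
          have hC0 := (vp_lt_of_not_dvd hC).1
          have c1 := vorDT_G2 β hθ hV.bd hq hK hX0 hY (hm1 ▸ hs1') (hm2 ▸ hs2') δ hC ζ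
          rw [hz] at c1
          have c0 : 0 < ‖toC C‖ := norm_pos_iff.2 (toC_ne_zero hC0)
          have c2 : ((nm (up lam C) : ℝ))⁻¹ ≤ nm (Lam a) / ‖toC C‖ ^ 2 := by
            rw [le_div_iff₀ (by positivity),
              inv_mul_le_iff₀ (one_pos.trans_le (one_le_nmR (up_ne_zero hC0))), ← nm_eq, mul_comm]
            exact ve_nm hC
          have c3 := (mul_le_mul_of_nonneg_right (ve_phig h1 a hδ hC0 ζ)
            (ve_pos (by positivity : 0 ≤ ‖toC δ‖ / S) (-6)).le).trans (ve_sq (norm_nonneg _) hS0)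
          have c4 := mul_le_mul
            (ve_mono (by positivity : 0 ≤ ‖toC C‖ / s1) (by norm_num : (-6 : ℝ) ≤ -3))
            (ve_mono (by positivity : 0 ≤ ‖toC ζ‖ / s2) (by norm_num : (-6 : ℝ) ≤ -4))
            (by positivity) (by positivity)
          have c5 := mul_le_mul_of_nonneg_left (mul_le_mul (mul_le_mul c2 c3 (by positivity)
            (by positivity)) c4 (by positivity) (by positivity))
            (by positivity : 0 ≤ nm (Lam a) * K * (‖toC C‖ / s1))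
          refine c1.trans (le_trans (le_of_eq ?_) (c5.trans (le_of_eq ?_)))
          · ring
          · rw [hM]
            field_simp
        refine (Finset.sum_le_sum b1).trans ?_
        rw [← Finset.mul_sum]
        have b2 := ((hs1 s1 p1).1.sum_le_tsum T fun C _ => by positivity).trans (hs1 s1 p1).2
        refine (mul_le_mul_of_nonneg_left b2 (by positivity)).trans (le_of_eq ?_)
        field_simp)
    rw [tsum_mul_left] at h3
    have h4 := h3.trans (mul_le_mul_of_nonneg_left (hs2 s2 p2).2 (by positivity))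
    rw [ve_pref, ← hm1]
    refine (mul_le_mul_of_nonneg_left h4 (by positivity)).trans ?_
    have h5 : 1 + C2 * s2 ^ 2 ≤ (Y ^ 2 + C2 * m2 ^ 2) * (X / Y) ^ 2 := by
      have a1 : Y ^ 2 * (X / Y) ^ 2 = X ^ 2 := by field_simp
      rw [hs2', add_mul, a1, mul_pow, mul_assoc]
      exact add_le_add (one_le_pow₀ hX) le_rfl
    refine (mul_le_mul_of_nonneg_left (mul_le_mul_of_nonneg_left h5 (by positivity))
      (by positivity)).trans (le_of_eq ?_)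
    rw [hM]
    field_simp

/-- The term `delta = 0`. -/
def vorDT_T0 (θ : ℝ) (a : ℕ) (ρ : E → ℂ) (q β : E) (w : ℂ → ℂ) (Y X : ℝ) : ℂ :=
  ((Y ^ 2 / X ^ 2 : ℝ) : ℂ) / (nm (Lam a * q) : ℂ) * ∑' x : E × E, G2T θ a ρ q β w Y X 0 x.1 x.2

theorem vorDT_xv {a : ℕ} {ρ : E → ℂ} {q u η β : E} {w : ℂ → ℂ} {Y : ℝ}
    (h : VPr a ρ q u η β w Y) : xv c3 q u ≠ 0 := by
  have h1 := norm_xv ch_c3 (n := u) (v2_ne_zero h.hq) fun p hp => by
    have h2 : p.1 ∣ Lam a ^ 2 * u * η := (hp.2.mul_left _).mul_right _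
    have h3 := (v2_dvd_iff (hp.1.trans h.hη)).1 h2
    exact p.2.1.not_isUnit (isUnit_of_dvd_one h3)
  intro h0
  rw [h0, norm_zero] at h1
  exact zero_ne_one h1

theorem vorDT_lim (hA : VorAT) (hB : VorBT) (hC : VorCT) (hD : VorDT) (hE : VorET) {θ : ℝ}
    (hθ : 0 < θ) (hθ1 : θ ≤ 1) {a : ℕ} {ρ : E → ℂ} {q u η β : E} {w : ℂ → ℂ} {Y : ℝ} (h : VPr a ρ q u η β w Y) :
    Tendsto (vorDT_T0 θ a ρ q β w Y) atTop
      (𝓝 (VLT θ (fun c => ρ c * psf (c * u) q) w Y / (nm (Lam a) : ℂ) / xv c3 q u - nm (Lam a) *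
        ∑' δ : E, if δ = 0 then 0 else bb a ρ q β δ * psf (-(η * δ)) q * KaT θ w (zd a q Y δ))) := by
  obtain ⟨-, g, hg, hg'⟩ := hE θ a ρ q u η β w Y hθ hθ1 h
  have hN := v2_nm_ne (Lam_ne_zero a)
  have hq := v2_nm_ne (v2_ne_zero h.hq)
  have hY : (Y : ℂ) ≠ 0 := ofReal_ne_zero.2 h.hY.ne'
  have hx := vorDT_xv h
  obtain ⟨T, hT⟩ : ∃ T : ℝ → E → ℂ, ∀ X δ, T X δ = ((Y ^ 2 / X ^ 2 : ℝ) : ℂ) / (nm (Lam a * q) : ℂ)
      * ∑' x : E × E, G2T θ a ρ q β w Y X δ x.1 x.2 := ⟨_, fun _ _ => rfl⟩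
  simp only [← hT] at hg'
  have h1 : Tendsto (fun X : ℝ => ∑' δ : E, if δ = 0 then 0 else psf (-(η * δ)) q * T X δ) atTop
      (𝓝 (∑' δ : E, nm (Lam a) *
        if δ = 0 then 0 else bb a ρ q β δ * psf (-(η * δ)) q * KaT θ w (zd a q Y δ))) := by
    refine tendsto_tsum_of_dominated_convergence (hg.update 0 1) (fun δ => ?_) ?_
    · split_ifs with h0
      · simp
      · have h2 := (hD θ a ρ q u η β w Y hθ hθ1 h δ h0).const_mul (psf (-(η * δ)) q)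
        simp only [← hT] at h2
        exact h2.trans (le_of_eq (congrArg 𝓝 (by ring)))
    · filter_upwards [eventually_ge_atTop 1] with X hX1 δ
      by_cases h0 : δ = 0
      · rw [if_pos h0, h0, Function.update_self, norm_zero]
        exact zero_le_one
      · rw [if_neg h0, norm_mul, norm_psf, one_mul, Function.update_of_ne h0]
        exact hg' X hX1 δ h0
  have h3 : (fun X : ℝ => SigT θ a ρ q u w Y X / (((θ * X ^ 3 / Y) ^ 2 * X ^ 2 : ℝ) : ℂ) / xv c3 q u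
      - ∑' δ : E, if δ = 0 then 0 else psf (-(η * δ)) q * T X δ) =ᶠ[atTop] vorDT_T0 θ a ρ q β w Y := by
    filter_upwards [eventually_gt_atTop 0] with X hX
    obtain ⟨s1, e1⟩ := hB θ a ρ q u η β w Y hθ hθ1 h X hX
    obtain ⟨s2, e2⟩ := hC θ a ρ q u η β w Y hθ hθ1 h X hX s1
    have s3 : Summable fun x : E × E × E =>
        psf (-(η * x.1)) q * G2T θ a ρ q β w Y X x.1 x.2.1 x.2.2 :=
      Summable.of_norm (s2.norm.congr fun x => by rw [norm_mul, norm_psf, one_mul])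
    have e4 : ∀ δ : E, psf (-(η * δ)) q * T X δ = ((Y ^ 2 / X ^ 2 : ℝ) : ℂ) / (nm (Lam a * q) : ℂ)
        * ∑' x : E × E, psf (-(η * δ)) q * G2T θ a ρ q β w Y X δ x.1 x.2 := fun δ => by
      rw [hT, mul_left_comm, ← tsum_mul_left]
    have e3 : ∑' δ : E, psf (-(η * δ)) q * T X δ =
        ((Y ^ 2 / X ^ 2 : ℝ) : ℂ) / (nm (Lam a * q) : ℂ) *
          ∑' x : E × E × E, psf (-(η * x.1)) q * G2T θ a ρ q β w Y X x.1 x.2.1 x.2.2 := by
      rw [s3.tsum_prod, ← tsum_mul_left]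
      exact tsum_congr e4
    have s4 : Summable fun δ : E => psf (-(η * δ)) q * T X δ := by
      simp only [e4]
      exact s3.prod.mul_left _
    have e5 : vorDT_T0 θ a ρ q β w Y X = ∑' δ : E, psf (-(η * δ)) q * T X δ
        - ∑' δ : E, if δ = 0 then 0 else psf (-(η * δ)) q * T X δ := by
      rw [s4.tsum_eq_add_tsum_ite 0, add_sub_cancel_right, hT, vorDT_T0]
      simp [psf, psi]
    have hX' : (X : ℂ) ≠ 0 := ofReal_ne_zero.2 hX.ne'
    have hθ' : (θ : ℂ) ≠ 0 := ofReal_ne_zero.2 hθ.ne'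
    rw [e5, e1, e2, e3, nm_mul]
    congr 1
    push_cast
    field_simp
  have h4 := (((hA θ a ρ q u η β w Y hθ hθ1 h).div_const (xv c3 q u)).sub h1).congr' h3
  rwa [tsum_mul_left] at h4

theorem vorDT_split {G : E × E → ℂ} (s2 : Summable G) :
    ∑' x, G x - ∑' x : E × E, (if x.2 = 0 then 0 else G x)
      = ∑' x : E × E, (if x.2 = 0 then G x else 0) := by
  have s3 : Summable fun x : E × E => if x.2 = 0 then 0 else G x :=
    Summable.of_norm_bounded s2.norm fun x => by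
      split_ifs
      · simp
      · exact le_rfl
  rw [← s2.tsum_sub s3]
  refine tsum_congr fun x => ?_
  split_ifs with h0
  · simp
  · simp

theorem vorDT_sp (hB : VorBT) (hC : VorCT) {θ : ℝ} (hθ : 0 < θ) (hθ1 : θ ≤ 1) {a : ℕ}
    {ρ : E → ℂ} {q u η β : E} {w : ℂ → ℂ} {Y : ℝ} (h : VPr a ρ q u η β w Y) {X : ℝ} (hX : 0 < X) :
    vorDT_T0 θ a ρ q β w Y X - ((Y ^ 2 / X ^ 2 : ℝ) : ℂ) / (nm (Lam a * q) : ℂ)
        * ∑' x : E × E, (if x.2 = 0 then 0 else G2T θ a ρ q β w Y X 0 x.1 x.2)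
      = ((Y ^ 2 / X ^ 2 : ℝ) : ℂ) / (nm (Lam a * q) : ℂ)
        * ∑' x : E × E, (if x.2 = 0 then G2T θ a ρ q β w Y X 0 x.1 x.2 else 0) := by
  have s1 := (hC θ a ρ q u η β w Y hθ hθ1 h X hX (hB θ a ρ q u η β w Y hθ hθ1 h X hX).1).1
  have s2 : Summable fun x : E × E => G2T θ a ρ q β w Y X 0 x.1 x.2 :=
    s1.comp_injective (Prod.mk_right_injective 0)
  rw [vorDT_T0, ← mul_sub, vorDT_split s2]

theorem vorDT_scale (θ : ℝ) (a : ℕ) (ρ : E → ℂ) (q β : E) (w : ℂ → ℂ) {Y X Y' X' : ℝ}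
    (e1 : θ * X' ^ 3 / Y' ^ 2 = θ * X ^ 3 / Y ^ 2) (C : E) :
    G2T θ a ρ q β w Y' X' 0 C 0 = G2T θ a ρ q β w Y X 0 C 0 := by
  have hz : ∀ Y, zd a q Y 0 = 0 := fun Y => by simp [zd]
  rw [G2T, G2T, e1, hz, hz, map_zero, zero_div, zero_div]

theorem vor0T (hA : VorAT) (hB : VorBT) (hC : VorCT) (hD : VorDT) (hE : VorET) : Vor0T := by
  intro θ a ρ q β w hθ hθ1
  refine ⟨nm (Lam a) * limUnder atTop (vorDT_T0 θ a ρ q β w 1), fun u η Y h => ?_⟩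
  have hN := v2_nm_ne (Lam_ne_zero a)
  have hx := vorDT_xv h
  have l1 := vorDT_lim hA hB hC hD hE hθ hθ1 h
  have h' : VPr a ρ q u η β w 1 := ⟨h.ha, h.per, h.supp, h.mean, h.bd, h.hq, h.hη, h.hβ, h.rad,
    one_pos⟩
  have l2 : Tendsto (vorDT_T0 θ a ρ q β w 1) atTop
      (𝓝 (limUnder atTop (vorDT_T0 θ a ρ q β w 1))) :=
    tendsto_nhds_limUnder ⟨_, vorDT_lim hA hB hC hD hE hθ hθ1 h'⟩
  generalize limUnder atTop (vorDT_T0 θ a ρ q β w 1) = M at l2 ⊢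
  have hY := h.hY
  obtain ⟨t, ht⟩ : ∃ t : ℝ, t = Y ^ (-(2 / 3) : ℝ) := ⟨_, rfl⟩
  have ht0 : 0 < t := ht ▸ Real.rpow_pos_of_pos hY _
  have ht3 : t ^ 3 = (Y ^ 2)⁻¹ := by
    rw [ht, ← Real.rpow_natCast, ← Real.rpow_mul hY.le, ← Real.rpow_natCast, ← Real.rpow_neg hY.le]
    norm_num
  have ht2 : Y ^ (2 / 3 : ℝ) = Y ^ 2 * t ^ 2 := by
    rw [ht, ← Real.rpow_natCast, ← Real.rpow_natCast, ← Real.rpow_mul hY.le, ← Real.rpow_add hY]
    norm_num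
  have l0 : Tendsto (fun X : ℝ => X * t) atTop atTop := tendsto_id.atTop_mul_const ht0
  have l3 := ((l2.sub (hE θ a ρ q u η β w 1 hθ hθ1 h').1).comp l0).const_mul
    ((Y ^ (2 / 3 : ℝ) : ℝ) : ℂ)
  have l4 := l3.add (hE θ a ρ q u η β w Y hθ hθ1 h).1
  rw [sub_zero, add_zero] at l4
  have l5 : Tendsto (vorDT_T0 θ a ρ q β w Y) atTop (𝓝 (((Y ^ (2 / 3 : ℝ) : ℝ) : ℂ) * M)) := by
    refine l4.congr' ?_
    filter_upwards [eventually_gt_atTop 0] with X hX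
    rw [← eq_sub_iff_add_eq, vorDT_sp hB hC hθ hθ1 h hX, Function.comp_apply,
      vorDT_sp hB hC hθ hθ1 h' (mul_pos hX ht0), ← mul_assoc]
    have e1 : θ * (X * t) ^ 3 / 1 ^ 2 = θ * X ^ 3 / Y ^ 2 := by
      rw [mul_pow, ht3]
      field_simp
    have e2 : Y ^ (2 / 3 : ℝ) * (1 ^ 2 / (X * t) ^ 2) = Y ^ 2 / X ^ 2 := by
      rw [ht2]
      field_simp
    rw [← mul_div_assoc, ← ofReal_mul, e2]
    refine congrArg _ (tsum_congr fun x => ?_)
    split_ifs with h0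
    · rw [h0, vorDT_scale θ a ρ q β w e1]
    · rfl
  rw [mul_left_comm _ (nm (Lam a) : ℂ), tendsto_nhds_unique l5 l1]
  field_simp
  ring

end Pat
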