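import Vale.Agent.P006.VorXAux
import Vale.Agent.P026.VorL

/-! The Voronoi formula with an explicit transform. -/

noncomputable section
namespace Pat
open QRH Complex MeasureTheory Filter
open scoped ComplexConjugate Classical ContDiff Topology

/-- The moment of the bump. -/
def vorX_k : ℂ := ∫ d : ℂ, a0 d * ((‖d‖ ^ (2 / 3 : ℝ) : ℝ) : ℂ)
/-- The common constant. -/
def vorX_N : ℂ := ((4 / 3 : ℝ) : ℂ) * C0 * vorX_k

theorem vorX_a0_int : Integrable a0 :=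
  contDiff_a0.continuous.integrable_of_hasCompactSupport
    (HasCompactSupport.intro (isCompact_closedBall 0 2) fun z hz => by
      by_contra h
      exact hz (mem_closedBall_zero_iff.2 (a0_supp h).2.le))

theorem vorX_kk (h1 : CO) {c : ℂ} (hc : c ≠ 0) :
    Tendsto (fun θ : ℝ => kkT θ c / vorX_s θ) (𝓝[>] 0)
      (𝓝 (vorX_N * ((‖c‖ ^ (2 / 3 : ℝ) : ℝ) : ℂ))) := by
  obtain ⟨K, -, h⟩ := vorX_dct h1
  obtain ⟨m, hm, hok⟩ := vorX_b0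
  have hd : ∀ d, a0 d ≠ 0 → d ≠ 0 := fun d h0 => norm_pos_iff.1 (by linarith [(a0_supp h0).1])
  have h2 := (h a0 (fun d => -(c * d)) (fun _ => 1) (fun _ _ => b0) (fun _ => m)
    (fun d => ‖a0 d‖ * (m * ((‖c‖ * 2) ^ (2 / 3 : ℝ) + (‖c‖ * 2) ^ (5 / 6 : ℝ))))
    (fun d h0 => neg_ne_zero.2 (mul_ne_zero hc (hd d h0))) (fun _ _ _ _ _ => hok)
    (fun _ _ => by rw [vorX_b0_zero]; exact tendsto_const_nhds) (fun θ _ _ => ?_)
    (vorX_a0_int.norm.mul_const _) (fun d => by positivity) fun d h0 => ?_).1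
  · have h3 := h2.const_mul ((4 / 3 : ℝ) : ℂ)
    have e1 : ∫ d : ℂ, a0 d * (C0 * ((‖-(c * d)‖ ^ (2 / 3 : ℝ) : ℝ) : ℂ) * 1)
        = C0 * ((‖c‖ ^ (2 / 3 : ℝ) : ℝ) : ℂ) * vorX_k := by
      rw [vorX_k, ← integral_const_mul]
      refine integral_congr_ae (Eventually.of_forall fun d => ?_)
      simp only [norm_neg, norm_mul]
      rw [Real.mul_rpow (norm_nonneg _) (norm_nonneg _), ofReal_mul]
      ring
    rw [e1] at h3
    have e2 : vorX_N * ((‖c‖ ^ (2 / 3 : ℝ) : ℝ) : ℂ)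
        = ((4 / 3 : ℝ) : ℂ) * (C0 * ((‖c‖ ^ (2 / 3 : ℝ) : ℝ) : ℂ) * vorX_k) := by
      rw [vorX_N]; ring
    rw [e2]
    refine h3.congr fun θ => ?_
    rw [kkT, mul_div_assoc]
    congr 2
    refine integral_congr_ae (Eventually.of_forall fun z => ?_)
    simp only [mul_neg, div_neg, mul_assoc]
    ring
  · refine Integrable.mono' wt_G_int (Measurable.aestronglyMeasurable ?_)
      (Eventually.of_forall fun z => ?_)
    · exact ((contDiff_a0.continuous.measurable.comp measurable_fst).mul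
        (continuous_psi.measurable.comp (by fun_prop))).mul
        (contDiff_b0.continuous.measurable.comp measurable_snd)
    · rw [mul_right_comm, wt_G_eq, norm_mul, norm_psi, mul_one, norm_real,
        Real.norm_of_nonneg (wt_G_nonneg z)]
  · have h3 := (a0_supp h0).2.le
    rw [mul_assoc, norm_neg, norm_mul]
    gcongr

theorem vorX_VL (h1 : CO) (f : E → ℂ) (w : ℂ → ℂ) {Y : ℝ} (hY : 0 < Y) :
    Tendsto (fun θ : ℝ => VLT θ f w Y / vorX_s θ) (𝓝[>] 0) (𝓝 (vorX_N * VLX f w Y)) := by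
  simp only [VLT, VLX, Finset.sum_div, Finset.mul_sum]
  refine tendsto_finsetSum _ fun c hc => ?_
  have h0 : toC c / Y ≠ 0 :=
    div_ne_zero (toC_ne_zero (mem_ball.1 hc).1) (ofReal_ne_zero.2 hY.ne')
  have h2 := (vorX_kk h1 h0).const_mul (f c * w (toC c / Y) * Tg c / (nm c : ℂ))
  convert h2 using 2
  · ring
  · ring

theorem vorX_num {x y C : ℝ} (hx : 0 < x) (hy : 0 ≤ y) (hC : 0 ≤ C) :
    (x ^ 2)⁻¹ * (C * (1 + x) ^ (-4 : ℝ) * (1 + y) ^ (-5 : ℝ))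
        * ((x * y) ^ (2 / 3 : ℝ) + (x * y) ^ (5 / 6 : ℝ))
      ≤ 2 * C * (1 + y) ^ (-3 : ℝ) * (x ^ (-(4 / 3) : ℝ) * (1 + x) ^ (-3 : ℝ)) := by
  have hxy : 0 ≤ x * y := by positivity
  have l1 : ∀ t σ : ℝ, 0 ≤ t → 0 ≤ σ → σ ≤ 1 → t ^ σ ≤ 1 + t := fun t σ ht h0 h1 =>
    (Real.rpow_le_rpow ht (by linarith) h0).trans
      (Real.rpow_le_self_of_one_le (by linarith) h1)
  have e1 : (x * y) ^ (5 / 6 : ℝ) = (x * y) ^ (2 / 3 : ℝ) * (x * y) ^ (1 / 6 : ℝ) := by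
    rw [← Real.rpow_add' hxy (by norm_num)]; norm_num
  have l2 : (x * y) ^ (1 / 6 : ℝ) ≤ (1 + x) * (1 + y) :=
    (l1 _ _ hxy (by norm_num) (by norm_num)).trans (by nlinarith)
  have l3 : (x * y) ^ (2 / 3 : ℝ) ≤ x ^ (2 / 3 : ℝ) * (1 + y) := by
    rw [Real.mul_rpow hx.le hy]
    exact mul_le_mul_of_nonneg_left (l1 _ _ hy (by norm_num) (by norm_num)) (by positivity)
  have l4 : (x * y) ^ (2 / 3 : ℝ) + (x * y) ^ (5 / 6 : ℝ)
      ≤ x ^ (2 / 3 : ℝ) * (1 + y) * (2 * ((1 + x) * (1 + y))) := by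
    rw [e1, ← mul_one_add]
    exact mul_le_mul l3 (by nlinarith) (by positivity) (by positivity)
  refine (mul_le_mul_of_nonneg_left l4 (by positivity)).trans (le_of_eq ?_)
  have e2 : (1 + x) ^ (-3 : ℝ) = (1 + x) ^ (-4 : ℝ) * (1 + x) := by
    rw [← Real.rpow_add_one (by positivity)]; norm_num
  have e3 : (1 + y) ^ (-3 : ℝ) = (1 + y) ^ (-5 : ℝ) * (1 + y) * (1 + y) := by
    rw [← Real.rpow_add_one (by positivity), ← Real.rpow_add_one (by positivity)]; norm_num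
  have e4 : x ^ (-(4 / 3) : ℝ) = (x ^ 2)⁻¹ * x ^ (2 / 3 : ℝ) := by
    rw [← Real.rpow_natCast, ← Real.rpow_neg hx.le, ← Real.rpow_add hx]; norm_num
  rw [e2, e3, e4]
  ring

theorem vorX_Ka (h1 : CO) (h3 : KxRep) (h4 : ArchT) (h5 : IBdT) {w : ℂ → ℂ} (hw : Rad w) :
    ∃ M : ℝ, 0 ≤ M ∧ ∀ z : ℂ, z ≠ 0 →
      Tendsto (fun θ : ℝ => KaT θ w z / vorX_s θ) (𝓝[>] 0)
        (𝓝 (vorX_N * ((2 / √3 : ℝ) : ℂ) * Kx w z)) ∧
      ∀ θ : ℝ, 0 < θ → θ ≤ 1 → ‖KaT θ w z / vorX_s θ‖ ≤ M * (1 + ‖z‖) ^ (-3 : ℝ) := by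
  obtain ⟨K, hK, h⟩ := vorX_dct h1
  obtain ⟨C, hC, hI⟩ := h5 w 5 hw
  have hS : 0 ≤ ∫ c : ℂ, ‖c‖ ^ (-(4 / 3) : ℝ) * (1 + ‖c‖) ^ (-3 : ℝ) :=
    integral_nonneg fun c => by positivity
  refine ⟨4 / 3 * K * (2 * C) * ∫ c : ℂ, ‖c‖ ^ (-(4 / 3) : ℝ) * (1 + ‖c‖) ^ (-3 : ℝ),
    by positivity, fun z hz => ?_⟩
  have hc0 : ∀ c : ℂ, ((‖c‖ ^ 2 : ℝ) : ℂ)⁻¹ ≠ 0 → c ≠ 0 := fun c h0 h => h0 (by simp [h])
  have hn : ∀ c : ℂ, ‖((‖c‖ ^ 2 : ℝ) : ℂ)⁻¹‖ = (‖c‖ ^ 2)⁻¹ := fun c => by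
    rw [norm_inv, norm_real, Real.norm_of_nonneg (by positivity)]
  have mono : ∀ (x : ℂ) (σ : ℝ), σ ≤ 5 →
      (1 + ‖x‖) ^ (-((5 : ℕ) : ℝ)) ≤ (1 + ‖x‖) ^ (-σ) := fun x σ hσ =>
    Real.rpow_le_rpow_of_exponent_le (by linarith [norm_nonneg x]) (by push_cast; linarith)
  have m4 : ∀ x : ℂ, ‖x‖ * (1 + ‖x‖) ^ (-((5 : ℕ) : ℝ)) ≤ (1 + ‖x‖) ^ (-4 : ℝ) := fun x => by
    have e : (1 + ‖x‖) ^ (-4 : ℝ) = (1 + ‖x‖) ^ (-((5 : ℕ) : ℝ)) * (1 + ‖x‖) := by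
      rw [← Real.rpow_add_one (by positivity)]; norm_num
    rw [e, mul_comm]
    exact mul_le_mul_of_nonneg_left (by linarith) (by positivity)
  have h2 := h (fun c => ((‖c‖ ^ 2 : ℝ) : ℂ)⁻¹) (fun c => c * z) (fun c => IaT 0 w c z 0)
    (fun θ c => IaT θ w c z) (fun c => C * (1 + ‖c‖) ^ (-4 : ℝ) * (1 + ‖z‖) ^ (-5 : ℝ))
    (fun c => 2 * C * (1 + ‖z‖) ^ (-3 : ℝ) * (‖c‖ ^ (-(4 / 3) : ℝ) * (1 + ‖c‖) ^ (-3 : ℝ)))
    (fun c h0 => mul_ne_zero (hc0 c h0) hz) (fun θ c h0 h1 hc => ?_)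
    (fun c _ => ((h4.cont_theta w c z 0 hw).tendsto 0).mono_left nhdsWithin_le_nhds)
    (fun θ h0 h1 => ?_) (vorX_sing.const_mul _) (fun c => by positivity) fun c h0 => ?_
  · have e0 : ∀ θ : ℝ, KaT θ w z / vorX_s θ = ((4 / 3 : ℝ) : ℂ) * ((∫ y : ℂ × ℂ,
        ((‖y.1‖ ^ 2 : ℝ) : ℂ)⁻¹ * psi (y.2 ^ 3 / (θ * (y.1 * z))) * IaT θ w y.1 z y.2)
          / vorX_s θ) := fun θ => by
      simp only [KaT, mul_div_assoc, mul_assoc]
    simp only [e0]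
    refine ⟨?_, fun θ h0 h1 => ?_⟩
    · have e1 : ∫ c : ℂ, ((‖c‖ ^ 2 : ℝ) : ℂ)⁻¹
          * (C0 * ((‖c * z‖ ^ (2 / 3 : ℝ) : ℝ) : ℂ) * IaT 0 w c z 0)
          = C0 * ((‖z‖ ^ (2 / 3 : ℝ) : ℝ) : ℂ)
            * ∫ c : ℂ, ((‖c‖ ^ (-(4 / 3) : ℝ) : ℝ) : ℂ) * IaT 0 w c z 0 := by
        rw [← integral_const_mul]
        refine integral_congr_ae ((Measure.ae_ne volume (0 : ℂ)).mono fun c hc => ?_)
        have hx : 0 < ‖c‖ := norm_pos_iff.2 hc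
        have e4 : ‖c‖ ^ (-(4 / 3) : ℝ) = (‖c‖ ^ 2)⁻¹ * ‖c‖ ^ (2 / 3 : ℝ) := by
          rw [← Real.rpow_natCast, ← Real.rpow_neg hx.le, ← Real.rpow_add hx]; norm_num
        simp only [norm_mul]
        rw [Real.mul_rpow (norm_nonneg _) (norm_nonneg _), e4, ofReal_mul, ofReal_mul, ofReal_inv]
        ring
      have h6 := h2.1.const_mul ((4 / 3 : ℝ) : ℂ)
      rw [e1, h3.1 w z hw] at h6
      convert h6 using 2
      rw [vorX_N, vorX_k, Kx, Hx]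
      ring
    · have h6 := h2.2 θ h0 h1
      rw [integral_const_mul] at h6
      rw [norm_mul, norm_real, Real.norm_of_nonneg (by norm_num)]
      refine (mul_le_mul_of_nonneg_left h6 (by norm_num)).trans (le_of_eq ?_)
      ring
  · obtain ⟨i1, i2, i3⟩ := hI θ h0.le h1 c z (hc0 c hc)
    refine ⟨i2, fun x => (i1 x).trans ?_, fun x => (i3 x).trans ?_⟩
    · have a1 := m4 c
      have a2 := mono z 5 le_rfl
      have a3 := mono x 3 (by norm_num)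
      rw [mul_assoc C]
      gcongr
    · have a1 := mono c 4 (by norm_num)
      have a2 := mono z 5 le_rfl
      have a3 := mono x 3 (by norm_num)
      gcongr
  · refine Integrable.mono' (ar_G_int.const_mul C) ?_ (ar_ae.mono fun y hy => ?_)
    · have c1 : ContinuousOn (fun y : ℂ × ℂ => IaT θ w y.1 z y.2) {y | y.1 ≠ 0} :=
        (h4.cont θ w hw).comp (f := fun y : ℂ × ℂ => (y.1, z, y.2)) (by fun_prop) fun y hy => hy
      have c2 := c1.aestronglyMeasurable (μ := volume)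
        (isOpen_ne_fun continuous_fst continuous_const).measurableSet
      rw [Measure.restrict_eq_self_of_ae_mem (s := {y : ℂ × ℂ | y.1 ≠ 0}) ar_ae] at c2
      refine AEStronglyMeasurable.mul (Measurable.aestronglyMeasurable ?_) c2
      exact Measurable.mul (by fun_prop) (continuous_psi.measurable.comp (by fun_prop))
    · have hp : 0 < ‖y.1‖ := norm_pos_iff.2 hy
      have a1 := mono y.1 3 (by norm_num)
      have a2 : (1 + ‖z‖) ^ (-((5 : ℕ) : ℝ)) ≤ 1 := by simpa using mono z 0 (by norm_num)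
      have a3 := mono y.2 3 (by norm_num)
      have hb : ‖IaT θ w y.1 z y.2‖
          ≤ C * ‖y.1‖ * (1 + ‖y.1‖) ^ (-3 : ℝ) * 1 * (1 + ‖y.2‖) ^ (-3 : ℝ) := by
        refine ((hI θ h0.le h1 y.1 z hy).1 y.2).trans ?_
        gcongr
      rw [norm_mul, norm_mul, norm_psi, mul_one, hn, arG]
      refine (mul_le_mul_of_nonneg_left hb (by positivity)).trans (le_of_eq ?_)
      field_simp
  · rw [hn, norm_mul]
    exact vorX_num (norm_pos_iff.2 (hc0 c h0)) (norm_nonneg z) hC.le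

theorem vorX_sum (h1 : CO) (h3 : KxRep) (h4 : ArchT) (h5 : IBdT) {a : ℕ} {ρ : E → ℂ}
    {q u η β : E} {w : ℂ → ℂ} {Y : ℝ} (hv : VPr a ρ q u η β w Y) :
    Tendsto (fun θ : ℝ => (∑' δ : E, if δ = 0 then 0 else
        bb a ρ q β δ * psf (-(η * δ)) q * KaT θ w (zd a q Y δ)) / vorX_s θ) (𝓝[>] 0)
      (𝓝 (vorX_N * ((2 / √3 : ℝ) : ℂ) * ∑' δ : E, if δ = 0 then 0 else
        bb a ρ q β δ * psf (-(η * δ)) q * Kx w (zd a q Y δ))) := by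
  obtain ⟨M, hM, hK⟩ := vorX_Ka h1 h3 h4 h5 hv.rad
  have hq : q ≠ 0 := fun h => hv.hq (h ▸ dvd_zero _)
  have h6 : (Y : ℂ) / toC (Lam a ^ 2 * q ^ 2) ≠ 0 := div_ne_zero (ofReal_ne_zero.2 hv.hY.ne')
    (toC_ne_zero (mul_ne_zero (pow_ne_zero _ (Lam_ne_zero a)) (pow_ne_zero _ hq)))
  have h7 := summable_shift_decay (σ := 3) (by norm_num) h6 0
  have e : ∀ δ, zd a q Y δ = Y / toC (Lam a ^ 2 * q ^ 2) * toC δ + 0 := fun δ => by
    rw [zd]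
    ring
  have hz : ∀ δ, δ ≠ 0 → zd a q Y δ ≠ 0 := fun δ h => by
    rw [e, add_zero]
    exact mul_ne_zero h6 (toC_ne_zero h)
  have hb : ∀ δ, δ ≠ 0 → ‖bb a ρ q β δ‖ ≤ (nm (Lam a) : ℝ) ^ 2 := fun δ h0 => by
    have h2 := one_le_nmR (up_ne_zero (p := lam) h0)
    have h8 : ‖Tg δ‖ ≤ nm (up lam δ) :=
      (norm_Tg_le h0).trans (Real.rpow_le_self_of_one_le h2 (by norm_num))
    refine (norm_bb_le hv.bd hq h0 β).trans ?_
    rw [div_le_iff₀ (by linarith)]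
    gcongr
  simp only [← tsum_div_const, ← tsum_mul_left]
  refine tendsto_tsum_of_dominated_convergence (h7.mul_left ((nm (Lam a) : ℝ) ^ 2 * M))
    (fun δ => ?_) (vorX_ev.mono fun θ h δ => ?_)
  · by_cases h0 : δ = 0
    · simp only [h0, if_true, zero_div, mul_zero]
      exact tendsto_const_nhds
    simp only [h0, if_false]
    convert (hK _ (hz δ h0)).1.const_mul (bb a ρ q β δ * psf (-(η * δ)) q) using 2
    · ring
    · ring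
  · by_cases h0 : δ = 0
    · simp only [h0, if_true, zero_div, norm_zero]
      positivity
    have h8 := (hK _ (hz δ h0)).2 θ h.1 h.2
    have h9 := hb δ h0
    rw [if_neg h0, mul_div_assoc, norm_mul, norm_mul, norm_psf, mul_one, ← e, mul_assoc]
    gcongr

theorem vorX_xv {a : ℕ} {ρ : E → ℂ} {q u η β : E} {w : ℂ → ℂ} {Y : ℝ}
    (hv : VPr a ρ q u η β w Y) : xv c3 q u ≠ 0 := by
  have hq : q ≠ 0 := fun h => hv.hq (h ▸ dvd_zero _)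
  have h := norm_xv ch_c3 (n := u) hq fun p hp => p.2.1.not_dvd_one (by
    have h1 : p.1 ∣ Lam a ^ 2 * u * η := (hp.2.mul_left _).mul_right _
    exact (dvd_iff_dvd_of_dvd_sub (hp.1.trans hv.hη)).1 h1)
  exact norm_ne_zero_iff.1 (by rw [h]; exact one_ne_zero)

theorem vorX (h0 : Vor0T) (h1 : CO) (h2 : C0ne) (h3 : KxRep) (h4 : ArchT) (h5 : IBdT) : VorX := by
  refine ⟨((2 / √3 : ℝ) : ℂ), fun a ρ q β w => ?_⟩
  have hP : ∀ θ : ℝ, ∃ Pol : ℂ, 0 < θ → θ ≤ 1 → ∀ u η Y, VPr a ρ q u η β w Y →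
      VLT θ (fun c => ρ c * psf (c * u) q) w Y = xv c3 q u * (((Y ^ (2 / 3 : ℝ) : ℝ) : ℂ) * Pol +
        (nm (Lam a) : ℂ) ^ 2 * ∑' δ : E, if δ = 0 then 0 else
          bb a ρ q β δ * psf (-(η * δ)) q * KaT θ w (zd a q Y δ)) := fun θ => by
    by_cases h : 0 < θ ∧ θ ≤ 1
    · obtain ⟨Pol, hPol⟩ := h0 θ a ρ q β w h.1 h.2
      exact ⟨Pol, fun _ _ => hPol⟩
    · exact ⟨0, fun a b => absurd ⟨a, b⟩ h⟩
  choose Pol hPol using hP
  have hN : vorX_N ≠ 0 :=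
    mul_ne_zero (mul_ne_zero (ofReal_ne_zero.2 (by norm_num)) h2) h3.2.1
  refine ⟨limUnder (𝓝[>] 0) (fun θ : ℝ => Pol θ / vorX_s θ) / vorX_N, fun u η Y hv => ?_⟩
  have hx := vorX_xv hv
  have hY : ((Y ^ (2 / 3 : ℝ) : ℝ) : ℂ) ≠ 0 := vorX_s_ne hv.hY
  have t1 := vorX_VL h1 (fun c => ρ c * psf (c * u) q) w hv.hY
  have t2 := vorX_sum h1 h3 h4 h5 hv
  have t3 := ((t1.div_const (xv c3 q u)).sub (t2.const_mul ((nm (Lam a) : ℂ) ^ 2))).div_const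
    ((Y ^ (2 / 3 : ℝ) : ℝ) : ℂ)
  have t4 := Tendsto.congr' (f₂ := fun θ : ℝ => Pol θ / vorX_s θ) (vorX_ev.mono fun θ h => by
    have hs := vorX_s_ne h.1
    simp only [hPol θ h.1 h.2 u η Y hv]
    field_simp
    ring) t3
  rw [t4.limUnder_eq]
  field_simp
  ring

end Pat
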