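import Vale.Agent.P006.IfC
import Vale.Agent.P026.Sym
import Vale.Agent.P026.Wt

/-! Facts on the localised coefficients. -/

noncomputable section
namespace Pat
open QRH Complex MeasureTheory Filter
open scoped ComplexConjugate Classical ContDiff Topology

theorem xl_norm (hb : BA) (β : Finset P → ℂ) {B : ℝ} (hB : 0 < B) (T τ : ℝ) (i : ℤ)
    (c : Finset P) : ‖xl β B T τ i c‖ = ‖β c‖ * bx (T * Real.log (Ns c / B) - i / 2) := by
  rw [xl, norm_mul, norm_mul, norm_cpow_eq_rpow_re_of_pos (div_pos (Ns_pos c) hB), norm_real,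
    Real.norm_of_nonneg (hb.bx_nonneg _)]
  simp

theorem xl_le (hb : BA) (β : Finset P → ℂ) {B : ℝ} (hB : 0 < B) (T τ : ℝ) (i : ℤ)
    (c : Finset P) : ‖xl β B T τ i c‖ ≤ ‖β c‖ := by
  rw [xl_norm hb β hB]
  exact mul_le_of_le_one_right (norm_nonneg _) (hb.bx_le _)

theorem xl_ne {β : Finset P → ℂ} {B T τ : ℝ} {i : ℤ} {c : Finset P} (h : xl β B T τ i c ≠ 0) :
    β c ≠ 0 := left_ne_zero_of_mul (left_ne_zero_of_mul h)

theorem xl_sup (hb : BA) (β : Finset P → ℂ) {B T : ℝ} (hB : 0 < B) (hT : 1 ≤ T) (τ : ℝ) (i : ℤ) :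
    Sup (xl β B T τ i) (Bi B T i) (Real.exp (1 / T) * Bi B T i) := fun c h => by
  have h1 := hb.bx_supp _ (ofReal_ne_zero.1 (right_ne_zero_of_mul (left_ne_zero_of_mul h)))
  have hT0 : 0 < T := by linarith
  have h2 := div_pos (Ns_pos c) hB
  rw [Bi, mul_left_comm, ← Real.exp_add, ← le_div_iff₀' hB, ← div_le_iff₀' hB,
    ← Real.le_log_iff_exp_le h2, ← Real.log_le_iff_le_exp h2, div_le_iff₀ (by positivity),
    show 1 / T + i / (2 * T) = (1 + i / 2) / T by field_simp, le_div_iff₀ hT0]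
  constructor <;> linarith [h1.1, h1.2]

theorem xl_bi {Λ B T : ℝ} {i : ℤ} (hΛ : 1 ≤ Λ) (hB : 0 < B) (hT : 1 ≤ T) (hi : i ∈ Ji Λ T) :
    B / 3 ≤ Bi B T i ∧ Bi B T i ≤ 2 * Λ * B := by
  obtain ⟨h1, h2⟩ := Finset.mem_Icc.1 hi
  have h3 : (-2 : ℝ) ≤ i := by exact_mod_cast h1
  have h4 : (i : ℝ) ≤ 2 * T * Real.log Λ + 1 :=
    (Int.cast_le.2 h2).trans (Int.ceil_lt_add_one _).le
  have h5 : -1 ≤ i / (2 * T) := by
    rw [le_div_iff₀ (by positivity)]
    linarith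
  have h6 : i / (2 * T) ≤ Real.log Λ + 1 / 2 := by
    rw [div_le_iff₀ (by positivity)]
    linarith
  have h7 : Real.exp (1 / 2) ≤ 2 := by
    refine le_of_pow_le_pow_left₀ two_ne_zero (by norm_num) ?_
    rw [← Real.exp_nat_mul]
    norm_num
    linarith [Real.exp_one_lt_three]
  rw [Bi, mul_comm _ B, div_eq_mul_inv]
  refine ⟨mul_le_mul_of_nonneg_left (le_trans ?_ (Real.exp_le_exp.2 h5)) hB.le,
    mul_le_mul_of_nonneg_left ((Real.exp_le_exp.2 h6).trans ?_) hB.le⟩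
  · rw [Real.exp_neg]
    exact inv_anti₀ (Real.exp_pos _) Real.exp_one_lt_three.le
  · rw [Real.exp_add, Real.exp_log (by linarith)]
    nlinarith

theorem xl_sq (hb : BA) (β : Finset P → ℂ) {B : ℝ} (hB : 0 < B) (T τ : ℝ) (J : Finset ℤ)
    (c : Finset P) : ∑ i ∈ J, ‖xl β B T τ i c‖ ^ 2 ≤ ‖β c‖ ^ 2 := by
  simp only [xl_norm hb β hB, mul_pow]
  rw [← Finset.mul_sum]
  refine mul_le_of_le_one_right (sq_nonneg _)
    ((Finset.sum_le_sum fun i _ => ?_).trans (hb.bx_sum_le (T * Real.log (Ns c / B)) J))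
  exact pow_le_of_le_one (hb.bx_nonneg _) (hb.bx_le _) two_ne_zero

theorem xl_sum {f : Finset P → ℝ} (h0 : ∀ c, 0 ≤ f c) {R : ℝ} (h : ∀ c, f c ≠ 0 → Ns c ≤ R)
    (L : ℝ) : ∑ c ∈ sqf L, f c ≤ ∑ c ∈ sqf R, f c := by
  rw [← Finset.sum_filter_ne_zero]
  exact Finset.sum_le_sum_of_subset_of_nonneg
    (fun c hc => mem_sqf.2 (h c (Finset.mem_filter.1 hc).2)) fun c _ _ => h0 c

theorem xl_rpow {a M r : ℝ} (ha : 0 < a) (h1 : a ≤ M) (h2 : a⁻¹ ≤ M) (hr : |r| ≤ 1) :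
    a ^ r ≤ M := by
  rcases le_total 1 a with h | h
  · exact (Real.rpow_le_rpow_of_exponent_le h (abs_le.1 hr).2).trans (by rwa [Real.rpow_one])
  · exact (Real.rpow_le_rpow_of_exponent_ge ha h (abs_le.1 hr).1).trans
      (by rwa [Real.rpow_neg_one])

theorem xl_cs {w g : ℝ → ℝ} (hw : Integrable w) (hw0 : ∀ t, 0 ≤ w t)
    (h1 : Integrable fun t => w t * g t) (h2 : Integrable fun t => w t * g t ^ 2) :
    (∫ t, w t * g t) ^ 2 ≤ (1 + ∫ t, w t) * ∫ t, w t * g t ^ 2 := by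
  have hI : 0 ≤ ∫ t, w t := integral_nonneg hw0
  obtain ⟨y, hy⟩ : ∃ y, y = (∫ t, w t * g t) / (1 + ∫ t, w t) := ⟨_, rfl⟩
  have h := integral_mono (h1.const_mul (2 * y)) (h2.add (hw.const_mul (y ^ 2))) fun t => by
    simp only [Pi.add_apply]
    nlinarith [mul_nonneg (hw0 t) (sq_nonneg (g t - y))]
  simp only [Pi.add_apply] at h
  rw [integral_add h2 (hw.const_mul _), integral_const_mul, integral_const_mul] at h
  rw [eq_div_iff (by positivity)] at hy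
  rw [← hy] at h ⊢
  nlinarith [mul_nonneg hI (sq_nonneg y), mul_le_mul_of_nonneg_left h (by positivity :
    0 ≤ 1 + ∫ t, w t)]

theorem xl_cont (β : Finset P → ℂ) {B : ℝ} (hB : 0 < B) (s : ℂ) (T L : ℝ) (ξ : E) :
    Continuous fun t : ℝ => Ds (tw β B (s + t * T * I)) L ξ :=
  continuous_finsetSum _ fun c _ => (continuous_const.mul (Continuous.const_cpow (by fun_prop)
    (Or.inl (ofReal_ne_zero.2 (div_pos (Ns_pos c) hB).ne')))).mul continuous_const

theorem xl_bd (β : Finset P → ℂ) {B : ℝ} (hB : 0 < B) (s : ℂ) (T L : ℝ) (ξ : E) :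
    ∃ M : ℝ, ∀ t : ℝ, ‖Ds (tw β B (s + t * T * I)) L ξ‖ ≤ M := by
  refine ⟨∑ c ∈ sqf L, ‖β c‖ * (Ns c / B) ^ s.re, fun t => norm_sum_le_of_le _ fun c _ => ?_⟩
  rw [tw, norm_mul, norm_mul, norm_conj, norm_cpow_eq_rpow_re_of_pos (div_pos (Ns_pos c) hB),
    show (s + t * T * I).re = s.re by simp]
  exact mul_le_of_le_one_right (mul_nonneg (norm_nonneg _)
    (Real.rpow_nonneg (div_pos (Ns_pos c) hB).le _)) (norm_xs_le ch_c3 _ _)

theorem xl_rep (hb : BA) {h : ℝ → ℂ} (hh : Integrable h)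
    (hr : ∀ v : ℝ, (bx v : ℂ) = ∫ t : ℝ, h t * exp (t * v * I)) {β : Finset P → ℂ} {Λ B T : ℝ}
    (hB : 0 < B) (hT : 1 ≤ T) (hs : Sup β B (Λ * B)) (τ : ℝ) (i : ℤ) (s : ℂ) (ξ : E) :
    Ds (tw (xl β B T τ i) (Bi B T i) s) (3 * Bi B T i) ξ = ((B / Bi B T i : ℝ) : ℂ) ^ s *
      ∫ t : ℝ, h t * exp (t * (-(i / 2) : ℝ) * I) *
        Ds (tw β B (s - τ * T * I + t * T * I)) (Λ * B) ξ := by
  have hBi : 0 < Bi B T i := mul_pos hB (Real.exp_pos _)
  have hi : ∀ (v : ℝ) (z : ℂ), Integrable fun t : ℝ => z * (h t * exp (t * v * I)) := fun v z =>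
    (hh.mul_bdd (c := 1) (by fun_prop) (ae_of_all _ fun t => by
      rw [← ofReal_mul, norm_exp_ofReal_mul_I])).const_mul z
  have e1 : ∀ t : ℝ, h t * exp (t * (-(i / 2) : ℝ) * I) *
      Ds (tw β B (s - τ * T * I + t * T * I)) (Λ * B) ξ = ∑ c ∈ sqf (Λ * B),
        conj (β c) * ((Ns c / B : ℝ) : ℂ) ^ (s - τ * T * I) * xs c3 c ξ *
          (h t * exp (t * (T * Real.log (Ns c / B) - i / 2 : ℝ) * I)) := fun t => by
    rw [Ds, Finset.mul_sum]
    refine Finset.sum_congr rfl fun c _ => ?_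
    have h2 := div_pos (Ns_pos c) hB
    have h3 : exp (t * (T * Real.log (Ns c / B) - i / 2 : ℝ) * I) =
        exp (t * (-(i / 2) : ℝ) * I) * ((Ns c / B : ℝ) : ℂ) ^ (t * T * I) := by
      rw [cpow_def_of_ne_zero (ofReal_ne_zero.2 h2.ne'), ← ofReal_log h2.le, ← exp_add]
      congr 1
      simp only [ofReal_sub, ofReal_mul, ofReal_neg]
      ring
    rw [h3, tw, cpow_add _ _ (ofReal_ne_zero.2 h2.ne')]
    ring
  simp only [e1]
  rw [integral_finsetSum _ fun c _ => hi _ _, Finset.mul_sum, Ds]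
  simp only [integral_const_mul, ← hr]
  refine Finset.sum_congr_of_eq_on_inter (fun c _ hc => ?_) (fun c _ hc => ?_) fun c _ _ => ?_
  · have : β c = 0 := by
      by_contra h0
      exact hc (mem_sqf.2 (hs c h0).2)
    simp [tw, xl, this]
  · have : xl β B T 0 i c = 0 := by
      by_contra h0
      refine hc (mem_sqf.2 ((xl_sup hb β hB hT 0 i c h0).2.trans
        (mul_le_mul_of_nonneg_right ?_ hBi.le)))
      exact (Real.exp_le_exp.2 (div_le_one_of_le₀ hT (by linarith))).trans Real.exp_one_lt_three.le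
    simp only [xl, ofReal_zero, zero_mul, cpow_zero, mul_one, mul_eq_zero] at this
    rcases this with h0 | h0
    · simp [h0]
    · rw [h0, mul_zero, mul_zero]
  · have h2 := div_pos (Ns_pos c) hB
    rw [tw, xl, map_mul, map_mul, conj_ofReal, conj_cpow_ofReal h2,
      show Ns c / Bi B T i = B / Bi B T i * (Ns c / B) by field_simp, ofReal_mul,
      mul_cpow_ofReal_nonneg (div_pos hB hBi).le h2.le, sub_eq_add_neg s,
      cpow_add _ _ (ofReal_ne_zero.2 h2.ne'), show conj (τ * T * I : ℂ) = -(τ * T * I) by simp]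
    ring

theorem xl_transfer (hb : BA) (Λ : ℝ) (k : ℕ) (hΛ : 1 ≤ Λ) : ∃ C : ℝ, 0 < C ∧
    ∀ (β : Finset P → ℂ) (B T τ V : ℝ) (i : ℤ) (s : ℂ) (F : Finset E), 0 < B → 1 ≤ T →
      i ∈ Ji Λ T → |s.re| ≤ 1 → Sup β B (Λ * B) →
      (∀ s' : ℂ, |s'.re| ≤ 1 → ∑ ξ ∈ F, ‖Ds (tw β B s') (Λ * B) ξ‖ ^ 2 ≤ V * (1 + ‖s'‖) ^ k) →
      ∑ ξ ∈ F, ‖Ds (tw (xl β B T τ i) (Bi B T i) s) (3 * Bi B T i) ξ‖ ^ 2
        ≤ C * V * (T * (1 + |τ|) * (1 + ‖s‖)) ^ k := by
  obtain ⟨C, hC, h1⟩ := hb.fr (k + 2)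
  obtain ⟨D, hD, h2⟩ := hb.bump_bd _ hb.bx_bump (k + 2)
  obtain ⟨h, hc, h3, hh, hr⟩ := h1 _ D h2
  have i1 : Integrable fun t : ℝ => ‖h t‖ * (1 + |t|) ^ k :=
    ((hb.int_pow k).const_mul (C * D)).mono' (by fun_prop) (ae_of_all _ fun t => by
      rw [Real.norm_of_nonneg (by positivity), ← mul_assoc]
      exact mul_le_mul_of_nonneg_right (by simpa only [Nat.cast_add, Nat.cast_ofNat] using h3 t)
        (by positivity))
  have p1 : 0 ≤ ∫ t, ‖h t‖ := integral_nonneg fun _ => norm_nonneg _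
  have p2 : 0 ≤ ∫ t, ‖h t‖ * (1 + |t|) ^ k := integral_nonneg fun _ => by positivity
  refine ⟨(3 * Λ) ^ 2 * (1 + ∫ t, ‖h t‖) * (1 + ∫ t, ‖h t‖ * (1 + |t|) ^ k), by positivity,
    fun β B T τ V i s F hB hT hi hs hβ hV => ?_⟩
  have hV0 : 0 ≤ V := nonneg_of_mul_nonneg_left
    ((Finset.sum_nonneg fun _ _ => sq_nonneg _).trans (hV s hs)) (by positivity)
  have hBi : 0 < Bi B T i := mul_pos hB (Real.exp_pos _)
  obtain ⟨b1, b2⟩ := xl_bi hΛ hB hT hi
  have hκ : ‖((B / Bi B T i : ℝ) : ℂ) ^ s‖ ≤ 3 * Λ := by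
    rw [norm_cpow_eq_rpow_re_of_pos (div_pos hB hBi)]
    refine xl_rpow (div_pos hB hBi) ?_ ?_ hs
    · rw [div_le_iff₀ hBi]
      nlinarith
    · rw [inv_div, div_le_iff₀ hB]
      nlinarith
  obtain ⟨g, hg⟩ : ∃ g : E → ℝ → ℝ,
    g = fun (ξ : E) (t : ℝ) => ‖Ds (tw β B (s - τ * T * I + t * T * I)) (Λ * B) ξ‖ := ⟨_, rfl⟩
  have g1 : ∀ ξ (j : ℕ), Integrable fun t => ‖h t‖ * g ξ t ^ j := fun ξ j => by
    obtain ⟨M, hM⟩ := xl_bd β hB (s - τ * T * I) T (Λ * B) ξ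
    rw [hg]
    exact hh.norm.mul_bdd (c := M ^ j) ((xl_cont β hB _ T _ ξ).norm.pow j).aestronglyMeasurable
      (ae_of_all _ fun t => by
        rw [Real.norm_of_nonneg (by positivity)]
        exact pow_le_pow_left₀ (norm_nonneg _) (hM t) j)
  calc _ ≤ ∑ ξ ∈ F, (3 * Λ) ^ 2 * ((1 + ∫ t, ‖h t‖) * ∫ t, ‖h t‖ * g ξ t ^ 2) := by
        refine Finset.sum_le_sum fun ξ _ => ?_
        rw [xl_rep hb hh hr hB hT hβ, norm_mul, mul_pow]
        refine mul_le_mul (pow_le_pow_left₀ (norm_nonneg _) hκ 2) (le_trans (pow_le_pow_left₀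
          (norm_nonneg _) ((norm_integral_le_integral_norm _).trans_eq ?_) 2) (xl_cs hh.norm
            (fun _ => norm_nonneg _) (by simpa only [pow_one] using g1 ξ 1) (g1 ξ 2)))
          (by positivity) (by positivity)
        simp only [hg, norm_mul, ← ofReal_mul, norm_exp_ofReal_mul_I, mul_one]
    _ = (3 * Λ) ^ 2 * (1 + ∫ t, ‖h t‖) * ∫ t, ∑ ξ ∈ F, ‖h t‖ * g ξ t ^ 2 := by
        rw [integral_finsetSum _ fun ξ _ => g1 ξ 2, mul_assoc, Finset.mul_sum, Finset.mul_sum]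
    _ ≤ (3 * Λ) ^ 2 * (1 + ∫ t, ‖h t‖) *
          ∫ t, V * (T * (1 + |τ|) * (1 + ‖s‖)) ^ k * (‖h t‖ * (1 + |t|) ^ k) := by
        refine mul_le_mul_of_nonneg_left (integral_mono (integrable_finsetSum _ fun ξ _ => g1 ξ 2)
          (i1.const_mul _) fun t => ?_) (by positivity)
        have h4 : 1 + ‖s - τ * T * I + t * T * I‖ ≤ T * (1 + |τ|) * (1 + ‖s‖) * (1 + |t|) := by
          have h5 : ‖s - τ * T * I + t * T * I‖ ≤ ‖s‖ + |τ| * T + |t| * T := by
            refine (norm_add_le_of_le (norm_sub_le _ _) le_rfl).trans_eq ?_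
            simp [abs_of_pos (by linarith : 0 < T)]
          have h6 : 1 + ‖s‖ + |τ| + |t| ≤ (1 + |τ|) * (1 + ‖s‖) * (1 + |t|) := by
            nlinarith [mul_nonneg (abs_nonneg τ) (norm_nonneg s), mul_nonneg (abs_nonneg t)
              (by positivity : 0 ≤ |τ| + ‖s‖ + |τ| * ‖s‖)]
          nlinarith [mul_le_mul_of_nonneg_left h6 (by linarith : 0 ≤ T),
            mul_le_mul_of_nonneg_right hT (by positivity : 0 ≤ 1 + ‖s‖)]
        simp only [hg]
        rw [← Finset.mul_sum, mul_left_comm, mul_assoc V, ← mul_pow]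
        exact mul_le_mul_of_nonneg_left ((hV _ (by simpa using hs)).trans
          (mul_le_mul_of_nonneg_left (pow_le_pow_left₀ (by positivity) h4 k) hV0)) (norm_nonneg _)
    _ ≤ _ := by
        rw [integral_const_mul, mul_assoc _ V, mul_assoc _ (1 + _) (V * _), mul_comm (1 + _) (V * _)]
        gcongr
        linarith

theorem xlF (hb : BA) : XlF where
  gb β B Λ w T τ i h hB hT :=
    ⟨fun c => (xl_le hb β hB T τ i c).trans (h.bd c), xl_sup hb β hB hT τ i,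
      fun c hc => h.rough c (xl_ne hc)⟩
  bi Λ B T i hΛ hB hT hi := xl_bi hΛ hB hT hi
  card Λ T hΛ hT := by
    have h1 : 0 ≤ 2 * T * Real.log Λ := mul_nonneg (by linarith) (Real.log_nonneg hΛ)
    have h2 := Int.ceil_nonneg h1
    rw [Ji, Int.card_Icc, ← Int.cast_natCast, Int.toNat_of_nonneg (by linarith)]
    push_cast
    linarith [Int.ceil_lt_add_one (2 * T * Real.log Λ)]
  norm_le β B T τ i c hB := xl_le hb β hB T τ i c
  sum_sq β B T τ J c hB := xl_sq hb β hB T τ J c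
  sum_eq β B Λ T c hB hT hs := by
    by_cases h : β c = 0
    · simp [h]
    obtain ⟨h1, h2⟩ := hs c h
    have h3 : 0 ≤ T * Real.log (Ns c / B) :=
      mul_nonneg (by linarith) (Real.log_nonneg ((one_le_div hB).2 h1))
    have h4 : T * Real.log (Ns c / B) ≤ T * Real.log Λ := mul_le_mul_of_nonneg_left
      (Real.log_le_log (div_pos (Ns_pos c) hB) ((div_le_iff₀ hB).2 h2)) (by linarith)
    rw [← Finset.mul_sum, ← ofReal_sum, hb.bx_sum _ (Ji Λ T) fun i h5 h6 => Finset.mem_Icc.2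
      ⟨by exact_mod_cast (by linarith : (-2 : ℝ) ≤ i), Int.cast_le.1
        (le_trans (by linarith) (Int.le_ceil (2 * T * Real.log Λ)))⟩, ofReal_one, mul_one]
  nrm1_le β B Λ T τ i L hB hs :=
    (Finset.sum_le_sum fun c _ => xl_le hb β hB T τ i c).trans (xl_sum (fun _ => norm_nonneg _)
      (fun c h => (hs c (norm_ne_zero_iff.1 h)).2) L)
  nrm2_le β B Λ T τ J L hB hs := by
    refine (Finset.sum_le_sum fun i _ => xl_sum (fun _ => sq_nonneg _) (fun c h =>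
      (hs c (xl_ne (norm_ne_zero_iff.1 ((pow_ne_zero_iff two_ne_zero).1 h)))).2) (L i)).trans ?_
    rw [Finset.sum_comm]
    exact Finset.sum_le_sum fun c _ => xl_sq hb β hB T τ J c
  yd_eq β B T τ := funext fun c => by
    simp only [yd, tw, Finset.empty_subset, Finset.disjoint_empty_right, and_self, if_true,
      Finset.empty_union, pr_empty, xs_one ch_c3, Ns_empty, mul_one, mul_assoc (β c), hb.tt_gn]
  tw_nrm β B L s hB hβ hs := by
    rw [nrm2, nrm2, Finset.mul_sum]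
    refine Finset.sum_le_sum fun c _ => ?_
    by_cases h : β c = 0
    · simp [tw, h]
    have h1 := div_pos (Ns_pos c) hB
    have h2 := xl_rpow (M := 3) h1 ((div_le_iff₀ hB).2 (hβ c h).2)
      ((inv_le_one_of_one_le₀ ((one_le_div hB).2 (hβ c h).1)).trans (by norm_num)) hs
    rw [tw, norm_mul, norm_conj, norm_cpow_eq_rpow_re_of_pos h1, mul_pow, mul_comm]
    exact mul_le_mul_of_nonneg_right ((pow_le_pow_left₀ (by positivity) h2 2).trans_eq
      (by norm_num)) (sq_nonneg _)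
  transfer := xl_transfer hb

end Pat
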