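import Vale.Agent.P026.Main
import Vale.Agent.P006.BasA
import Vale.Agent.P006.BasB
import Vale.Agent.P006.BasC
import Vale.Agent.P006.Bas2a
import Vale.Agent.P006.Bas2b
import Vale.Agent.P006.Bas3a
import Vale.Agent.P006.Bas3b
import Vale.Agent.P006.Bas3c
import Vale.Agent.P006.ArchT
import Vale.Agent.P006.VorAT
import Vale.Agent.P006.VorCT
import Vale.Agent.P006.VorDT
import Vale.Agent.P006.CO
import Vale.Agent.P006.Tate
import Vale.Agent.P006.C0ne
import Vale.Agent.P006.KxRep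
import Vale.Agent.P006.VorX
import Vale.Agent.P006.RadW
import Vale.Agent.P006.KxB
import Vale.Agent.P006.ThZ
import Vale.Agent.P006.ThFin
import Vale.Agent.P006.TwS
import Vale.Agent.P006.PV
import Vale.Agent.P006.RatA
import Vale.Agent.P006.RatB
import Vale.Agent.P006.KA
import Vale.Agent.P006.KB1
import Vale.Agent.P006.KBN
import Vale.Agent.P006.KB3
import Vale.Agent.P006.KBasm
import Vale.Agent.P006.KF
import Vale.Agent.P006.HM1
import Vale.Agent.P006.HK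
import Vale.Agent.P006.PoiP
import Vale.Agent.P006.PoiU
import Vale.Agent.P006.Box
import Vale.Agent.P006.LsStep
import Vale.Agent.P006.LsFin
import Vale.Agent.P006.BL
import Vale.Agent.P006.NG
import Vale.Agent.P006.HM2
import Vale.Agent.P006.RN
import Vale.Agent.P006.HA12
import Vale.Agent.P006.LV1
import Vale.Agent.P006.LV
import Vale.Agent.P006.HBI
import Vale.Agent.P006.PD
import Vale.Agent.P006.CoI
import Vale.Agent.P006.CR
import Vale.Agent.P006.MuB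
import Vale.Agent.P006.PC
import Vale.Agent.P006.SC
import Vale.Agent.P006.CS
import Vale.Agent.P006.MME
import Vale.Agent.P006.S2B
import Vale.Agent.P006.R0B
import Vale.Agent.P006.XlF
import Vale.Agent.P006.E1c
import Vale.Agent.P006.SmD
import Vale.Agent.P006.E2c
import Vale.Agent.P006.ShR
import Vale.Agent.P006.ShB
import Vale.Agent.P006.TIt
import Vale.Agent.P006.TI0
import Vale.Agent.P006.CvF
import Vale.Agent.P006.LPsp
import Vale.Agent.P006.LPS
import Vale.Agent.P006.LPH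
import Vale.Agent.P006.BD1
import Vale.Agent.P006.BD2
import Vale.Agent.P006.BDS
import Vale.Agent.P006.Del
import Vale.Agent.P006.FinD
import Vale.Agent.P006.PNTK
import Vale.Agent.P006.Bridge

noncomputable section
namespace Pat
open QRH Complex MeasureTheory Filter
open scoped ComplexConjugate Classical ContDiff Topology

theorem m_ba : BA := ⟨⟨basA, basB, basC⟩, ⟨bas2a, bas2b⟩, ⟨bas3a, bas3b, bas3c⟩⟩
theorem m_rat : RatF := ⟨ratA m_ba, ratB m_ba⟩
theorem m_has (η : ℝ) (hη : 0 < η) : HAs 216 η := by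
  have hQ : GoodQ 216 1 := ⟨le_rfl, 8, by norm_num, by norm_num, dvd_rfl⟩
  have r6 : Rec c6 := rec_c6 cubRec (rec_c2 qgauss)
  have R6 : Rec6 := rec6 cubRec (qRec qgauss)
  have p1 : PL c6 := pL sepB (pLa (pSG pS1) ch_c6 r6)
  have p2 : PL (cj c6) := pL sepB (pLa (pSG pS1) ch_c6.cj r6.cj)
  have hV : VB 216 := vB hQ (vB0 vort qls sepQ (kFacts iBd) hQ)
  refine hAs resc hQ hη.le (hA_all (hA_one p1 hQ) (fun η h0 h1 h => ?_) hη)
  have hB : HBs 216 η :=
    hBs resc hQ h0.le (stepB p2 R6 (neg6 (qPer qgauss)) hQ h0 (hAs resc hQ h0.le h))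
  exact stepA p1 R6 hQ h0 h1 hB
    (hHs resc hQ h0.le (stepH (muGam cubRec g3Cube (qGam qgauss)) hQ h0 hV hB))
theorem m_vor0 : Vor0T :=
  vor0T (vorAT riemL gls) (vorBT pS2 gls asw (hOne cubRec))
    (vorCT pS2 gls eqv (hOne cubRec) archT iBdT) (vorDT riemL gls asw (hCongr cubRec) archT iBdT)
    (vorET asw iBdT)
theorem m_tw : TateW := tateW m_ba tate
theorem m_thz : ThZ :=
  thZ m_ba (vorX m_vor0 cO (c0ne m_ba cO tate) (kxRep archT iBdT) archT iBdT) (radW m_ba)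
    (kxB m_ba tate m_tw gamB (kxRep archT iBdT) (radW m_ba) (melW m_ba))
theorem m_pv0 : PVu0 := pVu0 m_ba pS1
theorem m_pv1 : PVu1 := pVu1 m_ba pS1
theorem m_theta : ThetaT ((rho * kap : ℝ) : ℂ) := by
  obtain ⟨κ, h⟩ := thFin m_ba m_thz
  have e := kF m_ba m_rat κ (kA m_ba m_rat κ (twS m_ba κ h))
    (kBasm m_ba m_rat (kB1 m_ba m_rat) (kBN m_ba m_rat m_pv1) (kB3a m_ba m_rat)
      (kB3b m_ba m_rat m_pv0))
  exact e ▸ h
theorem m_hm1 : HM1 := hM1 m_ba m_pv1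
theorem m_hm1g : HM1g := hM1g m_ba m_hm1
theorem m_poi : PoiU := poiU m_ba (hK m_ba) (hSep m_ba (hK m_ba)) (poiP m_ba pS1)
theorem m_ls : LSd 1 :=
  lsFin m_ba m_hm1g fun α h1 h2 h =>
    lsStep m_ba m_poi α h1 h2 (nB m_ba α (by linarith) (box m_ba α (by linarith) h m_hm1g))
theorem m_box : Box 1 := box m_ba 1 le_rfl m_ls m_hm1g
theorem m_nb : NB 1 := nB m_ba 1 le_rfl m_box
theorem m_bl1 : BL1 := bL1 m_ba (n2 m_ba m_hm1)
theorem m_bl2 : BL2 := bL2 m_ba m_nb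
theorem m_bl3 : BL3 := bL3 m_ba m_nb
theorem m_rn : RN := rN m_ba m_bl1 m_bl2
theorem m_cr : CR :=
  cR m_ba (hA12 m_ba m_hm1g (hM2 m_ba m_poi (nS m_ba m_ls))) (rS m_ba m_box)
    (lV m_ba (lV1 m_ba (nG m_ba m_nb))) (pD m_ba (hBI m_ba) m_pv1) (coI m_ba) (nG m_ba m_nb)
theorem m_pcw : PCw := pCw m_ba (pC m_ba (muW m_ba (muB m_ba m_has)) (pVs m_ba))
theorem m_xl : XlF := xlF m_ba
theorem m_cv : CvF := cvF m_ba
theorem m_smb : SmB :=
  smB m_ba (e1c m_ba m_xl) (smD m_ba m_xl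
    (dspB m_ba m_poi (mME m_ba (cS m_ba m_tw)) (s3B m_ba m_pv0) (s2B m_ba (twS m_ba _ m_theta)))
    (r0B m_ba m_xl m_bl1) m_rn m_bl2 m_bl3)
theorem m_shb : ShB := shB m_ba m_xl (e2c m_ba m_xl) m_poi (shR m_ba m_xl m_bl1 m_bl2 m_bl3) m_rn
theorem m_dels : DelS :=
  delS m_ba (tIt m_ba m_theta) (tI0 m_ba m_pv0)
    (lPS m_ba (lPdec m_ba m_cv)
      (lPS1 m_ba m_cv (lPsp m_ba m_cv) (comb' m_ba m_cv) m_smb (sC m_ba m_pcw) m_cr))
    (bDS m_ba (bD1 m_ba) (bD2 m_ba) m_smb (sCB m_ba m_pcw) (e3 m_ba m_ls))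
theorem m_delh : DelH :=
  delH m_ba (tIt m_ba m_theta) (mSb m_ba)
    (lPH m_ba m_cv (lPdec m_ba m_cv) (lPsp m_ba m_cv) (comb' m_ba m_cv) m_shb m_cr)
    (bDH m_ba (bD1 m_ba) (bD2 m_ba) m_shb)
theorem patterson : Final := bridge m_ba m_rat (finD m_ba m_dels m_delh) (pNTK m_ba)

end Pat
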