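import Vale.Agent.P006.MuBAux

/-! P006: sharp Moebius sums twisted by cubic characters. -/

noncomputable section
namespace Pat
open QRH Complex MeasureTheory Filter
open scoped ComplexConjugate Classical ContDiff Topology Convolution

theorem muB_V0_smooth : ContDiff ℝ ∞ fun v : ℝ => V0 (5 * Real.exp v) := by
  have h1 : Continuous fun v : ℝ => V1 (5 * Real.exp v) := continuous_V1.comp (by fun_prop)
  have h2 := hasCompactSupport_beta.contDiff_convolution_left (μ := volume)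
    (ContinuousLinearMap.lsmul ℝ ℝ) contDiff_beta h1.locallyIntegrable
  have h3 : (fun v : ℝ => V0 (5 * Real.exp v)) =
      beta ⋆[ContinuousLinearMap.lsmul ℝ ℝ, volume] fun v : ℝ => V1 (5 * Real.exp v) := by
    funext v
    rw [convolution_lsmul, V0]
    refine integral_congr_ae (Eventually.of_forall fun t => ?_)
    simp only [real_smul, sub_eq_add_neg, Real.exp_add, mul_assoc]
  rw [h3]
  exact h2

theorem muB_inv : ∃ e : ℝ, 0 < e ∧ ∃ g : ℝ → ℂ, ContDiff ℝ ∞ g ∧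
    ∀ v, 0 ≤ v → v ≤ e → V0 (5 * Real.exp v) * g v = 1 := by
  have h0 : V0 (5 * Real.exp 0) ≠ 0 := fun h => by
    have := V0_re_pos
    rw [Real.exp_zero, mul_one] at h
    simp [h] at this
  obtain ⟨r, hr, h1⟩ := Metric.eventually_nhds_iff.1
    (muB_V0_smooth.continuous.continuousAt.eventually_ne h0)
  let b : ContDiffBump (0 : ℝ) := ⟨r / 4, r / 2, by positivity, by linarith⟩
  have hb : ContDiff ℝ ∞ fun v => ((b v : ℝ) : ℂ) := ofRealCLM.contDiff.comp b.contDiff
  refine ⟨r / 4, by positivity, fun v => (b v : ℝ) * (V0 (5 * Real.exp v))⁻¹,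
    contDiff_iff_contDiffAt.2 fun v => ?_, fun v h2 h3 => ?_⟩
  · rcases lt_or_ge (dist v 0) r with h | h
    · exact hb.contDiffAt.mul (muB_V0_smooth.contDiffAt.inv (h1 h))
    · refine (contDiffAt_const (c := (0 : ℂ))).congr_of_eventuallyEq ?_
      have h2 : ∀ᶠ t in 𝓝 v, r / 2 < dist t 0 :=
        ContinuousAt.eventually_lt continuousAt_const (by fun_prop) (by linarith)
      filter_upwards [h2] with t ht
      rw [b.zero_of_le_dist ht.le, ofReal_zero, zero_mul]
  · have h4 : dist v 0 ≤ r / 4 := by rwa [Real.dist_eq, sub_zero, abs_of_nonneg h2]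
    have h5 : b v = 1 := b.one_of_mem_closedBall h4
    simp only [h5, ofReal_one, one_mul]
    exact mul_inv_cancel₀ (h1 (by linarith))

theorem muB_gbd {g : ℝ → ℂ} (hg : ContDiff ℝ ∞ g) (n : ℕ) :
    ∃ D : ℝ, 0 < D ∧ ∀ j ≤ n, ∀ v, -3 ≤ v → v ≤ 3 → ‖iteratedDeriv j g v‖ ≤ D := by
  have h1 : ∀ j : ℕ, ∃ D : ℝ, ∀ v ∈ Set.Icc (-3 : ℝ) 3, ‖iteratedDeriv j g v‖ ≤ D := fun j =>
    isCompact_Icc.exists_bound_of_continuousOn
      (hg.continuous_iteratedDeriv j (by exact_mod_cast le_top)).continuousOn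
  choose D hD using h1
  have h0 : ∀ j, 0 ≤ D j := fun j => (norm_nonneg _).trans (hD j 0 (by norm_num))
  refine ⟨1 + ∑ j ∈ Finset.range (n + 1), D j, ?_, fun j hj v h1 h2 => ?_⟩
  · have := Finset.sum_nonneg fun j (_ : j ∈ Finset.range (n + 1)) => h0 j
    linarith
  · have := Finset.single_le_sum (fun j (_ : j ∈ Finset.range (n + 1)) => h0 j)
      (Finset.mem_range.2 (Nat.lt_succ_of_le hj))
    linarith [hD j v ⟨h1, h2⟩]

/-- Fourier representation of narrow boxes against the weight `wt`. -/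
theorem muB_rep (hb : BA) (n : ℕ) : ∃ T0 C : ℝ, 1 ≤ T0 ∧ 0 < C ∧ ∀ T, T0 ≤ T →
    ∃ h : ℝ → ℂ, Continuous h ∧ Integrable h ∧
      (∀ τ, ‖h τ‖ ≤ C * T ^ n * (1 + |τ|) ^ (-(n : ℝ))) ∧
      ∀ y : ℝ, 0 < y → (bx (T * Real.log (y / 5)) : ℂ) = ∫ τ : ℝ, h τ * wt y (τ * I) := by
  obtain ⟨e, he, g, hg, hge⟩ := muB_inv
  obtain ⟨D', hD', hgb⟩ := muB_gbd hg n
  obtain ⟨D, hD, hbd⟩ := hb.bump_bd _ hb.bx_bump n
  obtain ⟨C1, hC1, h1⟩ := hb.der n
  obtain ⟨C2, hC2, h2⟩ := hb.der_mul n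
  obtain ⟨C3, hC3, h3⟩ := hb.fr n
  refine ⟨max 1 e⁻¹, C3 * C2 * C1 * D * D', le_max_left _ _, by positivity, fun T hT => ?_⟩
  have hT1 : 1 ≤ T := (le_max_left _ _).trans hT
  have hTe : e⁻¹ ≤ T := (le_max_right _ _).trans hT
  obtain ⟨h, hc, hh, hi, hr⟩ := h3 _ _ (h2 _ g _ _ (h1 _ D T 0 hbd hT1 (by simp)) hg hgb)
  have hn : ∀ τ x : ℝ, ‖Complex.exp (τ * x * I)‖ = 1 := fun τ x => by
    rw [← ofReal_mul, Complex.norm_exp_ofReal_mul_I]
  refine ⟨fun τ => h τ * Complex.exp (τ * (-Real.log 5 : ℝ) * I), by fun_prop,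
    hi.mul_bdd (c := 1) (Continuous.aestronglyMeasurable (by fun_prop))
      (Eventually.of_forall fun τ => (hn τ _).le), fun τ => ?_, fun y hy => ?_⟩
  · rw [norm_mul, hn, mul_one]
    refine (hh τ).trans (le_of_eq ?_)
    simp only [norm_zero, add_zero, one_pow]
    ring
  · obtain ⟨v, hv⟩ : ∃ v, v = Real.log (y / 5) := ⟨_, rfl⟩
    have hy5 : 5 * Real.exp v = y := by
      rw [hv, Real.exp_log (by positivity)]
      ring
    have hl : Real.log y = v + Real.log 5 := by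
      rw [hv, Real.log_div hy.ne' (by norm_num)]
      ring
    have h4 : (bx (T * v) : ℂ) = V0 y * ((bx (T * v) : ℂ) * Complex.exp (0 * v) * g v) := by
      by_cases h0 : bx (T * v) = 0
      · simp [h0]
      · obtain ⟨h5, h6⟩ := hb.bx_supp _ h0
        have h7 : 0 < v := (mul_pos_iff_of_pos_left (by linarith)).1 h5
        have h8 : e⁻¹ * v ≤ T * v := mul_le_mul_of_nonneg_right hTe h7.le
        have h9 : v ≤ e := by
          rw [inv_mul_eq_div, div_le_iff₀ he] at h8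
          nlinarith
        have h10 := hge v h7.le h9
        rw [hy5] at h10
        rw [zero_mul, Complex.exp_zero]
        linear_combination (-(bx (T * v) : ℂ)) * h10
    rw [← hv, h4, hr v, ← integral_const_mul]
    refine integral_congr_ae (Eventually.of_forall fun τ => ?_)
    have h5 : Complex.exp (τ * v * I) =
        Complex.exp (τ * (-Real.log 5 : ℝ) * I) * (y : ℂ) ^ ((τ : ℂ) * I) := by
      rw [cpow_def_of_ne_zero (ofReal_ne_zero.2 hy.ne'), ← ofReal_log hy.le, hl, ← Complex.exp_add]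
      congr 1
      push_cast
      ring
    simp only [wt, h5]
    ring

theorem muB_box (hb : BA) (h : MuB) : ∃ (k : ℕ) (T0 C : ℝ), 1 ≤ T0 ∧ 0 < C ∧
    ∀ (z : E) (T X : ℝ), z ≠ 0 → T0 ≤ T → 1 ≤ X → Rr z ≤ X ^ (1 / 100 : ℝ) →
      ‖∑ s ∈ sqf (16 * X), mu s * xs c3 s z * (bx (T * Real.log (Ns s / X / 5)) : ℝ)‖
        ≤ C * T ^ k * X ^ (29 / 30 : ℝ) := by
  obtain ⟨k, C, hC, H⟩ := h
  obtain ⟨T0, C1, hT0, hC1, H1⟩ := muB_rep hb (k + 2)
  obtain ⟨C2, hC2, H2⟩ := norm_wt_le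
  have hI := hb.int_pow k
  obtain ⟨A, hA⟩ : ∃ A : ℝ, A = ∫ τ : ℝ, (1 + |τ|) ^ (-((k : ℝ) + 2)) * (1 + |τ|) ^ k := ⟨_, rfl⟩
  have hA0 : 0 ≤ A := hA ▸ integral_nonneg fun τ => by positivity
  refine ⟨k + 2, T0, C1 * C * (A + 1), hT0, by positivity, fun z T X hz hT hX hR => ?_⟩
  obtain ⟨g, hg, hgi, hgb, hgr⟩ := H1 T hT
  have hX0 : 0 < X := by linarith
  have hT' : 0 < T := by linarith
  have hi : ∀ s : Finset P, Integrable fun τ : ℝ =>
      mu s * xs c3 s z * (g τ * wt (Ns s / X) (τ * I)) := fun s => by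
    refine (hgi.mul_bdd (c := C2) (Continuous.aestronglyMeasurable ?_)
      (Eventually.of_forall fun τ => H2 _ _ (by simp))).const_mul _
    have h0 : ((Ns s / X : ℝ) : ℂ) ≠ 0 := ofReal_ne_zero.2 (div_pos (Ns_pos s) hX0).ne'
    simp only [wt, cpow_def_of_ne_zero h0]
    fun_prop
  have h1 : ∑ s ∈ sqf (16 * X), mu s * xs c3 s z * (bx (T * Real.log (Ns s / X / 5)) : ℝ) =
      ∫ τ : ℝ, g τ * S (fun s => mu s * xs c3 s z) X (τ * I) := by
    simp only [hgr _ (div_pos (Ns_pos _) hX0), ← integral_const_mul]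
    rw [← integral_finsetSum _ fun s _ => hi s]
    refine integral_congr_ae (Eventually.of_forall fun τ => ?_)
    simp only [S, Finset.mul_sum]
    exact Finset.sum_congr rfl fun s _ => by ring
  rw [h1]
  refine (norm_integral_le_of_norm_le (hI.const_mul (C1 * C * T ^ (k + 2) * X ^ (29 / 30 : ℝ)))
    (Eventually.of_forall fun τ => ?_)).trans ?_
  · rw [norm_mul]
    refine (mul_le_mul (hgb τ) (H z X τ hz hX hR) (norm_nonneg _) (by positivity)).trans
      (le_of_eq ?_)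
    push_cast
    ring
  · rw [integral_const_mul, ← hA]
    have : 0 ≤ C1 * C * T ^ (k + 2) * X ^ (29 / 30 : ℝ) := by positivity
    nlinarith

theorem muB_sum_eq {R R' : ℝ} {f : Finset P → ℂ} (h : ∀ s, f s ≠ 0 → Ns s ≤ R ∧ Ns s ≤ R') :
    ∑ s ∈ sqf R, f s = ∑ s ∈ sqf R', f s := by
  rcases le_total R R' with h1 | h1
  · exact Finset.sum_subset (sqf_mono h1) fun s _ hs => by_contra fun h2 =>
      hs (mem_sqf.2 (h s h2).1)
  · exact (Finset.sum_subset (sqf_mono h1) fun s _ hs => by_contra fun h2 =>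
      hs (mem_sqf.2 (h s h2).2)).symm

/-- The part of a sharp sum that is not covered by the boxes. -/
theorem muB_err (hb : BA) : ∃ C : ℝ, 0 < C ∧ ∀ (β : Finset P → ℂ) (y T W : ℝ), (∀ s, ‖β s‖ ≤ 1) →
    1 ≤ y → 1 ≤ T → 0 < W →
    ‖∑ s ∈ sqf y, β s - ∑ i ∈ Finset.Icc (0 : ℤ) (⌊2 * (T * Real.log (y / W))⌋ - 2),
      ∑ s ∈ sqf y, β s * (bx (T * Real.log (Ns s / W) - i / 2) : ℝ)‖
      ≤ 36 * W + C * (y / T + √y + 1) := by
  obtain ⟨C, hC, H⟩ := hb.thin_sqf
  refine ⟨C, hC, fun β y T W hβ hy hT hW => ?_⟩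
  have hT0 : 0 < T := by linarith
  have hy0 : 0 < y := by linarith
  obtain ⟨J, hJ⟩ : ∃ J, J = Finset.Icc (0 : ℤ) (⌊2 * (T * Real.log (y / W))⌋ - 2) := ⟨_, rfl⟩
  rw [← hJ, Finset.sum_comm, ← Finset.sum_sub_distrib]
  have h1 : ∀ s ∈ sqf y, ‖β s - ∑ i ∈ J, β s * (bx (T * Real.log (Ns s / W) - i / 2) : ℝ)‖ ≤
      (if Ns s ≤ 3 * W then 1 else 0) + if y - y / T ≤ Ns s then 1 else 0 := by
    intro s _
    have hN := Ns_pos s
    rw [← Finset.mul_sum, ← ofReal_sum, ← mul_one_sub, norm_mul, ← ofReal_one, ← ofReal_sub,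
      norm_real]
    have h2 := hb.bx_sum_le (T * Real.log (Ns s / W)) J
    have h3 : 0 ≤ ∑ i ∈ J, bx (T * Real.log (Ns s / W) - i / 2) :=
      Finset.sum_nonneg fun i _ => hb.bx_nonneg _
    have h4 : ‖β s‖ * ‖1 - ∑ i ∈ J, bx (T * Real.log (Ns s / W) - i / 2)‖ ≤ 1 :=
      mul_le_one₀ (hβ s) (norm_nonneg _) (by rw [Real.norm_of_nonneg (by linarith)]; linarith)
    split_ifs with h5 h6 h6
    · linarith
    · linarith
    · linarith
    · have a1 : 1 ≤ Real.log (Ns s / W) := by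
        rw [Real.le_log_iff_exp_le (by positivity), le_div_iff₀ hW]
        nlinarith [Real.exp_one_lt_three]
      have a2 : 1 ≤ T * Real.log (Ns s / W) := one_le_mul_of_one_le_of_one_le hT a1
      have a3 : Real.log (Ns s / y) ≤ -T⁻¹ := by
        have a4 := Real.log_le_sub_one_of_pos (div_pos hN hy0)
        have a5 : Ns s / y ≤ 1 - T⁻¹ := by
          rw [div_le_iff₀ hy0]
          rw [div_eq_mul_inv] at h6
          linarith
        linarith
      have a6 : Real.log (Ns s / W) = Real.log (y / W) + Real.log (Ns s / y) := by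
        rw [← Real.log_mul (by positivity) (by positivity)]
        congr 1
        field_simp
      have a7 : T * Real.log (Ns s / W) ≤ T * Real.log (y / W) - 1 := by
        have a8 := mul_le_mul_of_nonneg_left a3 hT0.le
        rw [mul_neg, mul_inv_cancel₀ hT0.ne'] at a8
        rw [a6, mul_add]
        linarith
      rw [hb.bx_sum _ J fun i hi hi' => ?_]
      · simp
      · rw [hJ, Finset.mem_Icc]
        constructor
        · have : (0 : ℝ) < i := by linarith
          exact_mod_cast this.le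
        · rw [le_sub_iff_add_le, Int.le_floor]
          push_cast
          linarith
  refine (norm_sum_le_of_le _ h1).trans ?_
  rw [Finset.sum_add_distrib, Finset.sum_boole, Finset.sum_boole]
  refine add_le_add ?_ ?_
  · have h2 : ((sqf y).filter fun s => Ns s ≤ 3 * W) ⊆ sqf (3 * W) := fun s hs =>
      mem_sqf.2 (Finset.mem_filter.1 hs).2
    have h3 := card_sqf_le (R := 3 * W) (by positivity)
    have h4 : (((sqf y).filter fun s => Ns s ≤ 3 * W).card : ℝ) ≤ (sqf (3 * W)).card := by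
      exact_mod_cast Finset.card_le_card h2
    linarith
  · have h2 : y / T ≤ y := div_le_self hy0.le hT
    have h3 : 0 ≤ y / T := by positivity
    refine (H (y - y / T) (y / T) _ (by linarith) h3 fun s hs => ?_).trans ?_
    · rw [Finset.mem_filter, mem_sqf] at hs
      exact ⟨hs.2, by linarith [hs.1]⟩
    · have := Real.sqrt_le_sqrt (show y - y / T ≤ y by linarith)
      exact mul_le_mul_of_nonneg_left (by linarith) hC.le

theorem muB_main (hb : BA) (h : MuB) : ∃ (k : ℕ) (T0 C : ℝ), 1 ≤ T0 ∧ 0 < C ∧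
    ∀ (z : E) (T y : ℝ) (i : ℤ), z ≠ 0 → T0 ≤ T → 1 ≤ y → Rr z ≤ y ^ (1 / 200 : ℝ) →
      i ∈ Finset.Icc (0 : ℤ) (⌊2 * (T * Real.log (y / (5 * √y)))⌋ - 2) →
      ‖∑ s ∈ sqf y, mu s * xs c3 s z * (bx (T * Real.log (Ns s / (5 * √y)) - i / 2) : ℝ)‖
        ≤ C * T ^ k * y ^ (29 / 30 : ℝ) := by
  obtain ⟨k, T0, C, hT0, hC, H⟩ := muB_box hb h
  refine ⟨k, T0, C, hT0, hC, fun z T y i hz hT hy hR hi => ?_⟩
  have hT1 : 1 ≤ T := hT0.trans hT
  have hT' : 0 < T := by linarith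
  have hy0 : 0 < y := by linarith
  have hs : 1 ≤ √y := Real.one_le_sqrt.2 hy
  rw [Finset.mem_Icc, le_sub_iff_add_le, Int.le_floor] at hi
  have hi0 : (0 : ℝ) ≤ i := by exact_mod_cast hi.1
  have hi1 : (i : ℝ) + 2 ≤ 2 * (T * Real.log (y / (5 * √y))) := by exact_mod_cast hi.2
  obtain ⟨X, hX⟩ : ∃ X : ℝ, X = √y * Real.exp (i / 2 / T) := ⟨_, rfl⟩
  have hsX : √y ≤ X :=
    hX ▸ le_mul_of_one_le_right (by positivity) (Real.one_le_exp (by positivity))
  have hX0 : 0 < X := by linarith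
  have hl : ∀ N : ℝ, 0 < N →
      T * Real.log (N / (5 * √y)) - i / 2 = T * Real.log (N / X / 5) := fun N hN => by
    have e : N / (5 * √y) = N / X / 5 * Real.exp (i / 2 / T) := by
      rw [hX]
      field_simp
    rw [e, Real.log_mul (by positivity) (Real.exp_pos _).ne', Real.log_exp]
    field_simp
    ring
  have hy1 : 1 ≤ T * Real.log (y / X / 5) := by
    rw [← hl y hy0]
    linarith
  have hXy : X ≤ y := by
    have h1 : 0 < Real.log (y / X / 5) := (mul_pos_iff_of_pos_left hT').1 (by linarith)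
    have h2 := (Real.log_pos_iff (by positivity)).1 h1
    rw [div_div, one_lt_div (by positivity)] at h2
    linarith
  have hR' : Rr z ≤ X ^ (1 / 100 : ℝ) := by
    refine hR.trans (le_trans (le_of_eq ?_) (Real.rpow_le_rpow (by positivity) hsX (by norm_num)))
    rw [Real.sqrt_eq_rpow, ← Real.rpow_mul hy0.le]
    norm_num
  simp only [hl _ (Ns_pos _)]
  rw [muB_sum_eq (R' := 16 * X) fun s hs => ?_]
  · exact (H z T X hz hT (hs.trans hsX) hR').trans (mul_le_mul_of_nonneg_left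
      (Real.rpow_le_rpow hX0.le hXy (by norm_num)) (by positivity))
  · have hN := Ns_pos s
    obtain ⟨h1, h2⟩ := hb.bx_supp _ (ofReal_ne_zero.1 (right_ne_zero_of_mul hs))
    constructor
    · have h3 : Real.log (Ns s / X / 5) ≤ Real.log (y / X / 5) :=
        le_of_mul_le_mul_left (by linarith) hT'
      rw [Real.log_le_log_iff (by positivity) (by positivity), div_div, div_div,
        div_le_div_iff_of_pos_right (by positivity)] at h3
      exact h3
    · have h3 : Real.log (Ns s / X / 5) ≤ 1 :=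
        le_of_mul_le_mul_left (by linarith) hT'
      rw [Real.log_le_iff_le_exp (by positivity), div_div, div_le_iff₀ (by positivity)] at h3
      nlinarith [Real.exp_one_lt_three]

theorem muW (hb : BA) (h : MuB) : MuW := by
  obtain ⟨k, T0, C, hT0, hC, H⟩ := muB_main hb h
  obtain ⟨C1, hC1, H1⟩ := muB_err hb
  obtain ⟨a, ha⟩ : ∃ a : ℝ, a = 1 / (200 * (k + 1)) := ⟨_, rfl⟩
  have hk : (0 : ℝ) ≤ k := Nat.cast_nonneg k
  have ha0 : 0 < a := by rw [ha]; positivity
  have ha1 : a * (k + 1) = 1 / 200 := by rw [ha]; field_simp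
  have ha2 : a ≤ 1 / 200 := by nlinarith
  refine ⟨a, 180 + 3 * C1 + 2 * C * T0 ^ (k + 1) / a, ha0, by positivity,
    fun z y hz hy hR => ?_⟩
  have hy0 : 0 < y := by linarith
  have hs : 1 ≤ √y := Real.one_le_sqrt.2 hy
  have hya : 1 ≤ y ^ a := Real.one_le_rpow hy ha0.le
  obtain ⟨T, hT⟩ : ∃ T : ℝ, T = T0 * y ^ a := ⟨_, rfl⟩
  have hT1 : T0 ≤ T := hT ▸ le_mul_of_one_le_right (by linarith) hya
  have hT2 : y ^ a ≤ T := hT ▸ le_mul_of_one_le_left (by linarith) hT0
  have hT' : 0 < T := by linarith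
  have h1 := H1 (fun s => mu s * xs c3 s z) y T (5 * √y) (fun s => by
    rw [norm_mul, norm_mu, one_mul]
    exact norm_xs_le ch_c3 s z) hy (hT0.trans hT1) (by positivity)
  have h2 := norm_sum_le_of_le _ fun i hi => H z T y i hz hT1 hy
    (hR.trans (Real.rpow_le_rpow_of_exponent_le hy ha2)) hi
  rw [Finset.sum_const, nsmul_eq_mul] at h2
  have h3 : ((Finset.Icc (0 : ℤ) (⌊2 * (T * Real.log (y / (5 * √y)))⌋ - 2)).card : ℝ) ≤
      2 * (T * (y ^ a / a)) := by
    have h4 : Real.log (y / (5 * √y)) ≤ y ^ a / a :=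
      (Real.log_le_log (by positivity) (div_le_self hy0.le (by linarith))).trans
        (Real.log_le_rpow_div hy0.le ha0)
    have h5 := mul_le_mul_of_nonneg_left h4 hT'.le
    have h6 := Int.floor_le (2 * (T * Real.log (y / (5 * √y))))
    rw [Int.card_Icc]
    generalize ⌊2 * (T * Real.log (y / (5 * √y)))⌋ = m at h6
    rcases le_total 0 (m - 2 + 1 - 0) with h7 | h7
    · have h8 : (((m - 2 + 1 - 0).toNat : ℤ) : ℝ) = ((m - 2 + 1 - 0 : ℤ) : ℝ) := by
        rw [Int.toNat_of_nonneg h7]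
      push_cast at h8
      rw [h8]
      linarith
    · rw [Int.toNat_eq_zero.2 h7, Nat.cast_zero]
      positivity
  have e1 : √y ≤ y ^ (1 - a) := by
    rw [Real.sqrt_eq_rpow]
    exact Real.rpow_le_rpow_of_exponent_le hy (by linarith)
  have e2 : y / T ≤ y ^ (1 - a) := by
    rw [Real.rpow_sub hy0, Real.rpow_one]
    exact div_le_div_of_nonneg_left hy0.le (by positivity) hT2
  have e3 : (y ^ a) ^ (k + 2) * y ^ (29 / 30 : ℝ) ≤ y ^ (1 - a) := by
    rw [← Real.rpow_natCast, ← Real.rpow_mul hy0.le, ← Real.rpow_add hy0]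
    refine Real.rpow_le_rpow_of_exponent_le hy ?_
    push_cast
    nlinarith
  have e4 : 2 * (T * (y ^ a / a)) * (C * T ^ k * y ^ (29 / 30 : ℝ)) ≤
      2 * C * T0 ^ (k + 1) / a * y ^ (1 - a) := by
    refine le_trans (le_of_eq ?_) (mul_le_mul_of_nonneg_left e3 (by positivity))
    rw [hT]
    ring
  have h4 := h2.trans ((mul_le_mul_of_nonneg_right h3 (by positivity)).trans e4)
  have h5 := norm_le_insert' (∑ s ∈ sqf y, mu s * xs c3 s z)
    (∑ i ∈ Finset.Icc (0 : ℤ) (⌊2 * (T * Real.log (y / (5 * √y)))⌋ - 2),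
      ∑ s ∈ sqf y, mu s * xs c3 s z * (bx (T * Real.log (Ns s / (5 * √y)) - i / 2) : ℝ))
  have h6 : C1 * (y / T + √y + 1) ≤ C1 * (3 * y ^ (1 - a)) :=
    mul_le_mul_of_nonneg_left (by linarith) hC1.le
  linarith

end Pat
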