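import Vale.Agent.P006.IfB
import Vale.Agent.P026.DualC
import Vale.Agent.P026.Wt

/-! P006: smooth Moebius sums twisted by cubic characters. -/

noncomputable section
namespace Pat
open QRH Complex MeasureTheory Filter
open scoped ComplexConjugate Classical ContDiff Topology

theorem muB_split {Q : ℕ} {a : E} (ha : IsCoprime a Q) (ρ : E) {k : E} (hk : k ≠ 0) (X : ℝ)
    (z : ℂ) : S (bA Q a ρ) X z = ∑ d ∈ (fac k).powerset, if IsCoprime (pr d) Q then
      mu d * conj (xs c6 d ρ) * S (cAK Q (a * inv Q (pr d)) ρ ∅ (k ^ 6)) (X / Ns d) z else 0 := by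
  rw [S, sum_sqf_split _ (fac k)]
  refine Finset.sum_congr rfl fun d hd => ?_
  rw [Finset.mem_powerset] at hd
  split_ifs with h
  · rw [cAK_empty, S, Finset.mul_sum, Finset.sum_filter, mul_div_assoc]
    refine Finset.sum_congr rfl fun c _ => ?_
    have e : (∀ p ∈ c, ¬ p.1 ∣ k) ↔ Disjoint c (fac k) := by
      simp only [Finset.disjoint_left, mem_fac hk]
    rw [cA, xs_six]
    by_cases hc : Disjoint c (fac k)
    · have h1 : Disjoint d c := (hc.mono_right hd).symm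
      rw [if_pos hc, if_pos (e.2 hc), bA, cl_union h h1, mu_union h1, xs_union h1, Ns_union h1,
        div_div_eq_mul_div, mul_comm (Ns c), map_mul]
      ring
    · rw [if_neg hc, if_neg (mt e.1 hc)]
      simp
  · exact Finset.sum_eq_zero fun c _ => by
      rw [bA, cl_union_zero ha h, zero_mul, zero_mul, zero_mul]

theorem muB_fibre (T : Finset E) (n0 : E) : ((T.filter fun k => k ^ 6 = n0).card : ℝ) ≤ 6 := by
  have h1 : (T.filter fun k => k ^ 6 = n0) ⊆ (Polynomial.nthRoots 6 n0).toFinset := fun k hk =>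
    Multiset.mem_toFinset.2 ((Polynomial.mem_nthRoots (by norm_num)).2 (Finset.mem_filter.1 hk).2)
  exact_mod_cast (Finset.card_le_card h1).trans
    ((Multiset.toFinset_card_le _).trans (Polynomial.card_nthRoots 6 n0))

theorem muB_class {Q : ℕ} (h : HAs Q (1 / 100)) : ∃ (k : ℕ) (C : ℝ), 0 < C ∧
    ∀ (a ρ : E) (X Y τ : ℝ), IsCoprime a Q → ρ ≠ 0 → 1 ≤ X → 0 < Y → Y ≤ X →
      Rr ρ ≤ X ^ (1 / 100 : ℝ) →
      ‖S (bA Q a ρ) Y (τ * I)‖ ≤ C * X ^ (29 / 30 : ℝ) * (1 + |τ|) ^ k := by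
  obtain ⟨η, hηe⟩ : ∃ η : ℝ, η = 1 / 100 := ⟨_, rfl⟩
  rw [← hηe] at h ⊢
  have hη : 0 < η := by rw [hηe]; norm_num
  obtain ⟨B, C, hC, h⟩ := h η hη
  obtain ⟨C1, hC1, h1⟩ := pow_card_le (A := 2) (by norm_num) hη
  obtain ⟨C2, hC2, h2⟩ := sum_sqf_inv hη
  refine ⟨B, √(4 * C1 * (C * 12) * C2), by positivity, fun a ρ X Y τ ha hρ hX hY hYX hR => ?_⟩
  have hτ : ‖(τ : ℂ) * I‖ = |τ| := by simp
  have hτ1 : 1 ≤ (1 + |τ|) ^ B := one_le_pow₀ (le_add_of_nonneg_right (abs_nonneg _))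
  obtain ⟨D, hD⟩ : ∃ D : ℝ, D = C * 12 * (1 + |τ|) ^ B := ⟨_, rfl⟩
  have hD0 : 0 ≤ D := by rw [hD]; positivity
  have hX0 : 0 < X := by linarith
  have hR0 : 0 ≤ Rr ρ := zero_le_one.trans (one_le_Rr ρ)
  obtain ⟨U, hU⟩ : ∃ U : ℝ, U = X ^ ((1 + η + η) / 6) := ⟨_, rfl⟩
  have hU1 : 1 ≤ U := hU ▸ Real.one_le_rpow hX (by positivity)
  have hU0 : 0 < U := by linarith
  have hU6 : U ^ 6 = X ^ (1 + η + η) := by
    rw [hU, ← Real.rpow_natCast, ← Real.rpow_mul hX0.le]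
    congr 1; push_cast; ring
  have hXU : X ≤ U ^ 6 := hU6 ▸ Real.self_le_rpow_of_one_le hX (by linarith)
  have hRU : Rr ρ ≤ U ^ 6 :=
    hR.trans (hU6 ▸ Real.rpow_le_rpow_of_exponent_le hX (by linarith))
  obtain ⟨T, hT⟩ : ∃ T : Finset P → E → ℂ, T = fun d k => if IsCoprime (pr d) Q then
    mu d * conj (xs c6 d ρ) * S (cAK Q (a * inv Q (pr d)) ρ ∅ (k ^ 6)) (Y / Ns d) (τ * I)
    else 0 := ⟨_, rfl⟩
  have h3 : ∀ d, ∑ k ∈ ball U, ‖T d k‖ ^ 2 ≤ D * (U ^ 6) ^ η * (X * U ^ 6) * (Ns d)⁻¹ := by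
    intro d
    have hd := one_le_Ns d
    by_cases hc : IsCoprime (pr d) Q
    · have h4 : Y / Ns d ≤ X := (div_le_self hY.le hd).trans hYX
      have h0 : ∀ k ∈ ball U, ‖T d k‖ ^ 2 ≤
          ‖S (cAK Q (a * inv Q (pr d)) ρ ∅ (k ^ 6)) (Y / Ns d) (τ * I)‖ ^ 2 := fun k _ => by
        simp only [hT, hc, if_true, norm_mul, norm_mu, one_mul]
        exact pow_le_pow_left₀ (by positivity)
          (mul_le_of_le_one_left (norm_nonneg _) (dc_norm_conj d ρ)) 2
      refine (Finset.sum_le_sum h0).trans ((h E (ball U) (fun k => k ^ 6)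
        (fun _ => a * inv Q (pr d)) (fun _ => Y / Ns d) 6
        (U ^ 6) (Y / Ns d) (U ^ 6) (τ * I) ρ ∅ (by positivity) (h4.trans hXU) (hX.trans hXU) le_rfl
        (by simp) hρ hRU (Ns_empty ▸ hX.trans hXU) (fun k hk => ?_) (muB_fibre _)).trans ?_)
      · rw [mem_ball] at hk
        refine ⟨mem_ball.2 ⟨pow_ne_zero _ hk.1, ?_⟩, coprime_mul_inv ha hc, le_rfl,
          le_mul_of_one_le_left (by positivity) one_le_two⟩
        rw [nm_pow]; push_cast
        exact pow_le_pow_left₀ (by positivity) hk.2 6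
      · have h5 : (Y / Ns d) ^ (1 + η) * Rr ρ ≤ U ^ 6 := by
          rw [hU6, Real.rpow_add hX0 (1 + η)]
          exact mul_le_mul (Real.rpow_le_rpow (by positivity) h4 (by linarith)) hR hR0
            (by positivity)
        rw [hD, hτ]
        calc _ ≤ C * 6 * (U ^ 6) ^ η * (1 + |τ|) ^ B * (X / Ns d * (U ^ 6 + U ^ 6)) := by gcongr
          _ = _ := by ring
    · simp only [hT, hc, if_false, norm_zero, zero_pow two_ne_zero, Finset.sum_const_zero]
      positivity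
  have h4 : ∀ k ∈ ball U, ‖S (bA Q a ρ) Y (τ * I)‖ ^ 2 ≤
      C1 * U ^ η * ∑ d ∈ sqf U, ‖T d k‖ ^ 2 := by
    intro k hk
    rw [mem_ball] at hk
    have h5 : Ns (fac k) ≤ U := (Ns_fac_le hk.1).trans hk.2
    rw [muB_split ha ρ hk.1]
    refine (norm_sum_sq_le _ _).trans (mul_le_mul ?_ ?_ (by positivity) (by positivity))
    · rw [Finset.card_powerset]
      push_cast
      exact (h1 _).trans (mul_le_mul_of_nonneg_left
        (Real.rpow_le_rpow (Ns_pos _).le h5 hη.le) hC1.le)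
    · rw [hT]
      exact Finset.sum_le_sum_of_subset_of_nonneg (fun d hd =>
        mem_sqf.2 ((Ns_mono (Finset.mem_powerset.1 hd)).trans h5)) fun _ _ _ => by positivity
  have h5 := Finset.sum_le_sum h4
  rw [Finset.sum_const, nsmul_eq_mul, ← Finset.mul_sum, Finset.sum_comm] at h5
  have h6 : ∑ d ∈ sqf U, ∑ k ∈ ball U, ‖T d k‖ ^ 2 ≤
      D * (U ^ 6) ^ η * (X * U ^ 6) * (C2 * U ^ η) := by
    refine (Finset.sum_le_sum fun d _ => h3 d).trans ?_
    rw [← Finset.mul_sum]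
    exact mul_le_mul_of_nonneg_left (h2 U hU0.le) (by positivity)
  have h7 := ((mul_le_mul_of_nonneg_right (card_ball_ge hU1) (sq_nonneg _)).trans h5).trans
    (mul_le_mul_of_nonneg_left h6 (by positivity))
  have h8 : X * U ^ 5 * (U ^ η) ^ 8 ≤ (X ^ (29 / 30 : ℝ)) ^ 2 := by
    rw [hU, ← Real.rpow_mul hX0.le, ← Real.rpow_natCast, ← Real.rpow_natCast, ← Real.rpow_natCast,
      ← Real.rpow_mul hX0.le, ← Real.rpow_mul hX0.le, ← Real.rpow_mul hX0.le, mul_assoc,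
      ← Real.rpow_add hX0, ← Real.rpow_one_add' hX0.le (by positivity)]
    refine Real.rpow_le_rpow_of_exponent_le hX ?_
    rw [hηe]
    norm_num
  have h9 : (U ^ 6) ^ η = (U ^ η) ^ 6 := by
    rw [← Real.rpow_natCast, ← Real.rpow_natCast, ← Real.rpow_mul hU0.le, ← Real.rpow_mul hU0.le,
      mul_comm]
  refine (pow_le_pow_iff_left₀ (norm_nonneg _) (by positivity) two_ne_zero).1 ?_
  rw [mul_pow, mul_pow, Real.sq_sqrt (by positivity)]
  have h10 : ‖S (bA Q a ρ) Y (τ * I)‖ ^ 2 ≤ 4 * C1 * D * C2 * (X * U ^ 5 * (U ^ η) ^ 8) :=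
    le_of_mul_le_mul_left (h7.trans_eq (by rw [h9]; ring)) (by positivity : 0 < U / 4)
  calc _ ≤ 4 * C1 * D * C2 * (X ^ (29 / 30 : ℝ)) ^ 2 :=
        h10.trans (mul_le_mul_of_nonneg_left h8 (by positivity))
    _ = 4 * C1 * (C * 12) * C2 * (X ^ (29 / 30 : ℝ)) ^ 2 * (1 + |τ|) ^ B := by rw [hD]; ring
    _ ≤ _ := mul_le_mul_of_nonneg_left (le_self_pow₀ hτ1 two_ne_zero) (by positivity)

theorem muB_cop (c : Finset P) : IsCoprime (pr c) ((216 : ℕ) : E) ↔ Disjoint c {pTwo} := by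
  have h3 : IsCoprime (pr c) 3 := isCoprime_three.2 (not_lam_dvd_of_primary (pr_primary c))
  have e : ((216 : ℕ) : E) = 2 ^ 3 * 3 ^ 3 := by norm_num
  rw [Finset.disjoint_singleton_right, ← odd_iff, odd_iff_coprime, e, IsCoprime.mul_right_iff,
    IsCoprime.pow_right_iff (by norm_num), IsCoprime.pow_right_iff (by norm_num), isCoprime_comm]
  exact and_iff_left h3

theorem muB_cl (c : Finset P) :
    ∑ a ∈ reps ((216 : ℕ) : E) with IsCoprime a ((216 : ℕ) : E), cl 216 a c =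
      if Disjoint c {pTwo} then 1 else 0 := by
  have h0 : ((216 : ℕ) : E) ≠ 0 := by norm_num
  split_ifs with h
  · obtain ⟨r, hr, h1⟩ := exists_rep h0 (pr c)
    have h2 : IsCoprime r ((216 : ℕ) : E) := rr_cop ((muB_cop c).2 h) (dvd_sub_comm.1 h1)
    rw [Finset.sum_eq_single_of_mem r (Finset.mem_filter.2 ⟨hr, h2⟩), cl, if_pos h1]
    intro b hb hne
    refine if_neg fun h3 => hne (rep_unique h0 (Finset.mem_filter.1 hb).1 hr ?_)
    have h4 := dvd_sub h1 h3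
    rwa [sub_sub_sub_cancel_left] at h4
  · exact Finset.sum_eq_zero fun a ha => if_neg fun h1 =>
      h ((muB_cop c).1 (rr_cop (Finset.mem_filter.1 ha).2 h1))

theorem muB_xs (s : Finset P) (z : E) : conj (xs c6 s (z ^ 4)) = xs c3 s z := by
  rw [xs_pow ch_c6, map_pow, dc_four, xs, ← Finset.prod_pow]
  exact Finset.prod_congr rfl fun p _ => c6_sq p z

theorem muB_dec (z : E) (X : ℝ) (w : ℂ) : S (fun s => mu s * xs c3 s z) X w =
    ∑ d ∈ ({pTwo} : Finset P).powerset, mu d * xs c3 d z *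
      ∑ a ∈ reps ((216 : ℕ) : E) with IsCoprime a ((216 : ℕ) : E),
        S (bA 216 a (z ^ 4)) (X / Ns d) w := by
  rw [S, sum_sqf_split _ {pTwo}]
  refine Finset.sum_congr rfl fun d hd => ?_
  rw [Finset.mem_powerset] at hd
  simp only [S, bA, muB_xs]
  rw [Finset.sum_comm, Finset.mul_sum, Finset.sum_filter, mul_div_assoc]
  refine Finset.sum_congr rfl fun c _ => ?_
  rw [← Finset.sum_mul, ← Finset.sum_mul, ← Finset.sum_mul, muB_cl]
  split_ifs with hc
  · have h1 : Disjoint d c := (hc.mono_right hd).symm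
    rw [mu_union h1, xs_union h1, Ns_union h1, div_div_eq_mul_div, mul_comm (Ns c)]
    ring
  · simp

theorem muB (hb : BA) (h : ∀ η : ℝ, 0 < η → HAs 216 η) : MuB := by
  obtain ⟨k, C, hC, H⟩ := muB_class (h _ (by norm_num))
  refine ⟨k, 2 * 216 ^ 2 * C, by positivity, fun z X τ hz hX hR => ?_⟩
  have h0 : ((216 : ℕ) : E) ≠ 0 := by norm_num
  have h1 : Rr (z ^ 4) = Rr z := by rw [Rr, fac_pow hz (by norm_num), Rr]
  have hM : 0 ≤ C * X ^ (29 / 30 : ℝ) * (1 + |τ|) ^ k := by positivity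
  rw [muB_dec]
  refine (norm_sum_le_of_le _ (n := fun _ => 216 ^ 2 * (C * X ^ (29 / 30 : ℝ) * (1 + |τ|) ^ k))
    fun d _ => ?_).trans (le_of_eq ?_)
  · rw [norm_mul, norm_mul, norm_mu, one_mul]
    refine (mul_le_of_le_one_left (norm_nonneg _) (norm_xs_le ch_c3 d z)).trans ?_
    refine (norm_sum_le_of_le _ (n := fun _ => C * X ^ (29 / 30 : ℝ) * (1 + |τ|) ^ k)
      fun a ha => ?_).trans ?_
    · exact H a _ X _ τ (Finset.mem_filter.1 ha).2 (pow_ne_zero _ hz) hX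
        (div_pos (by linarith) (Ns_pos d)) (div_le_self (by linarith) (one_le_Ns d)) (h1 ▸ hR)
    · rw [Finset.sum_const, nsmul_eq_mul]
      refine mul_le_mul_of_nonneg_right ?_ hM
      have h2 := Finset.card_filter_le (reps ((216 : ℕ) : E))
        fun a => IsCoprime a ((216 : ℕ) : E)
      rw [card_reps h0, nm_natCast] at h2
      exact_mod_cast h2
  · rw [Finset.sum_const, Finset.card_powerset, Finset.card_singleton, nsmul_eq_mul]
    push_cast
    ring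

end Pat
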