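import Vale.Agent.P006.IfB
import Vale.Agent.P026.Sym
import Vale.Agent.P026.Cnt
import Vale.Agent.P026.Rsum

/-! Abel summation and the Polya-Vinogradov type bound for sharp cut-offs. -/

noncomputable section
namespace Pat
open QRH Complex MeasureTheory Filter
open scoped ComplexConjugate Classical ContDiff Topology

theorem PC_abel {ι : Type} (J : Finset ι) (N : ι → ℕ) (a : ι → ℂ) (w : ℕ → ℂ) (A B : ℕ) {S : ℝ}
    (hJ : ∀ i ∈ J, A ≤ N i ∧ N i ≤ B) (hS : ∀ k, ‖∑ i ∈ J with N i ≤ k, a i‖ ≤ S) :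
    ‖∑ i ∈ J, w (N i) * a i‖ ≤ (‖w B‖ + ∑ k ∈ Finset.Ico A B, ‖w (k + 1) - w k‖) * S := by
  have h1 : ∑ i ∈ J, w (N i) * a i = w B * ∑ i ∈ J with N i ≤ B, a i
      - ∑ k ∈ Finset.Ico A B, (w (k + 1) - w k) * ∑ i ∈ J with N i ≤ k, a i := by
    rw [Finset.filter_true_of_mem fun i hi => (hJ i hi).2]
    simp only [Finset.mul_sum, Finset.sum_filter]
    rw [Finset.sum_comm, ← Finset.sum_sub_distrib]
    refine Finset.sum_congr rfl fun i hi => ?_
    have h2 : ∑ k ∈ Finset.Ico A B, (w (k + 1) - w k) * (if N i ≤ k then a i else 0)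
        = ∑ k ∈ Finset.Ico (N i) B, (w (k + 1) - w k) * a i := by
      simp only [mul_ite, mul_zero]
      rw [← Finset.sum_filter]
      refine Finset.sum_congr ?_ fun _ _ => rfl
      ext k
      have := hJ i hi
      simp only [Finset.mem_filter, Finset.mem_Ico]
      omega
    rw [h2, ← Finset.sum_mul, Finset.sum_Ico_sub _ (hJ i hi).2]
    ring
  rw [h1, add_mul, Finset.sum_mul]
  refine (norm_sub_le _ _).trans (add_le_add ?_ ((norm_sum_le _ _).trans
    (Finset.sum_le_sum fun k _ => ?_))) <;>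
  · rw [norm_mul]
    exact mul_le_mul_of_nonneg_left (hS _) (norm_nonneg _)

theorem PC_mean (hb : BA) {z : E} (hz : z ≠ 0) (hc : ¬ IsCube z) :
    rsum (9 * pr (fac z)) (fun c => if Pm c then xv c3 c z else 0) = 0 := by
  obtain ⟨c0, h0, h1, h2⟩ := hb.char_nt z hz hc
  have hq : (9 * pr (fac z) : E) ≠ 0 := mul_ne_zero (by norm_num) (pr_ne_zero _)
  have c0ne := primary_ne_zero h0
  have hcop : IsCoprime c0 (9 * pr (fac z)) := by
    have h3 := isCoprime_three.2 (not_lam_dvd_of_primary h0)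
    refine IsCoprime.mul_right ?_ (coprime_pr_iff.2 fun p hp hd => h1 ?_)
    · rw [show (9 : E) = 3 * 3 by norm_num]
      exact h3.mul_right h3
    · exact (xv_eq_zero_iff ch_c3 c0ne).2 ⟨p, hd, (mem_fac hz).1 hp⟩
  have h3 := rsum_mul_unit hq (hb.char_per z hz) hcop
  have h4 : (fun x => if Pm (c0 * x) then xv c3 (c0 * x) z else 0)
      = fun x => xv c3 c0 z * if Pm x then xv c3 x z else 0 := by
    funext x
    by_cases hx : Pm x
    · rw [if_pos hx, if_pos (show Pm (c0 * x) from primary_mul h0 hx),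
        xv_mul_left c0ne (primary_ne_zero hx)]
    · rw [if_neg hx, if_neg fun h : Pm (c0 * x) => hx (primary_of_mul h0 h), mul_zero]
  rw [h4, rsum_mul_left] at h3
  by_contra h5
  exact h2 (mul_right_cancel₀ h5 (h3.trans (one_mul _).symm))

theorem PC_class (hb : BA) : ∃ C : ℝ, 0 < C ∧ ∀ (q r : E) (y : ℝ), q ≠ 0 → 1 ≤ y →
    |(((insert 0 (ball y)).filter fun x => q ∣ x - r).card : ℝ) - 2 * Real.pi / √3 * (y / nm q)|
      ≤ C * √y := by
  obtain ⟨C, hC, h⟩ := hb.circle
  refine ⟨2 * C, by positivity, fun q r y hq hy => ?_⟩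
  have hN := one_le_nmR hq
  have hq' := toC_ne_zero hq
  have h1 := h (toC r / toC q) (y / nm q)
    (((insert 0 (ball y)).filter fun x => q ∣ x - r).image fun x => dv (x - r) q)
    (by positivity) fun t => by
      have e : ‖toC t + toC r / toC q‖ ^ 2 = nm (r + q * t) / nm q := by
        rw [nm_eq, nm_eq, ← div_pow, ← norm_div, map_add, map_mul]
        congr 2
        field_simp
        ring
      rw [e, div_le_div_iff_of_pos_right (by linarith)]
      simp only [Finset.mem_image, Finset.mem_filter, Finset.mem_insert, mem_ball]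
      constructor
      · rintro ⟨x, ⟨h2, h3⟩, rfl⟩
        rw [mul_dv h3, add_sub_cancel]
        rcases h2 with rfl | h2
        · rw [nm_zero, Nat.cast_zero]
          linarith
        · exact h2.2
      · intro h2
        refine ⟨r + q * t, ⟨?_, by simp⟩, by rw [add_sub_cancel_left, dv_mul hq]⟩
        by_cases h3 : r + q * t = 0
        · exact Or.inl h3
        · exact Or.inr ⟨h3, h2⟩
  rw [Finset.card_image_of_injOn fun x hx x' hx' e => by
    have a := mul_dv (Finset.mem_filter.1 hx).2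
    have b := mul_dv (Finset.mem_filter.1 hx').2
    rw [e, b] at a
    exact (sub_left_inj.1 a).symm] at h1
  refine h1.trans ?_
  have h2 : √(y / nm q) ≤ √y := Real.sqrt_le_sqrt (div_le_self (by linarith) hN)
  have h3 : 1 ≤ √y := Real.one_le_sqrt.2 hy
  nlinarith

theorem PC_pv (hb : BA) : ∃ C : ℝ, 0 < C ∧ ∀ (z : E) (y : ℝ), z ≠ 0 → ¬ IsCube z → 1 ≤ y →
    ‖∑ n ∈ pball y, xv c3 n z‖ ≤ C * Rr z * √y := by
  obtain ⟨C, hC, h⟩ := PC_class hb
  refine ⟨81 * C, by positivity, fun z y hz hc hy => ?_⟩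
  obtain ⟨q, hqe⟩ : ∃ q : E, q = 9 * pr (fac z) := ⟨_, rfl⟩
  obtain ⟨f, hf⟩ : ∃ f : E → ℂ, f = fun c => if Pm c then xv c3 c z else 0 := ⟨_, rfl⟩
  have hq : q ≠ 0 := hqe ▸ mul_ne_zero (by norm_num) (pr_ne_zero _)
  have hper : Per q f := hqe ▸ hf ▸ hb.char_per z hz
  have hmean : ∑ r ∈ reps q, f r = 0 := hqe ▸ hf ▸ PC_mean hb hz hc
  have hN : (nm q : ℝ) = 81 * Rr z := by
    rw [hqe, nm_mul, show (9 : E) = ((9 : ℕ) : E) by norm_num, nm_natCast, Rr, Ns]
    norm_num
  have f1 : ∀ x, ‖f x‖ ≤ 1 := fun x => by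
    rw [hf]
    simp only
    split_ifs
    · exact norm_xv_le ch_c3 _ _
    · simp
  have h1 : ∑ n ∈ pball y, xv c3 n z = ∑ x ∈ insert 0 (ball y), f x := by
    rw [Finset.sum_insert fun h0 => (mem_ball.1 h0).1 rfl, pball, Finset.sum_filter, hf]
    simp only
    rw [if_neg fun h0 : Pm 0 => primary_ne_zero h0 rfl, zero_add]
  have h2 : ∑ x ∈ insert 0 (ball y), f x = ∑ r ∈ reps q,
      f r * (((insert 0 (ball y)).filter fun x => q ∣ x - r).card : ℝ) := by
    simp only [Finset.card_filter, Nat.cast_sum, ofReal_sum, Finset.mul_sum]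
    rw [Finset.sum_comm]
    refine Finset.sum_congr rfl fun x _ => ?_
    obtain ⟨r, hr, hx⟩ := exists_rep hq x
    rw [Finset.sum_eq_single_of_mem r hr fun r' hr' hne => ?_, if_pos hx, hper _ _ hx]
    · simp
    · rw [if_neg fun h3 => hne (rep_unique hq hr' hr ?_)]
      · simp
      · have := dvd_sub hx h3
        rwa [show x - r - (x - r') = r' - r by ring] at this
  have h3 : ∑ n ∈ pball y, xv c3 n z = ∑ r ∈ reps q,
      f r * ((((insert 0 (ball y)).filter fun x => q ∣ x - r).card : ℝ)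
        - 2 * Real.pi / √3 * (y / nm q) : ℝ) := by
    simp only [ofReal_sub, mul_sub, Finset.sum_sub_distrib]
    rw [← Finset.sum_mul, hmean, zero_mul, sub_zero, h1, h2]
  rw [h3]
  refine (norm_sum_le _ _).trans ((Finset.sum_le_card_nsmul _ _ (C * √y) fun r _ => ?_).trans ?_)
  · rw [norm_mul, norm_real, Real.norm_eq_abs]
    exact (mul_le_of_le_one_left (abs_nonneg _) (f1 r)).trans (h q r y hq hy)
  · rw [card_reps hq, nsmul_eq_mul, hN]
    exact le_of_eq (by ring)

theorem PC_Rr (z : E) : 1 ≤ Rr z := one_le_Ns _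

theorem PC_pm {R : ℝ} {n : E} (h : n ∈ pball R) : Pm n ∧ n ≠ 0 ∧ (nm n : ℝ) ≤ R :=
  ⟨(Finset.mem_filter.1 h).2, mem_ball.1 (Finset.mem_filter.1 h).1⟩

theorem PC_pVs (hb : BA) : PVs := by
  obtain ⟨C, hC, h⟩ := PC_pv hb
  refine ⟨2 * C, by positivity, fun z y hz hc hy => ?_⟩
  have hR := PC_Rr z
  have hS : 0 ≤ C * Rr z * √y := by positivity
  refine ⟨(h z y hz hc hy).trans (by linarith), ?_⟩
  have hB : 1 ≤ ⌊y⌋₊ := (Nat.one_le_floor_iff y).2 hy
  have h1 := PC_abel (pball y) nm (fun n => xv c3 n z) (fun k => (Real.log k : ℝ)) 1 ⌊y⌋₊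
    (S := C * Rr z * √y) (fun n hn => ⟨one_le_nm (PC_pm hn).2.1, Nat.le_floor (PC_pm hn).2.2⟩)
    fun k => by
      have e : (pball y).filter (fun n => nm n ≤ k) = pball (min y k) := by
        ext n
        simp only [Finset.mem_filter, hb.mem_pball, le_min_iff, Nat.cast_le, and_assoc]
      rw [e]
      rcases le_or_gt 1 (min y k) with h2 | h2
      · refine (h z _ hz hc h2).trans ?_
        gcongr
        exact min_le_left _ _
      · rw [pball, ball_eq_empty h2]
        simpa using hS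
  refine h1.trans ?_
  have h2 : ∑ k ∈ Finset.Ico 1 ⌊y⌋₊,
      ‖((Real.log ((k + 1 : ℕ) : ℝ) : ℝ) : ℂ) - ((Real.log (k : ℝ) : ℝ) : ℂ)‖
      = Real.log (⌊y⌋₊ : ℝ) := by
    rw [Finset.sum_congr rfl (g := fun k : ℕ => Real.log ((k + 1 : ℕ) : ℝ) - Real.log (k : ℝ))
      fun k hk => ?_, Finset.sum_Ico_sub (fun k : ℕ => Real.log (k : ℝ)) hB]
    · simp
    · have h3 : (0 : ℝ) < k := by exact_mod_cast (Finset.mem_Ico.1 hk).1
      rw [← ofReal_sub, norm_real, Real.norm_eq_abs, abs_of_nonneg]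
      exact sub_nonneg.2 (Real.log_le_log h3 (by push_cast; linarith))
  have h3 : Real.log (⌊y⌋₊ : ℝ) ≤ Real.log y :=
    Real.log_le_log (by exact_mod_cast hB) (Nat.floor_le (by linarith))
  rw [h2, norm_real, Real.norm_eq_abs, abs_of_nonneg (Real.log_natCast_nonneg _)]
  nlinarith

end Pat
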