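import Vale.Agent.P006.PCAux

/-! The von Mangoldt function against characters of small conductor. -/

noncomputable section
namespace Pat
open QRH Complex MeasureTheory Filter
open scoped ComplexConjugate Classical ContDiff Topology

theorem PC_mu (h : MuW) : ∃ c C : ℝ, 0 < c ∧ c ≤ 1 / 2 ∧ 0 < C ∧ ∀ (z : E) (y : ℝ), z ≠ 0 →
    1 ≤ y → Rr z ≤ y ^ c → ‖∑ s ∈ sqf y, mu s * xs c3 s z‖ ≤ C * y ^ (1 - c) := by
  obtain ⟨c, C, hc, hC, h⟩ := h
  refine ⟨min c (1 / 2), C, lt_min hc (by norm_num), min_le_right _ _, hC, fun z y hz hy hR => ?_⟩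
  refine (h z y hz hy (hR.trans (Real.rpow_le_rpow_of_exponent_le hy (min_le_left _ _)))).trans ?_
  exact mul_le_mul_of_nonneg_left
    (Real.rpow_le_rpow_of_exponent_le hy (by linarith [min_le_left c (1 / 2)])) hC.le

theorem PC_log_Ns (s : Finset P) : Real.log (Ns s) = ∑ p ∈ s, Real.log (nm p.1) := by
  rw [Ns_eq_prod, Real.log_prod fun p _ => by linarith [one_le_nmR p.ne_zero]]

theorem PC_mu_log (F : Finset P) : ∑ d ∈ F.powerset, mu d * (Real.log (Ns d) : ℝ)
    = if F.card = 1 then -((Real.log (Ns F) : ℝ) : ℂ) else 0 := by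
  rcases F.eq_empty_or_nonempty with rfl | ⟨a, ha⟩
  · simp [Ns_empty]
  obtain ⟨G, hG, rfl⟩ : ∃ G, a ∉ G ∧ F = insert a G :=
    ⟨F.erase a, Finset.notMem_erase a F, (Finset.insert_erase ha).symm⟩
  rw [Finset.sum_powerset_insert hG, ← Finset.sum_add_distrib,
    Finset.sum_congr rfl (g := fun d => -((Real.log (nm a.1) : ℝ) : ℂ) * mu d) fun d hd => ?_,
    ← Finset.mul_sum, sum_mu, Finset.card_insert_of_notMem hG]
  · by_cases h : G = ∅
    · subst h
      simp [PC_log_Ns]
    · rw [if_neg h, if_neg (by simpa using h), mul_zero]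
  · have h1 : a ∉ d := fun h => hG (Finset.mem_powerset.1 hd h)
    rw [PC_log_Ns (insert a d), Finset.sum_insert h1, ← PC_log_Ns, mu, mu,
      Finset.card_insert_of_notMem h1]
    push_cast
    ring

theorem PC_vm {n : E} (hn : Pm n) : (vm n : ℂ)
    = ∑ d ∈ (fac n).powerset, mu d * (Real.log (nm n / Ns d) : ℝ) := by
  have h0 := one_le_nmR (primary_ne_zero hn)
  rw [Finset.sum_congr rfl (g := fun d => ((Real.log (nm n) : ℝ) : ℂ) * mu d
    - mu d * (Real.log (Ns d) : ℝ)) fun d _ => ?_, Finset.sum_sub_distrib, ← Finset.mul_sum,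
    sum_mu, PC_mu_log, vm]
  · by_cases h : fac n = ∅
    · have h1 := primary_factor hn
      rw [h, Finset.prod_empty] at h1
      simp [h1, nm_one, fac_unit isUnit_one]
    · rw [if_neg h]
      split_ifs <;> simp
  · rw [Real.log_div (by linarith) (Ns_pos d).ne']
    push_cast
    ring

theorem PC_psi_eq (hb : BA) (z : E) (y : ℝ) : ∑ n ∈ pball y, (vm n : ℂ) * xv c3 n z
    = ∑ d ∈ sqf y, mu d * xs c3 d z *
        ∑ k ∈ pball (y / Ns d), (Real.log (nm k) : ℝ) * xv c3 k z := by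
  have h1 : ∀ n ∈ pball y, (vm n : ℂ) * xv c3 n z = ∑ d ∈ sqf y,
      if pr d ∣ n then mu d * (Real.log (nm n / Ns d) : ℝ) * xv c3 n z else 0 := by
    intro n hn
    obtain ⟨a1, a2, a3⟩ := PC_pm hn
    rw [PC_vm a1, Finset.sum_mul, ← Finset.sum_filter]
    refine Finset.sum_congr ?_ fun _ _ => rfl
    ext d
    simp only [Finset.mem_powerset, Finset.mem_filter, mem_sqf, pr_dvd_iff]
    constructor
    · intro h
      exact ⟨((Ns_mono h).trans (Ns_fac_le a2)).trans a3, fun p hp => (mem_fac a2).1 (h hp)⟩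
    · intro h p hp
      exact (mem_fac a2).2 (h.2 p hp)
  rw [Finset.sum_congr rfl h1, Finset.sum_comm]
  refine Finset.sum_congr rfl fun d _ => ?_
  rw [hb.sum_dvd y (pr d) _ (pr_primary d), Finset.mul_sum]
  refine Finset.sum_congr rfl fun k hk => ?_
  rw [xv_mul_left (pr_ne_zero d) (PC_pm hk).2.1, xv_pr, nm_mul, Nat.cast_mul,
    show (nm (pr d) : ℝ) = Ns d from rfl, mul_div_cancel_left₀ _ (Ns_pos d).ne']
  ring

theorem PC_psi (hb : BA) (h1 : MuW) (h2 : PVs) : ∃ c C : ℝ, 0 < c ∧ c ≤ 1 / 8 ∧ 0 < C ∧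
    ∀ (z : E) (y : ℝ), z ≠ 0 → ¬ IsCube z → 1 ≤ y → Rr z ≤ y ^ c →
      ‖∑ n ∈ pball y, (vm n : ℂ) * xv c3 n z‖ ≤ C * y ^ (1 - c) * (1 + Real.log y) ^ 2 := by
  obtain ⟨c, C1, hc, hc2, hC1, h1⟩ := PC_mu h1
  obtain ⟨C2, hC2, h2⟩ := h2
  obtain ⟨C3, hC3, h3⟩ := hb.harm
  refine ⟨c / 4, 12 * C2 + 2 * C1 * C3, by positivity, by linarith, by positivity,
    fun z y hz hcu hy hR => ?_⟩
  have y0 : 0 < y := by linarith
  have hl := Real.log_nonneg hy
  obtain ⟨D, hD⟩ : ∃ D : ℝ, D = y ^ (1 / 4 : ℝ) := ⟨_, rfl⟩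
  have D1 : 1 ≤ D := hD ▸ Real.one_le_rpow hy (by norm_num)
  have D0 : 0 < D := by linarith
  have hRD : Rr z ≤ D ^ c := by
    rw [hD, ← Real.rpow_mul y0.le]
    exact hR.trans_eq (by congr 1; ring)
  have hDc : y * D ^ (-c) = y ^ (1 - c / 4) := by
    rw [hD, ← Real.rpow_mul y0.le, sub_eq_add_neg, Real.rpow_add y0, Real.rpow_one]
    congr 2
    ring
  have hM : ∀ t, D ≤ t → ‖∑ s ∈ sqf t, mu s * xs c3 s z‖ ≤ C1 * (t * D ^ (-c)) := fun t ht => by
    refine (h1 z t hz (D1.trans ht) (hRD.trans (Real.rpow_le_rpow D0.le ht hc.le))).trans ?_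
    rw [sub_eq_add_neg, Real.rpow_add (by linarith), Real.rpow_one]
    exact mul_le_mul_of_nonneg_left (mul_le_mul_of_nonneg_left
      (Real.rpow_le_rpow_of_nonpos D0 ht (by linarith)) (by linarith)) hC1.le
  rw [PC_psi_eq hb, ← Finset.sum_filter_add_sum_filter_not _ fun d => Ns d ≤ D, add_mul, add_mul]
  refine (norm_add_le _ _).trans (add_le_add ?_ ?_)
  · refine (norm_sum_le _ _).trans ((Finset.sum_le_card_nsmul _ _
      (C2 * Rr z * √y * (1 + Real.log y)) fun d hd => ?_).trans ?_)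
    · have a1 := mem_sqf.1 (Finset.mem_filter.1 hd).1
      have a2 : 1 ≤ y / Ns d := (one_le_div (Ns_pos d)).2 a1
      have a3 : y / Ns d ≤ y := div_le_self y0.le (one_le_Ns d)
      have hR1 := PC_Rr z
      rw [norm_mul, norm_mul, norm_mu, one_mul]
      refine (mul_le_of_le_one_left (norm_nonneg _) (norm_xs_le ch_c3 _ _)).trans
        ((h2 z _ hz hcu a2).2.trans ?_)
      have := Real.log_nonneg a2
      gcongr
    · have a1 : (((sqf y).filter fun d => Ns d ≤ D).card : ℝ) ≤ 12 * D :=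
        le_trans (by
          exact_mod_cast Finset.card_le_card fun d hd => mem_sqf.2 (Finset.mem_filter.1 hd).2)
          (card_sqf_le D0.le)
      have a2 : D * y ^ (c / 4) * √y ≤ y ^ (1 - c / 4) := by
        rw [hD, Real.sqrt_eq_rpow, ← Real.rpow_add y0, ← Real.rpow_add y0]
        exact Real.rpow_le_rpow_of_exponent_le hy (by linarith)
      have hR1 := PC_Rr z
      rw [nsmul_eq_mul]
      calc _ ≤ 12 * D * (C2 * y ^ (c / 4) * √y * (1 + Real.log y)) := by gcongr
        _ = 12 * C2 * (D * y ^ (c / 4) * √y) * (1 + Real.log y) := by ring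
        _ ≤ _ := by
          gcongr
          nlinarith
  · have e : ∑ d ∈ (sqf y).filter (fun d => ¬ Ns d ≤ D), mu d * xs c3 d z *
          ∑ k ∈ pball (y / Ns d), (Real.log (nm k) : ℝ) * xv c3 k z
        = ∑ k ∈ pball (y / D), (Real.log (nm k) : ℝ) * xv c3 k z *
          ∑ d ∈ sqf (y / nm k) \ sqf D, mu d * xs c3 d z := by
      simp only [Finset.mul_sum]
      rw [Finset.sum_comm' (t' := pball (y / D)) (s' := fun k => sqf (y / nm k) \ sqf D)]
      · exact Finset.sum_congr rfl fun _ _ => Finset.sum_congr rfl fun _ _ => by ring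
      intro d k
      simp only [Finset.mem_filter, Finset.mem_sdiff, mem_sqf, hb.mem_pball]
      have d0 := Ns_pos d
      constructor
      · rintro ⟨⟨-, a2⟩, a3, a4⟩
        have k1 := one_le_nmR (primary_ne_zero a3)
        refine ⟨⟨?_, a2⟩, a3, a4.trans (div_le_div_of_nonneg_left y0.le D0 (not_le.1 a2).le)⟩
        rw [le_div_iff₀ (by linarith), mul_comm, ← le_div_iff₀ d0]
        exact a4
      · rintro ⟨⟨a1, a2⟩, a3, -⟩
        have k1 := one_le_nmR (primary_ne_zero a3)
        refine ⟨⟨a1.trans (div_le_self y0.le k1), a2⟩, a3, ?_⟩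
        rw [le_div_iff₀ d0, mul_comm, ← le_div_iff₀ (by linarith)]
        exact a1
    rw [e]
    have hsub : pball (y / D) ⊆ ball y :=
      (Finset.filter_subset _ _).trans (ball_mono (div_le_self y0.le D1))
    calc _ ≤ ∑ k ∈ pball (y / D), (1 + Real.log y) * (2 * C1 * y ^ (1 - c / 4)) * (nm k : ℝ)⁻¹ := by
          refine (norm_sum_le _ _).trans (Finset.sum_le_sum fun k hk => ?_)
          obtain ⟨-, a2, a3⟩ := PC_pm hk
          have k1 := one_le_nmR a2
          have a4 : D ≤ y / nm k := by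
            rw [le_div_iff₀ (by linarith), mul_comm, ← le_div_iff₀ D0]
            exact a3
          have a5 : Real.log (nm k) ≤ 1 + Real.log y := by
            linarith [Real.log_le_log (by linarith) (mem_ball.1 (hsub hk)).2]
          have a6 : ‖∑ d ∈ sqf (y / nm k) \ sqf D, mu d * xs c3 d z‖
              ≤ 2 * C1 * y ^ (1 - c / 4) * (nm k : ℝ)⁻¹ := by
            rw [Finset.sum_sdiff_eq_sub (sqf_mono a4)]
            refine (norm_sub_le _ _).trans ((add_le_add (hM _ a4) (hM _ le_rfl)).trans ?_)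
            have a7 : C1 * (D * D ^ (-c)) ≤ C1 * (y / nm k * D ^ (-c)) := by gcongr
            rw [← hDc]
            refine (add_le_add le_rfl a7).trans (le_of_eq ?_)
            rw [div_eq_mul_inv]
            ring
          rw [norm_mul, norm_mul, norm_real, Real.norm_eq_abs,
            abs_of_nonneg (Real.log_natCast_nonneg _), mul_assoc (1 + Real.log y)]
          exact mul_le_mul ((mul_le_of_le_one_right (Real.log_natCast_nonneg _)
            (norm_xv_le ch_c3 _ _)).trans a5) a6 (norm_nonneg _) (by linarith)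
      _ ≤ (1 + Real.log y) * (2 * C1 * y ^ (1 - c / 4)) * (C3 * (1 + Real.log y)) := by
          rw [← Finset.mul_sum]
          exact mul_le_mul_of_nonneg_left ((Finset.sum_le_sum_of_subset_of_nonneg hsub
            fun _ _ _ => by positivity).trans (h3 y hy)) (by positivity)
      _ = _ := by ring

end Pat
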