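import Vale.Agent.P006.IfB
import Vale.Agent.P026.Dvs
import Vale.Agent.P026.Sym

/-! P006, decomposition of a long prime variable: weighted norms and separation of variables. -/

noncomputable section
namespace Pat
open QRH Complex MeasureTheory Filter
open scoped ComplexConjugate Classical ContDiff Topology

/-- The weighted vector of values. -/
def pdV (F : Finset E) (ρ : E → ℝ) (f : E → ℂ) : EuclideanSpace ℂ F :=
  WithLp.toLp 2 fun ξ => ((√(ρ ξ) : ℝ) : ℂ) * f ξ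
/-- The weighted norm. -/
def pdN (F : Finset E) (ρ : E → ℝ) (f : E → ℂ) : ℝ := ‖pdV F ρ f‖

section
variable {F : Finset E} {ρ : E → ℝ}

theorem pd_apply (f : E → ℂ) (ξ : F) : pdV F ρ f ξ = ((√(ρ ξ) : ℝ) : ℂ) * f ξ := rfl

theorem pd_sq (hρ : ∀ ξ, 0 ≤ ρ ξ) (f : E → ℂ) :
    pdN F ρ f ^ 2 = ∑ ξ ∈ F, ρ ξ * ‖f ξ‖ ^ 2 := by
  rw [pdN, EuclideanSpace.norm_sq_eq, ← Finset.sum_coe_sort F]
  refine Finset.sum_congr rfl fun ξ _ => ?_
  rw [pd_apply, norm_mul, mul_pow, Complex.norm_real, Real.norm_eq_abs, sq_abs,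
    Real.sq_sqrt (hρ _)]

theorem pd_nonneg (f : E → ℂ) : 0 ≤ pdN F ρ f := norm_nonneg _

theorem pd_congr {f g : E → ℂ} (h : ∀ ξ, f ξ = g ξ) : pdN F ρ f = pdN F ρ g := by
  rw [funext h]

theorem pd_zero : pdN F ρ (fun _ => 0) = 0 := by
  have : pdV F ρ (fun _ => 0) = 0 := by
    ext ξ
    simp [pd_apply]
  rw [pdN, this, norm_zero]

theorem pd_sub (f g : E → ℂ) : pdN F ρ (fun ξ => f ξ - g ξ) ≤ pdN F ρ f + pdN F ρ g := by
  have : pdV F ρ (fun ξ => f ξ - g ξ) = pdV F ρ f - pdV F ρ g := by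
    ext ξ
    simp only [pd_apply, PiLp.sub_apply]
    ring
  rw [pdN, this]
  exact norm_sub_le _ _

theorem pd_mul (c : ℂ) (f : E → ℂ) : pdN F ρ (fun ξ => c * f ξ) = ‖c‖ * pdN F ρ f := by
  have : pdV F ρ (fun ξ => c * f ξ) = c • pdV F ρ f := by
    ext ξ
    simp only [pd_apply, PiLp.smul_apply, smul_eq_mul]
    ring
  rw [pdN, this, norm_smul, pdN]

theorem pd_sum {ι : Type*} (s : Finset ι) (f : ι → E → ℂ) :
    pdN F ρ (fun ξ => ∑ i ∈ s, f i ξ) ≤ ∑ i ∈ s, pdN F ρ (f i) := by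
  have : pdV F ρ (fun ξ => ∑ i ∈ s, f i ξ) = ∑ i ∈ s, pdV F ρ (f i) := by
    ext ξ
    simp only [pd_apply, WithLp.ofLp_sum, Finset.sum_apply, Finset.mul_sum]
  rw [pdN, this]
  exact norm_sum_le _ _

theorem pd_int (f : ℝ → E → ℂ) (hf : ∀ ξ, Integrable fun t => f t ξ) {g : ℝ → ℝ}
    (hg : Integrable g) (hb : ∀ t, pdN F ρ (f t) ≤ g t) :
    pdN F ρ (fun ξ => ∫ t, f t ξ) ≤ ∫ t, g t := by
  have : pdV F ρ (fun ξ => ∫ t, f t ξ) = ∫ t, pdV F ρ (f t) := by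
    ext ξ
    rw [eval_integral_piLp (f := fun t => pdV F ρ (f t)) fun i => (hf i).const_mul _]
    simp only [pd_apply]
    rw [integral_const_mul]
  rw [pdN, this]
  exact norm_integral_le_of_norm_le hg (Eventually.of_forall hb)

end

/-- The hypothesis on products of four pieces. -/
def pdH (F : Finset E) (ρ : E → ℝ) (y S m : ℝ) : Prop :=
  ∀ (a : Fin 4 → E → ℂ) (N : Fin 4 → ℝ), (∀ j n, ‖a j n‖ ≤ 1) → (∀ j, 1 ≤ N j) →
    ∏ j, N j ≤ 300 * Real.exp y →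
    (∀ j, N j ≤ 6 * √(Real.exp y) ∨ ∀ ξ ∈ F, ‖Dn (a j) (N j) ξ‖ ≤ S) →
    pdN F ρ (fun ξ => ∏ j, Dn (a j) (N j) ξ) ≤ m
/-- Localised coefficients. -/
def pdb (c : E → ℂ) (l : ℤ) (n : E) : ℂ := c n * (bx (Real.log (nm n) - l / 2) : ℝ)
/-- Localised and twisted coefficients. -/
def pdc (c : E → ℂ) (l : ℤ) (t : ℝ) (n : E) : ℂ :=
  pdb c l n * Complex.exp (t * Real.log (nm n) * I)
/-- Admissible coefficients. -/
def pdAdm (F : Finset E) (y S : ℝ) (W : ℝ → ℝ) (c : E → ℂ) : Prop :=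
  ∀ (l : ℤ) (t : ℝ), -1 ≤ l → Real.exp (l / 2 + 1) ≤ 36 * Real.exp y →
    ∃ (a : E → ℂ) (N : ℝ), (∀ n, ‖a n‖ ≤ 1) ∧ 1 ≤ N ∧ N ≤ Real.exp (l / 2 + 1) ∧
      (N ≤ 6 * √(Real.exp y) ∨ ∀ ξ ∈ F, ‖Dn a N ξ‖ ≤ S) ∧
      ∀ ξ, Dn (pdc c l t) (36 * Real.exp y) ξ = W t * Dn a N ξ
/-- The sum over four variables. -/
def pdT (c : Fin 4 → E → ℂ) (Φ : ℝ → ℂ) (y : ℝ) (ξ : E) : ℂ :=
  ∑ n ∈ Fintype.piFinset fun _ : Fin 4 => pball (36 * Real.exp y),
    (∏ j, c j (n j) * xv c3 (n j) ξ) * Φ (∑ j, Real.log (nm (n j)) - y)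

theorem pd_exp5 : Real.exp 5 ≤ 300 := by
  have h := Real.exp_one_lt_d9
  have h0 := Real.exp_pos 1
  have : Real.exp 5 = Real.exp 1 ^ 5 := by
    rw [← Real.exp_nat_mul]
    norm_num
  rw [this]
  calc Real.exp 1 ^ 5 ≤ 3 ^ 5 := pow_le_pow_left₀ h0.le (by linarith) 5
    _ ≤ 300 := by norm_num

theorem pd_exp72 : Real.exp (7 / 2) ≤ 36 := by
  have h := Real.exp_one_lt_d9
  have h0 := Real.exp_pos 1
  have h1 : Real.exp (7 / 2) ^ 2 = Real.exp 1 ^ 7 := by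
    rw [← Real.exp_nat_mul, ← Real.exp_nat_mul]
    norm_num
  have h2 : Real.exp 1 ^ 7 ≤ 2.72 ^ 7 := pow_le_pow_left₀ h0.le (by linarith) 7
  have h3 : Real.exp (7 / 2) ^ 2 ≤ 36 ^ 2 := by
    rw [h1]
    exact h2.trans (by norm_num)
  exact (pow_le_pow_iff_left₀ (Real.exp_pos _).le (by norm_num) two_ne_zero).1 h3

theorem pd_rep {h Φ : ℝ → ℂ} (hi : Integrable h)
    (hΦ : ∀ v : ℝ, Φ v = ∫ τ : ℝ, h τ * Complex.exp (τ * v * I)) (c : Fin 4 → E → ℂ)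
    (l : Fin 4 → ℤ) (y : ℝ) (ξ : E) :
    Integrable (fun t : ℝ => h t * Complex.exp (-(t * y * I)) *
      ∏ j, Dn (pdc (c j) (l j) t) (36 * Real.exp y) ξ) ∧
    pdT (fun j => pdb (c j) (l j)) Φ y ξ = ∫ t : ℝ, h t * Complex.exp (-(t * y * I)) *
      ∏ j, Dn (pdc (c j) (l j) t) (36 * Real.exp y) ξ := by
  have e : (fun t : ℝ => h t * Complex.exp (-(t * y * I)) *
      ∏ j, Dn (pdc (c j) (l j) t) (36 * Real.exp y) ξ) = fun t : ℝ =>
      ∑ n ∈ Fintype.piFinset fun _ : Fin 4 => pball (36 * Real.exp y),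
        (∏ j, pdb (c j) (l j) (n j) * xv c3 (n j) ξ) *
          (h t * Complex.exp (t * (∑ j, Real.log (nm (n j)) - y : ℝ) * I)) := by
    funext t
    simp only [Dn]
    rw [Finset.prod_univ_sum, Finset.mul_sum]
    refine Finset.sum_congr rfl fun n _ => ?_
    have e1 : ∏ j, pdc (c j) (l j) t (n j) * xv c3 (n j) ξ
        = (∏ j, pdb (c j) (l j) (n j) * xv c3 (n j) ξ) *
          Complex.exp (∑ j, t * Real.log (nm (n j)) * I) := by
      rw [Complex.exp_sum, ← Finset.prod_mul_distrib]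
      refine Finset.prod_congr rfl fun j _ => ?_
      rw [pdc]
      ring
    have e2 : Complex.exp (t * (∑ j, Real.log (nm (n j)) - y : ℝ) * I)
        = Complex.exp (-(t * y * I)) * Complex.exp (∑ j, t * Real.log (nm (n j)) * I) := by
      rw [← Complex.exp_add, ← Finset.sum_mul, ← Finset.mul_sum]
      push_cast
      ring_nf
    rw [e1, e2]
    ring
  have hI : ∀ v : ℝ, Integrable fun t : ℝ => h t * Complex.exp (t * v * I) := fun v => by
    refine hi.mul_bdd (c := 1) (by fun_prop) (Eventually.of_forall fun t => ?_)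
    rw [← Complex.ofReal_mul, Complex.norm_exp_ofReal_mul_I]
  rw [e]
  refine ⟨integrable_finsetSum _ fun n _ => (hI _).const_mul _, ?_⟩
  rw [integral_finsetSum _ fun n _ => (hI _).const_mul _, pdT]
  refine Finset.sum_congr rfl fun n _ => ?_
  rw [integral_const_mul, ← hΦ]

theorem pd_box (hb : BA) {F : Finset E} {ρ : E → ℝ} {y S m : ℝ} {W : ℝ → ℝ} {h Φ : ℝ → ℂ}
    (hm : 0 ≤ m) (hi : Integrable h)
    (hΦ : ∀ v : ℝ, Φ v = ∫ τ : ℝ, h τ * Complex.exp (τ * v * I)) (hs : ∀ v, Φ v ≠ 0 → v ≤ 1)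
    (hW0 : ∀ t, 0 ≤ W t) {g : ℝ → ℝ} (hg : Integrable g) (hW : ∀ t, ‖h t‖ * W t ^ 4 ≤ g t)
    (H : pdH F ρ y S m) {c : Fin 4 → E → ℂ} (hc : ∀ j, pdAdm F y S W (c j))
    {l : Fin 4 → ℤ} (hl : ∀ j, -1 ≤ l j) :
    pdN F ρ (pdT (fun j => pdb (c j) (l j)) Φ y) ≤ (∫ t, g t) * m := by
  have hl' : ∀ j, (-1 : ℝ) ≤ l j := fun j => by exact_mod_cast hl j
  by_cases hy : ∑ j, (l j : ℝ) / 2 ≤ y + 1
  · have hy' := hy
    rw [Fin.sum_univ_four] at hy'
    have hN : ∀ j, Real.exp (l j / 2 + 1) ≤ 36 * Real.exp y := fun j => by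
      have h1 : (l j : ℝ) / 2 + 1 ≤ 7 / 2 + y := by
        have h0 := hl' 0
        have h1 := hl' 1
        have h2 := hl' 2
        have h3 := hl' 3
        fin_cases j <;> simp <;> linarith
      calc Real.exp (l j / 2 + 1) ≤ Real.exp (7 / 2 + y) := Real.exp_le_exp.2 h1
        _ = Real.exp (7 / 2) * Real.exp y := Real.exp_add _ _
        _ ≤ 36 * Real.exp y := mul_le_mul_of_nonneg_right pd_exp72 (Real.exp_pos _).le
    rw [pd_congr fun ξ => (pd_rep hi hΦ c l y ξ).2, ← integral_mul_const]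
    refine pd_int _ (fun ξ => (pd_rep hi hΦ c l y ξ).1) (hg.mul_const _) fun t => ?_
    choose a N ha hN1 hN2 hN3 hD using fun j => hc j (l j) t (hl j) (hN j)
    have hP : ∏ j, N j ≤ 300 * Real.exp y := by
      calc ∏ j, N j ≤ ∏ j, Real.exp (l j / 2 + 1) :=
            Finset.prod_le_prod (fun j _ => zero_le_one.trans (hN1 j)) fun j _ => hN2 j
        _ = Real.exp (∑ j, (l j / 2 + 1)) := (Real.exp_sum _ _).symm
        _ ≤ Real.exp (5 + y) := by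
          rw [Real.exp_le_exp, Fin.sum_univ_four]
          linarith
        _ = Real.exp 5 * Real.exp y := Real.exp_add _ _
        _ ≤ 300 * Real.exp y := mul_le_mul_of_nonneg_right pd_exp5 (Real.exp_pos _).le
    have e : ∀ ξ, h t * Complex.exp (-(t * y * I)) *
        ∏ j, Dn (pdc (c j) (l j) t) (36 * Real.exp y) ξ
        = (h t * Complex.exp (-(t * y * I)) * (W t : ℂ) ^ 4) * ∏ j, Dn (a j) (N j) ξ := by
      intro ξ
      simp only [hD, Finset.prod_mul_distrib, Finset.prod_const, Finset.card_univ,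
        Fintype.card_fin]
      ring
    rw [pd_congr e, pd_mul]
    have e1 : ‖h t * Complex.exp (-(t * y * I)) * (W t : ℂ) ^ 4‖ = ‖h t‖ * W t ^ 4 := by
      have : -((t : ℂ) * y * I) = ((-(t * y) : ℝ) : ℂ) * I := by
        push_cast
        ring
      rw [norm_mul, norm_mul, this, Complex.norm_exp_ofReal_mul_I, norm_pow, Complex.norm_real,
        Real.norm_of_nonneg (hW0 t), mul_one]
    rw [e1]
    have h0 : 0 ≤ ‖h t‖ * W t ^ 4 := mul_nonneg (norm_nonneg _) (pow_nonneg (hW0 t) _)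
    exact mul_le_mul (hW t) (H a N ha hN1 hP hN3) (pd_nonneg _) (h0.trans (hW t))
  · have e : ∀ ξ, pdT (fun j => pdb (c j) (l j)) Φ y ξ = 0 := fun ξ => by
      refine Finset.sum_eq_zero fun n _ => ?_
      by_contra hne
      obtain ⟨h1, h2⟩ := mul_ne_zero_iff.1 hne
      have h3 : ∀ j, (l j : ℝ) / 2 ≤ Real.log (nm (n j)) := fun j => by
        have h4 := (mul_ne_zero_iff.1
          (mul_ne_zero_iff.1 (Finset.prod_ne_zero_iff.1 h1 j (Finset.mem_univ _))).1).2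
        have h5 := (hb.bx_supp _ (Complex.ofReal_ne_zero.1 h4)).1
        linarith
      have h4 := hs _ h2
      have h5 : ∑ j, (l j : ℝ) / 2 ≤ ∑ j, Real.log (nm (n j)) :=
        Finset.sum_le_sum fun j _ => h3 j
      exact hy (by linarith)
    rw [pd_congr e, pd_zero]
    exact mul_nonneg (integral_nonneg fun t =>
      (mul_nonneg (norm_nonneg _) (pow_nonneg (hW0 t) _)).trans (hW t)) hm

theorem pd_split (hb : BA) (c : Fin 4 → E → ℂ) (Φ : ℝ → ℂ) (y : ℝ) (ξ : E) :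
    pdT c Φ y ξ = ∑ l ∈ Fintype.piFinset fun _ : Fin 4 =>
      Finset.Icc (-1 : ℤ) ⌈2 * Real.log (36 * Real.exp y)⌉,
      pdT (fun j => pdb (c j) (l j)) Φ y ξ := by
  simp only [pdT]
  rw [Finset.sum_comm]
  refine Finset.sum_congr rfl fun n hn => ?_
  rw [← Finset.sum_mul, ← Finset.prod_univ_sum
    (fun _ : Fin 4 => Finset.Icc (-1 : ℤ) ⌈2 * Real.log (36 * Real.exp y)⌉)
    fun j l => pdb (c j) l (n j) * xv c3 (n j) ξ]
  congr 1
  refine Finset.prod_congr rfl fun j _ => ?_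
  obtain ⟨h1, h2⟩ := (hb.mem_pball _ _).1 (Fintype.mem_piFinset.1 hn j)
  have h3 : (1 : ℝ) ≤ nm (n j) := one_le_nmR (primary_ne_zero h1)
  have h4 : 0 ≤ Real.log (nm (n j)) := Real.log_nonneg h3
  have h5 : Real.log (nm (n j)) ≤ Real.log (36 * Real.exp y) :=
    Real.log_le_log (by linarith) h2
  have h6 := hb.bx_sum (Real.log (nm (n j)))
    (Finset.Icc (-1 : ℤ) ⌈2 * Real.log (36 * Real.exp y)⌉) fun i hi1 hi2 => by
      rw [Finset.mem_Icc]
      constructor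
      · have : (-2 : ℝ) < i := by linarith
        have : (-2 : ℤ) < i := by exact_mod_cast this
        omega
      · have : (i : ℝ) ≤ ⌈2 * Real.log (36 * Real.exp y)⌉ :=
          le_trans (by linarith) (Int.le_ceil _)
        exact_mod_cast this
  simp only [pdb]
  rw [← Finset.sum_mul, ← Finset.mul_sum, ← Complex.ofReal_sum, h6]
  simp

theorem pd_log {y : ℝ} (hy : 1 ≤ y) :
    y + 1 ≤ Real.log (36 * Real.exp y) ∧ Real.log (36 * Real.exp y) ≤ 36 * y := by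
  rw [Real.log_mul (by norm_num) (Real.exp_ne_zero _), Real.log_exp]
  have h1 : 1 ≤ Real.log 36 := by
    rw [Real.le_log_iff_exp_le (by norm_num)]
    linarith [Real.exp_one_lt_d9]
  have h2 : Real.log 36 ≤ 36 - 1 := Real.log_le_sub_one_of_pos (by norm_num)
  constructor <;> linarith

/-- Separation of variables. -/
theorem pd_sep (hb : BA) (k : ℕ) : ∃ C : ℝ, 0 < C ∧
    ∀ (F : Finset E) (ρ : E → ℝ) (y S m C0 D : ℝ) (Φ : ℝ → ℂ) (c : Fin 4 → E → ℂ), 1 ≤ y →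
      0 ≤ m → 0 ≤ C0 → 0 ≤ D → BD (4 * k + 2) Φ D → (∀ v, Φ v ≠ 0 → v ≤ 1) → pdH F ρ y S m →
      (∀ j, pdAdm F y S (fun t => C0 * (1 + |t|) ^ k) (c j)) →
      pdN F ρ (pdT c Φ y) ≤ C * y ^ 4 * C0 ^ 4 * D * m := by
  obtain ⟨C, hC, hfr⟩ := hb.fr (4 * k + 2)
  have hI := hb.int_pow (4 * k)
  set J := ∫ τ : ℝ, (1 + |τ|) ^ (-(((4 * k : ℕ) : ℝ) + 2)) * (1 + |τ|) ^ (4 * k) with hJ
  have hJ0 : 0 ≤ J := integral_nonneg fun τ => by positivity
  refine ⟨75 ^ 4 * C * (J + 1), by positivity, ?_⟩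
  intro F ρ y S m C0 D Φ c hy hm hC0 hD hΦ hs H hc
  obtain ⟨h, -, hh, hi, hrep⟩ := hfr Φ D hΦ
  rw [pd_congr (pd_split hb c Φ y)]
  refine (pd_sum _ _).trans ?_
  have hW : ∀ t : ℝ, ‖h t‖ * (C0 * (1 + |t|) ^ k) ^ 4 ≤
      C * D * C0 ^ 4 * ((1 + |t|) ^ (-(((4 * k : ℕ) : ℝ) + 2)) * (1 + |t|) ^ (4 * k)) := by
    intro t
    have h1 := hh t
    have e : (-((4 * k + 2 : ℕ) : ℝ)) = -(((4 * k : ℕ) : ℝ) + 2) := by
      push_cast
      ring
    rw [e] at h1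
    calc _ ≤ C * D * (1 + |t|) ^ (-(((4 * k : ℕ) : ℝ) + 2)) * (C0 * (1 + |t|) ^ k) ^ 4 :=
          mul_le_mul_of_nonneg_right h1 (by positivity)
      _ = _ := by ring
  have hb1 : ∀ l ∈ Fintype.piFinset fun _ : Fin 4 =>
      Finset.Icc (-1 : ℤ) ⌈2 * Real.log (36 * Real.exp y)⌉,
      pdN F ρ (pdT (fun j => pdb (c j) (l j)) Φ y) ≤ C * D * C0 ^ 4 * J * m := by
    intro l hl
    have := pd_box hb hm hi hrep hs (fun t => by positivity) (hI.const_mul (C * D * C0 ^ 4)) hW H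
      hc (l := l) fun j => (Finset.mem_Icc.1 (Fintype.mem_piFinset.1 hl j)).1
    rwa [integral_const_mul] at this
  refine (Finset.sum_le_card_nsmul _ _ _ hb1).trans ?_
  obtain ⟨h1, h2⟩ := pd_log hy
  have h3 : ((Finset.Icc (-1 : ℤ) ⌈2 * Real.log (36 * Real.exp y)⌉).card : ℝ) ≤ 75 * y := by
    have h4 := Int.ceil_lt_add_one (2 * Real.log (36 * Real.exp y))
    have h5 : (0 : ℤ) ≤ ⌈2 * Real.log (36 * Real.exp y)⌉ := Int.ceil_nonneg (by linarith)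
    have h6 : (((Finset.Icc (-1 : ℤ) ⌈2 * Real.log (36 * Real.exp y)⌉).card : ℤ) : ℝ)
        = ((⌈2 * Real.log (36 * Real.exp y)⌉ + 1 - (-1) : ℤ) : ℝ) := by
      rw [Int.card_Icc_of_le _ _ (by omega)]
    push_cast at h6
    linarith
  rw [Fintype.card_piFinset, Finset.prod_const, Finset.card_univ, Fintype.card_fin, nsmul_eq_mul,
    Nat.cast_pow]
  calc _ ≤ (75 * y) ^ 4 * (C * D * C0 ^ 4 * (J + 1) * m) := by
        gcongr
        linarith
    _ = _ := by ring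

end Pat
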