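import Vale.Agent.P006.PDAux1

/-! P006, decomposition of a long prime variable: admissible pieces and weights. -/

noncomputable section
namespace Pat
open QRH Complex MeasureTheory Filter
open scoped ComplexConjugate Classical ContDiff Topology

theorem pd_supp (hb : BA) {a : E → ℂ} {N N' : ℝ} (h : ∀ n, a n ≠ 0 → (nm n : ℝ) ≤ N)
    (hN : N ≤ N') (ξ : E) : Dn a N' ξ = Dn a N ξ := by
  refine (Finset.sum_subset (fun n hn => ?_) fun n hn hn' => ?_).symm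
  · rw [hb.mem_pball] at hn ⊢
    exact ⟨hn.1, hn.2.trans hN⟩
  · by_contra hne
    rw [hb.mem_pball] at hn hn'
    exact hn' ⟨hn.1, h n (left_ne_zero_of_mul hne)⟩

theorem pd_div {a : E → ℂ} {W : ℝ} (hW : 0 < W) (N : ℝ) (ξ : E) :
    Dn a N ξ = W * Dn (fun n => a n / W) N ξ := by
  have : (W : ℂ) ≠ 0 := Complex.ofReal_ne_zero.2 hW.ne'
  simp only [Dn, Finset.mul_sum]
  refine Finset.sum_congr rfl fun n _ => ?_
  field_simp

theorem pd_div_le {z : ℂ} {W B : ℝ} (hW : 0 < W) (h : ‖z‖ ≤ W * B) : ‖z / W‖ ≤ B := by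
  rw [norm_div, Complex.norm_real, Real.norm_of_nonneg hW.le, div_le_iff₀' hW]
  exact h

theorem pd_div_le' {a : E → ℂ} {W B N : ℝ} {ξ : E} (hW : 0 < W) (h : ‖Dn a N ξ‖ ≤ W * B) :
    ‖Dn (fun n => a n / W) N ξ‖ ≤ B := by
  rw [pd_div hW, norm_mul, Complex.norm_real, Real.norm_of_nonneg hW.le] at h
  exact le_of_mul_le_mul_left h hW

theorem pd_c_ne (hb : BA) {c : E → ℂ} {l : ℤ} {t : ℝ} {n : E} (h : pdc c l t n ≠ 0) :
    c n ≠ 0 ∧ Real.log (nm n) ≤ l / 2 + 1 ∧ (nm n : ℝ) ≤ Real.exp (l / 2 + 1) := by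
  obtain ⟨h1, h2⟩ := mul_ne_zero_iff.1 (left_ne_zero_of_mul h)
  have h3 := (hb.bx_supp _ (Complex.ofReal_ne_zero.1 h2)).2
  have h4 : Real.log (nm n) ≤ l / 2 + 1 := by linarith
  exact ⟨h1, h4, (Real.le_exp_log _).trans (Real.exp_le_exp.2 h4)⟩

theorem pd_c_le (hb : BA) (c : E → ℂ) (l : ℤ) (t : ℝ) (n : E) : ‖pdc c l t n‖ ≤ ‖c n‖ := by
  rw [pdc, pdb, norm_mul, norm_mul, ← Complex.ofReal_mul, Complex.norm_exp_ofReal_mul_I, mul_one,
    Complex.norm_real, Real.norm_of_nonneg (hb.bx_nonneg _)]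
  exact mul_le_of_le_one_right (norm_nonneg _) (hb.bx_le _)

theorem pd_one_le {l : ℤ} (hl : -1 ≤ l) : 1 ≤ Real.exp (l / 2 + 1) := by
  have : (-1 : ℝ) ≤ l := by exact_mod_cast hl
  exact Real.one_le_exp (by linarith)

theorem pd_short (hb : BA) {F : Finset E} {y S : ℝ} {W : ℝ → ℝ} {c : E → ℂ} (hy : 0 ≤ y)
    (hW : ∀ t, 1 ≤ W t) (h1 : ∀ n, ‖c n‖ ≤ 1)
    (h2 : ∀ n, c n ≠ 0 → (nm n : ℝ) ≤ 6 * √(Real.exp y)) : pdAdm F y S W c := by
  intro l t hl hN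
  have hW0 : 0 < W t := zero_lt_one.trans_le (hW t)
  have h3 : 1 ≤ √(Real.exp y) := Real.one_le_sqrt.2 (Real.one_le_exp hy)
  refine ⟨fun n => pdc c l t n / W t, min (Real.exp (l / 2 + 1)) (6 * √(Real.exp y)),
    fun n => pd_div_le hW0 ?_, le_min (pd_one_le hl) (by linarith), min_le_left _ _,
    Or.inl (min_le_right _ _), fun ξ => ?_⟩
  · rw [mul_one]
    exact (pd_c_le hb c l t n).trans ((h1 n).trans (hW t))
  · rw [← pd_div hW0]
    exact pd_supp hb (fun n hn => le_min (pd_c_ne hb hn).2.2 (h2 n (pd_c_ne hb hn).1))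
      ((min_le_left _ _).trans hN) ξ

theorem pd_pv (hb : BA) (h2 : PVu1) {ε : ℝ} (hε : 0 < ε) : ∃ k : ℕ, ∀ φ, Bump φ →
    ∃ C : ℝ, 0 < C ∧ ∀ (t u R : ℝ) (ξ : E), ξ ∈ ball R → ¬ IsCube ξ →
      ‖∑ n ∈ pball (Real.exp (u + 1)), xv c3 n ξ * (φ (Real.log (nm n) - u) *
        Complex.exp (t * I * (Real.log (nm n) - u : ℝ)))‖
        ≤ C * (1 + |t|) ^ k * R ^ (1 / 2 + ε) := by
  obtain ⟨k, C, hC, h2⟩ := h2
  obtain ⟨C1, hC1, hder⟩ := hb.der k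
  obtain ⟨C2, hC2, hpow⟩ := pow_card_le (A := 2) (by norm_num) hε
  refine ⟨k, fun φ hφ => ?_⟩
  obtain ⟨D, hD, hBD⟩ := hb.bump_bd φ hφ k
  refine ⟨C * C1 * D * C2, by positivity, fun t u R ξ hξ hc => ?_⟩
  obtain ⟨hξ0, hξR⟩ := mem_ball.1 hξ
  have h3 := hder φ D 1 (t * I) hBD le_rfl (by simp)
  have h4 := h2 _ _ (Real.exp u) (Real.exp (u + 1)) ∅ ξ h3 (Real.exp_pos _) (fun v hv => by
    have := (hφ.supp _ (left_ne_zero_of_mul hv)).2
    rw [← Real.exp_add, Real.exp_le_exp]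
    linarith) hξ0 hc
  have e : ∑ n ∈ pball (Real.exp (u + 1)), xv c3 n ξ * (φ (Real.log (nm n) - u) *
        Complex.exp (t * I * (Real.log (nm n) - u : ℝ)))
      = ∑ n ∈ pball (Real.exp (u + 1)), (if Disjoint (fac n) ∅ then xv c3 n ξ *
        (φ (1 * Real.log (nm n / Real.exp u)) *
          Complex.exp (t * I * (Real.log (nm n / Real.exp u) : ℝ))) else 0) := by
    refine Finset.sum_congr rfl fun n hn => ?_
    have h5 : (1 : ℝ) ≤ nm n := one_le_nmR (primary_ne_zero ((hb.mem_pball _ _).1 hn).1)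
    rw [if_pos (Finset.disjoint_empty_right _), one_mul,
      Real.log_div (by linarith) (Real.exp_ne_zero _), Real.log_exp]
  rw [e]
  refine h4.trans ?_
  have h5 : Ns (fac ξ) ≤ R := (Ns_fac_le hξ0).trans hξR
  have h6 := Ns_pos (fac ξ)
  have hR : 0 < R := h6.trans_le h5
  have h7 : (2 : ℝ) ^ (fac ξ).card ≤ C2 * R ^ ε :=
    (hpow _).trans (mul_le_mul_of_nonneg_left (Real.rpow_le_rpow h6.le h5 hε.le) hC2.le)
  have h8 : √(Ns (fac ξ)) ≤ R ^ (1 / 2 : ℝ) := by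
    rw [← Real.sqrt_eq_rpow]
    exact Real.sqrt_le_sqrt h5
  have h9 : ‖(t : ℂ) * I‖ = |t| := by simp
  rw [Finset.empty_union, h9, Real.rpow_add hR]
  calc _ ≤ C * (C1 * D * 1 ^ k * (1 + |t|) ^ k) * (C2 * R ^ ε) * R ^ (1 / 2 : ℝ) := by gcongr
    _ = _ := by ring

theorem pd_bump2 (hb : BA) : Bump fun v : ℝ => (v : ℂ) * (bx v : ℂ) :=
  ⟨Complex.ofRealCLM.contDiff.mul hb.bx_bump.smooth,
    fun v hv => hb.bx_bump.supp v (right_ne_zero_of_mul hv)⟩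

theorem pd_smooth (hb : BA) (h2 : PVu1) {ε : ℝ} (hε : 0 < ε) : ∃ (k : ℕ) (C0 : ℝ), 1 ≤ C0 ∧
    ∀ (F : Finset E) (y S R α β : ℝ), 1 ≤ y → R ^ (1 / 2 + ε) ≤ S →
      (∀ ξ ∈ F, ξ ∈ ball R ∧ ¬ IsCube ξ) → |α| ≤ 1 → |β| * Real.log (36 * Real.exp y) ≤ 1 →
      pdAdm F y S (fun t => C0 * (1 + |t|) ^ k) fun n => ((α + β * Real.log (nm n) : ℝ) : ℂ) := by
  obtain ⟨k, hk⟩ := pd_pv hb h2 hε
  obtain ⟨C1, hC1, h1⟩ := hk _ hb.bx_bump
  obtain ⟨C2, hC2, h3⟩ := hk _ (pd_bump2 hb)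
  refine ⟨k, 2 + 2 * C1 + C2, by linarith, ?_⟩
  intro F y S R α β hy hS hF hα hβ l t hl hN
  have ht : 1 ≤ (1 + |t|) ^ k := one_le_pow₀ (by linarith [abs_nonneg t])
  have hW0 : 0 < (2 + 2 * C1 + C2) * (1 + |t|) ^ k := by positivity
  obtain ⟨hL, -⟩ := pd_log hy
  have hl' : (-1 : ℝ) ≤ l := by exact_mod_cast hl
  have hlL : (l : ℝ) / 2 + 1 ≤ Real.log (36 * Real.exp y) := by
    rw [Real.le_log_iff_exp_le (by positivity)]
    exact hN
  have hβ0 := abs_nonneg β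
  have key : ∀ x : ℝ, |x| ≤ Real.log (36 * Real.exp y) → |α + β * x| ≤ 2 := fun x hx => by
    have := abs_add_le α (β * x)
    rw [abs_mul] at this
    have := mul_le_mul_of_nonneg_left hx hβ0
    linarith
  refine ⟨fun n => pdc (fun n => ((α + β * Real.log (nm n) : ℝ) : ℂ)) l t n /
      ((2 + 2 * C1 + C2) * (1 + |t|) ^ k : ℝ), Real.exp (l / 2 + 1),
    fun n => pd_div_le hW0 ?_, pd_one_le hl, le_rfl, Or.inr fun ξ hξ => pd_div_le' hW0 ?_,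
    fun ξ => ?_⟩
  · by_cases hn : pdc (fun n => ((α + β * Real.log (nm n) : ℝ) : ℂ)) l t n = 0
    · rw [hn, norm_zero]
      positivity
    · refine (pd_c_le hb _ l t n).trans ?_
      rw [Complex.norm_real, Real.norm_eq_abs]
      have h4 := key (Real.log (nm n)) (by
        rw [abs_of_nonneg (Real.log_natCast_nonneg _)]
        exact (pd_c_ne hb hn).2.1.trans hlL)
      nlinarith
  · obtain ⟨hξ1, hξ2⟩ := hF ξ hξ
    have h4 := h1 t (l / 2) R ξ hξ1 hξ2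
    have h5 := h3 t (l / 2) R ξ hξ1 hξ2
    set A1 := ∑ n ∈ pball (Real.exp (l / 2 + 1)), xv c3 n ξ *
      ((bx (Real.log (nm n) - l / 2) : ℂ) *
        Complex.exp (t * I * (Real.log (nm n) - l / 2 : ℝ))) with hA1
    set A2 := ∑ n ∈ pball (Real.exp (l / 2 + 1)), xv c3 n ξ *
      (((Real.log (nm n) - l / 2 : ℝ) : ℂ) * (bx (Real.log (nm n) - l / 2) : ℂ) *
        Complex.exp (t * I * (Real.log (nm n) - l / 2 : ℝ))) with hA2
    have e : Dn (pdc (fun n => ((α + β * Real.log (nm n) : ℝ) : ℂ)) l t) (Real.exp (l / 2 + 1)) ξ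
        = Complex.exp ((t * (l / 2) : ℝ) * I) * (((α + β * (l / 2) : ℝ) : ℂ) * A1 + β * A2) := by
      simp only [Dn, hA1, hA2, Finset.mul_sum, ← Finset.sum_add_distrib]
      refine Finset.sum_congr rfl fun n _ => ?_
      have e1 : Complex.exp (t * Real.log (nm n) * I) = Complex.exp ((t * (l / 2) : ℝ) * I) *
          Complex.exp (t * I * (Real.log (nm n) - l / 2 : ℝ)) := by
        rw [← Complex.exp_add]
        congr 1
        simp only [Complex.ofReal_mul, Complex.ofReal_sub]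
        ring
      rw [pdc, pdb, e1]
      simp only [Complex.ofReal_mul, Complex.ofReal_sub, Complex.ofReal_add]
      ring
    rw [e, norm_mul, Complex.norm_exp_ofReal_mul_I, one_mul]
    refine (norm_add_le _ _).trans ?_
    rw [norm_mul, norm_mul, Complex.norm_real, Complex.norm_real, Real.norm_eq_abs,
      Real.norm_eq_abs]
    have h6 := key (l / 2) (abs_le.2 ⟨by linarith, by linarith⟩)
    have h7 : |β| ≤ 1 := by nlinarith
    have hR : 0 ≤ R ^ (1 / 2 + ε) :=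
      Real.rpow_nonneg ((Nat.cast_nonneg _).trans (mem_ball.1 hξ1).2) _
    calc _ ≤ 2 * (C1 * (1 + |t|) ^ k * R ^ (1 / 2 + ε))
          + 1 * (C2 * (1 + |t|) ^ k * R ^ (1 / 2 + ε)) := by gcongr
      _ = (2 * C1 + C2) * (1 + |t|) ^ k * R ^ (1 / 2 + ε) := by ring
      _ ≤ (2 + 2 * C1 + C2) * (1 + |t|) ^ k * S := by
        gcongr
        linarith
  · rw [← pd_div hW0]
    exact pd_supp hb (fun n hn => (pd_c_ne hb hn).2.2) hN ξ

/-- A cut-off equal to one on `[0, 1]`. -/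
def pdB : ContDiffBump (1 / 2 : ℝ) := ⟨1 / 2, 1, by norm_num, by norm_num⟩
/-- A smooth function equal to `1 / (1 + u)` on `[0, 1]`. -/
def pdψ (u : ℝ) : ℂ := (((1 + u * pdB u)⁻¹ : ℝ) : ℂ)

theorem pd_psi_smooth : ContDiff ℝ ∞ pdψ := by
  refine Complex.ofRealCLM.contDiff.comp (ContDiff.inv
    (contDiff_const.add (contDiff_id.mul pdB.contDiff)) fun u => ?_)
  have h0 : 0 ≤ pdB u := pdB.nonneg
  have h1 : pdB u ≤ 1 := pdB.le_one
  by_cases hu : -(1 / 2) ≤ u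
  · have : 0 < 1 + u * pdB u := by nlinarith
    exact this.ne'
  · have : pdB u = 0 := pdB.zero_of_le_dist (by
      rw [Real.dist_eq, abs_of_nonpos (by linarith)]
      change (1 : ℝ) ≤ _
      linarith)
    simp [this]

theorem pd_psi_eq {u : ℝ} (h0 : 0 ≤ u) (h1 : u ≤ 1) : pdψ u = (((1 + u)⁻¹ : ℝ) : ℂ) := by
  have : pdB u = 1 := pdB.one_of_mem_closedBall (by
    rw [Metric.mem_closedBall, Real.dist_eq, abs_le]
    change -(1 / 2 : ℝ) ≤ _ ∧ _ ≤ (1 / 2 : ℝ)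
    constructor <;> linarith)
  rw [pdψ, this, mul_one]

theorem pd_psi_bd (k : ℕ) : ∃ D : ℝ, 0 < D ∧ ∀ j ≤ k, ∀ u : ℝ, -3 ≤ u → u ≤ 3 →
    ‖iteratedDeriv j pdψ u‖ ≤ D := by
  have h : ∀ j : ℕ, ∃ D : ℝ, ∀ u ∈ Set.Icc (-3 : ℝ) 3, ‖iteratedDeriv j pdψ u‖ ≤ D := fun j =>
    isCompact_Icc.exists_bound_of_continuousOn
      (pd_psi_smooth.continuous_iteratedDeriv j (by exact_mod_cast le_top)).continuousOn
  choose D hD using h
  refine ⟨1 + ∑ j ∈ Finset.range (k + 1), |D j|, by positivity, fun j hj u h1 h2 => ?_⟩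
  have h3 : |D j| ≤ ∑ j ∈ Finset.range (k + 1), |D j| :=
    Finset.single_le_sum (f := fun j => |D j|) (fun _ _ => abs_nonneg _)
      (Finset.mem_range.2 (Nat.lt_succ_of_le hj))
  linarith [hD j u ⟨h1, h2⟩, le_abs_self (D j)]

theorem pd_wt (hb : BA) (k : ℕ) : ∃ C : ℝ, 0 < C ∧ ∀ (y : ℝ) (s : ℂ), 1 ≤ y → |s.re| ≤ 3 →
    ∃ Φ : ℝ → ℂ, BD k Φ (C * (1 + ‖s‖) ^ k) ∧ (∀ v, Φ v ≠ 0 → v ≤ 1) ∧
      ∀ v : ℝ, ((v + y : ℝ) : ℂ) * Φ v = bx v * Complex.exp (s * v) := by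
  obtain ⟨D, hD, hBD⟩ := hb.bump_bd _ hb.bx_bump k
  obtain ⟨D', hD', hψ⟩ := pd_psi_bd k
  obtain ⟨C1, hC1, h1⟩ := hb.der k
  obtain ⟨C2, hC2, h2⟩ := hb.der_mul k
  refine ⟨C1 * (C2 * D * D'), by positivity, fun y s hy hs => ?_⟩
  have hy0 : 0 < y := by linarith
  have hi0 : 0 < y⁻¹ := inv_pos.2 hy0
  have hi1 : y⁻¹ ≤ 1 := inv_le_one_of_one_le₀ hy
  have h3 := h2 _ (fun v => ((y⁻¹ : ℝ) : ℂ) * pdψ (y⁻¹ * v)) D D' hBD
    (contDiff_const.mul (pd_psi_smooth.comp (contDiff_const.mul contDiff_id)))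
    fun j hj v hv1 hv2 => by
      rw [iteratedDeriv_const_mul_field,
        iteratedDeriv_comp_const_smul (pd_psi_smooth.of_le (by exact_mod_cast le_top)),
        norm_mul, norm_smul, Complex.norm_real, norm_pow, Real.norm_of_nonneg hi0.le]
      have h4 := hψ j hj (y⁻¹ * v) (by nlinarith) (by nlinarith)
      have h5 : y⁻¹ ^ j ≤ 1 := pow_le_one₀ hi0.le hi1
      calc _ ≤ 1 * (1 * D') := by gcongr
        _ = D' := by ring
  have h4 := h1 _ _ 1 s h3 le_rfl hs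
  simp only [one_mul, one_pow, mul_one] at h4
  refine ⟨_, h4, fun v hv => ?_, fun v => ?_⟩
  · exact (hb.bx_bump.supp v (left_ne_zero_of_mul (left_ne_zero_of_mul hv))).2
  · by_cases hv : bx v = 0
    · simp [hv]
    · obtain ⟨h5, h6⟩ := hb.bx_supp v hv
      rw [pd_psi_eq (by positivity) (by nlinarith)]
      have h7 : (v + y) * (y⁻¹ * (1 + y⁻¹ * v)⁻¹) = 1 := by
        field_simp
        ring
      have h8 : ((v + y : ℝ) : ℂ) * (((y⁻¹ : ℝ) : ℂ) * (((1 + y⁻¹ * v)⁻¹ : ℝ) : ℂ)) = 1 := by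
        exact_mod_cast h7
      linear_combination (bx v * Complex.exp (s * v)) * h8

end Pat
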