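import Vale.Agent.P006.IfB
import Vale.Agent.P026.Rearr
import Vale.Agent.P026.Sym

/-! Auxiliary facts for the terms with common factors. -/

noncomputable section
namespace Pat
open QRH Complex MeasureTheory Filter
open scoped ComplexConjugate Classical ContDiff Topology

theorem rN_inj {α β : Type*} (V : Finset α) (S : Finset β) (g : α → β) (u : α → ℝ) (H : β → ℝ)
    (hH : ∀ s ∈ S, 0 ≤ H s) (hu : ∀ a ∈ V, u a ≠ 0 → g a ∈ S ∧ u a ≤ H (g a))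
    (hi : ∀ a ∈ V, ∀ a' ∈ V, u a ≠ 0 → u a' ≠ 0 → g a = g a' → a = a') :
    ∑ a ∈ V, u a ≤ ∑ s ∈ S, H s := by
  rw [← Finset.sum_filter_ne_zero V]
  have hinj : ∀ a ∈ V.filter (fun a => u a ≠ 0), ∀ a' ∈ V.filter (fun a => u a ≠ 0),
      g a = g a' → a = a' := by
    intro a ha a' ha' h
    rw [Finset.mem_filter] at ha ha'
    exact hi a ha.1 a' ha'.1 ha.2 ha'.2 h
  calc ∑ a ∈ V.filter (fun a => u a ≠ 0), u a
      ≤ ∑ a ∈ V.filter (fun a => u a ≠ 0), H (g a) := by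
        refine Finset.sum_le_sum fun a ha => ?_
        rw [Finset.mem_filter] at ha
        exact (hu a ha.1 ha.2).2
    _ = ∑ s ∈ (V.filter (fun a => u a ≠ 0)).image g, H s := (Finset.sum_image hinj).symm
    _ ≤ ∑ s ∈ S, H s := by
        refine Finset.sum_le_sum_of_subset_of_nonneg ?_ fun s hs _ => hH s hs
        intro s hs
        obtain ⟨a, ha, rfl⟩ := Finset.mem_image.1 hs
        rw [Finset.mem_filter] at ha
        exact (hu a ha.1 ha.2).1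

theorem rN_three (U : Finset (Finset P)) (s : Finset P) :
    ∑ d ∈ U with d ⊆ s, (2 : ℝ) ^ d.card ≤ 3 ^ s.card := by
  have h := Finset.sum_pow_mul_eq_add_pow (2 : ℝ) 1 s
  simp only [one_pow, mul_one] at h
  have h3 : (2 : ℝ) + 1 = 3 := by norm_num
  rw [h3] at h
  rw [← h]
  refine Finset.sum_le_sum_of_subset_of_nonneg ?_ fun d _ _ => by positivity
  intro d hd
  rw [Finset.mem_filter] at hd
  exact Finset.mem_powerset.2 hd.2

theorem rN_group (U V S : Finset (Finset P)) (H : Finset P → ℝ) (hH : ∀ s, 0 ≤ H s)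
    (hS : ∀ s, s ≠ ∅ → H s ≠ 0 → s ∈ S) :
    ∑ d ∈ U, ∑ _f ∈ d.powerset, ∑ e ∈ V with d ∪ e ≠ ∅,
        (if Disjoint d e then H (d ∪ e) else 0) ≤ ∑ s ∈ S, 3 ^ s.card * H s := by
  have h1 : ∀ d : Finset P, ∑ e ∈ V with d ∪ e ≠ ∅, (if Disjoint d e then H (d ∪ e) else 0)
      ≤ ∑ s ∈ S, if d ⊆ s then H s else 0 := by
    intro d
    refine rN_inj _ S (fun e => d ∪ e) _ _ (fun s _ => ?_) ?_ ?_
    · split_ifs
      · exact hH s
      · exact le_rfl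
    · intro e he hne
      rw [Finset.mem_filter] at he
      by_cases hde : Disjoint d e
      · rw [if_pos hde] at hne ⊢
        refine ⟨hS _ he.2 hne, ?_⟩
        rw [if_pos Finset.subset_union_left]
      · rw [if_neg hde] at hne
        exact absurd rfl hne
    · intro e _ e' _ h h' hee
      have hde : Disjoint d e := by
        by_contra hc
        exact h (if_neg hc)
      have hde' : Disjoint d e' := by
        by_contra hc
        exact h' (if_neg hc)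
      have h2 : (d ∪ e) \ d = (d ∪ e') \ d := by
        have hee' : d ∪ e = d ∪ e' := hee
        rw [hee']
      rwa [Finset.union_sdiff_cancel_left hde, Finset.union_sdiff_cancel_left hde'] at h2
  calc ∑ d ∈ U, ∑ _f ∈ d.powerset, ∑ e ∈ V with d ∪ e ≠ ∅,
        (if Disjoint d e then H (d ∪ e) else 0)
      ≤ ∑ d ∈ U, ∑ s ∈ S, if d ⊆ s then (2 : ℝ) ^ d.card * H s else 0 := by
        refine Finset.sum_le_sum fun d _ => ?_
        rw [Finset.sum_const, Finset.card_powerset, nsmul_eq_mul]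
        have h2 : ∑ s ∈ S, (if d ⊆ s then (2 : ℝ) ^ d.card * H s else 0)
            = 2 ^ d.card * ∑ s ∈ S, if d ⊆ s then H s else 0 := by
          rw [Finset.mul_sum]
          refine Finset.sum_congr rfl fun s _ => ?_
          split_ifs
          · rfl
          · rw [mul_zero]
        rw [h2]
        push_cast
        exact mul_le_mul_of_nonneg_left (h1 d) (by positivity)
    _ = ∑ s ∈ S, (∑ d ∈ U with d ⊆ s, (2 : ℝ) ^ d.card) * H s := by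
        rw [Finset.sum_comm]
        refine Finset.sum_congr rfl fun s _ => ?_
        rw [Finset.sum_mul, Finset.sum_filter]
    _ ≤ ∑ s ∈ S, 3 ^ s.card * H s :=
        Finset.sum_le_sum fun s _ => mul_le_mul_of_nonneg_right (rN_three U s) (hH s)

/-- Coefficients after removing the common part `e`. -/
def rNy (y : Finset P → ℂ) (e c : Finset P) : ℂ := if Disjoint c e then y (e ∪ c) else 0

theorem rN_Ds (y : Finset P → ℂ) (e : Finset P) (hy : ∀ c, y c ≠ 0 → e ⊆ c) (L : ℝ) (ξ : E) :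
    Ds y L ξ = xs c3 e ξ * Ds (rNy y e) (L / Ns e) ξ := by
  have h := rr_sup L e fun c => y (e ∪ c) * xs c3 (e ∪ c) ξ
  have h1 : Ds y L ξ = ∑ n ∈ sqf L with e ⊆ n, y (e ∪ n \ e) * xs c3 (e ∪ n \ e) ξ := by
    rw [Ds, Finset.sum_filter]
    refine Finset.sum_congr rfl fun c _ => ?_
    by_cases hc : e ⊆ c
    · rw [if_pos hc, Finset.union_sdiff_of_subset hc]
    · rw [if_neg hc]
      have : y c = 0 := by
        by_contra h0
        exact hc (hy c h0)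
      rw [this, zero_mul]
  rw [h1, ← h, Ds, Finset.mul_sum, Finset.sum_filter]
  refine Finset.sum_congr rfl fun c _ => ?_
  rw [rNy]
  by_cases hc : Disjoint c e
  · rw [if_pos hc, if_pos hc, xs_union hc.symm]
    ring
  · rw [if_neg hc, if_neg hc, zero_mul, mul_zero]

theorem rN_Xi (hb : BA) (y : Finset P → ℂ) (e : Finset P) (hy : ∀ c, y c ≠ 0 → e ⊆ c)
    (L K T : ℝ) (hK : 0 < K) (hT : 0 < T) (Pr : E → Prop) :
    Xi y L K T Pr ≤ Xi (rNy y e) (L / Ns e) K T Pr := by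
  refine (hb.Xi_summable y L K T Pr hK hT).tsum_le_tsum (fun ξ => ?_)
    (hb.Xi_summable (rNy y e) (L / Ns e) K T Pr hK hT)
  split_ifs
  · refine mul_le_mul_of_nonneg_left ?_ (hb.GM_pos T _ hT (by positivity)).le
    rw [rN_Ds y e hy L ξ, norm_mul]
    refine pow_le_pow_left₀ (by positivity) ?_ 2
    exact mul_le_of_le_one_left (norm_nonneg _) (norm_xs_le ch_c3 e ξ)
  · exact le_rfl

theorem rN_yd_ne {x : Finset P → ℂ} {b T τ : ℝ} {d f e c : Finset P}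
    (h : yd x b T d f e τ c ≠ 0) : e ⊆ c ∧ Disjoint c d ∧ x (d ∪ c) ≠ 0 := by
  rw [yd] at h
  by_cases hc : e ⊆ c ∧ Disjoint c d
  · refine ⟨hc.1, hc.2, fun h0 => h ?_⟩
    rw [if_pos hc, h0]
    simp
  · exact absurd (if_neg hc) h

theorem rN_yd_le (hb : BA) {x : Finset P → ℂ} {b : ℝ} (hb0 : 0 < b) (hx : Sup x b (3 * b))
    (T τ : ℝ) (d f e c : Finset P) : ‖yd x b T d f e τ c‖ ^ 2 ≤ 3 * ‖x (d ∪ c)‖ ^ 2 := by
  by_cases h : yd x b T d f e τ c = 0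
  · rw [h]
    simp only [norm_zero, ne_eq, OfNat.ofNat_ne_zero, not_false_eq_true, zero_pow]
    positivity
  obtain ⟨h1, h2, h3⟩ := rN_yd_ne h
  have h4 := (hx _ h3).2
  rw [Ns_union h2.symm] at h4
  have hp : 0 < Ns c * Ns d / b := div_pos (mul_pos (Ns_pos c) (Ns_pos d)) hb0
  have h5 : Ns c * Ns d / b ≤ 3 := by
    rw [div_le_iff₀ hb0]
    linarith
  rw [yd, if_pos ⟨h1, h2⟩, norm_mul, Complex.norm_cpow_eq_rpow_re_of_pos hp, Complex.norm_conj,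
    norm_mul, norm_mul, hb.norm_gn, mul_one]
  have h6 : (1 / 2 + τ * T * I : ℂ).re = 1 / 2 := by simp
  rw [h6, mul_pow, ← Real.rpow_natCast (_ ^ (1 / 2 : ℝ)), ← Real.rpow_mul hp.le]
  have h7 : (1 / 2 : ℝ) * ((2 : ℕ) : ℝ) = 1 := by norm_num
  rw [h7, Real.rpow_one, mul_comm]
  refine mul_le_mul h5 ?_ (by positivity) (by norm_num)
  refine pow_le_pow_left₀ (by positivity) ?_ 2
  exact mul_le_of_le_one_right (norm_nonneg _) (norm_xs_le ch_c3 c _)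

theorem rN_y1_ne {x : Finset P → ℂ} {b T τ : ℝ} {d f e c : Finset P}
    (h : rNy (yd x b T d f e τ) e c ≠ 0) :
    Disjoint c e ∧ Disjoint (e ∪ c) d ∧ x (d ∪ (e ∪ c)) ≠ 0 := by
  rw [rNy] at h
  by_cases hc : Disjoint c e
  · rw [if_pos hc] at h
    exact ⟨hc, (rN_yd_ne h).2⟩
  · exact absurd (if_neg hc) h

theorem rN_sup {x : Finset P → ℂ} {b : ℝ} (hx : Sup x b (3 * b)) (T τ : ℝ) (d f e : Finset P) :
    Sup (rNy (yd x b T d f e τ) e) (3 * b / Ns d / Ns e / 3) (3 * b / Ns d / Ns e) := by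
  intro c hc
  obtain ⟨h1, h2, h3⟩ := rN_y1_ne hc
  have h4 := hx _ h3
  rw [Ns_union h2.symm, Ns_union h1.symm] at h4
  have hd := Ns_pos d
  have he := Ns_pos e
  constructor
  · rw [div_le_iff₀ (by norm_num), div_le_iff₀ he, div_le_iff₀ hd]
    nlinarith [h4.1]
  · rw [le_div_iff₀ he, le_div_iff₀ hd]
    nlinarith [h4.2]

/-- Mass of the multiples of `s`. -/
def rNm (x : Finset P → ℂ) (R : ℝ) (s : Finset P) : ℝ := ∑ n ∈ sqf R with s ⊆ n, ‖x n‖ ^ 2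

theorem rN_m_nonneg (x : Finset P → ℂ) (R : ℝ) (s : Finset P) : 0 ≤ rNm x R s :=
  Finset.sum_nonneg fun _ _ => by positivity

theorem rN_nrm (hb : BA) {x : Finset P → ℂ} {b R : ℝ} (hb0 : 0 < b) (hx : Sup x b (3 * b))
    (hR : 3 * b ≤ R) (T τ L : ℝ) (d f e : Finset P) :
    nrm2 (rNy (yd x b T d f e τ) e) L ≤ 3 * if Disjoint d e then rNm x R (d ∪ e) else 0 := by
  have hne : ∀ c, ‖rNy (yd x b T d f e τ) e c‖ ^ 2 ≠ 0 → rNy (yd x b T d f e τ) e c ≠ 0 := by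
    intro c h h0
    rw [h0] at h
    simp at h
  by_cases hde : Disjoint d e
  · rw [if_pos hde, rNm, Finset.mul_sum, nrm2]
    refine rN_inj _ _ (fun c => d ∪ (e ∪ c)) _ _ (fun s _ => by positivity) ?_ ?_
    · intro c _ h
      obtain ⟨h1, h2, h3⟩ := rN_y1_ne (hne c h)
      refine ⟨?_, ?_⟩
      · rw [Finset.mem_filter, mem_sqf]
        refine ⟨(hx _ h3).2.trans hR, ?_⟩
        rw [← Finset.union_assoc]
        exact Finset.subset_union_left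
      · rw [rNy, if_pos h1]
        exact rN_yd_le hb hb0 hx T τ d f e _
    · intro c _ c' _ h h' hcc
      obtain ⟨h1, h2, -⟩ := rN_y1_ne (hne c h)
      obtain ⟨h1', h2', -⟩ := rN_y1_ne (hne c' h')
      have h3 : ((d ∪ (e ∪ c)) \ d) \ e = ((d ∪ (e ∪ c')) \ d) \ e := by
        have hcc' : d ∪ (e ∪ c) = d ∪ (e ∪ c') := hcc
        rw [hcc']
      rwa [Finset.union_sdiff_cancel_left h2.symm, Finset.union_sdiff_cancel_left h2'.symm,
        Finset.union_sdiff_cancel_left h1.symm, Finset.union_sdiff_cancel_left h1'.symm] at h3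
  · rw [if_neg hde, mul_zero, nrm2]
    refine le_of_eq (Finset.sum_eq_zero fun c _ => ?_)
    by_contra h
    obtain ⟨-, h2, -⟩ := rN_y1_ne (hne c h)
    exact hde (Finset.disjoint_of_subset_left Finset.subset_union_left h2).symm

theorem rN_m_ne {x : Finset P → ℂ} {R w : ℝ} {s : Finset P} (hx : ∀ c, x c ≠ 0 → Rough w c)
    (h : rNm x R s ≠ 0) : s ∈ sqf R ∧ Rough w s := by
  obtain ⟨n, hn, h0⟩ := Finset.exists_ne_zero_of_sum_ne_zero h
  rw [Finset.mem_filter] at hn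
  have h1 : x n ≠ 0 := by
    intro h1
    rw [h1] at h0
    simp at h0
  exact ⟨rr_sub hn.2 hn.1, fun p hp => hx n h1 p (hn.2 hp)⟩

theorem rN_m_sum (hb : BA) (J : Finset ℤ) (x : ℤ → Finset P → ℂ) {R : ℝ} (hR : 0 ≤ R)
    (hx : ∀ c, ∑ i ∈ J, ‖x i c‖ ^ 2 ≤ 1) (s : Finset P) :
    ∑ i ∈ J, rNm (x i) R s ≤ 12 * R / Ns s := by
  simp only [rNm]
  rw [Finset.sum_comm]
  refine le_trans (Finset.sum_le_sum fun c _ => hx c) ?_
  rw [Finset.sum_const, nsmul_eq_mul, mul_one]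
  exact hb.card_sup R s hR

/-- All characters at once. -/
theorem rN_all (hb : BA) (h1 : BL1) (h2 : BL2) {ε : ℝ} (hε : 0 < ε) : ∃ C : ℝ, 0 < C ∧
    ∀ (y : Finset P → ℂ) (L K T Z : ℝ), Sup y (L / 3) L → 0 < L → L ≤ Z → 0 < K → K ≤ Z →
      1 ≤ T → T ≤ Z →
      Xi y L K T (fun _ => True) ≤ C * (T ^ (-(4 / 5) : ℝ) * (K ^ (1 / 3 : ℝ) * L) + Z ^ ε *
        (T ^ (-(4 / 5) : ℝ) * (K ^ (1 / 3 : ℝ) * L * (L ^ (1 / 3 : ℝ)) ^ (-(1 / 3) : ℝ))
          + T ^ (-(1 / 7) : ℝ) * (K * L) ^ (2 / 3 : ℝ) + T ^ (3 / 5 : ℝ) * K)) * nrm2 y L := by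
  obtain ⟨C1, hC1, H1⟩ := h1
  obtain ⟨C2, hC2, H2⟩ := h2 ε hε
  refine ⟨C1 + C2, by positivity, ?_⟩
  intro y L K T Z hy hL0 hL hK hKZ hT hTZ
  have hT0 : 0 < T := by linarith
  have hZ0 : 0 < Z := by linarith
  have hn : 0 ≤ nrm2 y L := Finset.sum_nonneg fun _ _ => by positivity
  by_cases hL1 : 1 ≤ L
  · have hZ1 : 1 ≤ L ^ (1 / 3 : ℝ) := Real.one_le_rpow hL1 (by norm_num)
    have hZ3 : (L ^ (1 / 3 : ℝ)) ^ 3 ≤ L := by
      rw [← Real.rpow_natCast, ← Real.rpow_mul hL0.le]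
      norm_num
    have h3 := hb.Xi_le y L K T (fun _ => True) (fun ξ => 1 ≤ Qc ξ ∧ Qc ξ < L ^ (1 / 3 : ℝ))
      (fun ξ => L ^ (1 / 3 : ℝ) ≤ Qc ξ) hK hT0 (fun ξ _ _ => by
        rcases lt_or_ge (Qc ξ) (L ^ (1 / 3 : ℝ)) with h | h
        · exact Or.inl ⟨one_le_mul_of_one_le_of_one_le (one_le_Ns _)
            (one_le_pow₀ (one_le_Ns _)), h⟩
        · exact Or.inr h)
    have h4 := H1 y L K T 1 _ hy hK hT le_rfl hZ3
    have h5 := H2 y L K T _ Z hL hK hKZ hT hTZ hZ1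
    rw [div_one] at h4
    set u := T ^ (-(4 / 5) : ℝ) * (K ^ (1 / 3 : ℝ) * L) with hu
    set v := Z ^ ε *
        (T ^ (-(4 / 5) : ℝ) * (K ^ (1 / 3 : ℝ) * L * (L ^ (1 / 3 : ℝ)) ^ (-(1 / 3) : ℝ))
          + T ^ (-(1 / 7) : ℝ) * (K * L) ^ (2 / 3 : ℝ) + T ^ (3 / 5 : ℝ) * K) with hv
    have hu0 : 0 ≤ u := by positivity
    have hv0 : 0 ≤ v := by positivity
    have h6 : C1 * T ^ (-(4 / 5) : ℝ) * K ^ (1 / 3 : ℝ) * L * nrm2 y L = C1 * u * nrm2 y L := by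
      rw [hu]
      ring
    have h7 : C2 * Z ^ ε *
        (T ^ (-(4 / 5) : ℝ) * K ^ (1 / 3 : ℝ) * L * (L ^ (1 / 3 : ℝ)) ^ (-(1 / 3) : ℝ)
          + T ^ (-(1 / 7) : ℝ) * (K * L) ^ (2 / 3 : ℝ) + T ^ (3 / 5 : ℝ) * K) * nrm2 y L
        = C2 * v * nrm2 y L := by
      rw [hv]
      ring
    rw [h6] at h4
    rw [h7] at h5
    have h8 : C1 * u + C2 * v ≤ (C1 + C2) * (u + v) := by
      nlinarith [mul_nonneg hC1.le hv0, mul_nonneg hC2.le hu0]
    have h9 := mul_le_mul_of_nonneg_right h8 hn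
    linarith
  · have h0 : ∀ ξ, Ds y L ξ = 0 := by
      intro ξ
      refine Finset.sum_eq_zero fun c hc => ?_
      exact absurd ((one_le_Ns c).trans (mem_sqf.1 hc)) hL1
    have h3 : Xi y L K T (fun _ => True) = 0 := by
      simp [Xi, h0]
    rw [h3]
    positivity

/-- The four numerical inequalities. -/
theorem rN_num {a b A B D F G Λ : ℝ} (ha : 0 < a) (hb : 0 < b) (hA : 0 < A) (hB : 0 < B)
    (hF : 1 ≤ F) (hD : 1 ≤ D) (hG : 1 ≤ G) (hΛ : 1 ≤ Λ) (haA : a ≤ Λ * A) (hbB : b ≤ Λ * B) :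
    a * D / (F * b) * ((9 * F * b ^ 2 / (a * D ^ 2)) ^ (1 / 3 : ℝ) * (3 * b / D / G))
        ≤ 9 * Λ ^ 2 * (A ^ (2 / 3 : ℝ) * B ^ (2 / 3 : ℝ) * (D * G) ^ (-(2 / 3) : ℝ)) ∧
      a * D / (F * b) * ((9 * F * b ^ 2 / (a * D ^ 2)) ^ (1 / 3 : ℝ) * (3 * b / D / G)
          * ((3 * b / D / G) ^ (1 / 3 : ℝ)) ^ (-(1 / 3) : ℝ))
        ≤ 9 * Λ ^ 2 * (A ^ (2 / 3 : ℝ) * B ^ (2 / 3 : ℝ) * B ^ (-(1 / 9) : ℝ)
          * (D * G) ^ (-(5 / 9) : ℝ)) ∧
      a * D / (F * b) * (9 * F * b ^ 2 / (a * D ^ 2) * (3 * b / D / G)) ^ (2 / 3 : ℝ)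
        ≤ 9 * Λ ^ 2 * (A ^ (1 / 3 : ℝ) * B * (D * G) ^ (-(2 / 3) : ℝ)) ∧
      a * D / (F * b) * (9 * F * b ^ 2 / (a * D ^ 2)) ≤ 9 * Λ ^ 2 * B := by
  have ex : ∀ t : ℝ, 0 < t → ∃ l, t = Real.exp l := fun t ht => ⟨_, (Real.exp_log ht).symm⟩
  obtain ⟨a, rfl⟩ := ex a ha
  obtain ⟨b, rfl⟩ := ex b hb
  obtain ⟨A, rfl⟩ := ex A hA
  obtain ⟨B, rfl⟩ := ex B hB
  obtain ⟨F, rfl⟩ := ex F (by linarith)
  obtain ⟨D, rfl⟩ := ex D (by linarith)
  obtain ⟨G, rfl⟩ := ex G (by linarith)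
  obtain ⟨Λ, rfl⟩ := ex Λ (by linarith)
  obtain ⟨l, hl⟩ := ex 3 (by norm_num)
  have hl0 : 0 ≤ l := by
    rw [← Real.one_le_exp_iff, ← hl]
    norm_num
  have h9 : (9 : ℝ) = Real.exp (2 * l) := by
    rw [two_mul, Real.exp_add, ← hl]
    norm_num
  rw [Real.one_le_exp_iff] at hF hD hG hΛ
  rw [← Real.exp_add, Real.exp_le_exp] at haA hbB
  have h3 : ∀ t : ℝ, 3 * Real.exp t = Real.exp (l + t) := fun t => by rw [Real.exp_add, ← hl]
  have h9' : ∀ t : ℝ, 9 * Real.exp t = Real.exp (2 * l + t) := fun t => by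
    rw [Real.exp_add, ← h9]
  have hsq : ∀ t : ℝ, Real.exp t ^ 2 = Real.exp (2 * t) := fun t => by
    rw [two_mul, Real.exp_add, sq]
  simp only [hsq, h3, h9', ← Real.exp_add, ← Real.exp_sub, ← Real.exp_mul, Real.exp_le_exp]
  refine ⟨?_, ?_, ?_, ?_⟩ <;> linarith

end Pat
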