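import Vale.Agent.P006.IfB
import Vale.Agent.P026.Sym
import Vale.Agent.P026.Cnt

/-! P006: tools for the cancellation against characters of small conductor. -/

noncomputable section
namespace Pat
open QRH Complex MeasureTheory Filter
open scoped ComplexConjugate Classical ContDiff Topology

theorem sC_pos (p : P) : (4 : ℝ) ≤ nm p.1 := by exact_mod_cast p.four_le_nm

theorem sC_Ns {p : P} {c : Finset P} (h : p ∉ c) : Ns (insert p c) = nm p.1 * Ns c := by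
  rw [Ns_eq_prod, Finset.prod_insert h, ← Ns_eq_prod]

theorem sC_key (p : P) : 2 * nm p.1 ≤ key p ∧ key p ≤ 2 * nm p.1 + 1 := by
  unfold key
  split_ifs <;> omega

theorem sC_lt {w : ℝ} (p : P) : w < nm p.1 ↔ 2 * ⌊w⌋₊ + 2 ≤ key p := by
  have h1 := sC_key p
  have h2 := p.four_le_nm
  rw [← Nat.floor_lt' (by omega)]
  omega

theorem sC_conj {y : ℝ} (hy : 0 < y) (τ : ℝ) :
    conj ((y : ℂ) ^ (τ * I)) = (y : ℂ) ^ (-(τ * I)) := by
  have e : -(τ * I) = conj (τ * I) := by simp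
  rw [e, cpow_conj _ _ (by rw [arg_ofReal_of_nonneg hy.le]; exact Real.pi_pos.ne), conj_ofReal]

theorem sC_norm {y : ℝ} (hy : 0 < y) (τ : ℝ) : ‖(y : ℂ) ^ (-(τ * I))‖ = 1 := by
  rw [Complex.norm_cpow_eq_rpow_re_of_pos hy]
  simp

theorem sC_split {x y : ℝ} (hx : 0 < x) (hy : 0 < y) (τ : ℝ) :
    conj (((y * x : ℝ) : ℂ) ^ (τ * I)) = (y : ℂ) ^ (-(τ * I)) * (x : ℂ) ^ (-(τ * I)) := by
  rw [sC_conj (mul_pos hy hx), ofReal_mul, mul_cpow_ofReal_nonneg hy.le hx.le]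

theorem sC_shift (s : ℂ) (τ : ℝ) :
    (s + -(τ * I)).re = s.re ∧ 1 + ‖s + -(τ * I)‖ ≤ (1 + |τ|) * (1 + ‖s‖) := by
  refine ⟨by simp, ?_⟩
  have h1 := norm_add_le s (-(τ * I))
  rw [norm_neg, norm_mul, Complex.norm_I, mul_one, Complex.norm_real, Real.norm_eq_abs] at h1
  linarith [mul_nonneg (abs_nonneg τ) (norm_nonneg s)]

/-- Removing one prime. -/
theorem sC_idx (hb : BA) {M : Type} [AddCommMonoid M] (L : ℝ) (F : P → Finset P → M) :
    ∑ c ∈ sqf L, ∑ p ∈ c, F p (c.erase p)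
      = ∑ c ∈ sqf L, ∑ p ∈ prs L with p ∉ c ∧ nm p.1 * Ns c ≤ L, F p c := by
  rw [Finset.sum_sigma', Finset.sum_sigma']
  refine Finset.sum_nbij' (fun x => ⟨x.1.erase x.2, x.2⟩) (fun x => ⟨insert x.2 x.1, x.2⟩)
    ?_ ?_ ?_ ?_ fun _ _ => rfl
  · rintro ⟨c, p⟩ hx
    obtain ⟨h1, h2⟩ := Finset.mem_sigma.1 hx
    have h3 : nm p.1 * Ns (c.erase p) ≤ L := by
      rw [← sC_Ns (Finset.notMem_erase p c), Finset.insert_erase h2]
      exact mem_sqf.1 h1
    have h4 := one_le_Ns (c.erase p)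
    have h5 := sC_pos p
    refine Finset.mem_sigma.2 ⟨mem_sqf.2 ?_, Finset.mem_filter.2
      ⟨(hb.mem_prs _ _).2 ?_, Finset.notMem_erase p c, h3⟩⟩
    · exact (le_mul_of_one_le_left (by linarith) (by linarith)).trans h3
    · exact (le_mul_of_one_le_right (by linarith) h4).trans h3
  · rintro ⟨c, p⟩ hx
    obtain ⟨-, h3, h4⟩ := Finset.mem_filter.1 (Finset.mem_sigma.1 hx).2
    exact Finset.mem_sigma.2 ⟨mem_sqf.2 ((sC_Ns h3).trans_le h4), Finset.mem_insert_self _ _⟩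
  · rintro ⟨c, p⟩ hx
    have h2 : p ∈ c := (Finset.mem_sigma.1 hx).2
    simp only [Finset.insert_erase h2]
  · rintro ⟨c, p⟩ hx
    have h3 : p ∉ c := (Finset.mem_filter.1 (Finset.mem_sigma.1 hx).2).2.1
    simp only [Finset.erase_insert h3]

theorem sC_card {R : ℝ} (hR : 0 ≤ R) (T : Finset P) (h : ∀ p ∈ T, (nm p.1 : ℝ) ≤ R) :
    (T.card : ℝ) ≤ 12 * R := by
  refine le_trans ?_ (card_ball_le hR)
  exact_mod_cast Finset.card_le_card_of_injOn (fun p : P => p.1)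
    (fun p hp => mem_ball.2 ⟨p.ne_zero, h p hp⟩) Subtype.val_injective.injOn

theorem sC_pow {w y c : ℝ} (hw : 1 ≤ w) (h1 : 4 < 3 * y) (h2 : w < 3 * y) (hc : 0 ≤ c) :
    w ^ c ≤ y ^ (5 * c) := by
  have h3 : (4 / 3 : ℝ) ^ 4 ≤ y ^ 4 := pow_le_pow_left₀ (by norm_num) (by linarith) 4
  have h4 : w ≤ y ^ 5 := by
    have h5 := mul_le_mul_of_nonneg_right h3 (by linarith : 0 ≤ y)
    rw [pow_succ y 4]
    linarith
  rw [Real.rpow_mul (by linarith), Real.rpow_ofNat]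
  exact Real.rpow_le_rpow (by linarith) h4 hc

theorem sC_one {w y c : ℝ} (hw : 1 ≤ w) (h1 : 4 < 3 * y) (h2 : w < 3 * y) (hc : 0 ≤ c)
    (hc' : c ≤ 1 / 5) : 1 ≤ y * w ^ (-c) := by
  have h3 : y ^ (5 * c) ≤ y ^ (1 : ℝ) :=
    Real.rpow_le_rpow_of_exponent_le (by linarith) (by linarith)
  rw [Real.rpow_neg (by linarith), ← div_eq_mul_inv, le_div_iff₀ (by positivity), one_mul]
  rw [Real.rpow_one] at h3
  exact (sC_pow hw h1 h2 hc).trans h3

theorem sC_deriv {φ : ℝ → ℂ} {D y t : ℝ} {s : ℂ} (hφ : Differentiable ℝ φ) (h1 : ∀ v, ‖φ v‖ ≤ D)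
    (h2 : ∀ v, ‖deriv φ v‖ ≤ D) (hs : |s.re| ≤ 1) (hy : 0 < y) (ht : y ≤ t) (ht' : t ≤ 3 * y) :
    HasDerivAt (fun t : ℝ => φ (Real.log (t / y)) * Complex.exp ((Real.log (t / y) : ℝ) * s))
      ((t⁻¹ : ℝ) • ((deriv φ (Real.log (t / y)) + φ (Real.log (t / y)) * s) *
        Complex.exp ((Real.log (t / y) : ℝ) * s))) t ∧
    ‖φ (Real.log (t / y)) * Complex.exp ((Real.log (t / y) : ℝ) * s)‖ ≤ 3 * D * (1 + ‖s‖) ∧
    ‖(t⁻¹ : ℝ) • ((deriv φ (Real.log (t / y)) + φ (Real.log (t / y)) * s) *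
        Complex.exp ((Real.log (t / y) : ℝ) * s))‖ ≤ 3 * D * (1 + ‖s‖) / y := by
  have ht0 : 0 < t := hy.trans_le ht
  have hD : 0 ≤ D := (norm_nonneg _).trans (h1 0)
  have hq : 1 ≤ t / y := (one_le_div hy).2 ht
  have hE : ‖Complex.exp ((Real.log (t / y) : ℝ) * s)‖ ≤ 3 := by
    rw [Complex.norm_exp, Complex.re_ofReal_mul]
    have h3 := mul_le_of_le_one_right (Real.log_nonneg hq) (abs_le.1 hs).2
    refine (Real.exp_le_exp.2 h3).trans ?_
    rw [Real.exp_log (by linarith), div_le_iff₀ hy]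
    exact ht'
  refine ⟨?_, ?_, ?_⟩
  · have d1 : HasDerivAt (fun t : ℝ => Real.log (t / y)) t⁻¹ t := by
      have h3 := ((hasDerivAt_id t).div_const y).log (by simpa using ⟨ht0.ne', hy.ne'⟩)
      have e : 1 / y / (id t / y) = t⁻¹ := by
        simp only [id]
        field_simp
      rw [e] at h3
      exact h3
    have d2 : ∀ v : ℝ, HasDerivAt (fun v : ℝ => φ v * Complex.exp (v * s))
        ((deriv φ v + φ v * s) * Complex.exp (v * s)) v := fun v => by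
      have h3 := (hφ v).hasDerivAt.mul ((hasDerivAt_id v).ofReal_comp.mul_const s).cexp
      have e : deriv φ v * Complex.exp ((id v : ℝ) * s) +
          φ v * (Complex.exp ((id v : ℝ) * s) * (((1 : ℝ) : ℂ) * s)) =
          (deriv φ v + φ v * s) * Complex.exp (v * s) := by
        simp only [id, ofReal_one]
        ring
      rw [e] at h3
      exact h3
    exact (d2 _).scomp t d1
  · rw [norm_mul]
    have h3 := mul_le_mul (h1 (Real.log (t / y))) hE (norm_nonneg _) hD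
    linarith [mul_nonneg hD (norm_nonneg s)]
  · have h3 : ‖deriv φ (Real.log (t / y)) + φ (Real.log (t / y)) * s‖ ≤ D + D * ‖s‖ := by
      refine (norm_add_le _ _).trans (add_le_add (h2 _) ?_)
      rw [norm_mul]
      exact mul_le_mul_of_nonneg_right (h1 _) (norm_nonneg s)
    have h4 := mul_le_mul h3 hE (norm_nonneg _) (by positivity)
    rw [norm_smul, norm_mul, Real.norm_of_nonneg (by positivity),
      div_eq_inv_mul (3 * D * (1 + ‖s‖))]
    exact mul_le_mul (inv_anti₀ hy ht) (h4.trans (le_of_eq (by ring))) (by positivity)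
      (by positivity)

/-- The primes in a box. -/
def sCS (y y' : ℝ) (m : ℕ) : Finset P :=
  (prs (3 * y)).filter fun p => y ≤ nm p.1 ∧ (nm p.1 : ℝ) < y' ∧ m ≤ key p

theorem sC_core (h : PCw) : ∃ c C : ℝ, 0 < c ∧ c ≤ 1 / 5 ∧ 0 < C ∧
    ∀ (φ : ℝ → ℂ) (D w y y' : ℝ) (m : ℕ) (z : E) (s : ℂ), Differentiable ℝ φ → (∀ v, ‖φ v‖ ≤ D) →
      (∀ v, ‖deriv φ v‖ ≤ D) → 1 ≤ w → 0 < y → y' ≤ 3 * y → 2 * ⌊w⌋₊ + 2 ≤ m → z ≠ 0 →
      ¬ IsCube z → (nm z : ℝ) ≤ w ^ c → |s.re| ≤ 1 →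
      ‖∑ p ∈ sCS y y' m, φ (Real.log (nm p.1 / y)) * ((nm p.1 / y : ℝ) : ℂ) ^ s * c3 p z‖
        ≤ C * D * (1 + ‖s‖) * (y * w ^ (-c)) := by
  obtain ⟨c, C, hc, hc', hC, h⟩ := h
  refine ⟨c / 5, 3 * C, by positivity, by linarith, by positivity,
    fun φ D w y y' m z s hφ h1 h2 hw hy hy' hm hz hq hn hs => ?_⟩
  have hD : 0 ≤ D := (norm_nonneg _).trans (h1 0)
  rcases (sCS y y' m).eq_empty_or_nonempty with e | ⟨p, hp⟩
  · rw [e, Finset.sum_empty, norm_zero]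
    positivity
  obtain ⟨-, -, h3, h4⟩ := Finset.mem_filter.1 hp
  have h5 := (sC_lt p).2 (hm.trans h4)
  have h6 := sC_pos p
  have h7 := sC_pow (c := c / 5) hw (by linarith : 4 < 3 * y) (by linarith) (by positivity)
  rw [mul_div_cancel₀ c (by norm_num)] at h7
  have key := h z y y' (3 * D * (1 + ‖s‖)) m _ _ hz hq (by linarith) hy' (hn.trans h7)
    fun t ht ht' => sC_deriv hφ h1 h2 hs hy ht ht'
  have e : ∀ p : P, ((nm p.1 / y : ℝ) : ℂ) ^ s
      = Complex.exp ((Real.log (nm p.1 / y) : ℝ) * s) := fun p => by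
    have h8 : 0 < nm p.1 / y := div_pos (by linarith [sC_pos p]) hy
    rw [Complex.cpow_def_of_ne_zero (Complex.ofReal_ne_zero.2 h8.ne'), Complex.ofReal_log h8.le]
  have h9 : y ^ (1 - c) ≤ y * w ^ (-(c / 5)) := by
    rw [Real.rpow_sub hy, Real.rpow_one, Real.rpow_neg (by linarith), div_eq_mul_inv]
    exact mul_le_mul_of_nonneg_left (inv_anti₀ (by positivity) h7) hy.le
  simp only [e]
  refine key.trans ((mul_le_mul_of_nonneg_left h9 (by positivity)).trans (le_of_eq (by ring)))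

end Pat
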