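import Vale.Agent.P006.IfC

/-! Numerical inequalities for the dispersion of one piece (P006). -/

noncomputable section
namespace Pat
open QRH Complex MeasureTheory Filter
open scoped ComplexConjugate Classical ContDiff Topology

theorem SmD_ev (H : ℝ) (k : ℕ) {c : ℝ} (hc : 0 < c) : ∃ X0 : ℝ, ∀ X, X0 ≤ X →
    1 < X ∧ 9 ≤ Real.log X ∧ H ≤ c * Real.log X ∧ Real.log X ^ k ≤ X ^ c := by
  have h1 := (isLittleO_log_rpow_rpow_atTop (k : ℝ) hc).bound one_pos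
  have h2 := Real.tendsto_log_atTop.eventually_ge_atTop 9
  have h3 := (Real.tendsto_log_atTop.const_mul_atTop hc).eventually_ge_atTop H
  obtain ⟨X0, h⟩ := eventually_atTop.1 ((eventually_gt_atTop 1).and (h2.and (h3.and h1)))
  refine ⟨X0, fun X hX => ?_⟩
  obtain ⟨a1, a2, a3, a4⟩ := h X hX
  refine ⟨a1, a2, a3, ?_⟩
  rw [Real.rpow_natCast, one_mul, Real.norm_of_nonneg (by positivity),
    Real.norm_of_nonneg (by positivity)] at a4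
  exact a4

/-- The sizes of the parameters. -/
structure SmDP (X B A' Bi W c : ℝ) : Prop where
  hX : 1 < X
  hc : 0 < c
  hc1 : c ≤ 1 / 10000
  hW : 30 ≤ W
  hH : Real.log W ≤ c * Real.log X
  b1 : X ^ (1 / 4 : ℝ) ≤ B
  b2 : B ≤ W * √X
  a1 : X / B / W ≤ A'
  a2 : A' ≤ W * (X / B)
  i1 : B / W ≤ Bi
  i2 : Bi ≤ W * B

theorem SmDP.pos {X B A' Bi W c : ℝ} (h : SmDP X B A' Bi W c) :
    0 < X ∧ 0 < W ∧ 0 < B ∧ 0 < A' ∧ 0 < Bi := by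
  have hX : 0 < X := by linarith [h.hX]
  have hW : 0 < W := by linarith [h.hW]
  have hB : 0 < B := lt_of_lt_of_le (by positivity) h.b1
  exact ⟨hX, hW, hB, lt_of_lt_of_le (by positivity) h.a1, lt_of_lt_of_le (by positivity) h.i1⟩

theorem SmDP.logs {X B A' Bi W c : ℝ} (h : SmDP X B A' Bi W c) :
    0 < Real.log X ∧ c * Real.log X ≤ Real.log X / 10000 ∧ 0 ≤ Real.log 3 ∧
    Real.log 3 ≤ Real.log 9 ∧ Real.log 9 ≤ Real.log W ∧ Real.log W ≤ c * Real.log X ∧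
    Real.log X / 4 ≤ Real.log B ∧ Real.log B ≤ Real.log W + Real.log X / 2 ∧
    Real.log X - Real.log B - Real.log W ≤ Real.log A' ∧
    Real.log A' ≤ Real.log W + (Real.log X - Real.log B) ∧
    Real.log B - Real.log W ≤ Real.log Bi ∧ Real.log Bi ≤ Real.log W + Real.log B := by
  obtain ⟨hX, hW, hB, hA, hBi⟩ := h.pos
  have hx := Real.log_pos h.hX
  have b1 := Real.log_le_log (by positivity) h.b1
  have b2 := Real.log_le_log (by positivity) h.b2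
  have a1 := Real.log_le_log (by positivity) h.a1
  have a2 := Real.log_le_log (by positivity) h.a2
  have i1 := Real.log_le_log (by positivity) h.i1
  have i2 := Real.log_le_log (by positivity) h.i2
  simp (disch := positivity) only [Real.log_mul, Real.log_rpow, Real.log_div, Real.log_sqrt]
    at b1 b2 a1 a2 i1 i2
  refine ⟨hx, by nlinarith [h.hc1], Real.log_nonneg (by norm_num),
    Real.log_le_log (by norm_num) (by norm_num), Real.log_le_log (by norm_num) (by linarith [h.hW]),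
    h.hH, by linarith, b2, a1, a2, i1, i2⟩

theorem SmDP.num {X B A' Bi W c : ℝ} (h : SmDP X B A' Bi W c) :
    1 ≤ B ∧ 1 ≤ Bi ∧ 1 ≤ A' ∧ 1 ≤ X / B ∧ B ≤ X ∧ 3 * Bi ≤ X ∧ 9 * Bi ^ 2 / A' ≤ X ∧
    (B ^ (1 / 10 : ℝ)) ^ 3 ≤ 3 * Bi ∧ MM A' Bi ≤ W ^ 3 * MM (X / B) B ∧
    A' ^ (5 / 6 : ℝ) * Bi ^ (-(2 / 3) : ℝ) ≤ W ^ 2 * ((X / B) ^ (5 / 6 : ℝ) * B ^ (-(2 / 3) : ℝ)) ∧
    A' ^ (1 / 3 : ℝ) * Bi ^ (5 / 3 : ℝ) ≤ MM (X / B) B * X ^ (-c) ∧
    A' ^ (-(1 / 6) : ℝ) * Bi ^ (7 / 3 + 1 / 100 : ℝ) ≤ MM (X / B) B * X ^ (-c) ∧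
    X ^ c * (MM (X / B) B * B ^ (-(1 / 30) : ℝ)) ≤ MM (X / B) B * X ^ (-c) ∧
    X ^ c * B ^ 2 ≤ MM (X / B) B * X ^ (-c) := by
  obtain ⟨hX, hW, hB, hA, hBi⟩ := h.pos
  obtain ⟨l1, l2, l3, l4, l5, l6, l7, l8, l9, l10, l11, l12⟩ := h.logs
  unfold MM
  refine ⟨?_, ?_, ?_, ?_, ?_, ?_, ?_, ?_, ?_, ?_, ?_, ?_, ?_, ?_⟩ <;>
  · refine (Real.log_le_log_iff (by positivity) (by positivity)).1 ?_
    try simp (disch := positivity) only [Real.log_mul, Real.log_rpow, Real.log_div, Real.log_pow,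
      Real.log_one, Nat.cast_ofNat]
    linarith

theorem SmDP.num1 {X B A' Bi W c δc : ℝ} (h : SmDP X B A' Bi W c) (hc : 100 * c ≤ δc)
    (hB1 : B ≤ X ^ (1 / 2 - δc)) :
    X ^ c * ((X / B) ^ (1 / 3 : ℝ) * B ^ 2) ≤ MM (X / B) B * X ^ (-c) ∧
    A' * X ^ c * ((9 * Bi ^ 2 / A') ^ (1 / 3 : ℝ) * (3 * Bi) * (B ^ (1 / 10 : ℝ)) ^ (-(1 / 3) : ℝ))
      ≤ MM (X / B) B * X ^ (-c) ∧
    A' * X ^ c * (9 * Bi ^ 2 / A' * (3 * Bi)) ^ (2 / 3 : ℝ) ≤ MM (X / B) B * X ^ (-c) ∧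
    A' * X ^ c * (9 * Bi ^ 2 / A') ≤ MM (X / B) B * X ^ (-c) := by
  obtain ⟨hX, hW, hB, hA, hBi⟩ := h.pos
  obtain ⟨l1, l2, l3, l4, l5, l6, l7, l8, l9, l10, l11, l12⟩ := h.logs
  have m1 := Real.log_le_log hB hB1
  rw [Real.log_rpow hX] at m1
  have m2 := mul_le_mul_of_nonneg_right hc l1.le
  unfold MM
  refine ⟨?_, ?_, ?_, ?_⟩ <;>
  · refine (Real.log_le_log_iff (by positivity) (by positivity)).1 ?_
    simp (disch := positivity) only [Real.log_mul, Real.log_rpow, Real.log_div, Real.log_pow,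
      Nat.cast_ofNat]
    linarith

theorem SmDP.num2 {X B A' Bi W c η w : ℝ} (h : SmDP X B A' Bi W c) (hc : 100 * c ≤ η)
    (hw : X ^ η ≤ w) :
    X ^ c * ((X / B) ^ (1 / 3 : ℝ) * B ^ 2 * w ^ (-(1 / 2) : ℝ)) ≤ MM (X / B) B * X ^ (-c) := by
  obtain ⟨hX, hW, hB, hA, hBi⟩ := h.pos
  obtain ⟨l1, l2, l3, l4, l5, l6, l7, l8, l9, l10, l11, l12⟩ := h.logs
  have hw0 : 0 < w := lt_of_lt_of_le (by positivity) hw
  have m1 := Real.log_le_log (by positivity) hw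
  rw [Real.log_rpow hX] at m1
  have m2 := mul_le_mul_of_nonneg_right hc l1.le
  unfold MM
  refine (Real.log_le_log_iff (by positivity) (by positivity)).1 ?_
  simp (disch := positivity) only [Real.log_mul, Real.log_rpow, Real.log_div, Real.log_pow,
    Nat.cast_ofNat]
  linarith

theorem SmDP.num3 {X B A' Bi W c δc δ1 δ2 : ℝ} (h : SmDP X B A' Bi W c) (hc : 100 * c ≤ δc)
    (h1 : 20 * δc ≤ δ1) (h1' : δ1 ≤ 1 / 100) (h2 : 4 * δc ≤ δ2) (hB1 : X ^ (1 / 2 - δc) ≤ B) :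
    1 ≤ B ^ (1 + δ1) ∧ B ^ (1 + δ1) ≤ X ∧
    A' / Bi * B ^ (7 / 3 - δ2) ≤ MM (X / B) B * X ^ (-c) ∧
    A' * X ^ c * (9 * Bi ^ 2 / A' / B ^ (1 + δ1)) ^ 2 * ((B ^ (1 + δ1)) ^ (1 / 3 : ℝ) * (3 * Bi))
      ≤ MM (X / B) B * X ^ (-c) ∧
    A' * X ^ c * (9 * Bi ^ 2 / A' / B ^ (1 + δ1)) ^ 2 * B ^ (1 + δ1) ≤ MM (X / B) B * X ^ (-c) ∧
    A' * X ^ c * (9 * Bi ^ 2 / A' / B ^ (1 + δ1)) ^ 2 * (B ^ (1 + δ1) * (3 * Bi)) ^ (2 / 3 : ℝ)
      ≤ MM (X / B) B * X ^ (-c) := by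
  obtain ⟨hX, hW, hB, hA, hBi⟩ := h.pos
  obtain ⟨l1, l2, l3, l4, l5, l6, l7, l8, l9, l10, l11, l12⟩ := h.logs
  have hc0 := h.hc
  have m1 := Real.log_le_log (by positivity) hB1
  rw [Real.log_rpow hX] at m1
  have m2 := mul_le_mul_of_nonneg_right hc l1.le
  have m3 := mul_le_mul_of_nonneg_right h1 l1.le
  have m4 := mul_le_mul_of_nonneg_right h2 l1.le
  have m5 := mul_le_mul_of_nonneg_left l7 (show 0 ≤ δ1 by linarith)
  have m6 := mul_le_mul_of_nonneg_left l7 (show 0 ≤ δ2 by linarith)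
  have m7 := mul_le_mul_of_nonneg_right h1' (show 0 ≤ Real.log B by linarith)
  have m8 := mul_le_mul_of_nonneg_right h1' l1.le
  have m9 := mul_nonneg hc0.le l1.le
  unfold MM
  refine ⟨?_, ?_, ?_, ?_, ?_, ?_⟩ <;>
  · refine (Real.log_le_log_iff (by positivity) (by positivity)).1 ?_
    simp (disch := positivity) only [Real.log_mul, Real.log_rpow, Real.log_div, Real.log_pow,
      Nat.cast_ofNat, Real.log_one]
    linarith

end Pat
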