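import Vale.Agent.P006.IfC
import Vale.Agent.P026.Dvs

/-! Auxiliary facts for the type I sum of the Gauss sums. -/

noncomputable section
namespace Pat
open QRH Complex MeasureTheory Filter
open scoped ComplexConjugate Classical ContDiff Topology

theorem tIt_tail {σ : ℝ} (hσ : 1 < σ) : ∃ C : ℝ, 0 < C ∧ ∀ R : ℝ, 0 < R →
    ∀ T : Finset (Finset P), (∀ s ∈ T, R ≤ Ns s) → ∑ s ∈ T, Ns s ^ (-σ) ≤ C * R ^ (1 - σ) := by
  obtain ⟨C, hC, h⟩ := tail_nm_rpow hσ
  refine ⟨C, hC, fun R hR T hT => ?_⟩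
  have h1 := h R hR (T.image pr) (by
    intro x hx
    obtain ⟨s, hs, rfl⟩ := Finset.mem_image.1 hx
    exact hT s hs)
  rwa [Finset.sum_image (fun a _ b _ hab => pr_inj hab)] at h1

theorem tIt_sdiff (d r : Finset P) : Ns r = Ns (r \ d) * Ns (d ∩ r) := by
  rw [← Ns_union (by
    rw [Finset.disjoint_left]; intro p hp hq
    exact (Finset.mem_sdiff.1 hp).2 (Finset.mem_inter.1 hq).1)]
  congr 1
  ext p
  simp only [Finset.mem_union, Finset.mem_sdiff, Finset.mem_inter]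
  tauto

theorem tIt_Vs_norm (hb : BA) (v : ℝ) : |Vs v| ≤ 1 := by
  rw [abs_of_nonneg (hb.Vs_mem v).1]; exact (hb.Vs_mem v).2

theorem tIt_inv_sum (R : ℝ) (d : Finset P) :
    ∑ r ∈ sqf R, (Ns (r \ d))⁻¹ ≤ 2 ^ d.card * ∑ r ∈ sqf R, (Ns r)⁻¹ := by
  have h1 : ∑ r ∈ sqf R, (Ns (r \ d))⁻¹
      = ∑ x ∈ (sqf R).image (fun r => (r ∩ d, r \ d)), (Ns x.2)⁻¹ := by
    rw [Finset.sum_image]
    intro a _ b _ hab
    simp only [Prod.mk.injEq] at hab
    rw [← Finset.sdiff_union_inter a d, ← Finset.sdiff_union_inter b d, hab.1, hab.2]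
  rw [h1]
  have h2 : (sqf R).image (fun r => (r ∩ d, r \ d)) ⊆ d.powerset ×ˢ sqf R := by
    intro x hx
    obtain ⟨r, hr, rfl⟩ := Finset.mem_image.1 hx
    refine Finset.mem_product.2 ⟨Finset.mem_powerset.2 Finset.inter_subset_right, ?_⟩
    exact mem_sqf.2 ((Ns_mono Finset.sdiff_subset).trans (mem_sqf.1 hr))
  refine (Finset.sum_le_sum_of_subset_of_nonneg h2
    (fun x _ _ => inv_nonneg.2 (Ns_pos _).le)).trans ?_
  rw [Finset.sum_product]
  simp only [Finset.sum_const, Finset.card_powerset, nsmul_eq_mul]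
  push_cast
  exact le_rfl

theorem mSb (hb : BA) : MSb := by
  obtain ⟨C1, hC1, h1⟩ := hb.pow_card 1
  obtain ⟨C2, hC2, h2⟩ := pow_card_le (A := 2) (ε := 1 / 2) (by norm_num) (by norm_num)
  obtain ⟨C3, hC3, h3⟩ := tIt_tail (σ := 3 / 2) (by norm_num)
  refine ⟨C1 * C2 * C3 * 3, by positivity, fun Y D hY => ?_⟩
  have hL : 0 ≤ Real.log Y := Real.log_nonneg hY
  have hlog : 1 + Real.log (3 * Y) ≤ 3 * (1 + Real.log Y) := by
    rw [Real.log_mul (by norm_num) (by linarith)]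
    have := Real.log_le_sub_one_of_pos (show (0 : ℝ) < 3 by norm_num)
    linarith
  have hS : ∑ r ∈ sqf (3 * Y), (Ns r)⁻¹ ≤ C1 * (3 * (1 + Real.log Y)) := by
    have := (h1 (3 * Y) (by linarith)).2
    simp only [Nat.cast_one, one_pow, one_div, pow_one] at this
    exact this.trans (by gcongr)
  have hT := h3 1 one_pos (sqf D) (fun s _ => one_le_Ns s)
  rw [Real.one_rpow, mul_one] at hT
  have hd : ∀ d : Finset P, ‖∑ r ∈ sqf (3 * Y), mu d * mu r *
      ((Vs (Real.log (Ns r / Y)) * Ns (d ∩ r) / (Ns r * Ns d ^ 2) : ℝ) : ℂ)‖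
      ≤ C2 * (C1 * (3 * (1 + Real.log Y))) * Ns d ^ (-(3 / 2) : ℝ) := by
    intro d
    have hd0 := Ns_pos d
    calc _ ≤ ∑ r ∈ sqf (3 * Y), (Ns d ^ 2)⁻¹ * (Ns (r \ d))⁻¹ := by
          refine (norm_sum_le _ _).trans (Finset.sum_le_sum fun r _ => ?_)
          rw [norm_mul, norm_mul, norm_mu, norm_mu, one_mul, one_mul, Complex.norm_real,
            Real.norm_eq_abs]
          have h4 := Ns_pos (r \ d)
          have h5 := Ns_pos (d ∩ r)
          have h6 : Vs (Real.log (Ns r / Y)) * Ns (d ∩ r) / (Ns r * Ns d ^ 2)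
              = Vs (Real.log (Ns r / Y)) * ((Ns d ^ 2)⁻¹ * (Ns (r \ d))⁻¹) := by
            generalize Vs (Real.log (Ns r / Y)) = v
            rw [tIt_sdiff d r]
            field_simp
          rw [h6, abs_mul, abs_of_pos (a := (Ns d ^ 2)⁻¹ * (Ns (r \ d))⁻¹) (by positivity)]
          exact mul_le_of_le_one_left (by positivity) (tIt_Vs_norm hb _)
      _ ≤ (Ns d ^ 2)⁻¹ * (2 ^ d.card * (C1 * (3 * (1 + Real.log Y)))) := by
          rw [← Finset.mul_sum]
          gcongr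
          exact (tIt_inv_sum _ d).trans (by gcongr)
      _ ≤ (Ns d ^ 2)⁻¹ * ((C2 * Ns d ^ (1 / 2 : ℝ)) * (C1 * (3 * (1 + Real.log Y)))) := by
          gcongr
          exact h2 d
      _ = _ := by
          have : Ns d ^ (-(3 / 2) : ℝ) = (Ns d ^ 2)⁻¹ * Ns d ^ (1 / 2 : ℝ) := by
            rw [← Real.rpow_natCast, ← Real.rpow_neg hd0.le, ← Real.rpow_add hd0]
            norm_num
          rw [this]; ring
  calc ‖MS Y D‖ ≤ ∑ d ∈ sqf D, C2 * (C1 * (3 * (1 + Real.log Y))) * Ns d ^ (-(3 / 2) : ℝ) :=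
        (norm_sum_le _ _).trans (Finset.sum_le_sum fun d _ => hd d)
    _ ≤ C2 * (C1 * (3 * (1 + Real.log Y))) * C3 := by
        rw [← Finset.mul_sum]; gcongr
    _ = _ := by ring

/-- The support of the weight. -/
theorem tIt_supp {φ : ℝ → ℂ} (hφ : Bump φ) {T x y : ℝ} (hT : 1 ≤ T) (hx : 0 < x) (hy : 0 < y)
    (h : φ (T * Real.log (y / x)) ≠ 0) : x ≤ y ∧ y ≤ x + 2 * x / T ∧ y ≤ 3 * x := by
  obtain ⟨h0, h1⟩ := hφ.supp _ h
  have hT0 : 0 < T := by linarith
  have h2 : 0 ≤ Real.log (y / x) := by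
    by_contra hc
    push Not at hc
    have := mul_neg_of_pos_of_neg hT0 hc
    linarith
  have h3 : Real.log (y / x) ≤ 1 / T := by
    rw [le_div_iff₀ hT0]; linarith
  have h4 : 1 ≤ y / x := (Real.log_nonneg_iff (by positivity)).1 h2
  have h5 : y / x ≤ Real.exp (1 / T) := by
    rw [← Real.exp_log (show 0 < y / x by positivity)]
    exact Real.exp_le_exp.2 h3
  have h6 : 1 / T ≤ 1 := by rw [div_le_one hT0]; exact hT
  have h7 : Real.exp (1 / T) ≤ 1 + 2 * (1 / T) := by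
    have h8 := Real.abs_exp_sub_one_le (x := 1 / T) (by rw [abs_of_pos (by positivity)]; exact h6)
    rw [abs_of_pos (show 0 < 1 / T by positivity)] at h8
    have := le_abs_self (Real.exp (1 / T) - 1)
    linarith
  have h9 : y ≤ x + 2 * x / T := by
    have := (div_le_iff₀ hx).1 (h5.trans h7)
    calc y ≤ (1 + 2 * (1 / T)) * x := this
      _ = _ := by ring
  refine ⟨(one_le_div hx).1 h4, h9, h9.trans ?_⟩
  have : 2 * x / T ≤ 2 * x := div_le_self (by positivity) hT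
  linarith

/-- The sieve weight extended to all elements. -/
def tItN (Y : ℝ) (n : E) : ℂ :=
  ∑ r ∈ sqf (3 * Y), if pr r ∣ n then mu r * (Vs (Real.log (Ns r / Y)) : ℝ) else 0

theorem tIt_N_pr (hb : BA) {Y : ℝ} (hY : 0 < Y) (c : Finset P) : tItN Y (pr c) = nu Y c := by
  unfold tItN nu
  rw [← Finset.sum_filter]
  refine Finset.sum_subset ?_ ?_
  · intro r hr
    exact Finset.mem_powerset.2 (pr_dvd_pr.1 (Finset.mem_filter.1 hr).2)
  · intro r hr hn
    have h1 : ¬ Ns r ≤ 3 * Y := fun h => hn (Finset.mem_filter.2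
      ⟨mem_sqf.2 h, pr_dvd_pr.2 (Finset.mem_powerset.1 hr)⟩)
    push Not at h1
    have h2 : 1 ≤ Real.log (Ns r / Y) := by
      rw [Real.le_log_iff_exp_le (div_pos (Ns_pos r) hY), le_div_iff₀ hY]
      have := Real.exp_one_lt_d9
      nlinarith
    rw [hb.Vs_zero _ h2]
    simp

theorem tIt_N_le (hb : BA) (Y : ℝ) {n : E} (hn : n ≠ 0) : ‖tItN Y n‖ ≤ 2 ^ (fac n).card := by
  unfold tItN
  rw [← Finset.sum_filter]
  refine (norm_sum_le _ _).trans ?_
  calc _ ≤ ∑ r ∈ (sqf (3 * Y)).filter (fun r => pr r ∣ n), (1 : ℝ) := by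
        refine Finset.sum_le_sum fun r _ => ?_
        rw [norm_mul, norm_mu, one_mul, Complex.norm_real, Real.norm_eq_abs]
        exact tIt_Vs_norm hb _
    _ ≤ ∑ r ∈ (fac n).powerset, (1 : ℝ) := by
        refine Finset.sum_le_sum_of_subset_of_nonneg ?_ (fun _ _ _ => zero_le_one)
        intro r hr
        refine Finset.mem_powerset.2 fun p hp => (mem_fac hn).2 ?_
        exact pr_dvd_iff.1 (Finset.mem_filter.1 hr).2 p hp
    _ = _ := by simp

theorem tIt_dvd (r d : Finset P) (n : E) : pr r ∣ pr d ^ 3 * n ↔ pr (r \ d) ∣ n := by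
  rw [pr_dvd_iff, pr_dvd_iff]
  constructor
  · intro h p hp
    obtain ⟨h1, h2⟩ := Finset.mem_sdiff.1 hp
    rcases p.2.1.dvd_or_dvd (h p h1) with h3 | h3
    · exact absurd (dvd_pr_iff.1 (p.2.1.dvd_of_dvd_pow h3)) h2
    · exact h3
  · intro h p hp
    by_cases h2 : p ∈ d
    · exact Dvd.dvd.mul_right (dvd_pow (dvd_pr_iff.2 h2) (by norm_num)) _
    · exact Dvd.dvd.mul_left (h p (Finset.mem_sdiff.2 ⟨hp, h2⟩)) _

theorem tIt_nm (d : Finset P) (n : E) : (nm (pr d ^ 3 * n) : ℝ) = Ns d ^ 3 * nm n := by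
  rw [nm_mul, nm_pow]; unfold Ns; push_cast; ring

/-- The inner sum for a fixed `d`. -/
theorem tIt_inner (hb : BA) {φ : ℝ → ℂ} (hφ : Bump φ) {X T : ℝ} (hX : 0 < X) (hT : 1 ≤ T) (Y : ℝ)
    (d : Finset P) :
    ∑ n ∈ pball (3 * X), th n * (tItN Y (pr d ^ 3 * n) * lw φ T X (nm (pr d ^ 3 * n)))
      = ∑ r ∈ sqf (3 * Y), mu r * (Vs (Real.log (Ns r / Y)) : ℝ) *
        Th0 (fun v => φ (T * v)) (r \ d) ∅ (X / Ns d ^ 3) := by
  have hd := Ns_pos d
  have hd1 : 1 ≤ Ns d ^ 3 := one_le_pow₀ (one_le_Ns d)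
  simp only [tItN, Finset.sum_mul, Finset.mul_sum]
  rw [Finset.sum_comm]
  refine Finset.sum_congr rfl fun r _ => ?_
  unfold Th0
  rw [Finset.mul_sum]
  have hsub : pball (3 * (X / Ns d ^ 3)) ⊆ pball (3 * X) := by
    intro c hc
    obtain ⟨h1, h2⟩ := (hb.mem_pball _ _).1 hc
    refine (hb.mem_pball _ _).2 ⟨h1, h2.trans ?_⟩
    have : X / Ns d ^ 3 ≤ X := div_le_self hX.le hd1
    linarith
  have hw : ∀ n : E, lw φ T X (nm (pr d ^ 3 * n)) = φ (T * Real.log (nm n / (X / Ns d ^ 3))) := by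
    intro n
    unfold lw
    rw [tIt_nm]
    congr 3
    field_simp
  rw [← Finset.sum_subset hsub]
  · refine Finset.sum_congr rfl fun n _ => ?_
    rw [hw, tIt_dvd]
    split_ifs
    · simp only [xs, Finset.prod_empty, map_one]; ring
    · simp
  · intro n hn hn'
    obtain ⟨h1, -⟩ := (hb.mem_pball _ _).1 hn
    have h0 : φ (T * Real.log (nm n / (X / Ns d ^ 3))) = 0 := by
      by_contra hc
      have h3 := one_le_nmR (primary_ne_zero h1)
      exact hn' ((hb.mem_pball _ _).2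
        ⟨h1, (tIt_supp hφ hT (by positivity) (by linarith) hc).2.2⟩)
    rw [hw, h0]
    simp

end Pat
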