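import Vale.Agent.P006.IfA
import Vale.Agent.P026.Dual
import Vale.Agent.P026.VB0a
import Vale.Agent.P026.Dvs

/-! Auxiliary facts for the theta sums with a differentiated weight. -/

noncomputable section
namespace Pat
open QRH Complex MeasureTheory Filter
open scoped ComplexConjugate Classical ContDiff Topology

/-- The size of the dual terms. -/
def thzg (σ : ℝ) (δ : E) : ℝ :=
  if δ = 0 then 0 else ‖Tg δ‖ / nm (up lam δ) * (nm δ : ℝ) ^ (-σ)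

theorem thzg_nonneg (σ : ℝ) (δ : E) : 0 ≤ thzg σ δ := by
  unfold thzg
  split_ifs
  · exact le_rfl
  · positivity

theorem thzg_el {σ : ℝ} (hσ : 1 / 2 < σ) {u d : E} (hu : IsUnit u) (hd : (3 : E) ∣ d - 1)
    (k : ℕ) (f : Finset P) :
    thzg σ (vbel ((u, k, d), f))
      ≤ ((3 : ℝ) ^ (-σ)) ^ k * ((nm d : ℝ) ^ (-2 : ℝ) * Ns f ^ (-(σ + 1 / 2))) := by
  have h1 := vbphi_sq ∅ hu hd k f
  have hd1 := one_le_nmR (primary_ne_zero hd)
  have hf1 := one_le_Ns f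
  simp only [vbphi, Finset.inter_empty, Ns_empty, Real.sqrt_one, mul_one] at h1
  have h2 : ‖Tg (vbel ((u, k, d), f))‖ / nm (up lam (vbel ((u, k, d), f)))
      ≤ (nm d : ℝ) ^ (-1 : ℝ) * Ns f ^ (-(1 / 2) : ℝ) := by
    refine (pow_le_pow_iff_left₀ (by positivity) (by positivity) two_ne_zero).1
      (h1.trans (le_of_eq ?_))
    rw [mul_pow, ← Real.rpow_natCast (Ns f ^ _), ← Real.rpow_mul (by linarith),
      Real.rpow_neg_one]
    norm_num [Real.rpow_neg_one]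
  have h3 : (nm (vbel ((u, k, d), f)) : ℝ) = 3 ^ k * (Ns f * (nm d : ℝ) ^ 3) := by
    change (nm (u * lam ^ k * (pr f * d ^ 3)) : ℝ) = _
    rw [nm_mul, nm_mul, nm_mul, nm_pow, nm_pow, nm_lam, isUnit_iff.1 hu, Ns]
    push_cast
    ring
  have h4 : ((nm d : ℝ) ^ 3) ^ (-σ) ≤ (nm d : ℝ) ^ (-1 : ℝ) := by
    rw [← Real.rpow_natCast, ← Real.rpow_mul (by linarith)]
    exact Real.rpow_le_rpow_of_exponent_le hd1 (by push_cast; linarith)
  unfold thzg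
  split_ifs
  · positivity
  · rw [h3, Real.mul_rpow (by positivity) (by positivity),
      Real.mul_rpow (by positivity) (by positivity)]
    have e1 : ((3 : ℝ) ^ k) ^ (-σ) = ((3 : ℝ) ^ (-σ)) ^ k := by
      rw [← Real.rpow_natCast, ← Real.rpow_natCast, ← Real.rpow_mul (by norm_num),
        ← Real.rpow_mul (by norm_num), mul_comm]
    have e2 : (nm d : ℝ) ^ (-2 : ℝ) = (nm d : ℝ) ^ (-1 : ℝ) * (nm d : ℝ) ^ (-1 : ℝ) := by
      rw [← Real.rpow_add (by linarith)]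
      norm_num
    have e3 : Ns f ^ (-(σ + 1 / 2)) = Ns f ^ (-(1 / 2) : ℝ) * Ns f ^ (-σ) := by
      rw [← Real.rpow_add (by linarith)]
      ring_nf
    rw [e1, e2, e3]
    calc _ ≤ ((nm d : ℝ) ^ (-1 : ℝ) * Ns f ^ (-(1 / 2) : ℝ)) *
          (((3 : ℝ) ^ (-σ)) ^ k * (Ns f ^ (-σ) * (nm d : ℝ) ^ (-1 : ℝ))) := by gcongr
      _ = _ := by ring

theorem thzg_summable {σ : ℝ} (hσ : 1 / 2 < σ) : Summable (thzg σ) := by
  have hr0 : (0 : ℝ) ≤ (3 : ℝ) ^ (-σ) := by positivity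
  have hr1 : (3 : ℝ) ^ (-σ) < 1 := Real.rpow_lt_one_of_one_lt_of_neg (by norm_num) (by linarith)
  have s1 := summable_geometric_of_lt_one hr0 hr1
  have s2 := summable_nm_rpow (σ := 2) (by norm_num)
  have s3 := summable_Ns_rpow (σ := σ + 1 / 2) (by linarith)
  refine summable_of_sum_le (thzg_nonneg σ) (c := 12 * ((∑' k : ℕ, ((3 : ℝ) ^ (-σ)) ^ k) *
    ((∑' d : E, (nm d : ℝ) ^ (-2 : ℝ)) * ∑' f : Finset P, Ns f ^ (-(σ + 1 / 2))))) fun T => ?_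
  obtain ⟨U, hU⟩ : ∃ U : ℕ, ∀ δ ∈ T, nm δ ≤ U :=
    ⟨T.sup nm, fun δ hδ => Finset.le_sup (f := nm) hδ⟩
  have hJ : (U : ℝ) < 2 ^ (U + 1) := by
    have h1 : U < 2 ^ (U + 1) := (Nat.lt_succ_self U).trans Nat.lt_two_pow_self
    exact_mod_cast h1
  have h1 : ∑ δ ∈ T, thzg σ δ ≤ ∑ δ ∈ (vbidx U U ×ˢ sqf U).image vbel, thzg σ δ := by
    rw [← Finset.sum_filter_ne_zero]
    refine Finset.sum_le_sum_of_subset_of_nonneg (fun δ hδ' => ?_) fun δ _ _ => thzg_nonneg σ δ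
    obtain ⟨hδ, h0⟩ := Finset.mem_filter.1 hδ'
    have h2 : δ ≠ 0 := fun h => h0 (by rw [thzg, if_pos h])
    have h3 : Tg δ ≠ 0 := fun h => h0 (by simp [thzg, h])
    obtain ⟨x, hx, e⟩ := vb_exists hJ (mem_ball.2 ⟨h2, by exact_mod_cast hU δ hδ⟩) h3
    exact Finset.mem_image.2 ⟨x, hx, e⟩
  refine h1.trans ((Finset.sum_image_le_of_nonneg fun _ _ => thzg_nonneg σ _).trans ?_)
  have h2 : ∑ x ∈ vbidx U U ×ˢ sqf U, thzg σ (vbel x) ≤ ∑ x ∈ vbidx U U ×ˢ sqf U,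
      ((3 : ℝ) ^ (-σ)) ^ x.1.2.1 * ((nm x.1.2.2 : ℝ) ^ (-2 : ℝ) * Ns x.2 ^ (-(σ + 1 / 2))) :=
    Finset.sum_le_sum fun x hx => by
      obtain ⟨h3, h4⟩ := vb_mem_idx (Finset.mem_product.1 hx).1
      exact thzg_el hσ h3 h4 _ _
  refine h2.trans ?_
  have h4 := fun f : Finset P => Real.rpow_nonneg (Ns_pos f).le (-(σ + 1 / 2))
  have h3 := card_ball_le (R := 1) zero_le_one
  rw [mul_one] at h3
  have k1 := s1.sum_le_tsum (Finset.range (U + 1)) fun _ _ => by positivity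
  have k2 := s2.sum_le_tsum ((ball U).filter fun d => (3 : E) ∣ d - 1) fun _ _ => by positivity
  have k3 := s3.sum_le_tsum (sqf U) fun f _ => h4 f
  have n1 : 0 ≤ ∑ k ∈ Finset.range (U + 1), ((3 : ℝ) ^ (-σ)) ^ k :=
    Finset.sum_nonneg fun _ _ => by positivity
  have n2 : 0 ≤ ∑ d ∈ (ball U).filter fun d => (3 : E) ∣ d - 1, (nm d : ℝ) ^ (-2 : ℝ) :=
    Finset.sum_nonneg fun _ _ => by positivity
  have n3 : 0 ≤ ∑ f ∈ sqf U, Ns f ^ (-(σ + 1 / 2)) := Finset.sum_nonneg fun f _ => h4 f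
  calc _ = ((ball 1).card : ℝ) * ((∑ k ∈ Finset.range (U + 1), ((3 : ℝ) ^ (-σ)) ^ k) *
        ((∑ d ∈ (ball U).filter fun d => (3 : E) ∣ d - 1, (nm d : ℝ) ^ (-2 : ℝ)) *
          ∑ f ∈ sqf U, Ns f ^ (-(σ + 1 / 2)))) := by
        simp only [vbidx, Finset.sum_product, ← Finset.mul_sum, ← Finset.sum_mul,
          Finset.sum_const, nsmul_eq_mul]
        ring
    _ ≤ _ := mul_le_mul h3 (mul_le_mul k1 (mul_le_mul k2 k3 n3 (n2.trans k2))
        (mul_nonneg n2 n3) (n1.trans k1)) (mul_nonneg n1 (mul_nonneg n2 n3)) (by norm_num)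

/-- The local dual at a unit, in terms of the variance. -/
theorem thz_Dq_unit (a : ℕ) {p : P} {f : E → ℂ} (h : Mc p f) {δ : E} (hδ : ¬ p.1 ∣ δ) :
    ((nm p.1 : ℝ) - 1) * ‖Dq a p.1 (fun c => f c - mv p f) δ‖ ^ 2
      ≤ ∑ y ∈ reps p.1, ‖f y - mv p f‖ ^ 2 := by
  refine le_trans ?_ (du_parseval a (good_sub_mv h))
  have k : ∀ t, ¬ p.1 ∣ t → ‖Dq a p.1 (fun c => f c - mv p f) t‖ =
      ‖Dq a p.1 (fun c => f c - mv p f) 1‖ := fun t ht => by
    have := Dq_prime_cov a h ht 1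
    rw [mul_one] at this
    rw [this, norm_mul, norm_mul, RCLike.norm_conj, h.norm t ht, (c3_mc p).norm t ht, one_mul,
      one_mul]
  rw [k δ hδ, ← du_count, Finset.sum_mul]
  exact Finset.sum_le_sum fun t _ => by
    split_ifs with ht
    · rw [zero_mul]; positivity
    · rw [one_mul, k t ht]

theorem thz_Dq_zero (a : ℕ) {p : P} {f : E → ℂ} (h : Mc p f) {t : E} (ht : ¬ p.1 ∣ t)
    (ht' : conj (f t) * c3 p t ≠ 1) {δ : E} (hδ : p.1 ∣ δ) :
    Dq a p.1 (fun c => f c - mv p f) δ = 0 := by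
  have h0 := Dq_prime_cov a h ht 0
  rw [mul_zero] at h0
  rw [Dq_per a _ _ δ 0 (by simpa using hδ)]
  by_contra h1
  exact ht' (mul_right_cancel₀ h1 (h0.symm.trans (one_mul _).symm))

/-- The trivial character. -/
def thzf (p : P) (c : E) : ℂ := if p.1 ∣ c then 0 else 1

theorem thzf_mc (p : P) : Mc p (thzf p) := by
  refine ⟨fun x y => ?_, fun x y h => if_congr (dvd_iff_dvd_of_dvd_sub h) rfl rfl,
    fun x h => if_pos h, fun x h => by rw [thzf, if_neg h, norm_one]⟩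
  simp only [thzf, p.2.1.dvd_mul]
  by_cases hx : p.1 ∣ x <;> by_cases hy : p.1 ∣ y <;> simp [hx, hy]

theorem thzf_mv (p : P) : mv p (thzf p) = 1 - (nm p.1 : ℂ)⁻¹ := by
  have h1 : rsum p.1 (thzf p) = nm p.1 - 1 := by
    have h2 := congrArg (fun x : ℝ => (x : ℂ)) (du_count p)
    simp only [Complex.ofReal_sum, Complex.ofReal_sub, Complex.ofReal_natCast,
      Complex.ofReal_one] at h2
    rw [← h2]
    exact Finset.sum_congr rfl fun y _ => by unfold thzf; split_ifs <;> simp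
  have h3 := du_nm_ne p.ne_zero
  rw [mv, h1]
  field_simp

theorem thzf_zero (a : ℕ) (p : P) {δ : E} (hδ : p.1 ∣ δ) :
    Dq a p.1 (fun c => thzf p c - mv p (thzf p)) δ = 0 := by
  obtain ⟨t, ht, ht'⟩ := c3_nt p
  exact thz_Dq_zero a (thzf_mc p) ht (by rwa [thzf, if_neg ht, map_one, one_mul]) hδ

theorem thzf_bd (a : ℕ) (p : P) (δ : E) :
    ‖Dq a p.1 (fun c => thzf p c - mv p (thzf p)) δ‖ ≤ (nm p.1 : ℝ) ^ (-(1 / 2) : ℝ) := by
  by_cases hδ : p.1 ∣ δ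
  · rw [thzf_zero a p hδ, norm_zero]
    positivity
  have h1 := thz_Dq_unit a (thzf_mc p) hδ
  have h4 : (4 : ℝ) ≤ nm p.1 := by exact_mod_cast p.four_le_nm
  have h2 : ∑ y ∈ reps p.1, ‖thzf p y - mv p (thzf p)‖ ^ 2 = (nm p.1 - 1) * (nm p.1 : ℝ)⁻¹ := by
    have h3 : ∀ y, ‖thzf p y - mv p (thzf p)‖ ^ 2 = (1 - (nm p.1 : ℝ)⁻¹) ^ 2 +
        ((nm p.1 : ℝ)⁻¹ ^ 2 - (1 - (nm p.1 : ℝ)⁻¹) ^ 2) * if p.1 ∣ y then (0 : ℝ) else 1 := by
      intro y
      rw [thzf_mv, thzf]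
      split_ifs
      · rw [zero_sub, norm_neg, show (1 : ℂ) - (nm p.1 : ℂ)⁻¹ = ((1 - (nm p.1 : ℝ)⁻¹ : ℝ) : ℂ) by
          push_cast; rfl, Complex.norm_real, Real.norm_eq_abs, sq_abs]
        ring
      · rw [sub_sub_cancel, norm_inv, Complex.norm_natCast]
        ring
    simp only [h3]
    rw [Finset.sum_add_distrib, ← Finset.mul_sum, du_count, Finset.sum_const,
      card_reps p.ne_zero, nsmul_eq_mul]
    field_simp
    ring
  rw [h2] at h1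
  have h5 := le_of_mul_le_mul_left h1 (by linarith)
  refine (pow_le_pow_iff_left₀ (by positivity) (by positivity) two_ne_zero).1
    (h5.trans (le_of_eq ?_))
  rw [← Real.rpow_natCast, ← Real.rpow_mul (by linarith), ← Real.rpow_neg_one]
  norm_num

theorem thzc_mv (p : P) : mv p (fun c => conj (c3 p c)) = 0 := by
  rw [mv, (c3_mc p).conj.rsum_eq_zero (c3_nt p).conj, zero_div]

theorem thzc_zero (a : ℕ) (p : P) {δ : E} (hδ : p.1 ∣ δ) :
    Dq a p.1 (fun c => conj (c3 p c) - mv p fun c => conj (c3 p c)) δ = 0 := by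
  obtain ⟨t, ht, ht'⟩ := c3_nt p
  refine thz_Dq_zero a (c3_mc p).conj ht (fun h => ht' ?_) hδ
  rw [Complex.conj_conj] at h
  linear_combination c3_cube ht - c3 p t * h

theorem thzc_bd (a : ℕ) (p : P) (δ : E) :
    ‖Dq a p.1 (fun c => conj (c3 p c) - mv p fun c => conj (c3 p c)) δ‖ ≤ 1 := by
  by_cases hδ : p.1 ∣ δ
  · rw [thzc_zero a p hδ, norm_zero]
    exact zero_le_one
  · exact (norm_Dq_prime a (c3_mc p).conj δ).trans_eq (if_neg hδ)

/-- The periodic function attached to `r1` and `q`. -/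
def thzF (r1 q : Finset P) (c : E) : ℂ :=
  (∏ p ∈ r1, ((nm p.1 : ℂ)⁻¹ - if p.1 ∣ c then 1 else 0)) * conj (xs c3 q c)

theorem thzF_spec (a : ℕ) {r1 q : Finset P} (h : Disjoint r1 q) :
    Good (pr (r1 ∪ q)) (thzF r1 q) ∧
      (∀ δ, ‖Dq a (pr (r1 ∪ q)) (thzF r1 q) δ‖ ≤ Ns r1 ^ (-(1 / 2) : ℝ)) ∧
      (r1 ∪ q ≠ ∅ → Dq a (pr (r1 ∪ q)) (thzF r1 q) 0 = 0) := by
  obtain ⟨f, hf⟩ : ∃ f : P → E → ℂ, ∀ p, f p = if p ∈ q then fun c => conj (c3 p c) else thzf p :=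
    ⟨_, fun _ => rfl⟩
  have f1 : ∀ p ∈ r1, f p = thzf p := fun p hp => by
    rw [hf, if_neg (Finset.disjoint_left.1 h hp)]
  have f2 : ∀ p ∈ q, f p = fun c => conj (c3 p c) := fun p hp => by rw [hf, if_pos hp]
  have hm : ∀ p ∈ r1 ∪ q, Mc p (f p) := fun p hp => by
    rcases Finset.mem_union.1 hp with hp | hp
    · rw [f1 p hp]; exact thzf_mc p
    · rw [f2 p hp]; exact (c3_mc p).conj
  obtain ⟨G, e, he, hD⟩ := Dq_prod a (r1 ∪ q) f hm (q1 := 1) (fun h0 => lam_prime.not_dvd_one h0)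
    isCoprime_one_left (good_psf one_ne_zero (u := 0) isCoprime_one_right)
  have e1 : (fun c => (∏ p ∈ r1 ∪ q, (f p c - mv p (f p))) * psf (c * 0) 1) = thzF r1 q := by
    funext c
    rw [psf_of_dvd (one_dvd _), mul_one, Finset.prod_union h, thzF, xs, map_prod]
    congr 1
    · refine Finset.prod_congr rfl fun p hp => ?_
      rw [f1 p hp, thzf_mv, thzf]
      split_ifs <;> ring
    · refine Finset.prod_congr rfl fun p hp => ?_
      rw [f2 p hp, thzc_mv, sub_zero]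
  rw [e1, mul_one] at G hD
  refine ⟨G, fun δ => ?_, fun hne => ?_⟩
  · rw [hD δ 0 (one_dvd _), norm_mul, norm_mul, norm_prod, Finset.prod_union h]
    have b1 : ∏ p ∈ r1, ‖Dq a p.1 (fun c => f p c - mv p (f p)) δ‖ ≤ Ns r1 ^ (-(1 / 2) : ℝ) := by
      rw [Ns_eq_prod, ← Real.finsetProd_rpow _ _ fun _ _ => Nat.cast_nonneg _]
      exact Finset.prod_le_prod (fun _ _ => norm_nonneg _) fun p hp => by
        rw [f1 p hp]; exact thzf_bd a p δ
    have b2 : ∏ p ∈ q, ‖Dq a p.1 (fun c => f p c - mv p (f p)) δ‖ ≤ 1 :=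
      Finset.prod_le_one (fun _ _ => norm_nonneg _) fun p hp => by
        rw [f2 p hp]; exact thzc_bd a p δ
    have b3 := norm_Dq_psf a one_ne_zero 0 0
    have b4 : 0 ≤ Ns r1 ^ (-(1 / 2) : ℝ) := Real.rpow_nonneg (Ns_pos _).le _
    have b5 : 0 ≤ ∏ p ∈ q, ‖Dq a p.1 (fun c => f p c - mv p (f p)) δ‖ :=
      Finset.prod_nonneg fun _ _ => norm_nonneg _
    calc _ ≤ 1 * (Ns r1 ^ (-(1 / 2) : ℝ) * 1) * 1 := by gcongr
      _ = _ := by ring
  · obtain ⟨p, hp⟩ := Finset.nonempty_iff_ne_empty.2 hne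
    rw [hD 0 0 (one_dvd _), Finset.prod_eq_zero hp, mul_zero, zero_mul]
    rcases Finset.mem_union.1 hp with hp | hp
    · rw [f1 p hp]; exact thzf_zero a p (dvd_zero _)
    · rw [f2 p hp]; exact thzc_zero a p (dvd_zero _)

end Pat
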