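import Vale.Agent.P006.VArch
import Vale.Agent.P026.Vor2

noncomputable section
namespace QRH.R
open Complex MeasureTheory Filter
open scoped ComplexConjugate Classical ContDiff Topology

variable {R : ℝ}

theorem v0_xv {a : ℕ} {ρ : E → ℂ} {q u η β : E} {w : ℂ → ℂ} {Y : ℝ}
    (h : VP R a ρ q u η β w Y) : xv c3 q u ≠ 0 := by
  have h1 := norm_xv ch_c3 (n := u) (v2_ne_zero h.hq) fun p hp => by
    have h2 : p.1 ∣ Lam a ^ 2 * u * η := (hp.2.mul_left _).mul_right _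
    have h3 := (v2_dvd_iff (hp.1.trans h.hη)).1 h2
    exact p.2.1.not_isUnit (isUnit_of_dvd_one h3)
  intro h0
  rw [h0, norm_zero] at h1
  exact zero_ne_one h1

theorem v0_lim (hA : VorA) (hB : VorB) (hC : VorC) (hD : VorD) (hE : VorE) {a : ℕ} {ρ : E → ℂ}
    {q u η β : E} {w : ℂ → ℂ} {Y : ℝ} (h : VP R a ρ q u η β w Y) :
    Tendsto (T0 a ρ q β w Y) atTop
      (𝓝 (VL R (fun c => ρ c * psf (c * u) q) w Y / (nm (Lam a) : ℂ) / xv c3 q u - nm (Lam a) *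
        ∑' δ : E, if δ = 0 then 0 else bb a ρ q β δ * psf (-(η * δ)) q * Ka w (zd a q Y δ))) := by
  obtain ⟨-, g, hg, hg'⟩ := hE R a ρ q u η β w Y h
  have hN := v2_nm_ne (Lam_ne_zero a)
  have hq := v2_nm_ne (v2_ne_zero h.hq)
  have hY : (Y : ℂ) ≠ 0 := ofReal_ne_zero.2 h.hY.ne'
  have hx := v0_xv h
  obtain ⟨T, hT⟩ : ∃ T : ℝ → E → ℂ, ∀ X δ, T X δ = ((Y ^ 2 / X ^ 2 : ℝ) : ℂ) / (nm (Lam a * q) : ℂ)
      * ∑' x : E × E, G2 a ρ q β w Y X δ x.1 x.2 := ⟨_, fun _ _ => rfl⟩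
  simp only [← hT] at hg'
  have h1 : Tendsto (fun X : ℝ => ∑' δ : E, if δ = 0 then 0 else psf (-(η * δ)) q * T X δ) atTop
      (𝓝 (∑' δ : E, nm (Lam a) *
        if δ = 0 then 0 else bb a ρ q β δ * psf (-(η * δ)) q * Ka w (zd a q Y δ))) := by
    refine tendsto_tsum_of_dominated_convergence (hg.update 0 1) (fun δ => ?_) ?_
    · split_ifs with h0
      · simp
      · have h2 := (hD R a ρ q u η β w Y h δ h0).const_mul (psf (-(η * δ)) q)
        simp only [← hT] at h2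
        exact h2.trans (le_of_eq (congrArg 𝓝 (by ring)))
    · filter_upwards [eventually_ge_atTop 1] with X hX1 δ
      by_cases h0 : δ = 0
      · rw [if_pos h0, h0, Function.update_self, norm_zero]
        exact zero_le_one
      · rw [if_neg h0, norm_mul, norm_psf, one_mul, Function.update_of_ne h0]
        exact hg' X hX1 δ h0
  have h3 : (fun X : ℝ => Sig R a ρ q u w Y X / (((X ^ 3 / Y) ^ 2 * X ^ 2 : ℝ) : ℂ) / xv c3 q u
      - ∑' δ : E, if δ = 0 then 0 else psf (-(η * δ)) q * T X δ) =ᶠ[atTop] T0 a ρ q β w Y := by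
    filter_upwards [eventually_gt_atTop 0] with X hX
    obtain ⟨s1, e1⟩ := hB R a ρ q u η β w Y h X hX
    obtain ⟨s2, e2⟩ := hC R a ρ q u η β w Y h X hX s1
    have s3 : Summable fun x : E × E × E =>
        psf (-(η * x.1)) q * G2 a ρ q β w Y X x.1 x.2.1 x.2.2 :=
      Summable.of_norm (s2.norm.congr fun x => by rw [norm_mul, norm_psf, one_mul])
    have e4 : ∀ δ : E, psf (-(η * δ)) q * T X δ = ((Y ^ 2 / X ^ 2 : ℝ) : ℂ) / (nm (Lam a * q) : ℂ)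
        * ∑' x : E × E, psf (-(η * δ)) q * G2 a ρ q β w Y X δ x.1 x.2 := fun δ => by
      rw [hT, mul_left_comm, ← tsum_mul_left]
    have e3 : ∑' δ : E, psf (-(η * δ)) q * T X δ =
        ((Y ^ 2 / X ^ 2 : ℝ) : ℂ) / (nm (Lam a * q) : ℂ) *
          ∑' x : E × E × E, psf (-(η * x.1)) q * G2 a ρ q β w Y X x.1 x.2.1 x.2.2 := by
      rw [s3.tsum_prod, ← tsum_mul_left]
      exact tsum_congr e4
    have s4 : Summable fun δ : E => psf (-(η * δ)) q * T X δ := by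
      simp only [e4]
      exact s3.prod.mul_left _
    have e5 : T0 a ρ q β w Y X = ∑' δ : E, psf (-(η * δ)) q * T X δ
        - ∑' δ : E, if δ = 0 then 0 else psf (-(η * δ)) q * T X δ := by
      rw [s4.tsum_eq_add_tsum_ite 0, add_sub_cancel_right, hT, T0]
      simp [psf, psi]
    have hX' : (X : ℂ) ≠ 0 := ofReal_ne_zero.2 hX.ne'
    rw [e5, e1, e2, e3, nm_mul]
    congr 1
    push_cast
    field_simp
  have h4 := (((hA R a ρ q u η β w Y h).div_const (xv c3 q u)).sub h1).congr' h3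
  rwa [tsum_mul_left] at h4

theorem v0_split {G : E × E → ℂ} (s2 : Summable G) :
    ∑' x, G x - ∑' x : E × E, (if x.2 = 0 then 0 else G x)
      = ∑' x : E × E, (if x.2 = 0 then G x else 0) := by
  have s3 : Summable fun x : E × E => if x.2 = 0 then 0 else G x :=
    Summable.of_norm_bounded s2.norm fun x => by
      split_ifs
      · simp
      · exact le_rfl
  rw [← s2.tsum_sub s3]
  refine tsum_congr fun x => ?_
  split_ifs with h0
  · simp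
  · simp

theorem v0_sp (hB : VorB) (hC : VorC) {a : ℕ} {ρ : E → ℂ}
    {q u η β : E} {w : ℂ → ℂ} {Y : ℝ} (h : VP R a ρ q u η β w Y) {X : ℝ} (hX : 0 < X) :
    T0 a ρ q β w Y X - ((Y ^ 2 / X ^ 2 : ℝ) : ℂ) / (nm (Lam a * q) : ℂ)
        * ∑' x : E × E, (if x.2 = 0 then 0 else G2 a ρ q β w Y X 0 x.1 x.2)
      = ((Y ^ 2 / X ^ 2 : ℝ) : ℂ) / (nm (Lam a * q) : ℂ)
        * ∑' x : E × E, (if x.2 = 0 then G2 a ρ q β w Y X 0 x.1 x.2 else 0) := by
  have s1 := (hC R a ρ q u η β w Y h X hX (hB R a ρ q u η β w Y h X hX).1).1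
  have s2 : Summable fun x : E × E => G2 a ρ q β w Y X 0 x.1 x.2 :=
    s1.comp_injective (Prod.mk_right_injective 0)
  rw [T0, ← mul_sub, v0_split s2]

theorem v0_scale (a : ℕ) (ρ : E → ℂ) (q β : E) (w : ℂ → ℂ) {Y X Y' X' : ℝ}
    (e1 : X' ^ 3 / Y' ^ 2 = X ^ 3 / Y ^ 2) (C : E) :
    G2 a ρ q β w Y' X' 0 C 0 = G2 a ρ q β w Y X 0 C 0 := by
  have hz : ∀ Y, zd a q Y 0 = 0 := fun Y => by simp [zd]
  rw [G2, G2, e1, hz, hz, map_zero, zero_div, zero_div]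

theorem vor0 (hA : VorA) (hB : VorB) (hC : VorC) (hD : VorD) (hE : VorE) : Vor0 := by
  intro R a ρ q u η β w Y h
  have hN := v2_nm_ne (Lam_ne_zero a)
  have hx := v0_xv h
  have l1 := v0_lim hA hB hC hD hE h
  constructor
  · rw [M0, l1.limUnder_eq]
    field_simp
    ring
  clear l1
  have h' : VP R a ρ q u η β w 1 := ⟨h.ha, h.per, h.supp, h.mean, h.bd, h.hq, h.hη, h.hβ, h.adm,
    one_pos⟩
  have l2 : Tendsto (T0 a ρ q β w 1) atTop (𝓝 (M0 a ρ q β w 1)) :=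
    tendsto_nhds_limUnder ⟨_, v0_lim hA hB hC hD hE h'⟩
  have hY := h.hY
  obtain ⟨t, ht⟩ : ∃ t : ℝ, t = Y ^ (-(2 / 3) : ℝ) := ⟨_, rfl⟩
  have ht0 : 0 < t := ht ▸ Real.rpow_pos_of_pos hY _
  have ht3 : t ^ 3 = (Y ^ 2)⁻¹ := by
    rw [ht, ← Real.rpow_natCast, ← Real.rpow_mul hY.le, ← Real.rpow_natCast, ← Real.rpow_neg hY.le]
    norm_num
  have ht2 : Y ^ (2 / 3 : ℝ) = Y ^ 2 * t ^ 2 := by
    rw [ht, ← Real.rpow_natCast, ← Real.rpow_natCast, ← Real.rpow_mul hY.le, ← Real.rpow_add hY]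
    norm_num
  have l0 : Tendsto (fun X : ℝ => X * t) atTop atTop := tendsto_id.atTop_mul_const ht0
  have l3 := ((l2.sub (hE R a ρ q u η β w 1 h').1).comp l0).const_mul ((Y ^ (2 / 3 : ℝ) : ℝ) : ℂ)
  have l4 := l3.add (hE R a ρ q u η β w Y h).1
  rw [sub_zero, add_zero] at l4
  refine Tendsto.limUnder_eq (l4.congr' ?_)
  filter_upwards [eventually_gt_atTop 0] with X hX
  rw [← eq_sub_iff_add_eq, v0_sp hB hC h hX, Function.comp_apply, v0_sp hB hC h' (mul_pos hX ht0),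
    ← mul_assoc]
  have e1 : (X * t) ^ 3 / 1 ^ 2 = X ^ 3 / Y ^ 2 := by
    rw [mul_pow, ht3]
    field_simp
  have e2 : Y ^ (2 / 3 : ℝ) * (1 ^ 2 / (X * t) ^ 2) = Y ^ 2 / X ^ 2 := by
    rw [ht2]
    field_simp
  rw [← mul_div_assoc, ← ofReal_mul, e2]
  refine congrArg _ (tsum_congr fun x => ?_)
  split_ifs with h0
  · rw [h0, v0_scale a ρ q β w e1]
  · rfl

/-- Absolute convergence of the dual sums. -/
theorem summable_dual (hK : KFacts) {b : E → ℂ} {C : ℝ}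
    (hb : ∀ δ, δ ≠ 0 → ‖b δ‖ ≤ C * ‖Tg δ‖ / nm (up lam δ)) {D : E → ℂ} {M : ℝ}
    (hD : ∀ δ, ‖D δ‖ ≤ M) {w : ℂ → ℂ} (hw : Adm R w) (a : ℕ) {q : E} (hq : q ≠ 0) {Y : ℝ}
    (hY : 0 < Y) : Summable fun δ : E => b δ * D δ * Ka w (zd a q Y δ) := by
  obtain ⟨n, C1, -, h1⟩ := hK.1 R 3
  obtain ⟨W, -, hW⟩ := hw.exists_DB n
  have hb' : ∀ δ, ‖b δ‖ ≤ |C| + ‖b 0‖ := fun δ => by
    by_cases h0 : δ = 0
    · rw [h0]
      exact le_add_of_nonneg_left (abs_nonneg _)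
    have h2 := one_le_nmR (up_ne_zero (p := lam) h0)
    have h3 : ‖Tg δ‖ ≤ nm (up lam δ) :=
      (norm_Tg_le h0).trans (Real.rpow_le_self_of_one_le h2 (by norm_num))
    refine (hb δ h0).trans (le_trans ?_ (le_add_of_nonneg_right (norm_nonneg _)))
    rw [div_le_iff₀ (by linarith)]
    exact mul_le_mul (le_abs_self C) h3 (norm_nonneg _) (abs_nonneg _)
  have h4 : (Y : ℂ) / toC (Lam a ^ 2 * q ^ 2) ≠ 0 := div_ne_zero (ofReal_ne_zero.2 hY.ne')
    (toC_ne_zero (mul_ne_zero (pow_ne_zero _ (Lam_ne_zero a)) (pow_ne_zero _ hq)))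
  have h5 := summable_shift_decay (σ := 3) (by norm_num) h4 0
  refine Summable.of_norm_bounded (h5.mul_left ((|C| + ‖b 0‖) * M * (C1 * W))) fun δ => ?_
  have h6 := h1 w W hw hW (zd a q Y δ)
  have e : zd a q Y δ = Y / toC (Lam a ^ 2 * q ^ 2) * toC δ + 0 := by
    rw [zd]
    ring
  rw [norm_mul, norm_mul, ← e, mul_assoc _ (C1 * W)]
  exact mul_le_mul (mul_le_mul (hb' δ) (hD δ) (norm_nonneg _) (by positivity))
    (by exact_mod_cast h6) (norm_nonneg _)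
    (mul_nonneg (by positivity) ((norm_nonneg _).trans (hD 0)))

end QRH.R
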