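import Vale.Agent.P006.VDefs
import Vale.Agent.P026.VorA

noncomputable section
namespace QRH.R
open Complex MeasureTheory Filter
open scoped ComplexConjugate Classical ContDiff Topology

variable {R : ℝ}

theorem vorA (h1 : RiemL) (h2 : GlS) : VorA := by
  intro R a ρ q u η β w Y hV
  simp only [Sig, VL, Finset.sum_div]
  refine tendsto_finsetSum _ fun c hc => ?_
  by_cases hl : lam ∣ c
  · simp only [hV.supp c hl, zero_mul, zero_div]
    exact tendsto_const_nhds
  have h := (va_term h1 h2 a (mem_ball.1 hc).1 hl hV.hY).const_mul
    (ρ c * psf (c * u) q * w (toC c / Y))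
  simp only [← mul_div_assoc] at h
  convert h using 2
  ring

end QRH.R
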