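import Vale.Agent.P006.VArch
import Vale.Agent.P026.VorB

noncomputable section
namespace QRH.R
open Complex MeasureTheory Filter
open scoped ComplexConjugate Classical ContDiff Topology

variable {R : ℝ}

theorem vb_D_ftw {w : ℂ → ℂ} (h : Adm R w) : vb_D (ft w) := by
  obtain ⟨M, hM, H⟩ := h.ft_decay 3
  exact ⟨M, hM.le, fun x => by simpa using H x⟩

variable {a : ℕ} {ρ : E → ℂ} {q u η β : E} {w : ℂ → ℂ} {Y X : ℝ}

theorem vb_w (hw : Adm R w) {c : E} (hY : 0 < Y) (h : c ∉ ball (R ^ 2 * Y ^ 2)) :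
    w (toC c / (Y : ℂ)) = 0 := by
  by_contra h0
  have := hw.supp _ h0
  exact h (vb_ball hY (norm_pos_iff.1 (by linarith)) this.2)

theorem vb_summable (h : VP R a ρ q u η β w Y) (hX : 0 < X) :
    Summable fun x : E × E × E => ‖G1 a ρ q u w Y X x.1 x.2.1 x.2.2‖ := by
  have hY := h.hY
  have hq : q ≠ 0 := fun hq => h.hq (hq ▸ dvd_zero _)
  rw [summable_prod_of_nonneg fun _ => norm_nonneg _]
  constructor
  · intro d
    by_cases hd : Lam a ∣ d - 1
    swap
    · simp only [G1, if_neg hd, norm_zero, summable_zero]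
    have hd0 := primary_ne_zero (vb_prim h.ha hd)
    have n1 : -((Y : ℂ) / toC (Lam a * d)) ≠ 0 := neg_ne_zero.2 (div_ne_zero
      (ofReal_ne_zero.2 hY.ne') (toC_ne_zero (mul_ne_zero (Lam_ne_zero a) hd0)))
    have n2 : (X : ℂ) / toC d ≠ 0 := div_ne_zero (ofReal_ne_zero.2 hX.ne') (toC_ne_zero hd0)
    have s1 := ((vb_D_ftw h.adm).aff n1 (-(Y * (toC u / toC q))) 1).summable
    have s2 := (vb_D_ftb.aff n2 0 1).summable
    have s3 := (s1.mul_of_nonneg s2 (fun _ => norm_nonneg _) (fun _ => norm_nonneg _)).mul_left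
      (‖(nm d : ℂ)⁻¹ * a0 (toC d / ((X ^ 3 / Y : ℝ) : ℂ))‖ * nm (Lam a)
        * (nm (up lam d) : ℝ) ^ (2 / 3 : ℝ))
    refine s3.of_nonneg_of_le (fun _ => norm_nonneg _) fun x => ?_
    dsimp only
    unfold G1
    rw [if_pos hd, vb_arg hq hd0, one_mul, one_mul, add_zero, div_mul_eq_mul_div (X : ℂ),
      norm_mul, norm_mul, norm_mul, norm_mul, mul_assoc]
    have b1 := norm_rh_le (a := a) h.bd (-x.1)
    have b2 := norm_phig_le hd0 x.1 (3 ^ (a - 1) * x.2)
    gcongr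
  · apply summable_of_ne_finset_zero (s := ball (2 ^ 2 * (X ^ 3 / Y) ^ 2))
    intro d hd
    simp only [G1, vb_a0 (by positivity) hd, mul_zero, zero_mul, ite_self, norm_zero, tsum_zero]

theorem vb_S_summable (h : VP R a ρ q u η β w Y) (hX : 0 < X) :
    Summable fun x : E × E × E => vb_S a ρ q u w Y X x.1 x.2.1 x.2.2 := by
  have hY := h.hY
  apply summable_of_ne_finset_zero (s := ball (R ^ 2 * Y ^ 2) ×ˢ ball (2 ^ 2 * (X ^ 3 / Y) ^ 2)
    ×ˢ insert 0 (ball (1 ^ 2 * X ^ 2)))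
  intro x hx
  unfold vb_S
  rw [Finset.mem_product, Finset.mem_product, not_and_or, not_and_or] at hx
  rcases hx with hx | hx | hx
  · rw [vb_w h.adm hY hx, mul_zero, zero_mul]
  · rw [vb_a0 (by positivity) hx, zero_mul, zero_mul, mul_zero, mul_zero]
  · rw [vb_b0 hX hx, mul_zero, zero_mul, mul_zero, mul_zero]

theorem vb_S_eq (h3 : Asw) (h4 : HOne) (h : VP R a ρ q u η β w Y) {d : E} (hd : Lam a ∣ d - 1)
    (c x : E) : vb_S a ρ q u w Y X c d x = a0 (toC d / ((X ^ 3 / Y : ℝ) : ℂ))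
      * (ρ c * phig d (-c) x
        * (psi (toC c * (toC u / toC q)) * w (toC c / Y) * b0 (toC x / X))) := by
  unfold vb_S
  by_cases hc : lam ∣ c
  · rw [h.supp c hc]
    ring
  have hc0 : c ≠ 0 := fun h0 => hc (h0 ▸ dvd_zero _)
  have hd3 := vb_prim h.ha hd
  have hd0 := primary_ne_zero hd3
  have hcd : ¬ lam ∣ c * d := fun h0 =>
    (lam_prime.dvd_or_dvd h0).elim hc (not_lam_dvd_of_primary hd3)
  have e1 : psf (c * u) q = psi (toC c * (toC u / toC q)) := by
    unfold psf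
    rw [map_mul, mul_div_assoc]
  have e2 : psf (x ^ 3) (c * d) * psi (-(toC x ^ 3 / (toC c * toC d))) = 1 := by
    unfold psf
    rw [map_mul, map_pow, ← psi_add, add_neg_cancel, psi_zero]
  rw [if_pos hd, h3 c d x hc0 hd0, H_swap d c, h4 d c ((nine_dvd_Lam h.ha).trans hd) hc0, map_one,
    psg_eq (mul_ne_zero hc0 hd0), psq_of_not_dvd hcd, map_one, e1]
  generalize psf _ _ = t1 at e2 ⊢
  generalize psi (-_) = t2 at e2 ⊢
  generalize psi _ = t3
  generalize a0 _ = t4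
  generalize b0 _ = t5
  generalize w _ = t6
  generalize phig _ _ _ = t7
  linear_combination (ρ c * t3 * t4 * t5 * t6 * t7) * e2

theorem vb_inner (h1 : PS2) (h2 : GlS) (h3 : Asw) (h4 : HOne) (h : VP R a ρ q u η β w Y)
    (hX : 0 < X) (d : E) :
    ∑' x : E × E, vb_S a ρ q u w Y X x.1 d x.2 = ((X ^ 2 * Y ^ 2 : ℝ) : ℂ) / (nm (Lam a) : ℂ)
      * ∑' x : E × E, G1 a ρ q u w Y X d x.1 x.2 := by
  by_cases hd : Lam a ∣ d - 1
  swap
  · simp only [vb_S, G1, if_neg hd, zero_mul, mul_zero, tsum_zero]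
  have hY := h.hY
  have hq : q ≠ 0 := fun hq => h.hq (hq ▸ dvd_zero _)
  have hd0 := primary_ne_zero (vb_prim h.ha hd)
  have hL := Lam_ne_zero a
  have hXc : (X : ℂ) ≠ 0 := ofReal_ne_zero.2 hX.ne'
  have hYc : (Y : ℂ) ≠ 0 := ofReal_ne_zero.2 hY.ne'
  have hper : Per2 (Lam a * d) fun c x => ρ c * phig d (-c) x := by
    intro x x' y y' hx hy
    have hu : up lam d ∣ Lam a * d := (Dvd.intro_left _ (pow_vp_mul_up lam d)).mul_left _
    dsimp only
    rw [h.per x x' ((dvd_mul_right _ _).trans hx), phig_per hd0 (-x) (-x') y y'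
      (by rw [neg_sub_neg, dvd_sub_comm]; exact hu.trans hx) (hu.trans hy)]
  have f1 : ∀ ξ, ft (fun z => psi (z * (toC u / toC q)) * w (z / Y)) ξ
      = (Y : ℂ) ^ 2 * ft w (Y * ξ + -(Y * (toC u / toC q))) := by
    intro ξ
    rw [ft_mod (fun z => w (z / Y)), ft_scale w hYc, Complex.norm_real, Real.norm_eq_abs, sq_abs,
      ofReal_pow, mul_sub, sub_eq_add_neg]
  have f2 : ∀ ξ, ft (fun z => b0 (z / X)) ξ = (X : ℂ) ^ 2 * ft b0 (X * ξ + 0) := by
    intro ξ
    rw [ft_scale b0 hXc, Complex.norm_real, Real.norm_eq_abs, sq_abs, ofReal_pow, add_zero]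
  obtain ⟨W, hW, HW⟩ := h.adm.exists_DB 0
  have cw := h.adm.smooth.continuous
  have cb := contDiff_b0.continuous
  have cp := continuous_psi
  have key := vb_ps h1 (mul_ne_zero hL hd0) hper
    (f := fun z => psi (z * (toC u / toC q)) * w (z / Y)) (g := fun z => b0 (z / X))
    (by fun_prop) (by fun_prop)
    (vb_D_supp hW.le (R := R * Y) (mul_nonneg (by linarith [h.adm.hR]) hY.le)
      (fun z => by
        rw [norm_mul, norm_psi, one_mul]
        simpa using HW 0 le_rfl (z / Y))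
      (fun z hz => by
        have := (h.adm.supp _ (right_ne_zero_of_mul hz)).2
        rwa [norm_div, Complex.norm_real, Real.norm_of_nonneg hY.le, div_le_iff₀ hY] at this))
    (vb_D_supp zero_le_one (R := 1 / 4 * X) (by positivity) (fun z => norm_b0_le _)
      (fun z hz => by
        have := (b0_supp hz).le
        rwa [norm_div, Complex.norm_real, Real.norm_of_nonneg hX.le, div_le_iff₀ hX] at this))
    (by rw [funext f1]; exact (vb_D_ftw h.adm).aff hYc _ _)
    (by rw [funext f2]; exact vb_D_ftb.aff hXc _ _)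
  simp only [vb_S_eq h3 h4 h hd]
  rw [tsum_mul_left, key]
  have hinj : Function.Injective fun x : E × E => (-x.1, Lam a * x.2) := by
    intro x y hxy
    obtain ⟨e1, e2⟩ := Prod.mk.inj hxy
    exact Prod.ext (neg_injective e1) (mul_left_cancel₀ hL e2)
  rw [← hinj.tsum_eq]
  swap
  · intro x hx
    by_contra hr
    apply hx
    have hx2 : ¬ Lam a ∣ x.2 := by
      rintro ⟨t, ht⟩
      exact hr ⟨(-x.1, t), Prod.ext (neg_neg _) ht.symm⟩
    have e := coef1 h2 h.ha h.per hd (-x.1) x.2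
    rw [neg_neg, if_neg hx2] at e
    dsimp only
    rw [e, zero_mul]
  rw [← tsum_mul_left, ← tsum_mul_left, ← tsum_mul_left]
  refine tsum_congr fun x => ?_
  have e := coef1 h2 h.ha h.per hd x.1 (Lam a * x.2)
  rw [if_pos (dvd_mul_right _ _), dv_mul hL] at e
  dsimp only
  have e1 : (Y : ℂ) * (toC (-x.1) / toC (Lam a * d)) = -(Y / toC (Lam a * d)) * toC x.1 := by
    rw [map_neg]
    ring
  have e2 : (X : ℂ) * (toC (Lam a * x.2) / toC (Lam a * d)) + 0 = X * toC x.2 / toC d := by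
    rw [map_mul, map_mul, mul_div_mul_left _ _ (toC_ne_zero hL), add_zero, mul_div_assoc]
  rw [e, f1, f2, e1, e2]
  unfold G1
  rw [if_pos hd, vb_arg hq hd0, nm_mul]
  have n1 : (nm (Lam a) : ℂ) ≠ 0 := Nat.cast_ne_zero.2 (mt nm_eq_zero.1 hL)
  have n2 : (nm d : ℂ) ≠ 0 := Nat.cast_ne_zero.2 (mt nm_eq_zero.1 hd0)
  generalize a0 _ = t1
  generalize ft w _ = t2
  generalize ft b0 _ = t3
  generalize rh _ _ _ = t4
  generalize phig _ _ _ = t5
  push_cast
  generalize (nm (Lam a) : ℂ) = l at n1 ⊢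
  generalize (nm d : ℂ) = n at n2 ⊢
  field_simp

theorem vorB (h1 : PS2) (h2 : GlS) (h3 : Asw) (h4 : HOne) : VorB := by
  intro R a ρ q u η β w Y h X hX
  have s1 := (vb_summable h hX).of_norm
  have s2 := vb_S_summable h hX
  refine ⟨s1, ?_⟩
  have e0 : Sig R a ρ q u w Y X = ∑' c, ∑' x : E × E, vb_S a ρ q u w Y X c x.1 x.2 := by
    rw [tsum_eq_sum (s := ball (R ^ 2 * Y ^ 2))]
    · unfold Sig vb_S
      exact Finset.sum_congr rfl fun c _ => tsum_mul_left.symm
    · intro c hc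
      simp only [vb_S, vb_w h.adm h.hY hc, mul_zero, zero_mul, tsum_zero]
  have e1 := vb_swap.tsum_eq (fun x : E × E × E => vb_S a ρ q u w Y X x.1 x.2.1 x.2.2)
  have e2 := (vb_swap.summable_iff.2 s2).tsum_prod
  rw [e0, s1.tsum_prod, ← tsum_mul_left]
  refine s2.tsum_prod.symm.trans (e1.symm.trans (e2.trans ?_))
  exact tsum_congr fun d => vb_inner h1 h2 h3 h4 h hX d

end QRH.R
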