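import Vale.Agent.P006.VArch
import Vale.Agent.P026.VorD

noncomputable section
namespace QRH.R
open Complex MeasureTheory Filter
open scoped ComplexConjugate Classical ContDiff Topology

variable {R : ℝ}

theorem vorD (h1 : RiemL) (h2 : GlS) (h3 : Asw) (h4 : HCongr) (h5 : IBd) : VorD := by
  intro R a ρ q u η β w Y hp δ hδ
  have hq : q ≠ 0 := fun h => hp.hq (h ▸ dvd_zero _)
  have hY := hp.hY
  have hL := Lam_ne_zero a
  have hδ' : Lam a ^ 3 * δ ≠ 0 := mul_ne_zero (pow_ne_zero _ hL) hδ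
  obtain ⟨n, C, hC, hI⟩ := h5 R 3
  obtain ⟨W, hW, hD⟩ := hp.adm.exists_DB n
  have hz : zd a q Y δ ≠ 0 := by
    unfold zd
    refine div_ne_zero (mul_ne_zero (toC_ne_zero hδ) (by exact_mod_cast hY.ne')) (toC_ne_zero ?_)
    exact mul_ne_zero (pow_ne_zero _ hL) (pow_ne_zero _ hq)
  have hper' : Per2 (up lam (Lam a ^ 3 * δ)) fun C ζ => phig (Lam a ^ 3 * δ) (-C) ζ :=
    fun x x' y y' hx hy =>
      phig_per hδ' _ _ _ _ (by rw [neg_sub_neg]; exact dvd_sub_comm.1 hx) hy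
  have hS : ∀ (x : E) (f : ℝ → ℝ), x ≠ 0 → Tendsto f atTop atTop →
      Tendsto (fun X => ‖toC x * ((f X : ℝ) : ℂ)‖) atTop atTop := by
    intro x f hx hf
    simp only [norm_mul, Complex.norm_real, Real.norm_eq_abs]
    exact (tendsto_abs_atTop_atTop.comp hf).const_mul_atTop (norm_pos_iff.2 (toC_ne_zero hx))
  have key := h1 (lam ^ (30 * a + 4 + vp lam δ) * up lam (Lam a ^ 3 * δ))
    (fun C ζ => Al a ρ q β δ C ζ * phig (Lam a ^ 3 * δ) (-C) ζ)
    (fun y => ((‖y.1‖ ^ 2 : ℝ) : ℂ)⁻¹ * psi (y.2 ^ 3 / (y.1 * zd a q Y δ))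
      * Ia w y.1 (zd a q Y δ) y.2) (C * W)
    (fun X => toC (Lam a * q) * ((X ^ 3 / Y ^ 2 : ℝ) : ℂ))
    (fun X => toC (Lam a ^ 2 * q) * ((X / Y : ℝ) : ℂ))
    (mul_ne_zero (pow_ne_zero _ lam_prime.ne_zero) (up_ne_zero hδ'))
    (((Al_per h4 a ρ hq hδ β).mono (dvd_mul_right _ _)).mul (hper'.mono (dvd_mul_left _ _)))
    ?_ ?_
    (hS _ _ (mul_ne_zero hL hq)
      ((tendsto_pow_atTop (by norm_num)).atTop_div_const (by positivity)))
    (hS _ _ (mul_ne_zero (pow_ne_zero _ hL) hq) (tendsto_id.atTop_div_const hY))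
  · rw [vd_avg h2 h4 a ρ hq hδ β] at key
    have key2 := key.const_mul (nm (Lam a) : ℂ)
    rw [← mul_assoc] at key2
    refine key2.congr' ?_
    filter_upwards [eventually_gt_atTop 0] with X hX
    rw [← tsum_mul_left, ← tsum_mul_left, ← tsum_mul_left]
    exact tsum_congr fun x => (vd_pt h3 a ρ hq hδ β w hY hX x.1 x.2).symm
  · refine ContinuousOn.mul (ContinuousOn.mul (ContinuousOn.inv₀ (by fun_prop) ?_)
      (continuous_psi.comp_continuousOn (ContinuousOn.div (by fun_prop) (by fun_prop) ?_))) ?_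
    · intro y hy
      exact_mod_cast pow_ne_zero 2 (norm_ne_zero_iff.2 hy)
    · exact fun y hy => mul_ne_zero hy hz
    · exact (continuousOn_Ia hp.adm).comp (f := fun y : ℂ × ℂ => (y.1, zd a q Y δ, y.2))
        (by fun_prop) fun y hy => hy
  · intro y hy
    have hb := hI w W hp.adm hD y.1 (zd a q Y δ) y.2 hy
    have hy0 : 0 < ‖y.1‖ := norm_pos_iff.2 hy
    have e3 : (-((3 : ℕ) : ℝ)) = -3 := by norm_num
    rw [e3] at hb
    have hz1 : (1 + ‖zd a q Y δ‖) ^ (-3 : ℝ) ≤ 1 :=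
      Real.rpow_le_one_of_one_le_of_nonpos (by linarith [norm_nonneg (zd a q Y δ)]) (by norm_num)
    rw [norm_mul, norm_mul, norm_psi, norm_inv, Complex.norm_real, Real.norm_eq_abs,
      abs_of_nonneg (by positivity), mul_one]
    calc _ ≤ (‖y.1‖ ^ 2)⁻¹ * (C * W * ‖y.1‖ * (1 + ‖y.1‖) ^ (-3 : ℝ) * 1
          * (1 + ‖y.2‖) ^ (-3 : ℝ)) := by
          gcongr
          refine hb.trans ?_
          gcongr
      _ = _ := by field_simp

end QRH.R
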