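import Vale.Agent.P026.Stm2

/-! The Voronoi formula of P026 for radial weights of mean zero with arbitrary support radius. -/

noncomputable section
namespace QRH.R
open Complex MeasureTheory Filter
open scoped ComplexConjugate Classical ContDiff Topology

/-- Admissible radial weights. -/
structure Adm (R : ℝ) (w : ℂ → ℂ) : Prop where
  hR : 1 ≤ R
  smooth : ContDiff ℝ ∞ w
  supp : ∀ z, w z ≠ 0 → 1 ≤ ‖z‖ ∧ ‖z‖ ≤ R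
  zero : ft w 0 = 0
  rad : ∀ u z : ℂ, ‖u‖ = 1 → w (u * z) = w z
/-- Standing hypotheses of the Voronoi formula. -/
structure VP (R : ℝ) (a : ℕ) (ρ : E → ℂ) (q u η β : E) (w : ℂ → ℂ) (Y : ℝ) : Prop where
  ha : 1 ≤ a
  per : Per (Lam a) ρ
  supp : ∀ c, lam ∣ c → ρ c = 0
  mean : rsum (Lam a) ρ = 0
  bd : ∀ c, ‖ρ c‖ ≤ 1
  hq : ¬ lam ∣ q
  hη : q ∣ Lam a ^ 2 * u * η - 1
  hβ : Lam a ∣ β * q + 1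
  adm : Adm R w
  hY : 0 < Y
/-- The sum on the left of the Voronoi formula. -/
def VL (R : ℝ) (f : E → ℂ) (w : ℂ → ℂ) (Y : ℝ) : ℂ :=
  ∑ c ∈ ball (R ^ 2 * Y ^ 2), f c * (w (toC c / Y) * kk (toC c / Y) * Tg c / (nm c : ℂ))
def Sig (R : ℝ) (a : ℕ) (ρ : E → ℂ) (q u : E) (w : ℂ → ℂ) (Y X : ℝ) : ℂ :=
  ∑ c ∈ ball (R ^ 2 * Y ^ 2), ρ c * psf (c * u) q * w (toC c / Y) *
    ∑' x : E × E, (if Lam a ∣ x.1 - 1 then phig c x.1 x.2 else 0) *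
      (a0 (toC x.1 / ((X ^ 3 / Y : ℝ) : ℂ)) * b0 (toC x.2 / X)
        * psi (-(toC x.2 ^ 3 / (toC c * toC x.1))))
/-- The term `delta = 0`. -/
def T0 (a : ℕ) (ρ : E → ℂ) (q β : E) (w : ℂ → ℂ) (Y X : ℝ) : ℂ :=
  ((Y ^ 2 / X ^ 2 : ℝ) : ℂ) / (nm (Lam a * q) : ℂ) * ∑' x : E × E, G2 a ρ q β w Y X 0 x.1 x.2
/-- Its limit, the main term. -/
def M0 (a : ℕ) (ρ : E → ℂ) (q β : E) (w : ℂ → ℂ) (Y : ℝ) : ℂ := limUnder atTop (T0 a ρ q β w Y)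

/-- Decay of the two variable transform. -/
def IBd : Prop := ∀ (R : ℝ) (A : ℕ), ∃ (n : ℕ) (C : ℝ), 0 < C ∧ ∀ (w : ℂ → ℂ) (W : ℝ),
  Adm R w → DB n w W → ∀ c z ζ : ℂ, c ≠ 0 → ‖Ia w c z ζ‖
    ≤ C * W * ‖c‖ * (1 + ‖c‖) ^ (-A : ℝ) * (1 + ‖z‖) ^ (-A : ℝ) * (1 + ‖ζ‖) ^ (-A : ℝ)
/-- Decay, rotation invariance and continuity of the Voronoi transform. -/
def KFacts : Prop :=
  (∀ (R : ℝ) (A : ℕ), ∃ (n : ℕ) (C : ℝ), 0 < C ∧ ∀ (w : ℂ → ℂ) (W : ℝ), Adm R w → DB n w W →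
    ∀ z : ℂ, ‖Ka w z‖ ≤ C * W * (1 + ‖z‖) ^ (-A : ℝ)) ∧
  (∀ (R : ℝ) (w : ℂ → ℂ) (u z : ℂ), Adm R w → ‖u‖ = 1 → Ka w (u * z) = Ka w z) ∧
  (∀ (R : ℝ) (w : ℂ → ℂ), Adm R w → ContinuousOn (Ka w) {z | z ≠ 0})

def VorA : Prop := ∀ R a ρ q u η β w Y, VP R a ρ q u η β w Y →
  Tendsto (fun X : ℝ => Sig R a ρ q u w Y X / (((X ^ 3 / Y) ^ 2 * X ^ 2 : ℝ) : ℂ)) atTop
    (𝓝 (VL R (fun c => ρ c * psf (c * u) q) w Y / (nm (Lam a) : ℂ)))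
def VorB : Prop := ∀ R a ρ q u η β w Y, VP R a ρ q u η β w Y → ∀ X : ℝ, 0 < X →
  Summable (fun x : E × E × E => G1 a ρ q u w Y X x.1 x.2.1 x.2.2) ∧
  Sig R a ρ q u w Y X = ((X ^ 2 * Y ^ 2 : ℝ) : ℂ) / (nm (Lam a) : ℂ)
    * ∑' x : E × E × E, G1 a ρ q u w Y X x.1 x.2.1 x.2.2
def VorC : Prop := ∀ R a ρ q u η β w Y, VP R a ρ q u η β w Y → ∀ X : ℝ, 0 < X →
  Summable (fun x : E × E × E => G1 a ρ q u w Y X x.1 x.2.1 x.2.2) →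
  Summable (fun x : E × E × E => G2 a ρ q β w Y X x.1 x.2.1 x.2.2) ∧
  ∑' x : E × E × E, G1 a ρ q u w Y X x.1 x.2.1 x.2.2
    = xv c3 q u * ((((X ^ 3 / Y) ^ 2 / X ^ 2 : ℝ) : ℂ) / (nm q : ℂ))
      * ∑' x : E × E × E, psf (-(η * x.1)) q * G2 a ρ q β w Y X x.1 x.2.1 x.2.2
def VorD : Prop := ∀ R a ρ q u η β w Y, VP R a ρ q u η β w Y → ∀ δ : E, δ ≠ 0 →
  Tendsto (fun X : ℝ => ((Y ^ 2 / X ^ 2 : ℝ) : ℂ) / (nm (Lam a * q) : ℂ)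
      * ∑' x : E × E, G2 a ρ q β w Y X δ x.1 x.2) atTop
    (𝓝 (nm (Lam a) * bb a ρ q β δ * Ka w (zd a q Y δ)))
def VorE : Prop := ∀ R a ρ q u η β w Y, VP R a ρ q u η β w Y →
  Tendsto (fun X : ℝ => ((Y ^ 2 / X ^ 2 : ℝ) : ℂ) / (nm (Lam a * q) : ℂ)
      * ∑' x : E × E, if x.2 = 0 then 0 else G2 a ρ q β w Y X 0 x.1 x.2) atTop (𝓝 0) ∧
  ∃ g : E → ℝ, Summable g ∧ ∀ X : ℝ, 1 ≤ X → ∀ δ : E, δ ≠ 0 →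
    ‖((Y ^ 2 / X ^ 2 : ℝ) : ℂ) / (nm (Lam a * q) : ℂ)
      * ∑' x : E × E, G2 a ρ q β w Y X δ x.1 x.2‖ ≤ g δ
/-- The Voronoi formula with its main term. -/
def Vor0 : Prop := ∀ R a ρ q u η β w Y, VP R a ρ q u η β w Y →
  VL R (fun c => ρ c * psf (c * u) q) w Y = xv c3 q u * (nm (Lam a) * M0 a ρ q β w Y
    + (nm (Lam a) : ℂ) ^ 2 *
      ∑' δ : E, if δ = 0 then 0 else bb a ρ q β δ * psf (-(η * δ)) q * Ka w (zd a q Y δ)) ∧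
  M0 a ρ q β w Y = ((Y ^ (2 / 3 : ℝ) : ℝ) : ℂ) * M0 a ρ q β w 1

end QRH.R
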