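import Vale.Agent.P006.VArch
import Vale.Agent.P026.VorE

noncomputable section
namespace QRH.R
open Complex MeasureTheory Filter
open scoped ComplexConjugate Classical ContDiff Topology

variable {R : ℝ}

theorem vorE (h1 : Asw) (h2 : IBd) : VorE := by
  intro R a ρ q u η β w Y hV
  have hY := hV.hY
  have hq : q ≠ 0 := fun h => hV.hq (h ▸ dvd_zero _)
  have hL := Lam_ne_zero a
  obtain ⟨K, hK0, hK⟩ : ∃ K : ℝ, 0 < K ∧ ∀ c z ζ : ℂ, c ≠ 0 → ‖Ia w c z ζ‖ ≤
      K * ‖c‖ * (1 + ‖c‖) ^ (-6 : ℝ) * (1 + ‖z‖) ^ (-6 : ℝ) * (1 + ‖ζ‖) ^ (-6 : ℝ) := by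
    obtain ⟨n, C, hC, h⟩ := h2 R 6
    obtain ⟨W, hW, hD⟩ := hV.adm.exists_DB n
    refine ⟨C * W, mul_pos hC hW, fun c z ζ hc => ?_⟩
    simpa only [Nat.cast_ofNat] using h w W hV.adm hD c z ζ hc
  obtain ⟨C1, hC1, hs1⟩ := lattice_sing
  obtain ⟨C2, hC2, hs2⟩ := lattice_decay (σ := 4) (by norm_num)
  obtain ⟨D, hD0, hD⟩ := ve_card
  obtain ⟨m1, hm1⟩ : ∃ m, m = ‖toC (Lam a * q)‖ := ⟨_, rfl⟩
  obtain ⟨m2, hm2⟩ : ∃ m, m = ‖toC (Lam a ^ 2 * q)‖ := ⟨_, rfl⟩
  have hm1' : 0 < m1 := hm1 ▸ norm_pos_iff.2 (toC_ne_zero (mul_ne_zero hL hq))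
  have hm2' : 0 < m2 := hm2 ▸ norm_pos_iff.2 (toC_ne_zero (mul_ne_zero (pow_ne_zero 2 hL) hq))
  have hN : (0 : ℝ) < nm (Lam a) := one_pos.trans_le (one_le_nmR hL)
  constructor
  · obtain ⟨M, hM⟩ : ∃ M, M = D * nm (Lam a) * (nm (Lam a) * K * ‖toC (Lam a)‖) := ⟨_, rfl⟩
    have hM0 : 0 ≤ M := by
      rw [hM]
      positivity
    refine squeeze_zero_norm' (a := fun X : ℝ =>
      (M * m2 ^ 2 * (Y ^ 2 + C2 * m2 ^ 2) / m1 ^ 3) / X) ?_
      (tendsto_const_nhds.div_atTop tendsto_id)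
    filter_upwards [eventually_ge_atTop 1] with X hX
    have hX0 : 0 < X := by linarith
    obtain ⟨s1, hs1'⟩ : ∃ s, s = m1 * (X ^ 3 / Y ^ 2) := ⟨_, rfl⟩
    obtain ⟨s2, hs2'⟩ : ∃ s, s = m2 * (X / Y) := ⟨_, rfl⟩
    have p1 : 0 < s1 := by
      rw [hs1']
      positivity
    have p2 : 0 < s2 := by
      rw [hs2']
      positivity
    have h3 := ve_tsum (G := fun x => if x.2 = 0 then 0 else G2 a ρ q β w Y X 0 x.1 x.2)
      (((hs2 s2 p2).1).mul_left (M / s1 * s2 ^ 2)) (fun ζ => by positivity) (by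
        intro ζ T
        have hz : zd a q Y 0 = 0 := by simp [zd]
        by_cases hζ : ζ = 0
        · refine le_trans (le_of_eq (Finset.sum_eq_zero fun C _ => ?_)) (by positivity)
          simp only [hζ, if_true, norm_zero]
        simp only [if_neg hζ]
        have b1 : ∀ C ∈ T, ‖G2 a ρ q β w Y X 0 C ζ‖ ≤ if C ∣ Lam a * ζ ^ 2 then
            nm (Lam a) * K * ‖toC (Lam a)‖ / s1 * ‖toC ζ‖ * (1 + ‖toC ζ‖ / s2) ^ (-6 : ℝ)
            else 0 := by
          intro C _
          by_cases hC : Lam a ∣ C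
          · rw [G2, if_pos hC, norm_zero]
            split_ifs
            · positivity
            · exact le_rfl
          have c1 := ve_G2 β hV.bd hq hK hX0 hY (hm1 ▸ hs1') (hm2 ▸ hs2') 0 hC ζ
          rw [mul_zero, hz, norm_zero, add_zero, Real.one_rpow, mul_one] at c1
          by_cases hp : phig C 0 ζ = 0
          · rw [hp, norm_zero, mul_zero, zero_div, zero_mul] at c1
            refine c1.trans ?_
            split_ifs
            · positivity
            · exact le_rfl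
          have c2 := phig_zero_supp (vp_lt_of_not_dvd hC).1 hp
          have c3 : C ∣ Lam a * ζ ^ 2 := by
            have := mul_dvd_mul (ve_lam_dvd hC) c2
            rwa [pow_vp_mul_up] at this
          have c4 : (1 + ‖toC C‖ / s1) ^ (-6 : ℝ) ≤ 1 :=
            Real.rpow_le_one_of_one_le_of_nonpos (le_add_of_nonneg_right (by positivity))
              (by norm_num)
          have c5 := mul_le_mul_of_nonneg_left (mul_le_mul (ve_zero hC hζ c2) c4 (by positivity)
            (by positivity))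
            (by positivity : 0 ≤ nm (Lam a) * K / s1 * (1 + ‖toC ζ‖ / s2) ^ (-6 : ℝ))
          rw [if_pos c3]
          refine c1.trans (le_trans (le_of_eq ?_) (c5.trans (le_of_eq ?_))) <;> ring
        refine (Finset.sum_le_sum b1).trans ?_
        rw [← Finset.sum_filter, Finset.sum_const, nsmul_eq_mul]
        refine (mul_le_mul_of_nonneg_right (hD _ ζ hL hζ _ fun y hy =>
          (Finset.mem_filter.1 hy).2) (by positivity)).trans ?_
        have b2 := mul_le_mul_of_nonneg_left (ve_sq (norm_nonneg (toC ζ)) p2)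
          (by positivity : 0 ≤ M / s1)
        refine le_trans (le_of_eq ?_) (b2.trans (le_of_eq ?_))
        · rw [hM]
          ring
        · ring)
    rw [tsum_mul_left] at h3
    have h4 := h3.trans (mul_le_mul_of_nonneg_left (hs2 s2 p2).2 (by positivity))
    rw [ve_pref, ← hm1]
    refine (mul_le_mul_of_nonneg_left h4 (by positivity)).trans ?_
    have h5 : 1 + C2 * s2 ^ 2 ≤ (Y ^ 2 + C2 * m2 ^ 2) * (X / Y) ^ 2 := by
      have a1 : Y ^ 2 * (X / Y) ^ 2 = X ^ 2 := by field_simp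
      rw [hs2', add_mul, a1, mul_pow, mul_assoc]
      exact add_le_add (one_le_pow₀ hX) le_rfl
    refine (mul_le_mul_of_nonneg_left (mul_le_mul_of_nonneg_left h5 (by positivity))
      (by positivity)).trans (le_of_eq ?_)
    rw [hs1', hs2']
    field_simp
  · obtain ⟨S, hS⟩ : ∃ S, S = ‖toC (Lam a ^ 2 * q ^ 2)‖ / Y := ⟨_, rfl⟩
    have hS0 : 0 < S := hS ▸ div_pos (norm_pos_iff.2
      (toC_ne_zero (mul_ne_zero (pow_ne_zero 2 hL) (pow_ne_zero 2 hq)))) hY
    refine ⟨_, ((hs2 S hS0).1).mul_left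
      (nm (Lam a) ^ 2 * K * C1 * (Y ^ 2 + C2 * m2 ^ 2) / m1 ^ 2 * S ^ 2), fun X hX δ hδ => ?_⟩
    have hX0 : 0 < X := by linarith
    obtain ⟨s1, hs1'⟩ : ∃ s, s = m1 * (X ^ 3 / Y ^ 2) := ⟨_, rfl⟩
    obtain ⟨s2, hs2'⟩ : ∃ s, s = m2 * (X / Y) := ⟨_, rfl⟩
    have p1 : 0 < s1 := by
      rw [hs1']
      positivity
    have p2 : 0 < s2 := by
      rw [hs2']
      positivity
    have hz : ‖zd a q Y δ‖ = ‖toC δ‖ / S := by
      rw [zd, norm_div, norm_mul, Complex.norm_real, Real.norm_of_nonneg hY.le, hS,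
        div_div_eq_mul_div]
    obtain ⟨M, hM⟩ : ∃ M, M = (nm (Lam a) : ℝ) ^ 2 * K *
      (S ^ 2 * (1 + ‖toC δ‖ / S) ^ (-4 : ℝ)) := ⟨_, rfl⟩
    have hM0 : 0 ≤ M := by
      rw [hM]
      positivity
    have h3 := ve_tsum (G := fun x => G2 a ρ q β w Y X δ x.1 x.2)
      (((hs2 s2 p2).1).mul_left (M * C1)) (fun ζ => by positivity) (by
        intro ζ T
        have b1 : ∀ C ∈ T, ‖G2 a ρ q β w Y X δ C ζ‖ ≤
            M / s1 ^ 2 * (1 + ‖toC ζ‖ / s2) ^ (-4 : ℝ) *
              ((‖toC C‖ / s1)⁻¹ * (1 + ‖toC C‖ / s1) ^ (-3 : ℝ)) := by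
          intro C _
          by_cases hC : Lam a ∣ C
          · rw [G2, if_pos hC, norm_zero]
            positivity
          have hC0 := (vp_lt_of_not_dvd hC).1
          have c1 := ve_G2 β hV.bd hq hK hX0 hY (hm1 ▸ hs1') (hm2 ▸ hs2') δ hC ζ
          rw [hz] at c1
          have c0 : 0 < ‖toC C‖ := norm_pos_iff.2 (toC_ne_zero hC0)
          have c2 : ((nm (up lam C) : ℝ))⁻¹ ≤ nm (Lam a) / ‖toC C‖ ^ 2 := by
            rw [le_div_iff₀ (by positivity),
              inv_mul_le_iff₀ (one_pos.trans_le (one_le_nmR (up_ne_zero hC0))), ← nm_eq, mul_comm]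
            exact ve_nm hC
          have c3 := (mul_le_mul_of_nonneg_right (ve_phig h1 a hδ hC0 ζ)
            (ve_pos (by positivity : 0 ≤ ‖toC δ‖ / S) (-6)).le).trans (ve_sq (norm_nonneg _) hS0)
          have c4 := mul_le_mul
            (ve_mono (by positivity : 0 ≤ ‖toC C‖ / s1) (by norm_num : (-6 : ℝ) ≤ -3))
            (ve_mono (by positivity : 0 ≤ ‖toC ζ‖ / s2) (by norm_num : (-6 : ℝ) ≤ -4))
            (by positivity) (by positivity)
          have c5 := mul_le_mul_of_nonneg_left (mul_le_mul (mul_le_mul c2 c3 (by positivity)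
            (by positivity)) c4 (by positivity) (by positivity))
            (by positivity : 0 ≤ nm (Lam a) * K * (‖toC C‖ / s1))
          refine c1.trans (le_trans (le_of_eq ?_) (c5.trans (le_of_eq ?_)))
          · ring
          · rw [hM]
            field_simp
        refine (Finset.sum_le_sum b1).trans ?_
        rw [← Finset.mul_sum]
        have b2 := ((hs1 s1 p1).1.sum_le_tsum T fun C _ => by positivity).trans (hs1 s1 p1).2
        refine (mul_le_mul_of_nonneg_left b2 (by positivity)).trans (le_of_eq ?_)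
        field_simp)
    rw [tsum_mul_left] at h3
    have h4 := h3.trans (mul_le_mul_of_nonneg_left (hs2 s2 p2).2 (by positivity))
    rw [ve_pref, ← hm1]
    refine (mul_le_mul_of_nonneg_left h4 (by positivity)).trans ?_
    have h5 : 1 + C2 * s2 ^ 2 ≤ (Y ^ 2 + C2 * m2 ^ 2) * (X / Y) ^ 2 := by
      have a1 : Y ^ 2 * (X / Y) ^ 2 = X ^ 2 := by field_simp
      rw [hs2', add_mul, a1, mul_pow, mul_assoc]
      exact add_le_add (one_le_pow₀ hX) le_rfl
    refine (mul_le_mul_of_nonneg_left (mul_le_mul_of_nonneg_left h5 (by positivity))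
      (by positivity)).trans (le_of_eq ?_)
    rw [hM]
    field_simp

end QRH.R
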