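import Vale.Agent.P026.HOne
import Vale.Agent.P026.Recip
import Vale.Agent.P026.Card
import Vale.Agent.P026.SPh
import Vale.Agent.P026.LocS
import Vale.Agent.P026.Phi2
import Vale.Agent.P026.Pois
import Vale.Agent.P026.Riem
import Vale.Agent.P006.VIBd
import Vale.Agent.P006.VA
import Vale.Agent.P006.VB
import Vale.Agent.P006.VC
import Vale.Agent.P006.VD
import Vale.Agent.P006.VE
import Vale.Agent.P006.V0

noncomputable section
namespace QRH.R

theorem gls' : GlS := glS (locS card1 sPh)
/-- The Voronoi formula for radial weights of mean zero. -/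
theorem vorR : Vor0 :=
  vor0 (vorA riemL gls') (vorB pS2 gls' asw (hOne cubRec))
    (vorC pS2 gls' eqv (hOne cubRec) iBd) (vorD riemL gls' asw (hCongr cubRec) iBd) (vorE asw iBd)
theorem kF : KFacts := kFacts iBd

end QRH.R
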