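import Vale.Agent.P006.IfA
import Vale.Agent.P026.Arch

/-! The limit of the cubic oscillatory integrals when the parameter tends to zero. -/

noncomputable section
namespace Pat
open QRH Complex MeasureTheory Filter
open scoped ComplexConjugate Classical ContDiff Topology

/-- The normalising factor. -/
def vorX_s (θ : ℝ) : ℂ := ((θ ^ (2 / 3 : ℝ) : ℝ) : ℂ)

theorem vorX_s_ne {θ : ℝ} (h : 0 < θ) : vorX_s θ ≠ 0 :=
  ofReal_ne_zero.2 (Real.rpow_pos_of_pos h _).ne'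

theorem vorX_ev : ∀ᶠ θ : ℝ in 𝓝[>] 0, 0 < θ ∧ θ ≤ 1 := Ioc_mem_nhdsGT one_pos

theorem vorX_sixth : Tendsto (fun θ : ℝ => θ ^ (1 / 6 : ℝ)) (𝓝[>] 0) (𝓝 0) := by
  have h : ContinuousAt (fun θ : ℝ => θ ^ (1 / 6 : ℝ)) 0 :=
    Real.continuousAt_rpow_const 0 _ (Or.inr (by norm_num))
  have h2 := h.tendsto.mono_left (nhdsWithin_le_nhds (s := Set.Ioi 0))
  rwa [Real.zero_rpow (by norm_num)] at h2

/-- The hypotheses of the oscillatory integral estimate. -/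
def vorX_Ok (B : ℂ → ℂ) (m : ℝ) : Prop :=
  ContDiff ℝ 1 B ∧ (∀ x, ‖B x‖ ≤ m * (1 + ‖x‖) ^ (-3 : ℝ)) ∧
    ∀ x, ‖fderiv ℝ B x‖ ≤ m * (1 + ‖x‖) ^ (-3 : ℝ)

theorem vorX_Ok.zero {B : ℂ → ℂ} {m : ℝ} (h : vorX_Ok B m) : ‖B 0‖ ≤ m := by
  simpa using h.2.1 0

theorem vorX_key (h1 : CO) : ∃ C : ℝ, 0 < C ∧ ∀ (B : ℂ → ℂ) (m θ : ℝ) (τ : ℂ), 0 < θ → τ ≠ 0 →
    vorX_Ok B m → ‖(∫ x : ℂ, psi (x ^ 3 / (θ * τ)) * B x) / vorX_s θ
      - C0 * ((‖τ‖ ^ (2 / 3 : ℝ) : ℝ) : ℂ) * B 0‖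
      ≤ C * m * ‖τ‖ ^ (5 / 6 : ℝ) * θ ^ (1 / 6 : ℝ) := by
  obtain ⟨C, hC, h⟩ := h1
  refine ⟨C, hC, fun B m θ τ hθ hτ hB => ?_⟩
  have h2 := h B m (θ * τ) (mul_ne_zero (ofReal_ne_zero.2 hθ.ne') hτ) hB.1 hB.2.1 hB.2.2
  have hn : ‖(θ : ℂ) * τ‖ = θ * ‖τ‖ := by
    rw [norm_mul, norm_real, Real.norm_of_nonneg hθ.le]
  have e1 : θ ^ (5 / 6 : ℝ) = θ ^ (2 / 3 : ℝ) * θ ^ (1 / 6 : ℝ) := by
    rw [← Real.rpow_add hθ]; norm_num
  rw [hn, Real.mul_rpow hθ.le (norm_nonneg _), Real.mul_rpow hθ.le (norm_nonneg _), e1] at h2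
  have hs := vorX_s_ne hθ
  have hp : 0 < θ ^ (2 / 3 : ℝ) := Real.rpow_pos_of_pos hθ _
  generalize (∫ x : ℂ, psi (x ^ 3 / (θ * τ)) * B x) = J at h2 ⊢
  have e2 : J / vorX_s θ - C0 * ((‖τ‖ ^ (2 / 3 : ℝ) : ℝ) : ℂ) * B 0
      = (J - C0 * ((θ ^ (2 / 3 : ℝ) * ‖τ‖ ^ (2 / 3 : ℝ) : ℝ) : ℂ) * B 0) / vorX_s θ := by
    rw [ofReal_mul]
    change _ = (J - C0 * (vorX_s θ * _) * B 0) / vorX_s θ
    field_simp
  rw [e2, norm_div, vorX_s, norm_real, Real.norm_of_nonneg hp.le, div_le_iff₀ hp]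
  refine h2.trans (le_of_eq ?_)
  ring

/-- Dominated convergence for the double integrals. -/
theorem vorX_dct (h1 : CO) : ∃ K : ℝ, 0 < K ∧ ∀ (F τ b : ℂ → ℂ) (B : ℝ → ℂ → ℂ → ℂ)
    (m g : ℂ → ℝ), (∀ c, F c ≠ 0 → τ c ≠ 0) →
    (∀ θ c, 0 < θ → θ ≤ 1 → F c ≠ 0 → vorX_Ok (B θ c) (m c)) →
    (∀ c, F c ≠ 0 → Tendsto (fun θ => B θ c 0) (𝓝[>] 0) (𝓝 (b c))) →
    (∀ θ : ℝ, 0 < θ → θ ≤ 1 →
      Integrable fun y : ℂ × ℂ => F y.1 * psi (y.2 ^ 3 / (θ * τ y.1)) * B θ y.1 y.2) →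
    Integrable g → (∀ c, 0 ≤ g c) →
    (∀ c, F c ≠ 0 → ‖F c‖ * m c * (‖τ c‖ ^ (2 / 3 : ℝ) + ‖τ c‖ ^ (5 / 6 : ℝ)) ≤ g c) →
    Tendsto (fun θ : ℝ =>
        (∫ y : ℂ × ℂ, F y.1 * psi (y.2 ^ 3 / (θ * τ y.1)) * B θ y.1 y.2) / vorX_s θ) (𝓝[>] 0)
      (𝓝 (∫ c : ℂ, F c * (C0 * ((‖τ c‖ ^ (2 / 3 : ℝ) : ℝ) : ℂ) * b c))) ∧
    ∀ θ : ℝ, 0 < θ → θ ≤ 1 →
      ‖(∫ y : ℂ × ℂ, F y.1 * psi (y.2 ^ 3 / (θ * τ y.1)) * B θ y.1 y.2) / vorX_s θ‖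
        ≤ K * ∫ c, g c := by
  obtain ⟨C, hC, hk⟩ := vorX_key h1
  refine ⟨‖C0‖ + C, by positivity, fun F τ b B m g hτ hB hb hint hg hg0 hle => ?_⟩
  obtain ⟨G, hG⟩ : ∃ G : ℝ → ℂ → ℂ, G = fun (θ : ℝ) (c : ℂ) =>
    F c * ((∫ x : ℂ, psi (x ^ 3 / (θ * τ c)) * B θ c x) / vorX_s θ) := ⟨_, rfl⟩
  have e0 : ∀ (θ : ℝ) (c : ℂ),
      (∫ x : ℂ, F c * psi (x ^ 3 / (θ * τ c)) * B θ c x) / vorX_s θ = G θ c := fun θ c => by
    simp only [hG, mul_assoc, integral_const_mul, mul_div_assoc]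
  have e1 : ∀ θ : ℝ, 0 < θ → θ ≤ 1 →
      (∫ y : ℂ × ℂ, F y.1 * psi (y.2 ^ 3 / (θ * τ y.1)) * B θ y.1 y.2) / vorX_s θ
        = ∫ c, G θ c := fun θ h0 h1 => by
    have h := integral_prod (μ := volume) (ν := volume) _ (hint θ h0 h1)
    rw [Measure.volume_eq_prod, h, ← integral_div]
    exact integral_congr_ae (Eventually.of_forall fun c => e0 θ c)
  have hm : ∀ θ : ℝ, 0 < θ → θ ≤ 1 → AEStronglyMeasurable (G θ) volume := fun θ h0 h1 => by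
    have h := (Integrable.integral_prod_left (μ := volume) (ν := volume)
      (hint θ h0 h1)).div_const (vorX_s θ)
    exact h.aestronglyMeasurable.congr (Eventually.of_forall fun c => e0 θ c)
  have hbd : ∀ θ : ℝ, 0 < θ → θ ≤ 1 → ∀ c, ‖G θ c‖ ≤ (‖C0‖ + C) * g c := fun θ h0 h1 c => by
    by_cases hF : F c = 0
    · have := hg0 c
      simp only [hG, hF, zero_mul, norm_zero]
      positivity
    have h2 := hB θ c h0 h1 hF
    have h3 := hk _ _ θ _ h0 (hτ c hF) h2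
    have h4 := h2.zero
    have hm0 : 0 ≤ m c := (norm_nonneg _).trans h4
    have h5 : θ ^ (1 / 6 : ℝ) ≤ 1 := Real.rpow_le_one h0.le h1 (by norm_num)
    have h6 := hle c hF
    simp only [hG]
    generalize (∫ x : ℂ, psi (x ^ 3 / (θ * τ c)) * B θ c x) / vorX_s θ = J at h3 ⊢
    have p1 : 0 ≤ ‖τ c‖ ^ (2 / 3 : ℝ) := by positivity
    have p2 : 0 ≤ ‖τ c‖ ^ (5 / 6 : ℝ) := by positivity
    have h7 : ‖C0 * ((‖τ c‖ ^ (2 / 3 : ℝ) : ℝ) : ℂ) * B θ c 0‖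
        ≤ ‖C0‖ * ‖τ c‖ ^ (2 / 3 : ℝ) * m c := by
      rw [norm_mul, norm_mul, norm_real, Real.norm_of_nonneg p1]
      gcongr
    have h8 : ‖J‖ ≤ C * m c * ‖τ c‖ ^ (5 / 6 : ℝ) + ‖C0‖ * ‖τ c‖ ^ (2 / 3 : ℝ) * m c := by
      refine (norm_le_norm_sub_add J _).trans (add_le_add (h3.trans ?_) h7)
      exact mul_le_of_le_one_right (by positivity) h5
    have h9 : ‖J‖ ≤ (‖C0‖ + C) * (m c * (‖τ c‖ ^ (2 / 3 : ℝ) + ‖τ c‖ ^ (5 / 6 : ℝ))) := by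
      refine h8.trans ?_
      have q1 : 0 ≤ ‖C0‖ * (m c * ‖τ c‖ ^ (5 / 6 : ℝ)) := by positivity
      have q2 : 0 ≤ C * (m c * ‖τ c‖ ^ (2 / 3 : ℝ)) := by positivity
      nlinarith
    rw [norm_mul]
    calc ‖F c‖ * ‖J‖
        ≤ ‖F c‖ * ((‖C0‖ + C) * (m c * (‖τ c‖ ^ (2 / 3 : ℝ) + ‖τ c‖ ^ (5 / 6 : ℝ)))) := by gcongr
      _ = (‖C0‖ + C) * (‖F c‖ * m c * (‖τ c‖ ^ (2 / 3 : ℝ) + ‖τ c‖ ^ (5 / 6 : ℝ))) := by ring
      _ ≤ _ := by gcongr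
  refine ⟨?_, fun θ h0 h1 => ?_⟩
  · refine Tendsto.congr' (vorX_ev.mono fun θ h => (e1 θ h.1 h.2).symm) ?_
    refine tendsto_integral_filter_of_dominated_convergence (fun c => (‖C0‖ + C) * g c)
      (vorX_ev.mono fun θ h => hm θ h.1 h.2)
      (vorX_ev.mono fun θ h => Eventually.of_forall (hbd θ h.1 h.2)) (hg.const_mul _)
      (Eventually.of_forall fun c => ?_)
    by_cases hF : F c = 0
    · simp only [hG, hF, zero_mul]
      exact tendsto_const_nhds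
    simp only [hG]
    refine Tendsto.const_mul _ ?_
    have t1 : Tendsto (fun θ : ℝ => C0 * ((‖τ c‖ ^ (2 / 3 : ℝ) : ℝ) : ℂ) * B θ c 0) (𝓝[>] 0)
        (𝓝 (C0 * ((‖τ c‖ ^ (2 / 3 : ℝ) : ℝ) : ℂ) * b c)) := (hb c hF).const_mul _
    have t2 : Tendsto (fun θ : ℝ => (∫ x : ℂ, psi (x ^ 3 / (θ * τ c)) * B θ c x) / vorX_s θ
        - C0 * ((‖τ c‖ ^ (2 / 3 : ℝ) : ℝ) : ℂ) * B θ c 0) (𝓝[>] 0) (𝓝 0) := by
      have t3 := vorX_sixth.const_mul (C * m c * ‖τ c‖ ^ (5 / 6 : ℝ))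
      rw [mul_zero] at t3
      exact squeeze_zero_norm' (vorX_ev.mono fun θ h =>
        hk _ _ θ _ h.1 (hτ c hF) (hB θ c h.1 h.2 hF)) t3
    have t4 := t2.add t1
    simpa only [sub_add_cancel, zero_add] using t4
  · rw [e1 θ h0 h1, ← integral_const_mul]
    exact norm_integral_le_of_norm_le (hg.const_mul _) (Eventually.of_forall (hbd θ h0 h1))

theorem vorX_sing : Integrable fun z : ℂ => ‖z‖ ^ (-(4 / 3) : ℝ) * (1 + ‖z‖) ^ (-3 : ℝ) := by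
  refine (integrable_fun_norm_addHaar (μ := (volume : Measure ℂ))
    (f := fun y : ℝ => y ^ (-(4 / 3) : ℝ) * (1 + y) ^ (-3 : ℝ))).2 ?_
  simp only [Complex.finrank_real_complex, smul_eq_mul]
  have hm : Measurable fun y : ℝ => y ^ (2 - 1) * (y ^ (-(4 / 3) : ℝ) * (1 + y) ^ (-3 : ℝ)) := by
    fun_prop
  have e : ∀ y : ℝ, 0 < y → ‖y ^ (2 - 1) * (y ^ (-(4 / 3) : ℝ) * (1 + y) ^ (-3 : ℝ))‖
      = y ^ (-(1 / 3) : ℝ) * (1 + y) ^ (-3 : ℝ) := fun y hy => by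
    rw [Real.norm_of_nonneg (by positivity), ← mul_assoc]
    congr 1
    rw [show (-(1 / 3) : ℝ) = 1 + -(4 / 3) by norm_num, Real.rpow_add hy, Real.rpow_one]
    norm_num
  rw [← Set.Ioo_union_Ici_eq_Ioi (show (0 : ℝ) < 1 from one_pos), integrableOn_union]
  constructor
  · have h : IntegrableOn (fun y : ℝ => y ^ (-(1 / 3) : ℝ)) (Set.Ioo 0 1) :=
      (intervalIntegral.integrableOn_Ioo_rpow_iff one_pos).2 (by norm_num)
    refine Integrable.mono' h hm.aestronglyMeasurable ?_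
    refine (ae_restrict_iff' measurableSet_Ioo).2 (Eventually.of_forall fun y hy => ?_)
    rw [e y hy.1]
    have := hy.1
    exact mul_le_of_le_one_right (by positivity)
      (Real.rpow_le_one_of_one_le_of_nonpos (by linarith) (by norm_num))
  · have h : Integrable fun y : ℝ => (1 + ‖y‖) ^ (-3 : ℝ) := integrable_one_add_norm (by simp)
    refine Integrable.mono' h.integrableOn hm.aestronglyMeasurable ?_
    refine (ae_restrict_iff' measurableSet_Ici).2 (Eventually.of_forall fun y hy => ?_)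
    have h1 : 1 ≤ y := hy
    rw [e y (by linarith), Real.norm_of_nonneg (by linarith)]
    exact mul_le_of_le_one_left (by positivity)
      (Real.rpow_le_one_of_one_le_of_nonpos h1 (by norm_num))

/-- A smooth function with compact support satisfies the hypotheses. -/
theorem vorX_b0 : ∃ m : ℝ, 0 < m ∧ vorX_Ok b0 m := by
  have hc : HasCompactSupport b0 := HasCompactSupport.intro (isCompact_closedBall 0 2) fun z hz => by
    by_contra h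
    exact hz (mem_closedBall_zero_iff.2 (ar_b0_supp z h))
  have h1 : ContDiff ℝ 1 b0 := contDiff_b0.of_le (by simp)
  obtain ⟨M, hM⟩ := (hc.fderiv ℝ).exists_bound_of_continuous (h1.continuous_fderiv one_ne_zero)
  have hM0 : 0 ≤ M := (norm_nonneg _).trans (hM 0)
  have key : ∀ x : ℂ, ‖x‖ ≤ 2 → 1 ≤ 27 * (1 + ‖x‖) ^ (-3 : ℝ) := fun x hx => by
    have h2 : (3 : ℝ) ^ (-3 : ℝ) ≤ (1 + ‖x‖) ^ (-3 : ℝ) :=
      Real.rpow_le_rpow_of_nonpos (by positivity) (by linarith) (by norm_num)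
    have h3 : (3 : ℝ) ^ (-3 : ℝ) = 1 / 27 := by
      rw [Real.rpow_neg (by norm_num), show (3 : ℝ) = ((3 : ℕ) : ℝ) by norm_num, Real.rpow_natCast]
      norm_num
    rw [h3] at h2
    generalize (1 + ‖x‖) ^ (-3 : ℝ) = r at h2 ⊢
    linarith
  refine ⟨27 * (M + 1), by positivity, h1, fun x => ?_, fun x => ?_⟩
  · by_cases h : b0 x = 0
    · rw [h, norm_zero]; positivity
    have h2 := key x (ar_b0_supp x h)
    have h3 := norm_b0_le x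
    nlinarith
  · by_cases h : ‖x‖ ≤ 2
    · have h2 := key x h
      have h3 := hM x
      nlinarith
    · have h2 : x ∉ tsupport b0 := fun hx => h (mem_closedBall_zero_iff.1
        (closure_minimal (fun z hz => mem_closedBall_zero_iff.2 (ar_b0_supp z hz))
          Metric.isClosed_closedBall hx))
      rw [fderiv_of_notMem_tsupport ℝ h2, norm_zero]
      positivity

theorem vorX_b0_zero : b0 0 = 1 := by
  have : b1B 0 = 1 := b1B.one_of_mem_closedBall (Metric.mem_closedBall_self b1B.rIn_pos.le)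
  simp [b0, this]

end Pat
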